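import Claimed.Open.R321.Statement

/-!
# Bridge from Mathlib's abstract singular chain complex to concrete generators

For a topological space `E` the group `(singularChains.obj (TopCat.of E)).X n` is, by definition, a
categorical coproduct of copies of `ℤ` in `ModuleCat ℤ`.  This file makes it concrete:

* `Simplex n E = C(stdSimplex ℝ (Fin (n + 1)), E)`, `Simplex.face`;
* `gen σ : Chains E n`, the generator attached to a singular simplex;
* `d_gen`: `∂ (gen σ) = ∑ i, (-1)^i • gen (σ.face i)`;
* `map_gen`: `f_* (gen σ) = gen (f ∘ σ)`;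
* `chainsLift a`: the additive map with prescribed values on generators, `chains_hom_ext`;
* `chainsEquiv : Chains E n ≃+ (Simplex n E →₀ ℤ)`.
-/

set_option autoImplicit false

namespace Claimed.Open.R321

open CategoryTheory AlgebraicTopology Topology Simplicial

noncomputable section

/-- Singular `n`-simplices of `E`. -/
abbrev Simplex (n : ℕ) (E : Type) [TopologicalSpace E] : Type :=
  C(stdSimplex ℝ (Fin (n + 1)), E)

/-- Integral singular `n`-chains of `E` (Mathlib's). -/
abbrev Chains (E : Type) [TopologicalSpace E] (n : ℕ) : Type :=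
  (singularChains.obj (TopCat.of E)).X n

variable {E E' : Type} [TopologicalSpace E] [TopologicalSpace E'] {n : ℕ}

/-- The `i`-th coface map `Δ^n → Δ^{n+1}`. -/
def coface (n : ℕ) (i : Fin (n + 2)) :
    C(stdSimplex ℝ (Fin (n + 1)), stdSimplex ℝ (Fin (n + 2))) :=
  ⟨stdSimplex.map i.succAbove, stdSimplex.continuous_map _⟩

/-- The `i`-th face of a singular simplex. -/
def Simplex.face (σ : Simplex (n + 1) E) (i : Fin (n + 2)) : Simplex n E :=
  σ.comp (coface n i)

/-- The singular simplicial set of `E`. -/
abbrev sing (E : Type) [TopologicalSpace E] : SSet.{0} := TopCat.toSSet.obj (TopCat.of E)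

/-- Simplices of the singular simplicial set are singular simplices. -/
def simplexEquiv (E : Type) [TopologicalSpace E] (n : ℕ) : (sing E) _⦋n⦌ ≃ Simplex n E :=
  TopCat.toSSetObjEquiv (TopCat.of E) _

/-- The generator of the chain group attached to a singular simplex. -/
def gen (σ : Simplex n E) : Chains E n :=
  ((sing E).ιChainComplex (R := ModuleCat.of ℤ ℤ) ((simplexEquiv E n).symm σ)).hom (1 : ℤ)

/-- The boundary operator as an additive map. -/
def bd (E : Type) [TopologicalSpace E] (n : ℕ) : Chains E (n + 1) →+ Chains E n :=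
  ((singularChains.obj (TopCat.of E)).d (n + 1) n).hom.toAddMonoidHom

/-- The map induced on chains by a continuous map. -/
def chainMap (f : C(E, E')) (n : ℕ) : Chains E n →+ Chains E' n :=
  ((singularChains.map (TopCat.ofHom f)).f n).hom.toAddMonoidHom

theorem bd_gen (σ : Simplex (n + 1) E) :
    bd E n (gen σ) = ∑ i : Fin (n + 2), (-1 : ℤ) ^ (i : ℕ) • gen (σ.face i) := by
  have h := (sing E).ιChainComplex_d (R := ModuleCat.of ℤ ℤ) ((simplexEquiv E (n + 1)).symm σ)
  have h' := congrArg (fun k => k.hom (1 : ℤ)) h
  refine Eq.trans h' ?_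
  simp only [ModuleCat.hom_sum, ModuleCat.hom_smul, LinearMap.sum_apply, LinearMap.smul_apply]
  rfl

theorem chainMap_gen (f : C(E, E')) (σ : Simplex n E) :
    chainMap f n (gen σ) = gen (f.comp σ) := by
  have h := SSet.ι_chainComplexMap_f (sing E) (sing E') (TopCat.toSSet.map (TopCat.ofHom f))
    (ModuleCat.of ℤ ℤ) ((simplexEquiv E n).symm σ)
  exact congrArg (fun k => k.hom (1 : ℤ)) h

/-- An additive map out of an object of `ModuleCat ℤ`, as a morphism. -/
def addHomToHom {A : ModuleCat.{0} ℤ} {M : Type} [AddCommGroup M] (φ : A →+ M) :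
    A ⟶ ModuleCat.of ℤ M :=
  ModuleCat.ofHom
    { toFun := φ
      map_add' := φ.map_add
      map_smul' := fun k x => by
        have := map_intCast_smul φ ℤ ℤ k x
        simpa using this }

@[simp] lemma addHomToHom_apply {A : ModuleCat.{0} ℤ} {M : Type} [AddCommGroup M] (φ : A →+ M)
    (x : A) : (addHomToHom φ).hom x = φ x := rfl

/-- Two additive maps out of the chain group which agree on generators are equal. -/
theorem chains_hom_ext {M : Type} [AddCommGroup M] {φ ψ : Chains E n →+ M}
    (h : ∀ σ : Simplex n E, φ (gen σ) = ψ (gen σ)) : φ = ψ := by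
  have key : addHomToHom (A := ((sing E).chainComplex (ModuleCat.of ℤ ℤ)).X n) φ =
      addHomToHom (A := ((sing E).chainComplex (ModuleCat.of ℤ ℤ)).X n) ψ := by
    apply SSet.chainComplex_hom_ext
    intro x
    apply ModuleCat.hom_ext
    apply LinearMap.ext_ring
    have := h (simplexEquiv E n x)
    simp only [gen, Equiv.symm_apply_apply] at this
    exact this
  ext c
  exact congrArg (fun k => k.hom c) key

/-- The additive map out of the chain group with prescribed values on the generators. -/
def chainsLift {M : Type} [AddCommGroup M] (a : Simplex n E → M) : Chains E n →+ M :=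
  (((sing E).isColimitChainComplexXCofan (ModuleCat.of ℤ ℤ) n).desc
    (Limits.Cofan.mk (ModuleCat.of ℤ M) fun x =>
      ModuleCat.ofHom (LinearMap.toSpanSingleton ℤ M (a (simplexEquiv E n x))))).hom.toAddMonoidHom

@[simp] theorem chainsLift_gen {M : Type} [AddCommGroup M] (a : Simplex n E → M)
    (σ : Simplex n E) : chainsLift a (gen σ) = a σ := by
  have h := ((sing E).isColimitChainComplexXCofan (ModuleCat.of ℤ ℤ) n).fac
    (Limits.Cofan.mk (ModuleCat.of ℤ M) fun x =>
      ModuleCat.ofHom (LinearMap.toSpanSingleton ℤ M (a (simplexEquiv E n x))))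
    ⟨(simplexEquiv E n).symm σ⟩
  have h' := congrArg (fun k => k.hom (1 : ℤ)) h
  refine Eq.trans h' ?_
  simp

/-- chains to finitely supported functions -/
def chainsToFinsupp (E : Type) [TopologicalSpace E] (n : ℕ) : Chains E n →+ (Simplex n E →₀ ℤ) :=
  chainsLift fun σ => Finsupp.single σ (1 : ℤ)

/-- finitely supported functions to chains -/
def finsuppToChains (E : Type) [TopologicalSpace E] (n : ℕ) : (Simplex n E →₀ ℤ) →+ Chains E n :=
  Finsupp.liftAddHom fun σ => (zmultiplesHom (Chains E n)) (gen σ)

@[simp] theorem chainsToFinsupp_gen (σ : Simplex n E) :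
    chainsToFinsupp E n (gen σ) = Finsupp.single σ (1 : ℤ) :=
  chainsLift_gen _ σ

@[simp] theorem finsuppToChains_single (σ : Simplex n E) (k : ℤ) :
    finsuppToChains E n (Finsupp.single σ k) = k • gen σ := by
  simp [finsuppToChains]

theorem finsuppToChains_comp_chainsToFinsupp :
    (finsuppToChains E n).comp (chainsToFinsupp E n) = AddMonoidHom.id (Chains E n) := by
  apply chains_hom_ext
  intro σ
  simp

theorem chainsToFinsupp_comp_finsuppToChains :
    (chainsToFinsupp E n).comp (finsuppToChains E n) = AddMonoidHom.id (Simplex n E →₀ ℤ) := by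
  ext σ
  simp

/-- The chain group is the free abelian group on the singular simplices. -/
def chainsEquiv (E : Type) [TopologicalSpace E] (n : ℕ) : Chains E n ≃+ (Simplex n E →₀ ℤ) :=
  AddMonoidHom.toAddEquiv (chainsToFinsupp E n) (finsuppToChains E n)
    finsuppToChains_comp_chainsToFinsupp chainsToFinsupp_comp_finsuppToChains

theorem chainsEquiv_gen (σ : Simplex n E) :
    chainsEquiv E n (gen σ) = Finsupp.single σ (1 : ℤ) :=
  chainsToFinsupp_gen σ

theorem chainsEquiv_symm_single (σ : Simplex n E) (k : ℤ) :
    (chainsEquiv E n).symm (Finsupp.single σ k) = k • gen σ :=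
  finsuppToChains_single σ k

/-- Induction principle for chains. -/
theorem chains_induction {P : Chains E n → Prop} (c : Chains E n) (h0 : P 0)
    (hadd : ∀ a b, P a → P b → P (a + b)) (hneg : ∀ a, P a → P (-a))
    (hgen : ∀ σ, P (gen σ)) : P c := by
  have hmem : c ∈ AddSubgroup.closure (Set.range (gen : Simplex n E → Chains E n)) := by
    set S := AddSubgroup.closure (Set.range (gen : Simplex n E → Chains E n)) with hS
    have h1 : (QuotientAddGroup.mk' S) = 0 := by
      apply chains_hom_ext
      intro σ
      simp only [AddMonoidHom.zero_apply]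
      exact (QuotientAddGroup.eq_zero_iff _).2 (AddSubgroup.subset_closure ⟨σ, rfl⟩)
    exact (QuotientAddGroup.eq_zero_iff c).1 (congrArg (fun k => k c) h1)
  induction hmem using AddSubgroup.closure_induction with
  | mem x hx => obtain ⟨σ, rfl⟩ := hx; exact hgen σ
  | zero => exact h0
  | add a b _ _ ha hb => exact hadd a b ha hb
  | neg a _ ha => exact hneg a ha

/-! ### Functoriality -/

theorem bd_bd (c : Chains E (n + 2)) : bd E n (bd E (n + 1) c) = 0 := by
  have h := (singularChains.obj (TopCat.of E)).d_comp_d (n + 2) (n + 1) n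
  exact congrArg (fun k => k.hom c) h

theorem bd_chainMap (f : C(E, E')) (c : Chains E (n + 1)) :
    bd E' n (chainMap f (n + 1) c) = chainMap f n (bd E n c) := by
  have h := (singularChains.map (TopCat.ofHom f)).comm (n + 1) n
  exact congrArg (fun k => k.hom c) h

theorem chainMap_id (c : Chains E n) : chainMap (ContinuousMap.id E) n c = c := by
  have h : chainMap (ContinuousMap.id E) n = AddMonoidHom.id _ := by
    apply chains_hom_ext
    intro σ
    rw [chainMap_gen]
    rfl
  exact congrArg (fun k => k c) h

theorem chainMap_comp {E'' : Type} [TopologicalSpace E''] (g : C(E', E'')) (f : C(E, E'))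
    (c : Chains E n) : chainMap (g.comp f) n c = chainMap g n (chainMap f n c) := by
  have h : chainMap (g.comp f) n = (chainMap g n).comp (chainMap f n) := by
    apply chains_hom_ext
    intro σ
    simp only [AddMonoidHom.comp_apply, chainMap_gen]
    rfl
  exact congrArg (fun k => k c) h

/-! ### Link with the definitions of `Statement.lean` -/

theorem UniversalCover.boundary_eq {X : Type} [TopologicalSpace X] (U : UniversalCover X) (n : ℕ) :
    U.boundary n = bd U.E n := rfl

theorem UniversalCover.deckAct_eq {X : Type} [TopologicalSpace X] (U : UniversalCover X)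
    (g : deckGroup U.p) (n : ℕ) : U.deckAct g n = chainMap (g.1 : C(U.E, U.E)) n := rfl

end

end Claimed.Open.R321
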