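import Claimed.Open.R321.ChainBridge

/-!
# Bridge: vanishing of Mathlib's singular homology in elementary terms

`isZero_singularHomology_succ_iff`: `H_{n+1}(E; ℤ) = 0` (Mathlib's functor, as used in
`Statement.lean`) iff every cycle of `Chains E (n+1)` is a boundary, for the concrete `bd` of
`ChainBridge.lean`.
-/

set_option autoImplicit false

namespace Claimed.Open.R321

open CategoryTheory AlgebraicTopology Topology

noncomputable section

variable (E : Type) [TopologicalSpace E]

theorem isZero_singularHomology_succ_iff (n : ℕ) :
    Limits.IsZero (singularHomology (n + 1) E) ↔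
      ∀ c : Chains E (n + 1), bd E n c = 0 → ∃ b : Chains E (n + 2), bd E (n + 1) b = c := by
  change Limits.IsZero ((singularChains.obj (TopCat.of E)).homology (n + 1)) ↔ _
  rw [← HomologicalComplex.exactAt_iff_isZero_homology,
    HomologicalComplex.exactAt_iff' _ (n + 2) (n + 1) n (by simp) (by simp),
    ShortComplex.moduleCat_exact_iff]
  rfl

end

end Claimed.Open.R321
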