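import Claimed.Open.R321.SanityChains

/-!
# Sanity check for R321: contractible spaces satisfy the `D(2)` condition
-/

set_option autoImplicit false

namespace Claimed.Open.R321

open CategoryTheory AlgebraicTopology Topology Simplicial

noncomputable section

section idCover

variable (X : Type) [TopologicalSpace X]

/-- The identity is a trivial bundle with one-point fibre. -/
def idTrivialization : Bundle.Trivialization PUnit.{1} (id : X → X) where
  toOpenPartialHomeomorph := (Homeomorph.prodPUnit X).symm.toOpenPartialHomeomorph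
  baseSet := Set.univ
  open_baseSet := isOpen_univ
  source_eq := by simp
  target_eq := by simp
  proj_toFun := fun _ _ => rfl

lemma isCoveringMap_id : IsCoveringMap (id : X → X) :=
  IsCoveringMap.mk _ (fun _ => PUnit.{1}) (fun _ => idTrivialization X) (fun _ => trivial)

/-- A simply connected space is its own universal cover. -/
def idCover [SimplyConnectedSpace X] : UniversalCover X where
  E := X
  p := id
  isCoveringMap := isCoveringMap_id X
  simplyConnected := inferInstance

end idCover

/-- the one-point space -/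
abbrev ptTop : TopCat.{0} := TopCat.of PUnit.{1}

/-- the singular simplicial set of the one-point space -/
abbrev ptSSet : SSet.{0} := TopCat.toSSet.obj ptTop

instance instSubsingletonSimplexPt (n : ℕ) : Subsingleton (ptSSet _⦋n⦌) :=
  (TopCat.toSSetObjEquiv ptTop _).subsingleton

instance instNonemptySimplexPt (n : ℕ) : Nonempty (ptSSet _⦋n⦌) :=
  ⟨(TopCat.toSSetObjEquiv ptTop _).symm (ContinuousMap.const _ PUnit.unit)⟩

/-- On the one-point space every morphism out of `S_3` which kills boundaries is zero. -/
lemma eq_zero_of_d_comp_pt' {T : ModuleCat.{0} ℤ}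
    (f : (ptSSet.chainComplex (ModuleCat.of ℤ ℤ)).X 3 ⟶ T)
    (hf : (ptSSet.chainComplex (ModuleCat.of ℤ ℤ)).d 4 3 ≫ f = 0) : f = 0 := by
  apply SSet.chainComplex_hom_ext
  intro y
  obtain ⟨x⟩ := instNonemptySimplexPt 4
  have h1 : ptSSet.ιChainComplex (R := ModuleCat.of ℤ ℤ) x ≫
      (ptSSet.chainComplex (ModuleCat.of ℤ ℤ)).d 4 3 = ptSSet.ιChainComplex y := by
    rw [SSet.ιChainComplex_d]
    have : ∀ i : Fin 5, ptSSet.δ i x = y := fun i => Subsingleton.elim _ _
    simp [this, Fin.sum_univ_succ]
  rw [← h1, Category.assoc, hf]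
  simp

lemma eq_zero_of_d_comp_pt {T : ModuleCat.{0} ℤ} (f : (singularChains.obj ptTop).X 3 ⟶ T)
    (hf : (singularChains.obj ptTop).d 4 3 ≫ f = 0) : f = 0 :=
  eq_zero_of_d_comp_pt' f hf

section contractible

variable (X : Type) [TopologicalSpace X]

/-- the map to the point -/
def toPt : TopCat.of X ⟶ ptTop := TopCat.ofHom (ContinuousMap.const _ PUnit.unit)

variable {X} in
/-- the inclusion of a point -/
def fromPt (x₀ : X) : ptTop ⟶ TopCat.of X := TopCat.ofHom (ContinuousMap.const _ x₀)

lemma exists_homotopy_id_const [ContractibleSpace X] :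
    ∃ x₀ : X, Nonempty (TopCat.Homotopy (𝟙 (TopCat.of X)) (toPt X ≫ fromPt x₀)) := by
  obtain ⟨x₀, ⟨H⟩⟩ := id_nullhomotopic X
  exact ⟨x₀, ⟨H⟩⟩

/-- Positive-degree singular homology of a contractible space vanishes. -/
lemma isZero_singularHomology_of_contractible [ContractibleSpace X] (i : ℕ) (hi : i ≠ 0) :
    Limits.IsZero (singularHomology i X) := by
  obtain ⟨x₀, ⟨H⟩⟩ := exists_homotopy_id_const X
  set F : TopCat.{0} ⥤ ModuleCat.{0} ℤ :=
    (singularHomologyFunctor (ModuleCat.{0} ℤ) i).obj (ModuleCat.of ℤ ℤ) with hF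
  have h1 : F.map (𝟙 (TopCat.of X)) = F.map (toPt X ≫ fromPt x₀) :=
    H.congr_homologyMap_singularChainComplexFunctor (ModuleCat.of ℤ ℤ) i
  have h0 : Limits.IsZero (F.obj ptTop) :=
    isZero_singularHomologyFunctor_of_totallyDisconnectedSpace _ i (ModuleCat.of ℤ ℤ) ptTop hi
  rw [Limits.IsZero.iff_id_eq_zero]
  change 𝟙 (F.obj (TopCat.of X)) = 0
  rw [← F.map_id, h1, F.map_comp, h0.eq_of_tgt (F.map (toPt X)) 0, Limits.zero_comp]

/-- On a contractible space every degree-3 morphism killing boundaries factors through `∂`. -/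
lemma exists_factor_of_contractible [ContractibleSpace X] {T : ModuleCat.{0} ℤ}
    (f : (singularChains.obj (TopCat.of X)).X 3 ⟶ T)
    (hf : (singularChains.obj (TopCat.of X)).d 4 3 ≫ f = 0) :
    ∃ g : (singularChains.obj (TopCat.of X)).X 2 ⟶ T,
      (singularChains.obj (TopCat.of X)).d 3 2 ≫ g = f := by
  obtain ⟨x₀, ⟨H⟩⟩ := exists_homotopy_id_const X
  let h : Homotopy (singularChains.map (𝟙 (TopCat.of X)))
      (singularChains.map (toPt X ≫ fromPt x₀)) :=
    H.singularChainComplexFunctorObjMap (ModuleCat.of ℤ ℤ)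
  have hc := h.comm 3
  rw [dNext_eq h.hom (show (ComplexShape.down ℕ).Rel 3 2 from rfl),
    prevD_eq h.hom (show (ComplexShape.down ℕ).Rel 4 3 from rfl)] at hc
  have hg : (singularChains.map (fromPt x₀)).f 3 ≫ f = 0 := by
    apply eq_zero_of_d_comp_pt
    rw [← Category.assoc, ← HomologicalComplex.Hom.comm, Category.assoc, hf, Limits.comp_zero]
  refine ⟨h.hom 2 3 ≫ f, ?_⟩
  have h1 : (singularChains.map (𝟙 (TopCat.of X))).f 3 ≫ f = f := by
    rw [singularChains.map_id]
    simp
  have h2 : (singularChains.map (toPt X ≫ fromPt x₀)).f 3 ≫ f = 0 := by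
    rw [singularChains.map_comp, HomologicalComplex.comp_f, Category.assoc, hg, Limits.comp_zero]
  calc (singularChains.obj (TopCat.of X)).d 3 2 ≫ h.hom 2 3 ≫ f
      = ((singularChains.obj (TopCat.of X)).d 3 2 ≫ h.hom 2 3 +
          h.hom 3 4 ≫ (singularChains.obj (TopCat.of X)).d 4 3 +
          (singularChains.map (toPt X ≫ fromPt x₀)).f 3) ≫ f := by
        simp only [Preadditive.add_comp, Category.assoc, hf, h2, Limits.comp_zero, add_zero]
    _ = f := by rw [← hc, h1]

variable {X} in
/-- An additive map out of an object of `ModuleCat ℤ`, as a morphism. -/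
def homOfAddHom {A : ModuleCat.{0} ℤ} {M : Type} [AddCommGroup M] (φ : A →+ M) :
    A ⟶ ModuleCat.of ℤ M :=
  ModuleCat.ofHom
    { toFun := φ
      map_add' := φ.map_add
      map_smul' := fun n x => by
        have := map_intCast_smul φ ℤ ℤ n x
        simpa using this }

/-- **A contractible space satisfies the `D(2)` condition.** -/
theorem satisfiesD2_of_contractible [ContractibleSpace X] : SatisfiesD2 X := by
  refine ⟨idCover X, fun i hi => isZero_singularHomology_of_contractible X i (by omega), ?_⟩
  intro e₀ M _ _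
  rw [subsingleton_localCohomology_succ_iff]
  intro φ _ hφ'
  obtain ⟨g, hg⟩ := exists_factor_of_contractible X (T := ModuleCat.of ℤ M)
    (homOfAddHom (A := (singularChains.obj (TopCat.of X)).X 3) φ) (by
      ext c
      exact hφ' c)
  refine ⟨g.hom.toAddMonoidHom, ?_, ?_⟩
  · intro γ c
    have h1 : TopCat.ofHom (γ.1 : C((idCover X).E, (idCover X).E)) = 𝟙 _ := by
      ext e
      exact γ.2 e
    have h2 : (idCover X).deckAct γ 2 c = c := by
      unfold UniversalCover.deckAct
      rw [h1, singularChains.map_id]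
      rfl
    have h3 : deckToFundamentalGroup (idCover X) e₀ γ = 1 := Subsingleton.elim _ _
    rw [h2, h3, map_one, one_smul]
  · intro c
    have := congrArg (fun k => k.hom c) hg
    exact this

end contractible

end

end Claimed.Open.R321
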