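import Claimed.Open.R321.Subdivision

/-!
# The natural prism operator on singular chains

* `Prism E n : Chains E n →+ Chains (unitInterval × E) (n + 1)`, natural in `E`, with
  `∂ P + P ∂ = (i₁)_# - (i₀)_#`;
* `hPrism H n` for `H : C(unitInterval × E, E')`: the chain homotopy induced by a homotopy, with
  control of supports.
-/

set_option autoImplicit false

namespace Claimed.Open.R321

open Topology FreeAbelianGroup

noncomputable section

/-! ### The formal prism -/

section Formal

variable {K K' L L' : Type} {k : ℕ}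

/-- The formal prism operator attached to two maps `j₀ j₁ : K → K'`; the cone point of the prism
over the tuple `v` is `j₀ (v 0)`. -/
def lP (j₀ j₁ : K → K') : ∀ k : ℕ, LC K k →+ LC K' (k + 1)
  | 0 => 0
  | k + 1 => lift fun v => lcone (j₀ (v 0)) (k + 1)
      (lmap j₁ (k + 1) (of v) - lmap j₀ (k + 1) (of v) - lP j₀ j₁ k (lbd K k (of v)))

variable (j₀ j₁ : K → K')

theorem lP_zero (x : LC K 0) : lP j₀ j₁ 0 x = 0 := rfl

theorem lP_succ_of (v : Fin (k + 1) → K) :
    lP j₀ j₁ (k + 1) (of v) = lcone (j₀ (v 0)) (k + 1)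
      (lmap j₁ (k + 1) (of v) - lmap j₀ (k + 1) (of v) - lP j₀ j₁ k (lbd K k (of v))) :=
  lift_apply_of _ _

theorem lmap_zero_eq (x : LC K 0) : lmap j₁ 0 x = lmap j₀ 0 x := by
  have h : lmap j₁ 0 = lmap j₀ 0 := by
    ext v
    rw [lmap_of, lmap_of]
    exact congrArg of (Subsingleton.elim _ _)
  exact congrArg (fun f => f x) h

theorem lbd_lP_succ : ∀ (k : ℕ) (x : LC K (k + 1)),
    lbd K' (k + 1) (lP j₀ j₁ (k + 1) x) + lP j₀ j₁ k (lbd K k x) =
      lmap j₁ (k + 1) x - lmap j₀ (k + 1) x := by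
  intro k
  induction k with
  | zero =>
    intro x
    have h : (lbd K' 1).comp (lP j₀ j₁ 1) + (lP j₀ j₁ 0).comp (lbd K 0) =
        lmap j₁ 1 - lmap j₀ 1 := by
      ext v
      simp only [AddMonoidHom.comp_apply, AddMonoidHom.add_apply, AddMonoidHom.sub_apply]
      rw [lP_succ_of, lbd_lcone_succ, lP_zero, sub_zero, add_zero, map_sub, ← lmap_lbd, ← lmap_lbd,
        lmap_zero_eq, sub_self, map_zero, sub_zero]
    exact congrArg (fun f => f x) h
  | succ k ih =>
    intro x
    have h : (lbd K' (k + 2)).comp (lP j₀ j₁ (k + 2)) + (lP j₀ j₁ (k + 1)).comp (lbd K (k + 1)) =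
        lmap j₁ (k + 2) - lmap j₀ (k + 2) := by
      ext v
      simp only [AddMonoidHom.comp_apply, AddMonoidHom.add_apply, AddMonoidHom.sub_apply]
      have h1 := ih (lbd K (k + 1) (of v))
      rw [lbd_lbd, map_zero, add_zero] at h1
      rw [lP_succ_of, lbd_lcone_succ, map_sub (lbd K' (k + 1)), map_sub (lbd K' (k + 1)), h1,
        ← lmap_lbd, ← lmap_lbd, sub_self, map_zero, sub_zero]
      abel
    exact congrArg (fun f => f x) h

theorem lmap_lP (i₀ i₁ : L → L') (g : K → L) (g' : K' → L') (h₀ : ∀ x, g' (j₀ x) = i₀ (g x))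
    (h₁ : ∀ x, g' (j₁ x) = i₁ (g x)) :
    ∀ (k : ℕ) (x : LC K k), lmap g' (k + 1) (lP j₀ j₁ k x) = lP i₀ i₁ k (lmap g k x) := by
  intro k
  induction k with
  | zero => intro x; rw [lP_zero, lP_zero, map_zero]
  | succ k ih =>
    intro x
    have h : (lmap g' (k + 2)).comp (lP j₀ j₁ (k + 1)) =
        (lP i₀ i₁ (k + 1)).comp (lmap g (k + 1)) := by
      ext v
      simp only [AddMonoidHom.comp_apply]
      have e₀ : g' ∘ j₀ ∘ v = i₀ ∘ g ∘ v := funext fun i => h₀ (v i)
      have e₁ : g' ∘ j₁ ∘ v = i₁ ∘ g ∘ v := funext fun i => h₁ (v i)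
      rw [lP_succ_of, lmap_lcone, map_sub (lmap g' (k + 1)), map_sub (lmap g' (k + 1)), ih,
        lmap_lbd]
      simp only [lmap_of]
      rw [lP_succ_of, h₀]
      simp only [lmap_of, e₀, e₁, Function.comp_apply]
    exact congrArg (fun f => f x) h

end Formal

/-! ### Affine simplices in `unitInterval × K` -/

section Affine

variable {V : Type} [AddCommGroup V] [Module ℝ V] [TopologicalSpace V] [ContinuousAdd V]
  [ContinuousSMul ℝ V] {K : Set V} {k m n : ℕ}

/-- The unit interval is convex. -/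
theorem hI : Convex ℝ (Set.Icc (0 : ℝ) 1) := convex_Icc 0 1

/-- The affine simplex in `unitInterval × K` with given vertices. -/
def affI (hK : Convex ℝ K) (w : Fin k → unitInterval × K) :
    C(stdSimplex ℝ (Fin k), unitInterval × K) :=
  (aff hI (fun i => (w i).1)).prodMk (aff hK (fun i => (w i).2))

theorem affI_face (hK : Convex ℝ K) (w : Fin (n + 2) → unitInterval × K) (i : Fin (n + 2)) :
    Simplex.face (affI hK w) i = affI hK (w ∘ i.succAbove) := by
  have h1 := aff_face hI (fun i => (w i).1) i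
  have h2 := aff_face hK (fun i => (w i).2) i
  ext t
  · exact congrArg Subtype.val (DFunLike.congr_fun h1 t)
  · exact congrArg Subtype.val (DFunLike.congr_fun h2 t)

/-- The singular chain in `unitInterval × K` of a formal linear chain. -/
def lrealI (hK : Convex ℝ K) (n : ℕ) :
    LC (unitInterval × K) (n + 1) →+ Chains (unitInterval × K) n :=
  lift fun w => gen (affI hK w)

theorem lrealI_of (hK : Convex ℝ K) (w : Fin (n + 1) → unitInterval × K) :
    lrealI hK n (of w) = gen (affI hK w) :=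
  lift_apply_of _ _

theorem bd_lrealI (hK : Convex ℝ K) (x : LC (unitInterval × K) (n + 2)) :
    bd (unitInterval × K) n (lrealI hK (n + 1) x) = lrealI hK n (lbd _ (n + 1) x) := by
  have h : (bd (unitInterval × K) n).comp (lrealI hK (n + 1)) =
      (lrealI hK n).comp (lbd _ (n + 1)) := by
    ext v
    simp only [AddMonoidHom.comp_apply, lrealI_of, bd_gen, lbd_of, map_sum, map_zsmul, affI_face]
  exact congrArg (fun f => f x) h

end Affine

/-- `id × f`. -/
def idProd {E E' : Type} [TopologicalSpace E] [TopologicalSpace E'] (f : C(E, E')) :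
    C(unitInterval × E, unitInterval × E') :=
  (ContinuousMap.id unitInterval).prodMap f

/-- The inclusion `x ↦ (s, x)`. -/
def inclAt (E : Type) [TopologicalSpace E] (s : unitInterval) : C(E, unitInterval × E) :=
  (ContinuousMap.const E s).prodMk (ContinuousMap.id E)

section Affine2

variable {V : Type} [AddCommGroup V] [Module ℝ V] [TopologicalSpace V] [ContinuousAdd V]
  [ContinuousSMul ℝ V] {K : Set V} {k m n : ℕ}

theorem idProd_comp_affI (hK : Convex ℝ K) (v : Fin k → K)
    (w : Fin m → unitInterval × stdSimplex ℝ (Fin k)) :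
    (idProd (aff hK v)).comp (affI (hΔ k) w) = affI hK ((idProd (aff hK v)) ∘ w) := by
  have h2 := aff_comp_aff hK v (fun i => (w i).2)
  ext t
  · rfl
  · exact congrArg Subtype.val (DFunLike.congr_fun h2 t)

theorem chainMap_lrealI (hK : Convex ℝ K) (v : Fin k → K)
    (x : LC (unitInterval × stdSimplex ℝ (Fin k)) (n + 1)) :
    chainMap (idProd (aff hK v)) n (lrealI (hΔ k) n x) =
      lrealI hK n (lmap (idProd (aff hK v)) (n + 1) x) := by
  have h : (chainMap (idProd (aff hK v)) n).comp (lrealI (hΔ k) n) =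
      (lrealI hK n).comp (lmap (idProd (aff hK v)) (n + 1)) := by
    ext w
    simp only [AddMonoidHom.comp_apply, lrealI_of, chainMap_gen, lmap_of, idProd_comp_affI]
  exact congrArg (fun f => f x) h

theorem aff_const (hK : Convex ℝ K) (p : K) (t : stdSimplex ℝ (Fin k)) :
    aff hK (fun _ => p) t = p := by
  apply Subtype.ext
  rw [aff_coe, ← Finset.sum_smul, stdSimplex.sum_eq_one, one_smul]

theorem affI_inclAt (hK : Convex ℝ K) (s : unitInterval) (v : Fin k → K) :
    affI hK ((inclAt K s) ∘ v) = (inclAt K s).comp (aff hK v) := by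
  ext t
  · exact congrArg Subtype.val (aff_const hI s t)
  · rfl

theorem lrealI_lmap_inclAt (hK : Convex ℝ K) (s : unitInterval) (x : LC K (n + 1)) :
    lrealI hK n (lmap (inclAt K s) (n + 1) x) = chainMap (inclAt K s) n (lreal hK n x) := by
  have h : (lrealI hK n).comp (lmap (inclAt K s) (n + 1)) =
      (chainMap (inclAt K s) n).comp (lreal hK n) := by
    ext v
    simp only [AddMonoidHom.comp_apply, lrealI_of, lreal_of, chainMap_gen, lmap_of, affI_inclAt]
  exact congrArg (fun f => f x) h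

end Affine2

/-! ### The prism operator -/

variable {E E' : Type} [TopologicalSpace E] [TopologicalSpace E'] {n : ℕ}

/-- The prism operator. -/
def Prism (E : Type) [TopologicalSpace E] (n : ℕ) : Chains E n →+ Chains (unitInterval × E) (n + 1) :=
  chainsLift fun σ => chainMap (idProd σ) (n + 1)
    (lrealI (hΔ (n + 1)) (n + 1) (lP (inclAt _ 0) (inclAt _ 1) (n + 1) (of (vert (n + 1)))))

theorem Prism_gen (σ : Simplex n E) : Prism E n (gen σ) = chainMap (idProd σ) (n + 1)
    (lrealI (hΔ (n + 1)) (n + 1) (lP (inclAt _ 0) (inclAt _ 1) (n + 1) (of (vert (n + 1))))) :=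
  chainsLift_gen _ σ

theorem idProd_comp {E'' : Type} [TopologicalSpace E''] (g : C(E', E'')) (f : C(E, E')) :
    idProd (g.comp f) = (idProd g).comp (idProd f) := rfl

theorem idProd_comp_inclAt (f : C(E, E')) (s : unitInterval) :
    (idProd f).comp (inclAt E s) = (inclAt E' s).comp f := rfl

theorem chainMap_Prism (f : C(E, E')) (c : Chains E n) :
    chainMap (idProd f) (n + 1) (Prism E n c) = Prism E' n (chainMap f n c) := by
  have h : (chainMap (idProd f) (n + 1)).comp (Prism E n) = (Prism E' n).comp (chainMap f n) := by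
    apply chains_hom_ext
    intro σ
    simp only [AddMonoidHom.comp_apply, Prism_gen, chainMap_gen, idProd_comp, chainMap_comp]
  exact congrArg (fun k => k c) h

theorem Prism_lreal {V : Type} [AddCommGroup V] [Module ℝ V] [TopologicalSpace V] [ContinuousAdd V]
    [ContinuousSMul ℝ V] {K : Set V} (hK : Convex ℝ K) (x : LC K (n + 1)) :
    Prism K n (lreal hK n x) = lrealI hK (n + 1) (lP (inclAt K 0) (inclAt K 1) (n + 1) x) := by
  have h : (Prism K n).comp (lreal hK n) =
      (lrealI hK (n + 1)).comp (lP (inclAt K 0) (inclAt K 1) (n + 1)) := by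
    ext v
    simp only [AddMonoidHom.comp_apply]
    rw [lreal_of, Prism_gen, chainMap_lrealI,
      lmap_lP (inclAt _ 0) (inclAt _ 1) (inclAt K 0) (inclAt K 1) (aff hK v) (idProd (aff hK v))
        (fun _ => rfl) (fun _ => rfl), lmap_of, aff_comp_vert]
  exact congrArg (fun f => f x) h

theorem bd_Prism_succ (c : Chains E (n + 1)) :
    bd _ (n + 1) (Prism E (n + 1) c) + Prism E n (bd E n c) =
      chainMap (inclAt E 1) (n + 1) c - chainMap (inclAt E 0) (n + 1) c := by
  have h : (bd _ (n + 1)).comp (Prism E (n + 1)) + (Prism E n).comp (bd E n) =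
      chainMap (inclAt E 1) (n + 1) - chainMap (inclAt E 0) (n + 1) := by
    apply chains_hom_ext
    intro σ
    simp only [AddMonoidHom.comp_apply, AddMonoidHom.add_apply, AddMonoidHom.sub_apply]
    rw [gen_eq_chainMap σ, ← chainMap_Prism, bd_chainMap, bd_chainMap, ← chainMap_Prism,
      Prism_lreal, bd_lrealI, bd_lreal, Prism_lreal, ← map_add, ← map_add, lbd_lP_succ,
      map_sub, map_sub, lrealI_lmap_inclAt, lrealI_lmap_inclAt, ← chainMap_comp, ← chainMap_comp,
      ← chainMap_comp, ← chainMap_comp, idProd_comp_inclAt, idProd_comp_inclAt]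
  exact congrArg (fun k => k c) h

theorem bd_Prism_zero (c : Chains E 0) :
    bd _ 0 (Prism E 0 c) = chainMap (inclAt E 1) 0 c - chainMap (inclAt E 0) 0 c := by
  have h : (bd _ 0).comp (Prism E 0) = chainMap (inclAt E 1) 0 - chainMap (inclAt E 0) 0 := by
    apply chains_hom_ext
    intro σ
    simp only [AddMonoidHom.comp_apply, AddMonoidHom.sub_apply]
    have h0 := lbd_lP_succ (inclAt (stdSimplex ℝ (Fin 1)) 0) (inclAt _ 1) 0 (of (vert 1))
    rw [lP_zero, add_zero] at h0
    rw [gen_eq_chainMap σ, ← chainMap_Prism, bd_chainMap, Prism_lreal, bd_lrealI, h0,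
      map_sub, map_sub, lrealI_lmap_inclAt, lrealI_lmap_inclAt, ← chainMap_comp, ← chainMap_comp,
      ← chainMap_comp, ← chainMap_comp, idProd_comp_inclAt, idProd_comp_inclAt]
  exact congrArg (fun k => k c) h

theorem Prism_mem_smallChains {𝒰 : Set (Set E)} {𝒱 : Set (Set (unitInterval × E))}
    (h : ∀ U ∈ 𝒰, ∃ W ∈ 𝒱, ∀ (s : unitInterval), ∀ x ∈ U, (s, x) ∈ W) {c : Chains E n}
    (hc : c ∈ smallChains 𝒰 n) : Prism E n c ∈ smallChains 𝒱 (n + 1) := by
  refine map_mem_of_smallChains _ _ (fun σ U hU hσ => ?_) hc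
  obtain ⟨W, hW, hUW⟩ := h U hU
  rw [Prism_gen]
  exact chainMap_mem_smallChains (idProd σ) (𝒰 := {Set.univ})
    (fun _ _ => ⟨W, hW, fun p _ => hUW p.1 _ (hσ ⟨p.2, rfl⟩)⟩)
    (mem_smallChains_of_univ_mem (Set.mem_singleton _) _)

/-! ### The chain homotopy induced by a homotopy -/

/-- The chain homotopy induced by `H : unitInterval × E → E'`. -/
def hPrism (H : C(unitInterval × E, E')) (n : ℕ) : Chains E n →+ Chains E' (n + 1) :=
  (chainMap H (n + 1)).comp (Prism E n)

theorem bd_hPrism_succ (H : C(unitInterval × E, E')) (c : Chains E (n + 1)) :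
    bd E' (n + 1) (hPrism H (n + 1) c) + hPrism H n (bd E n c) =
      chainMap (H.comp (inclAt E 1)) (n + 1) c - chainMap (H.comp (inclAt E 0)) (n + 1) c := by
  simp only [hPrism, AddMonoidHom.comp_apply]
  rw [bd_chainMap, ← map_add, bd_Prism_succ, map_sub, chainMap_comp, chainMap_comp]

theorem bd_hPrism_zero (H : C(unitInterval × E, E')) (c : Chains E 0) :
    bd E' 0 (hPrism H 0 c) =
      chainMap (H.comp (inclAt E 1)) 0 c - chainMap (H.comp (inclAt E 0)) 0 c := by
  simp only [hPrism, AddMonoidHom.comp_apply]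
  rw [bd_chainMap, bd_Prism_zero, map_sub, chainMap_comp, chainMap_comp]

theorem hPrism_mem_smallChains (H : C(unitInterval × E, E')) {𝒰 : Set (Set E)} {𝒱 : Set (Set E')}
    (h : ∀ U ∈ 𝒰, ∃ W ∈ 𝒱, ∀ (s : unitInterval), ∀ x ∈ U, H (s, x) ∈ W) {c : Chains E n}
    (hc : c ∈ smallChains 𝒰 n) : hPrism H n c ∈ smallChains 𝒱 (n + 1) := by
  refine chainMap_mem_smallChains H (𝒰 := {W' | ∃ W ∈ 𝒱, W' = H ⁻¹' W}) ?_
    (Prism_mem_smallChains ?_ hc)
  · rintro _ ⟨W, hW, rfl⟩
    exact ⟨W, hW, fun _ hp => hp⟩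
  · intro U hU
    obtain ⟨W, hW, hUW⟩ := h U hU
    exact ⟨H ⁻¹' W, ⟨W, hW, rfl⟩, hUW⟩

/-- Version for Mathlib's homotopies. -/
theorem bd_hPrism_homotopy_succ {f g : C(E, E')} (H : ContinuousMap.Homotopy f g)
    (c : Chains E (n + 1)) :
    bd E' (n + 1) (hPrism H.toContinuousMap (n + 1) c) + hPrism H.toContinuousMap n (bd E n c) =
      chainMap g (n + 1) c - chainMap f (n + 1) c := by
  rw [bd_hPrism_succ]
  have h1 : H.toContinuousMap.comp (inclAt E 1) = g := by ext x; exact H.apply_one x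
  have h0 : H.toContinuousMap.comp (inclAt E 0) = f := by ext x; exact H.apply_zero x
  rw [h1, h0]

theorem bd_hPrism_homotopy_zero {f g : C(E, E')} (H : ContinuousMap.Homotopy f g)
    (c : Chains E 0) :
    bd E' 0 (hPrism H.toContinuousMap 0 c) = chainMap g 0 c - chainMap f 0 c := by
  rw [bd_hPrism_zero]
  have h1 : H.toContinuousMap.comp (inclAt E 1) = g := by ext x; exact H.apply_one x
  have h0 : H.toContinuousMap.comp (inclAt E 0) = f := by ext x; exact H.apply_zero x
  rw [h1, h0]

end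

end Claimed.Open.R321
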