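import Claimed.Open.R321.RCIso
import Claimed.Open.R321.SubPrism

/-!
# R321, package RC: deformations, excision, embeddings (relative homology by elements)

* `isRelBoundary_deform`, `RelIso.of_deform`, `relVanish_of_deform`;
* `exists_iterate_Sd_mem_of_chainsIn`, `RelIso.of_excision`;
* `RelIso.of_embedding`.

Owner: helper149.
-/

set_option autoImplicit false

namespace Claimed.Open.R321

open Topology

noncomputable section

variable {E E' : Type} [TopologicalSpace E] [TopologicalSpace E']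

/-! ### Deformations -/

theorem hPrism_mem_chainsIn (H : C(unitInterval × E, E')) {A : Set E} {B : Set E'}
    (h : ∀ (s : unitInterval), ∀ x ∈ A, H (s, x) ∈ B) {n : ℕ} {c : Chains E n}
    (hc : c ∈ chainsIn A n) : hPrism H n c ∈ chainsIn B (n + 1) :=
  hPrism_mem_smallChains H (fun U hU => ⟨B, Set.mem_singleton B, by
    rw [Set.mem_singleton_iff.1 hU]; exact h⟩) hc

/-- The end of a homotopy of pairs differs from its beginning by a relative boundary. -/
theorem isRelBoundary_homotopy (H : C(unitInterval × E, E')) {Z A : Set E} {Z' A' : Set E'}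
    (hZ : ∀ (s : unitInterval), ∀ x ∈ Z, H (s, x) ∈ Z')
    (hA : ∀ (s : unitInterval), ∀ x ∈ A, H (s, x) ∈ A') {n : ℕ} {z : Chains E n}
    (hz : IsRelCycle Z A n z) :
    IsRelBoundary Z' A' n
      (chainMap (H.comp (inclAt E 1)) n z - chainMap (H.comp (inclAt E 0)) n z) := by
  cases n with
  | zero =>
    rw [← bd_hPrism_zero]
    exact isRelBoundary_bd (hPrism_mem_chainsIn H hZ hz)
  | succ n =>
    rw [← bd_hPrism_succ]
    exact ⟨_, hPrism_mem_chainsIn H hZ hz.1, _, hPrism_mem_chainsIn H hA hz.2, rfl⟩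

theorem isRelBoundary_deform (H : C(unitInterval × E, E)) (h0 : ∀ x, H (0, x) = x) {Z A : Set E}
    (hZ : ∀ (s : unitInterval), ∀ x ∈ Z, H (s, x) ∈ Z)
    (hA : ∀ (s : unitInterval), ∀ x ∈ A, H (s, x) ∈ A) {n : ℕ} {z : Chains E n}
    (hz : IsRelCycle Z A n z) :
    IsRelBoundary Z A n (chainMap (H.comp (inclAt E 1)) n z - z) := by
  have h := isRelBoundary_homotopy H hZ hA hz
  have e : H.comp (inclAt E 0) = ContinuousMap.id E := by ext x; exact h0 x
  rwa [e, chainMap_id] at h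

/-- If a deformation of `E` preserves `Z`, `A`, `A'` and moves `A'` into `A ⊆ A'`, then
`(Z, A) → (Z, A')` is an isomorphism on relative homology. -/
theorem RelIso.of_deform (H : C(unitInterval × E, E)) (h0 : ∀ x, H (0, x) = x) {Z A A' : Set E}
    (hAA' : A ⊆ A')
    (hZ : ∀ (s : unitInterval), ∀ x ∈ Z, H (s, x) ∈ Z)
    (hA : ∀ (s : unitInterval), ∀ x ∈ A, H (s, x) ∈ A)
    (hA' : ∀ (s : unitInterval), ∀ x ∈ A', H (s, x) ∈ A')
    (h1 : ∀ x ∈ A', H (1, x) ∈ A) : RelIso (ContinuousMap.id E) Z A Z A' where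
  mapsZ := fun _ h => h
  mapsA := hAA'
  surj n z' hz' := by
    refine ⟨chainMap (H.comp (inclAt E 1)) n z',
      hz'.map (H.comp (inclAt E 1)) (fun x hx => hZ 1 x hx) (fun x hx => h1 x hx), ?_⟩
    rw [chainMap_id, ← neg_sub]
    exact (isRelBoundary_deform H h0 hZ hA' hz').neg
  inj n z hz h := by
    rw [chainMap_id] at h
    have h2 : IsRelBoundary Z A n (chainMap (H.comp (inclAt E 1)) n z) :=
      h.map (H.comp (inclAt E 1)) (fun x hx => hZ 1 x hx) (fun x hx => h1 x hx)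
    have e : z = chainMap (H.comp (inclAt E 1)) n z - (chainMap (H.comp (inclAt E 1)) n z - z) := by
      abel
    rw [e]
    exact h2.sub (isRelBoundary_deform H h0 hZ hA hz)

/-- If a deformation of `E` preserves `Z` and `A` and moves `Z` into `A`, then `H_*(Z, A) = 0`. -/
theorem relVanish_of_deform (H : C(unitInterval × E, E)) (h0 : ∀ x, H (0, x) = x) {Z A : Set E}
    (hZ : ∀ (s : unitInterval), ∀ x ∈ Z, H (s, x) ∈ Z)
    (hA : ∀ (s : unitInterval), ∀ x ∈ A, H (s, x) ∈ A)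
    (h1 : ∀ x ∈ Z, H (1, x) ∈ A) (n : ℕ) : RelVanish Z A n := by
  intro z hz
  have e : z = chainMap (H.comp (inclAt E 1)) n z - (chainMap (H.comp (inclAt E 1)) n z - z) := by
    abel
  rw [e]
  exact (isRelBoundary_of_mem (chainMap_mem_chainsIn (H.comp (inclAt E 1))
    (fun x hx => h1 x hx) hz.mem)).sub
    (isRelBoundary_deform H h0 hZ hA hz)

/-! ### Subdivision and relative cycles -/

theorem iterate_Sd_mem_chainsIn {A : Set E} {n : ℕ} (m : ℕ) {c : Chains E n}
    (hc : c ∈ chainsIn A n) : (Sd E n)^[m] c ∈ chainsIn A n :=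
  iterate_Sd_mem_smallChains m hc

theorem Dsd_mem_chainsIn {A : Set E} {n : ℕ} (m : ℕ) {c : Chains E n}
    (hc : c ∈ chainsIn A n) : Dsd E m n c ∈ chainsIn A (n + 1) :=
  Dsd_mem_smallChains m hc

theorem IsRelCycle.iterate_Sd {Z A : Set E} {n : ℕ} {z : Chains E n} (hz : IsRelCycle Z A n z)
    (m : ℕ) : IsRelCycle Z A n ((Sd E n)^[m] z) := by
  cases n with
  | zero => exact iterate_Sd_mem_chainsIn m hz
  | succ n =>
    refine ⟨iterate_Sd_mem_chainsIn m hz.1, ?_⟩
    rw [bd_iterate_Sd]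
    exact iterate_Sd_mem_chainsIn m hz.2

theorem iterate_Sd_zero' (m : ℕ) (c : Chains E 0) : (Sd E 0)^[m] c = c := by
  induction m with
  | zero => rfl
  | succ m ih => rw [Function.iterate_succ_apply, Sd_zero, ih]

theorem isRelBoundary_sub_iterate_Sd {Z A : Set E} {n : ℕ} {z : Chains E n}
    (hz : IsRelCycle Z A n z) (m : ℕ) : IsRelBoundary Z A n (z - (Sd E n)^[m] z) := by
  cases n with
  | zero =>
    rw [iterate_Sd_zero', sub_self]
    exact isRelBoundary_zero_chain Z A 0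
  | succ n =>
    rw [← bd_Dsd_succ]
    exact ⟨_, Dsd_mem_chainsIn m hz.1, _, Dsd_mem_chainsIn m hz.2, rfl⟩

/-- Small simplices for chains carried by a subset `Z`, and a family of sets which are
neighbourhoods within `Z`. -/
theorem exists_iterate_Sd_mem_of_chainsIn {Z : Set E} {𝒰 : Set (Set E)}
    (h : ∀ x ∈ Z, ∃ U ∈ 𝒰, U ∈ 𝓝[Z] x) {n : ℕ} {c : Chains E n} (hc : c ∈ chainsIn Z n) :
    ∃ m : ℕ, ∀ k, m ≤ k → (Sd E n)^[k] c ∈ smallChains 𝒰 n := by
  obtain ⟨c', rfl⟩ := mem_smallChains_singleton_iff_exists.1 hc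
  have hcov : ⋃ U ∈ {W : Set ↥Z | ∃ U ∈ 𝒰, W = Subtype.val ⁻¹' U}, interior U = Set.univ := by
    rw [Set.eq_univ_iff_forall]
    intro x
    obtain ⟨U, hU, hx⟩ := h x.1 x.2
    simp only [Set.mem_iUnion]
    exact ⟨Subtype.val ⁻¹' U, ⟨U, hU, rfl⟩,
      mem_interior_iff_mem_nhds.2 (preimage_coe_mem_nhds_subtype.2 hx)⟩
  obtain ⟨m, hm⟩ := exists_iterate_Sd_mem hcov c'
  refine ⟨m, fun k hk => ?_⟩
  rw [← chainMap_iterate_Sd]
  refine chainMap_mem_smallChains (inclSet Z) ?_ (hm k hk)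
  rintro _ ⟨U, hU, rfl⟩
  exact ⟨U, hU, fun x hx => hx⟩

/-! ### Excision -/

theorem chainsIn_inf (A B : Set E) (n : ℕ) : chainsIn A n ⊓ chainsIn B n = chainsIn (A ∩ B) n :=
  smallChains_singleton_inf A B n

theorem mem_chainsIn_inter {A B : Set E} {n : ℕ} {c : Chains E n} (hA : c ∈ chainsIn A n)
    (hB : c ∈ chainsIn B n) : c ∈ chainsIn (A ∩ B) n := by
  rw [← chainsIn_inf]
  exact ⟨hA, hB⟩

theorem exists_add_of_mem_smallChains_pair {A B : Set E} {n : ℕ} {c : Chains E n}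
    (hc : c ∈ smallChains {A, B} n) : ∃ a ∈ chainsIn A n, ∃ b ∈ chainsIn B n, c = a + b := by
  rw [smallChains_pair, AddSubgroup.mem_sup] at hc
  obtain ⟨a, ha, b, hb, rfl⟩ := hc
  exact ⟨a, ha, b, hb, rfl⟩

/-- **Excision.**  If `Z` is covered by the interiors (relative to `Z`) of its subsets `A` and `B`,
then `(B, A ∩ B) → (Z, A)` is an isomorphism on relative homology. -/
theorem RelIso.of_excision {Z A B : Set E} (hA : A ⊆ Z) (hB : B ⊆ Z)
    (hcov : ∀ x ∈ Z, A ∈ 𝓝[Z] x ∨ B ∈ 𝓝[Z] x) :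
    RelIso (ContinuousMap.id E) B (A ∩ B) Z A where
  mapsZ := hB
  mapsA := Set.inter_subset_left
  surj n z hz := by
    have hcov' : ∀ x ∈ Z, ∃ U ∈ ({A, B} : Set (Set E)), U ∈ 𝓝[Z] x := by
      intro x hx
      rcases hcov x hx with h | h
      · exact ⟨A, Or.inl rfl, h⟩
      · exact ⟨B, Or.inr rfl, h⟩
    obtain ⟨m, hm⟩ := exists_iterate_Sd_mem_of_chainsIn hcov' hz.mem
    obtain ⟨a, ha, b, hb, hab⟩ := exists_add_of_mem_smallChains_pair (hm m le_rfl)
    have hbc : IsRelCycle Z A n b := by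
      have e : b = (Sd E n)^[m] z - a := by rw [hab]; abel
      rw [e]
      exact (hz.iterate_Sd m).sub (isRelCycle_of_mem hA ha)
    refine ⟨b, ?_, ?_⟩
    · cases n with
      | zero => exact hb
      | succ n => exact ⟨hb, mem_chainsIn_inter hbc.2 (bd_mem_chainsIn hb)⟩
    · rw [chainMap_id]
      have e : z - b = (z - (Sd E n)^[m] z) + a := by rw [hab]; abel
      rw [e]
      exact (isRelBoundary_sub_iterate_Sd hz m).add (isRelBoundary_of_mem ha)
  inj n z hz h := by
    rw [chainMap_id] at h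
    obtain ⟨y, hy, a, ha, hza⟩ := h
    have hcov' : ∀ x ∈ Z, ∃ U ∈ ({A, B} : Set (Set E)), U ∈ 𝓝[Z] x := by
      intro x hx
      rcases hcov x hx with h | h
      · exact ⟨A, Or.inl rfl, h⟩
      · exact ⟨B, Or.inr rfl, h⟩
    obtain ⟨m, hm⟩ := exists_iterate_Sd_mem_of_chainsIn hcov' hy
    obtain ⟨yA, hyA, yB, hyB, hyAB⟩ := exists_add_of_mem_smallChains_pair (hm m le_rfl)
    obtain ⟨y', hy', a', ha', hz'⟩ := isRelBoundary_sub_iterate_Sd hz m
    have hS : (Sd E n)^[m] z = bd E n yA + bd E n yB + (Sd E n)^[m] a := by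
      rw [hza, iterate_map_add, ← bd_iterate_Sd, hyAB, map_add]
    have e : z = bd E n (yB + y') + (bd E n yA + (Sd E n)^[m] a + a') := by
      have : z = (z - (Sd E n)^[m] z) + (Sd E n)^[m] z := by abel
      rw [this, hz', hS, map_add]
      abel
    refine ⟨yB + y', AddSubgroup.add_mem _ hyB hy', _, ?_, e⟩
    refine mem_chainsIn_inter ?_ ?_
    · exact AddSubgroup.add_mem _ (AddSubgroup.add_mem _ (bd_mem_chainsIn hyA)
        (iterate_Sd_mem_chainsIn m ha)) (chainsIn_mono Set.inter_subset_left n ha')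
    · have e' : bd E n yA + (Sd E n)^[m] a + a' = z - bd E n (yB + y') := by
        rw [eq_sub_iff_add_eq, add_comm]
        exact e.symm
      rw [e']
      exact AddSubgroup.sub_mem _ hz.mem (bd_mem_chainsIn (AddSubgroup.add_mem _ hyB hy'))

/-! ### Embeddings -/

/-- If `f` restricted to `Z` is an embedding, a chain carried by `f '' A`, `A ⊆ Z`, is the image of
a chain carried by `A`. -/
theorem exists_chainMap_eq_of_mem_image (f : C(E, E')) {Z : Set E}
    (hf : IsEmbedding (Z.domRestrict f)) {A : Set E} (hAZ : A ⊆ Z) {n : ℕ} {c' : Chains E' n}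
    (hc' : c' ∈ chainsIn (f '' A) n) : ∃ c ∈ chainsIn A n, chainMap f n c = c' := by
  have h : (AddMonoidHom.id _) c' ∈ (chainsIn A n).map (chainMap f n) := by
    refine map_mem_of_chainsIn _ _ (fun σ hσ => ?_) hc'
    choose τ hτA hτ using fun t => hσ ⟨t, rfl⟩
    have hcont : Continuous fun t => (⟨τ t, hAZ (hτA t)⟩ : ↥Z) := by
      rw [hf.continuous_iff]
      have : (Z.domRestrict f) ∘ (fun t => (⟨τ t, hAZ (hτA t)⟩ : ↥Z)) = σ := funext hτ
      rw [this]
      exact σ.continuous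
    let τ' : Simplex n E := ⟨τ, continuous_subtype_val.comp hcont⟩
    refine ⟨gen τ', gen_mem_chainsIn ?_, ?_⟩
    · rintro _ ⟨t, rfl⟩
      exact hτA t
    · rw [chainMap_gen]
      exact congrArg gen (ContinuousMap.ext hτ)
  obtain ⟨c, hc, hcc'⟩ := h
  exact ⟨c, hc, hcc'⟩

/-- `chainMap f` is injective on the chains carried by a set on which `f` is injective. -/
theorem chainMap_injOn_chainsIn (f : C(E, E')) {Z : Set E} (hf : Set.InjOn f Z) {n : ℕ}
    {c c' : Chains E n} (hc : c ∈ chainsIn Z n) (hc' : c' ∈ chainsIn Z n)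
    (h : chainMap f n c = chainMap f n c') : c = c' := by
  obtain ⟨e, rfl⟩ := mem_smallChains_singleton_iff_exists.1 hc
  obtain ⟨e', rfl⟩ := mem_smallChains_singleton_iff_exists.1 hc'
  rw [← chainMap_comp, ← chainMap_comp] at h
  have hinj : Function.Injective (f.comp (inclSet Z)) := fun x y hxy =>
    Subtype.ext (hf x.2 y.2 hxy)
  rw [chainMap_injective _ hinj n h]

/-- If `f` restricted to `Z` is an embedding and `A ⊆ Z`, then `(Z, A) → (f '' Z, f '' A)` is an
isomorphism on relative homology. -/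
theorem RelIso.of_embedding (f : C(E, E')) {Z : Set E} (hf : IsEmbedding (Z.domRestrict f))
    {A : Set E} (hAZ : A ⊆ Z) : RelIso f Z A (f '' Z) (f '' A) := by
  have hinj : Set.InjOn f Z := fun x hx y hy hxy =>
    congrArg Subtype.val (hf.injective (a₁ := ⟨x, hx⟩) (a₂ := ⟨y, hy⟩) hxy)
  refine ⟨Set.mapsTo_image f Z, Set.mapsTo_image f A, fun n z' hz' => ?_, fun n z hz h => ?_⟩
  · obtain ⟨z, hz, rfl⟩ := exists_chainMap_eq_of_mem_image f hf subset_rfl hz'.mem
    refine ⟨z, ?_, by rw [sub_self]; exact isRelBoundary_zero_chain _ _ n⟩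
    cases n with
    | zero => exact hz
    | succ n =>
      refine ⟨hz, ?_⟩
      have h2 := hz'.2
      rw [bd_chainMap] at h2
      obtain ⟨a, ha, haz⟩ := exists_chainMap_eq_of_mem_image f hf hAZ h2
      rw [← chainMap_injOn_chainsIn f hinj (chainsIn_mono hAZ n ha) (bd_mem_chainsIn hz) haz]
      exact ha
  · obtain ⟨y', hy', a', ha', e⟩ := h
    obtain ⟨y, hy, rfl⟩ := exists_chainMap_eq_of_mem_image f hf subset_rfl hy'
    obtain ⟨a, ha, rfl⟩ := exists_chainMap_eq_of_mem_image f hf hAZ ha'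
    refine ⟨y, hy, a, ha, ?_⟩
    refine chainMap_injOn_chainsIn f hinj hz.mem
      (AddSubgroup.add_mem _ (bd_mem_chainsIn hy) (chainsIn_mono hAZ n ha)) ?_
    rw [e, map_add, bd_chainMap]

end

end Claimed.Open.R321
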