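import Claimed.Open.R321.PBDefs

/-!
# R321: the space obtained by attaching cells (definitions)

Owner: helper272 (sub-captain ATTACH).  Nobody else edits this file.

* `Dsk d` (file `PBDefs`), `Sph d`, `Bal d`: closed unit ball, unit sphere, unit ball of
  `Fin d → ℝ` (sup norm, so these are cubes, exactly as in Mathlib's `Topology.CWComplex`),
  as subtypes; `sphToDsk`, `balToDsk` are the inclusions;
* `Attach φ`: the space obtained from `A` by attaching `d`-cells along `φ : J → C(Sph d, A)`;
  a point is `Attach.base a` or `Attach.cell j x` with `x` in the unit ball; the topology is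
  coinduced by `Attach.q φ : A ⊕ (Σ _ : J, Dsk d) → Attach φ`;
* `Attach.char φ j : Dsk d → Attach φ`: the characteristic map (bundled: `Attach.charMap`, file
  `AttachBasic`).

The API is in `AttachBasic` (quotient map, criteria, embeddings, `desc`, `cellAttach`),
`AttachT2` (collars, Hausdorff), `AttachMap` (functoriality), `AttachCW`, `AttachCov`.
-/

set_option autoImplicit false

namespace Claimed.Open.R321

open Topology Metric Set

noncomputable section

/-! ### Spheres, balls -/

/-- The unit sphere (boundary of the cube) of `Fin d → ℝ`. -/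
abbrev Sph (d : ℕ) : Type := ↥(sphere (0 : Fin d → ℝ) 1)

/-- The unit ball (the interior of the cube) of `Fin d → ℝ`. -/
abbrev Bal (d : ℕ) : Type := ↥(ball (0 : Fin d → ℝ) 1)

/-- The inclusion of the sphere in the disk. -/
def sphToDsk (d : ℕ) : C(Sph d, Dsk d) :=
  ⟨fun x => ⟨x.1, sphere_subset_closedBall x.2⟩, by fun_prop⟩

/-- The inclusion of the ball in the disk. -/
def balToDsk (d : ℕ) : C(Bal d, Dsk d) :=
  ⟨fun x => ⟨x.1, ball_subset_closedBall x.2⟩, by fun_prop⟩

/-! ### Attaching cells -/

section Attach

variable {A J : Type} [TopologicalSpace A] {d : ℕ}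

/-- The underlying set of `A ∪_φ (J × D^d)`: a point is a point of `A` or a point of the interior
of a cell. -/
inductive Attach (φ : J → C(Sph d, A)) : Type
  | base (a : A) : Attach φ
  | cell (j : J) (x : Bal d) : Attach φ

open Classical in
/-- The quotient map `A ⊔ (J × D^d) → A ∪_φ (J × D^d)`. -/
def Attach.q (φ : J → C(Sph d, A)) : A ⊕ (Σ _ : J, Dsk d) → Attach φ
  | Sum.inl a => Attach.base a
  | Sum.inr ⟨j, x⟩ =>
      if h : ‖x.1‖ < 1 then Attach.cell j ⟨x.1, mem_ball_zero_iff.mpr h⟩
      else Attach.base (φ j ⟨x.1, mem_sphere_zero_iff_norm.mpr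
        (le_antisymm (mem_closedBall_zero_iff.mp x.2) (not_lt.mp h))⟩)

/-- The quotient topology. -/
instance Attach.instTopologicalSpace (φ : J → C(Sph d, A)) : TopologicalSpace (Attach φ) :=
  TopologicalSpace.coinduced (Attach.q φ) inferInstance

/-- The characteristic map of the cell `j` (bundled version: `Attach.charMap`). -/
def Attach.char (φ : J → C(Sph d, A)) (j : J) (x : Dsk d) : Attach φ :=
  Attach.q φ (Sum.inr ⟨j, x⟩)

end Attach

end

end Claimed.Open.R321
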