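import Claimed.Open.R321.PBDefs
import Claimed.Open.R321.Attach

/-!
# R321: shared conventions for cell attachments

Owner: helper290 (captain).

The OFFICIAL objects are
* `Dsk d`, `CellAttach Z A d J` (data structure): file `PBDefs` (helper164);
* `Sph d`, `Bal d`, `Attach φ` (constructors `base`, `cell`), `Attach.q`, `Attach.char`: file `Attach`
  (helper272); API in `AttachBasic`, `AttachT2`, `AttachMap`, `AttachCov`, `AttachCW`;
* `CellAttach.IsWeak` (here): `A` is closed and `Z` has the weak topology; automatic when `Z` is
  Hausdorff, `A` closed and `J` finite, and true for `Attach φ` with arbitrary `J`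
  (`Attach.cellAttach`, `Attach.cellAttach_isWeak`).
-/

set_option autoImplicit false

namespace Claimed.Open.R321

open Topology Metric Set

/-- `A` is closed in `Z` and `Z` carries the weak topology determined by `A` and the cells. -/
def CellAttach.IsWeak {Z : Type} [TopologicalSpace Z] {A : Set Z} {d : ℕ} {J : Type}
    (h : CellAttach Z A d J) : Prop :=
  IsClosed A ∧ ∀ C : Set Z, IsClosed (C ∩ A) → (∀ j, IsClosed (h.Φ j ⁻¹' C)) → IsClosed C

end Claimed.Open.R321
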