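import Mathlib

/-!
# Formal linear chains, the cone operator and formal barycentric subdivision

For a type `K` (of "points"), `LC K k` is the free abelian group on the `k`-tuples of points,
thought of as the (augmented) complex of ordered simplices: a `k`-tuple is a `(k-1)`-simplex.
For an arbitrary choice `b` of a "barycentre" for every nonempty tuple we define the subdivision
operator `lsd b` and the chain homotopy `lT b` and prove `∂ S = S ∂`, `∂ T + T ∂ = 1 - S`.
-/

set_option autoImplicit false

namespace Claimed.Open.R321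

noncomputable section

open FreeAbelianGroup

/-- Formal chains on `k`-tuples of points of `K`. -/
abbrev LC (K : Type) (k : ℕ) : Type := FreeAbelianGroup (Fin k → K)

variable {K K' : Type} {k : ℕ}

/-- The boundary of formal chains. -/
def lbd (K : Type) (k : ℕ) : LC K (k + 1) →+ LC K k :=
  lift fun v => ∑ i : Fin (k + 1), (-1 : ℤ) ^ (i : ℕ) • of (v ∘ i.succAbove)

theorem lbd_of (v : Fin (k + 1) → K) :
    lbd K k (of v) = ∑ i : Fin (k + 1), (-1 : ℤ) ^ (i : ℕ) • of (v ∘ i.succAbove) :=
  lift_apply_of _ _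

/-- The cone operator. -/
def lcone (b : K) (k : ℕ) : LC K k →+ LC K (k + 1) :=
  map fun v => (Fin.cons b v : Fin (k + 1) → K)

theorem lcone_of (b : K) (v : Fin k → K) :
    lcone b k (of v) = of (Fin.cons b v : Fin (k + 1) → K) :=
  map_of_apply _

theorem cons_comp_succ_succAbove (b : K) (v : Fin (k + 1) → K) (j : Fin (k + 1)) :
    (Fin.cons b v : Fin (k + 2) → K) ∘ j.succ.succAbove =
      (Fin.cons b (v ∘ j.succAbove) : Fin (k + 1) → K) := by
  funext l
  refine Fin.cases ?_ (fun l => ?_) l
  · simp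
  · simp

theorem lbd_lcone_zero (b : K) (x : LC K 0) : lbd K 0 (lcone b 0 x) = x := by
  have h : (lbd K 0).comp (lcone b 0) = AddMonoidHom.id _ := by
    ext v
    simp only [AddMonoidHom.comp_apply, lcone_of, lbd_of, AddMonoidHom.id_apply]
    rw [Fin.sum_univ_one, Fin.val_zero, pow_zero, one_smul]
    exact congrArg of (Subsingleton.elim _ _)
  exact congrArg (fun f => f x) h

theorem lbd_lcone_succ (b : K) (x : LC K (k + 1)) :
    lbd K (k + 1) (lcone b (k + 1) x) = x - lcone b k (lbd K k x) := by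
  have h : (lbd K (k + 1)).comp (lcone b (k + 1)) =
      AddMonoidHom.id _ - (lcone b k).comp (lbd K k) := by
    ext v
    simp only [AddMonoidHom.comp_apply, lcone_of, lbd_of, AddMonoidHom.id_apply,
      AddMonoidHom.sub_apply, map_sum, map_zsmul]
    rw [Fin.sum_univ_succ]
    simp only [Fin.val_zero, pow_zero, one_smul, Fin.succAbove_zero, Fin.val_succ,
      cons_comp_succ_succAbove, pow_succ, mul_neg, mul_one, neg_smul, Finset.sum_neg_distrib]
    rw [sub_eq_add_neg]
    congr 2
  exact congrArg (fun f => f x) h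

theorem of_eq_lcone (v : Fin (k + 1) → K) : (of v : LC K (k + 1)) = lcone (v 0) k (of (Fin.tail v)) := by
  rw [lcone_of, Fin.cons_self_tail]

theorem lbd_lbd : ∀ (k : ℕ) (x : LC K (k + 2)), lbd K k (lbd K (k + 1) x) = 0 := by
  intro k
  induction k with
  | zero =>
    intro x
    have h : (lbd K 0).comp (lbd K 1) = 0 := by
      ext v
      simp only [AddMonoidHom.comp_apply, AddMonoidHom.zero_apply]
      rw [of_eq_lcone, lbd_lcone_succ, map_sub, lbd_lcone_zero, sub_self]
    exact congrArg (fun f => f x) h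
  | succ k ih =>
    intro x
    have h : (lbd K (k + 1)).comp (lbd K (k + 2)) = 0 := by
      ext v
      simp only [AddMonoidHom.comp_apply, AddMonoidHom.zero_apply]
      rw [of_eq_lcone, lbd_lcone_succ, map_sub, lbd_lcone_succ, ih, map_zero, sub_zero, sub_self]
    exact congrArg (fun f => f x) h

/-! ### Subdivision -/

/-- Formal subdivision with respect to the choice `b` of barycentres. -/
def lsd (b : ∀ k : ℕ, (Fin (k + 1) → K) → K) : ∀ k : ℕ, LC K k →+ LC K k
  | 0 => AddMonoidHom.id _
  | k + 1 => lift fun v => lcone (b k v) k (lsd b k (lbd K k (of v)))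

/-- The formal chain homotopy from subdivision to the identity. -/
def lT (b : ∀ k : ℕ, (Fin (k + 1) → K) → K) : ∀ k : ℕ, LC K k →+ LC K (k + 1)
  | 0 => 0
  | k + 1 => lift fun v => lcone (b k v) (k + 1) (of v - lT b k (lbd K k (of v)))

variable (b : ∀ k : ℕ, (Fin (k + 1) → K) → K)

theorem lsd_zero (x : LC K 0) : lsd b 0 x = x := rfl

theorem lsd_succ_of (v : Fin (k + 1) → K) :
    lsd b (k + 1) (of v) = lcone (b k v) k (lsd b k (lbd K k (of v))) :=
  lift_apply_of _ _

theorem lT_zero (x : LC K 0) : lT b 0 x = 0 := rfl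

theorem lT_succ_of (v : Fin (k + 1) → K) :
    lT b (k + 1) (of v) = lcone (b k v) (k + 1) (of v - lT b k (lbd K k (of v))) :=
  lift_apply_of _ _

theorem lbd_lsd : ∀ (k : ℕ) (x : LC K (k + 1)), lbd K k (lsd b (k + 1) x) = lsd b k (lbd K k x) := by
  intro k
  induction k with
  | zero =>
    intro x
    have h : (lbd K 0).comp (lsd b 1) = (lsd b 0).comp (lbd K 0) := by
      ext v
      simp only [AddMonoidHom.comp_apply]
      rw [lsd_succ_of, lbd_lcone_zero]
    exact congrArg (fun f => f x) h
  | succ k ih =>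
    intro x
    have h : (lbd K (k + 1)).comp (lsd b (k + 2)) = (lsd b (k + 1)).comp (lbd K (k + 1)) := by
      ext v
      simp only [AddMonoidHom.comp_apply]
      rw [lsd_succ_of, lbd_lcone_succ, ih, lbd_lbd, map_zero, map_zero, sub_zero]
    exact congrArg (fun f => f x) h

theorem lbd_lT_zero (x : LC K 0) : lbd K 0 (lT b 0 x) = 0 := by
  rw [lT_zero, map_zero]

theorem lbd_lT_succ : ∀ (k : ℕ) (x : LC K (k + 1)),
    lbd K (k + 1) (lT b (k + 1) x) + lT b k (lbd K k x) = x - lsd b (k + 1) x := by
  intro k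
  induction k with
  | zero =>
    intro x
    have h : (lbd K 1).comp (lT b 1) + (lT b 0).comp (lbd K 0) =
        AddMonoidHom.id _ - lsd b 1 := by
      ext v
      simp only [AddMonoidHom.comp_apply, AddMonoidHom.add_apply, AddMonoidHom.sub_apply,
        AddMonoidHom.id_apply]
      rw [lT_succ_of, lbd_lcone_succ, lsd_succ_of, lT_zero, lsd_zero, sub_zero, add_zero]
    exact congrArg (fun f => f x) h
  | succ k ih =>
    intro x
    have h : (lbd K (k + 2)).comp (lT b (k + 2)) + (lT b (k + 1)).comp (lbd K (k + 1)) =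
        AddMonoidHom.id _ - lsd b (k + 2) := by
      ext v
      simp only [AddMonoidHom.comp_apply, AddMonoidHom.add_apply, AddMonoidHom.sub_apply,
        AddMonoidHom.id_apply]
      have h1 := ih (lbd K (k + 1) (of v))
      rw [lbd_lbd, map_zero, add_zero] at h1
      rw [lT_succ_of, lbd_lcone_succ, lsd_succ_of, map_sub (lbd K (k + 1)), h1, sub_sub_cancel]
      abel
    exact congrArg (fun f => f x) h

theorem lsd_one (hb : ∀ v : Fin 1 → K, b 0 v = v 0) (x : LC K 1) : lsd b 1 x = x := by
  have h : lsd b 1 = AddMonoidHom.id _ := by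
    ext v
    simp only [AddMonoidHom.id_apply]
    rw [lsd_succ_of, lsd_zero, hb]
    conv_rhs => rw [of_eq_lcone v]
    rw [of_eq_lcone v, lbd_lcone_zero]
  exact congrArg (fun f => f x) h

theorem lbd_lT_one (hb : ∀ v : Fin 1 → K, b 0 v = v 0) (x : LC K 1) :
    lbd K 1 (lT b 1 x) = 0 := by
  have h := lbd_lT_succ b 0 x
  rwa [lT_zero, add_zero, lsd_one b hb, sub_self] at h

/-! ### Functoriality -/

/-- The map induced on formal chains by a map of points. -/
def lmap (g : K → K') (k : ℕ) : LC K k →+ LC K' k := map fun v => g ∘ v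

theorem lmap_of (g : K → K') (v : Fin k → K) : lmap g k (of v) = of (g ∘ v) := map_of_apply _

theorem lmap_lbd (g : K → K') (x : LC K (k + 1)) :
    lmap g k (lbd K k x) = lbd K' k (lmap g (k + 1) x) := by
  have h : (lmap g k).comp (lbd K k) = (lbd K' k).comp (lmap g (k + 1)) := by
    ext v
    simp only [AddMonoidHom.comp_apply, lbd_of, lmap_of, map_sum, map_zsmul, Function.comp_assoc]
  exact congrArg (fun f => f x) h

theorem lmap_lcone (g : K → K') (p : K) (x : LC K k) :
    lmap g (k + 1) (lcone p k x) = lcone (g p) k (lmap g k x) := by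
  have h : (lmap g (k + 1)).comp (lcone p k) = (lcone (g p) k).comp (lmap g k) := by
    ext v
    simp only [AddMonoidHom.comp_apply, lcone_of, lmap_of]
    congr 1
    funext l
    refine Fin.cases ?_ (fun l => ?_) l <;> simp
  exact congrArg (fun f => f x) h

variable (b' : ∀ k : ℕ, (Fin (k + 1) → K') → K')

theorem lmap_lsd (g : K → K') (hg : ∀ (k : ℕ) (v : Fin (k + 1) → K), g (b k v) = b' k (g ∘ v)) :
    ∀ (k : ℕ) (x : LC K k), lmap g k (lsd b k x) = lsd b' k (lmap g k x) := by
  intro k
  induction k with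
  | zero => intro x; rfl
  | succ k ih =>
    intro x
    have h : (lmap g (k + 1)).comp (lsd b (k + 1)) = (lsd b' (k + 1)).comp (lmap g (k + 1)) := by
      ext v
      simp only [AddMonoidHom.comp_apply]
      rw [lsd_succ_of, lmap_lcone, ih, lmap_lbd, lmap_of, lsd_succ_of, hg]
    exact congrArg (fun f => f x) h

theorem lmap_lT (g : K → K') (hg : ∀ (k : ℕ) (v : Fin (k + 1) → K), g (b k v) = b' k (g ∘ v)) :
    ∀ (k : ℕ) (x : LC K k), lmap g (k + 1) (lT b k x) = lT b' k (lmap g k x) := by
  intro k
  induction k with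
  | zero => intro x; rw [lT_zero, lT_zero, map_zero]
  | succ k ih =>
    intro x
    have h : (lmap g (k + 2)).comp (lT b (k + 1)) = (lT b' (k + 1)).comp (lmap g (k + 1)) := by
      ext v
      simp only [AddMonoidHom.comp_apply]
      rw [lT_succ_of, lmap_lcone, map_sub, ih, lmap_lbd, lmap_of, lT_succ_of, hg]
    exact congrArg (fun f => f x) h

/-! ### Chains supported on tuples with a given property -/

/-- The formal chains which are combinations of tuples satisfying `P`. -/
def lsupp (P : (Fin k → K) → Prop) : AddSubgroup (LC K k) :=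
  AddSubgroup.closure {x | ∃ w, P w ∧ x = of w}

theorem of_mem_lsupp {P : (Fin k → K) → Prop} {w : Fin k → K} (hw : P w) : of w ∈ lsupp P :=
  AddSubgroup.subset_closure ⟨w, hw, rfl⟩

theorem map_mem_of_lsupp {M : Type} [AddCommGroup M] {P : (Fin k → K) → Prop} (S : AddSubgroup M)
    (φ : LC K k →+ M) (h : ∀ w, P w → φ (of w) ∈ S) {x : LC K k} (hx : x ∈ lsupp P) : φ x ∈ S := by
  have : lsupp P ≤ S.comap φ := by
    refine (AddSubgroup.closure_le _).2 ?_
    rintro _ ⟨w, hw, rfl⟩
    exact h w hw
  exact this hx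

theorem lsupp_mono {P Q : (Fin k → K) → Prop} (h : ∀ w, P w → Q w) : lsupp P ≤ lsupp Q := by
  refine (AddSubgroup.closure_le _).2 ?_
  rintro _ ⟨w, hw, rfl⟩
  exact of_mem_lsupp (h w hw)

theorem lbd_mem_lsupp {P : (Fin (k + 1) → K) → Prop} {Q : (Fin k → K) → Prop}
    (h : ∀ w i, P w → Q (w ∘ Fin.succAbove i)) {x : LC K (k + 1)} (hx : x ∈ lsupp P) :
    lbd K k x ∈ lsupp Q := by
  refine map_mem_of_lsupp _ _ (fun w hw => ?_) hx
  rw [lbd_of]
  exact AddSubgroup.sum_mem _ fun i _ => AddSubgroup.zsmul_mem _ (of_mem_lsupp (h w i hw)) _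

theorem lcone_mem_lsupp {P : (Fin k → K) → Prop} {Q : (Fin (k + 1) → K) → Prop} (p : K)
    (h : ∀ w, P w → Q (Fin.cons p w)) {x : LC K k} (hx : x ∈ lsupp P) :
    lcone p k x ∈ lsupp Q := by
  refine map_mem_of_lsupp _ _ (fun w hw => ?_) hx
  rw [lcone_of]
  exact of_mem_lsupp (h w hw)

end

end Claimed.Open.R321
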