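import Claimed.Open.R321.ChainBridge
import Claimed.Open.R321.SubLinear

/-!
# Affine singular simplices in a convex set and the realisation of formal linear chains
-/

set_option autoImplicit false

namespace Claimed.Open.R321

noncomputable section

open FreeAbelianGroup

variable {V : Type} [AddCommGroup V] [Module ℝ V] [TopologicalSpace V] [ContinuousAdd V]
  [ContinuousSMul ℝ V] {K : Set V} {k m n : ℕ}

/-- The affine simplex with vertices `v` in the convex set `K`. -/
def aff (hK : Convex ℝ K) (v : Fin k → K) : C(stdSimplex ℝ (Fin k), K) where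
  toFun t := ⟨∑ i, t i • (v i : V), hK.sum_mem (fun i _ => t.2.1 i) t.2.2 (fun i _ => (v i).2)⟩
  continuous_toFun := by
    refine Continuous.subtype_mk ?_ _
    refine continuous_finsetSum _ fun i _ => ?_
    exact ((continuous_apply i).comp continuous_subtype_val).smul continuous_const

theorem aff_coe (hK : Convex ℝ K) (v : Fin k → K) (t : stdSimplex ℝ (Fin k)) :
    (aff hK v t : V) = ∑ i, t i • (v i : V) := rfl

/-- The standard simplex is convex (short name). -/
theorem hΔ (k : ℕ) : Convex ℝ (stdSimplex ℝ (Fin k)) := convex_stdSimplex ℝ (Fin k)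

/-- The vertices of the standard simplex. -/
def vert (k : ℕ) : Fin k → stdSimplex ℝ (Fin k) := fun i => stdSimplex.vertex i

theorem aff_vert_apply (hK : Convex ℝ K) (v : Fin k → K) (i : Fin k) :
    aff hK v (vert k i) = v i := by
  apply Subtype.ext
  rw [aff_coe]
  simp [vert, Pi.single_apply, ite_smul]

theorem aff_comp_vert (hK : Convex ℝ K) (v : Fin k → K) : (aff hK v) ∘ (vert k) = v :=
  funext fun i => aff_vert_apply hK v i

theorem aff_std_apply (w : Fin m → stdSimplex ℝ (Fin k)) (t : stdSimplex ℝ (Fin m)) (i : Fin k) :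
    (aff (hΔ k) w t) i = ∑ j, t j * (w j) i := by
  have h : (aff (hΔ k) w t) i = (∑ j, t j • (w j).1) i := rfl
  rw [h, Finset.sum_apply]
  rfl

theorem aff_comp_aff (hK : Convex ℝ K) (v : Fin k → K) (w : Fin m → stdSimplex ℝ (Fin k)) :
    (aff hK v).comp (aff (hΔ k) w) = aff hK ((aff hK v) ∘ w) := by
  ext t
  simp only [ContinuousMap.comp_apply, aff_coe, Function.comp_apply, aff_std_apply,
    Finset.sum_smul, Finset.smul_sum, mul_smul]
  exact Finset.sum_comm

theorem aff_vert (k : ℕ) : aff (hΔ k) (vert k) = ContinuousMap.id _ := by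
  ext t j
  simp only [ContinuousMap.id_apply, aff_std_apply]
  simp [vert, Pi.single_apply]

theorem coface_eq_aff (i : Fin (n + 2)) :
    coface n i = aff (hΔ (n + 2)) ((vert (n + 2)) ∘ i.succAbove) := by
  ext t j
  rw [aff_std_apply]
  change (stdSimplex.map i.succAbove t) j = _
  rw [stdSimplex.map_coe, FunOnFinite.linearMap_apply_apply]
  simp [vert, Pi.single_apply, Finset.sum_filter, eq_comm]

theorem aff_face (hK : Convex ℝ K) (v : Fin (n + 2) → K) (i : Fin (n + 2)) :
    Simplex.face (aff hK v) i = aff hK (v ∘ i.succAbove) := by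
  rw [Simplex.face, coface_eq_aff, aff_comp_aff, ← Function.comp_assoc, aff_comp_vert]

/-- The barycentre of a tuple of points of a convex set. -/
def bary (hK : Convex ℝ K) (k : ℕ) (v : Fin (k + 1) → K) : K := aff hK v stdSimplex.barycenter

theorem aff_bary (hK : Convex ℝ K) (v : Fin k → K) (m : ℕ)
    (w : Fin (m + 1) → stdSimplex ℝ (Fin k)) :
    aff hK v (bary (hΔ k) m w) = bary hK m ((aff hK v) ∘ w) :=
  DFunLike.congr_fun (aff_comp_aff hK v w) stdSimplex.barycenter

theorem bary_coe (hK : Convex ℝ K) (k : ℕ) (v : Fin (k + 1) → K) :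
    (bary hK k v : V) = ∑ i, ((k : ℝ) + 1)⁻¹ • (v i : V) := by
  rw [bary, aff_coe]
  refine Finset.sum_congr rfl fun i _ => ?_
  congr 1
  change (stdSimplex.barycenter : stdSimplex ℝ (Fin (k + 1))).val i = _
  simp

theorem bary_zero (hK : Convex ℝ K) (v : Fin 1 → K) : bary hK 0 v = v 0 := by
  apply Subtype.ext
  rw [bary_coe]
  simp

/-! ### Realisation -/

/-- The singular chain of a formal linear chain. -/
def lreal (hK : Convex ℝ K) (n : ℕ) : LC K (n + 1) →+ Chains K n :=
  lift fun v => gen (aff hK v)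

theorem lreal_of (hK : Convex ℝ K) (v : Fin (n + 1) → K) : lreal hK n (of v) = gen (aff hK v) :=
  lift_apply_of _ _

theorem bd_lreal (hK : Convex ℝ K) (x : LC K (n + 2)) :
    bd K n (lreal hK (n + 1) x) = lreal hK n (lbd K (n + 1) x) := by
  have h : (bd K n).comp (lreal hK (n + 1)) = (lreal hK n).comp (lbd K (n + 1)) := by
    ext v
    simp only [AddMonoidHom.comp_apply, lreal_of, bd_gen, lbd_of, map_sum, map_zsmul, aff_face]
  exact congrArg (fun f => f x) h

theorem chainMap_lreal (hK : Convex ℝ K) (v : Fin k → K) (x : LC (stdSimplex ℝ (Fin k)) (n + 1)) :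
    chainMap (aff hK v) n (lreal (hΔ k) n x) = lreal hK n (lmap (aff hK v) (n + 1) x) := by
  have h : (chainMap (aff hK v) n).comp (lreal (hΔ k) n) =
      (lreal hK n).comp (lmap (aff hK v) (n + 1)) := by
    ext w
    simp only [AddMonoidHom.comp_apply, lreal_of, chainMap_gen, lmap_of, aff_comp_aff]
  exact congrArg (fun f => f x) h

theorem lreal_vert (n : ℕ) : lreal (hΔ (n + 1)) n (of (vert (n + 1))) = gen (ContinuousMap.id _) := by
  rw [lreal_of, aff_vert]

end

end Claimed.Open.R321
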