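import Claimed.Open.R321.AttachDef
import Claimed.Open.R321.SubAffine

/-!
# PD-SPHERE, part 1: the explicit fundamental chain of the cube

Owner: helper51.

* `faceMap i e : C(Dsk d, Dsk (d + 1))`: the face `x_i = ±1` of the cube (`e = true`: `+1`);
* `lcube d : LC (Dsk d) (d + 1)`, `cubeChain d : Chains (Dsk d) d`: the fundamental chain `ι_d` of the
  cube: `ι_0` is the point, `ι_{d+1}` is the cone from the centre on
  `sphChain d = ∑_{i, e} (-1)^i e (faceMap i e)_# ι_d`;
* `bd_cubeChain : bd (cubeChain (d + 1)) = sphChain d`.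
-/

set_option autoImplicit false

namespace Claimed.Open.R321

open FreeAbelianGroup Metric Set

noncomputable section

/-! ### Affine maps between convex sets and realisation -/

section AffMap

variable {V V' : Type} [AddCommGroup V] [Module ℝ V] [TopologicalSpace V] [ContinuousAdd V]
  [ContinuousSMul ℝ V] [AddCommGroup V'] [Module ℝ V'] [TopologicalSpace V'] [ContinuousAdd V']
  [ContinuousSMul ℝ V'] {K : Set V} {K' : Set V'} {k n : ℕ}

/-- A map between convex sets which preserves convex combinations. -/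
def IsAffMap (g : K → K') : Prop :=
  ∀ (k : ℕ) (v : Fin k → K) (t : Fin k → ℝ) (h : ∑ i, t i • (v i : V) ∈ K), (∀ i, 0 ≤ t i) →
    ∑ i, t i = 1 → (g ⟨_, h⟩ : V') = ∑ i, t i • (g (v i) : V')

theorem comp_aff (hK : Convex ℝ K) (hK' : Convex ℝ K') (g : C(K, K')) (hg : IsAffMap g)
    (v : Fin k → K) : g.comp (aff hK v) = aff hK' (g ∘ v) := by
  ext t
  exact hg k v t.1 _ t.2.1 t.2.2

theorem chainMap_lreal_of_isAffMap (hK : Convex ℝ K) (hK' : Convex ℝ K') (g : C(K, K'))
    (hg : IsAffMap g) (x : LC K (n + 1)) :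
    chainMap g n (lreal hK n x) = lreal hK' n (lmap g (n + 1) x) := by
  have h : (chainMap g n).comp (lreal hK n) = (lreal hK' n).comp (lmap g (n + 1)) := by
    ext v
    simp only [AddMonoidHom.comp_apply, lreal_of, chainMap_gen, lmap_of, comp_aff hK hK' g hg]
  exact congrArg (fun f => f x) h

theorem lmap_lmap {K K' K'' : Type} (g : K' → K'') (f : K → K') (x : LC K k) :
    lmap g k (lmap f k x) = lmap (g ∘ f) k x := by
  have h : (lmap g k).comp (lmap f k) = lmap (g ∘ f) k := by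
    ext v
    simp only [AddMonoidHom.comp_apply, lmap_of, Function.comp_assoc]
  exact congrArg (fun f => f x) h

end AffMap

/-! ### Faces of the cube -/

/-- The cube is convex. -/
theorem hDsk (d : ℕ) : Convex ℝ (closedBall (0 : Fin d → ℝ) 1) := convex_closedBall 0 1

/-- The centre of the cube. -/
def dskZero (d : ℕ) : Dsk d := ⟨0, mem_closedBall_self zero_le_one⟩

/-- `±1` as a real number. -/
def sgnR (e : Bool) : ℝ := if e then 1 else -1

/-- `±1` as an integer. -/
def sgnZ (e : Bool) : ℤ := if e then 1 else -1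

theorem abs_sgnR (e : Bool) : |sgnR e| = 1 := by cases e <;> simp [sgnR]

theorem mem_dsk_iff {d : ℕ} (x : Fin d → ℝ) :
    x ∈ closedBall (0 : Fin d → ℝ) 1 ↔ ∀ i, |x i| ≤ 1 := by
  rw [mem_closedBall_zero_iff, pi_norm_le_iff_of_nonneg zero_le_one]
  rfl

theorem insertNth_mem_dsk {d : ℕ} (i : Fin (d + 1)) {a : ℝ} (ha : |a| ≤ 1) (x : Dsk d) :
    (i.insertNth a x.1 : Fin (d + 1) → ℝ) ∈ closedBall (0 : Fin (d + 1) → ℝ) 1 := by
  rw [mem_dsk_iff, Fin.forall_iff_succAbove i]
  refine ⟨by simpa using ha, fun j => ?_⟩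
  simpa using (mem_dsk_iff x.1).1 x.2 j

/-- The slice `x_i = a` of the cube. -/
def sliceMap {d : ℕ} (i : Fin (d + 1)) (a : ℝ) (ha : |a| ≤ 1) : C(Dsk d, Dsk (d + 1)) where
  toFun x := ⟨i.insertNth a x.1, insertNth_mem_dsk i ha x⟩
  continuous_toFun :=
    (Continuous.finInsertNth (A := fun _ => ℝ) i continuous_const
      continuous_subtype_val).subtype_mk _

/-- The face `x_i = ±1` of the cube. -/
def faceMap {d : ℕ} (i : Fin (d + 1)) (e : Bool) : C(Dsk d, Dsk (d + 1)) :=
  sliceMap i (sgnR e) (abs_sgnR e).le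

theorem faceMap_coe {d : ℕ} (i : Fin (d + 1)) (e : Bool) (x : Dsk d) :
    (faceMap i e x : Fin (d + 1) → ℝ) = i.insertNth (sgnR e) x.1 := rfl

theorem isAffMap_sliceMap {d : ℕ} (i : Fin (d + 1)) (a : ℝ) (ha : |a| ≤ 1) :
    IsAffMap (sliceMap i a ha) := by
  intro k v t h _ h1
  change (i.insertNth a (∑ l, t l • (v l : Fin d → ℝ)) : Fin (d + 1) → ℝ) =
    ∑ l, t l • (i.insertNth a (v l).1 : Fin (d + 1) → ℝ)
  funext j
  rw [Finset.sum_apply]
  refine Fin.succAboveCases i ?_ (fun j => ?_) j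
  · simp [← Finset.sum_mul, h1]
  · simp [Finset.sum_apply]

theorem isAffMap_faceMap {d : ℕ} (i : Fin (d + 1)) (e : Bool) : IsAffMap (faceMap i e) :=
  isAffMap_sliceMap i _ _

/-- The cubical identity. -/
theorem insertNth_insertNth_swap {d : ℕ} {α : Type} (i : Fin (d + 2)) (j : Fin (d + 1)) (a b : α)
    (x : Fin d → α) :
    (i.insertNth a (j.insertNth b x : Fin (d + 1) → α) : Fin (d + 2) → α) =
      (i.succAbove j).insertNth b ((j.predAbove i).insertNth a x : Fin (d + 1) → α) := by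
  funext l
  refine Fin.succAboveCases i ?_ (fun m => ?_) l
  · rw [Fin.insertNth_apply_same]
    have h := Fin.insertNth_apply_succAbove (α := fun _ => α) (i.succAbove j) b
      ((j.predAbove i).insertNth a x : Fin (d + 1) → α) (j.predAbove i)
    rw [Fin.succAbove_succAbove_predAbove, Fin.insertNth_apply_same] at h
    exact h.symm
  · rw [Fin.insertNth_apply_succAbove]
    refine Fin.succAboveCases j ?_ (fun k => ?_) m
    · rw [Fin.insertNth_apply_same, Fin.insertNth_apply_same]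
    · rw [Fin.insertNth_apply_succAbove, ← Fin.succAbove_succAbove_succAbove_predAbove,
        Fin.insertNth_apply_succAbove, Fin.insertNth_apply_succAbove]

theorem faceMap_faceMap_swap {d : ℕ} (i : Fin (d + 2)) (j : Fin (d + 1)) (e e' : Bool) :
    (faceMap i e : Dsk (d + 1) → Dsk (d + 2)) ∘ (faceMap j e') =
      (faceMap (i.succAbove j) e') ∘ (faceMap (j.predAbove i) e) := by
  funext x
  apply Subtype.ext
  exact insertNth_insertNth_swap i j _ _ x.1

/-! ### The fundamental chain -/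

/-- The signed sum of the faces of a formal chain. -/
def lfaces (d k : ℕ) : LC (Dsk d) k →+ LC (Dsk (d + 1)) k :=
  ∑ p : Fin (d + 1) × Bool, ((-1 : ℤ) ^ (p.1 : ℕ) * sgnZ p.2) • lmap (faceMap p.1 p.2) k

theorem lfaces_apply (d k : ℕ) (x : LC (Dsk d) k) :
    lfaces d k x =
      ∑ p : Fin (d + 1) × Bool, ((-1 : ℤ) ^ (p.1 : ℕ) * sgnZ p.2) • lmap (faceMap p.1 p.2) k x := by
  simp [lfaces]

theorem lbd_lfaces (d k : ℕ) (x : LC (Dsk d) (k + 1)) :
    lbd _ k (lfaces d (k + 1) x) = lfaces d k (lbd _ k x) := by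
  simp only [lfaces_apply, map_sum, map_zsmul, lmap_lbd]

theorem neg_one_pow_swap {d : ℕ} (i : Fin (d + 2)) (j : Fin (d + 1)) :
    (-1 : ℤ) ^ ((i.succAbove j : Fin (d + 2)) : ℕ) * (-1 : ℤ) ^ ((j.predAbove i : Fin (d + 1)) : ℕ) =
      - ((-1 : ℤ) ^ (i : ℕ) * (-1 : ℤ) ^ (j : ℕ)) := by
  rcases j.castSucc.lt_or_ge i with h | h
  · rw [Fin.succAbove_of_castSucc_lt _ _ h, Fin.predAbove_of_castSucc_lt _ _ h]
    have hi : (i : ℕ) = ((i.pred (Fin.ne_zero_of_lt h) : Fin (d + 1)) : ℕ) + 1 := by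
      have : 0 < (i : ℕ) := lt_of_le_of_lt (Nat.zero_le _) (Fin.lt_def.1 h)
      simp; omega
    rw [hi, Fin.val_castSucc, pow_succ]
    ring
  · rw [Fin.succAbove_of_le_castSucc _ _ h, Fin.predAbove_of_le_castSucc _ _ h]
    rw [Fin.val_succ, Fin.coe_castPred, pow_succ]
    ring

/-- `∂∂ = 0` for cubes. -/
theorem lfaces_lfaces (d k : ℕ) (x : LC (Dsk d) k) : lfaces (d + 1) k (lfaces d k x) = 0 := by
  simp only [lfaces_apply, map_sum, map_zsmul, lmap_lmap, Finset.smul_sum, smul_smul]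
  rw [← Finset.sum_product']
  refine Finset.sum_involution
    (fun p _ => ((p.1.1.predAbove p.2.1, p.2.2), (p.2.1.succAbove p.1.1, p.1.2))) ?_ ?_ ?_ ?_
  · rintro ⟨⟨j, e'⟩, ⟨i, e⟩⟩ _
    simp only
    rw [← faceMap_faceMap_swap, ← add_smul]
    have := neg_one_pow_swap i j
    have h0 : (-1 : ℤ) ^ (j : ℕ) * sgnZ e' * ((-1 : ℤ) ^ (i : ℕ) * sgnZ e) +
        (-1 : ℤ) ^ ((j.predAbove i : Fin (d + 1)) : ℕ) * sgnZ e *
          ((-1 : ℤ) ^ ((i.succAbove j : Fin (d + 2)) : ℕ) * sgnZ e') = 0 := by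
      linear_combination (sgnZ e * sgnZ e') * this
    rw [h0, zero_smul]
  · rintro ⟨⟨j, e'⟩, ⟨i, e⟩⟩ _ _ h
    simp only [Prod.mk.injEq] at h
    exact Fin.succAbove_ne i j h.2.1
  · intro _ _
    exact Finset.mem_univ _
  · rintro ⟨⟨j, e'⟩, ⟨i, e⟩⟩ _
    simp only [Fin.succAbove_succAbove_predAbove, Fin.predAbove_predAbove_succAbove]

/-- The formal fundamental chain of the cube. -/
def lcube : (d : ℕ) → LC (Dsk d) (d + 1)
  | 0 => of fun _ => dskZero 0
  | d + 1 => lcone (dskZero (d + 1)) (d + 1) (lfaces d (d + 1) (lcube d))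

/-- The formal fundamental cycle of the boundary of the cube `Dsk (d + 1)`. -/
def lsph (d : ℕ) : LC (Dsk (d + 1)) (d + 1) := lfaces d (d + 1) (lcube d)

theorem lcube_succ (d : ℕ) : lcube (d + 1) = lcone (dskZero (d + 1)) (d + 1) (lsph d) := rfl

theorem lbd_lsph_and (d : ℕ) :
    lbd _ d (lsph d) = 0 ∧ lbd _ (d + 1) (lcube (d + 1)) = lsph d := by
  have step : ∀ d, lbd _ d (lsph d) = 0 → lbd _ (d + 1) (lcube (d + 1)) = lsph d := by
    intro d h
    rw [lcube_succ, lbd_lcone_succ, h, map_zero, sub_zero]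
  induction d with
  | zero =>
    have h : lbd _ 0 (lsph 0) = 0 := by
      rw [lsph, lbd_lfaces, lfaces_apply, Fintype.sum_prod_type]
      simp only [Fintype.sum_bool]
      have : ∀ (x : Fin (0 + 1)) e, lmap (faceMap x e) 0 (lbd (Dsk 0) 0 (lcube 0)) =
          of (fun i : Fin 0 => i.elim0) := by
        intro x e
        rw [lcube, lbd_of, Fin.sum_univ_one]
        simp only [Fin.val_zero, pow_zero, one_smul, lmap_of]
        exact congrArg of (Subsingleton.elim _ _)
      simp only [this]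
      simp [sgnZ]
    exact ⟨h, step 0 h⟩
  | succ d ih =>
    have h : lbd _ (d + 1) (lsph (d + 1)) = 0 := by
      rw [lsph, lbd_lfaces, ih.2, lsph, lfaces_lfaces]
    exact ⟨h, step (d + 1) h⟩

theorem lbd_lsph (d : ℕ) : lbd _ d (lsph d) = 0 := (lbd_lsph_and d).1

theorem lbd_lcube (d : ℕ) : lbd _ (d + 1) (lcube (d + 1)) = lsph d := (lbd_lsph_and d).2

/-- **The fundamental chain `ι_d` of the cube `Dsk d`.** -/
def cubeChain (d : ℕ) : Chains (Dsk d) d := lreal (hDsk d) d (lcube d)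

/-- The fundamental cycle of the boundary of the cube `Dsk (d + 1)`, as a chain of the cube. -/
def sphChain (d : ℕ) : Chains (Dsk (d + 1)) d :=
  ∑ p : Fin (d + 1) × Bool,
    ((-1 : ℤ) ^ (p.1 : ℕ) * sgnZ p.2) • chainMap (faceMap p.1 p.2) d (cubeChain d)

theorem lreal_lsph (d : ℕ) : lreal (hDsk (d + 1)) d (lsph d) = sphChain d := by
  rw [lsph, lfaces_apply, map_sum, sphChain]
  refine Finset.sum_congr rfl fun p _ => ?_
  rw [map_zsmul, cubeChain, chainMap_lreal_of_isAffMap (hDsk d) (hDsk (d + 1)) _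
    (isAffMap_faceMap p.1 p.2)]

/-- **The boundary of the fundamental chain of the cube is the signed sum of its faces.** -/
theorem bd_cubeChain (d : ℕ) : bd (Dsk (d + 1)) d (cubeChain (d + 1)) = sphChain d := by
  rw [cubeChain, bd_lreal, lbd_lcube, lreal_lsph]

end

end Claimed.Open.R321
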