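import Claimed.Open.R321.PDCover
import Claimed.Open.R321.AttachDef
import Claimed.Open.R321.PSCube

/-!
# R321, PD-MAIN, part 2: `PropD` from an equivariant tower of cell attachments

Owner: helper290.

* `IfaceRC`: the statement of the relative cells theorem (package RC);
* `EqAttach G A Z d J`: `Z` is obtained from the `G`-space `A` by attaching the cells `G × J`
  equivariantly;
* `propD_of_tower`: `PropD` from a tower `E0 → E1 → E2 → E3`, `E1 → B → E2` of such attachments, a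
  quotient covering `E3 → X` and the relation `∂ (3-cell t) = ± (2-cell incT t)` in `H_2(E2, B)`.
-/

set_option autoImplicit false

namespace Claimed.Open.R321

open Topology CategoryTheory

noncomputable section

/-- **Interface: the relative cells theorem** (package RC). -/
def IfaceRC : Prop :=
  ∀ (Z : Type) [TopologicalSpace Z] (A : Set Z) (d : ℕ) (J : Type) (h : CellAttach Z A d J),
    h.IsWeak → RelCells (Set.univ : Set Z) A d (fun j => chainMap (h.Φ j) d (cubeChain d))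

/-- The fundamental chain of a cell. -/
def CellAttach.cellChain {Z : Type} [TopologicalSpace Z] {A : Set Z} {d : ℕ} {J : Type}
    (h : CellAttach Z A d J) (j : J) : Chains Z d :=
  chainMap (h.Φ j) d (cubeChain d)

/-- `Z` is obtained from the `G`-space `A` by attaching equivariantly the `d`-cells `G × J`. -/
structure EqAttach (G A Z : Type) [Group G] [TopologicalSpace A] [TopologicalSpace Z]
    [MulAction G A] [MulAction G Z] (d : ℕ) (J : Type) where
  /-- the inclusion of `A` -/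
  b : C(A, Z)
  emb : IsEmbedding b
  b_smul : ∀ (g : G) (a : A), b (g • a) = g • b a
  /-- the cells -/
  ca : CellAttach Z (Set.range b) d (G × J)
  weak : ca.IsWeak
  smul_Φ : ∀ (g g' : G) (j : J) (x : Dsk d), g • ca.Φ (g', j) x = ca.Φ (g * g', j) x

section Tower

variable {G : Type} [Group G]
  {E0 E1 B E2 E3 X : Type} [TopologicalSpace E0] [TopologicalSpace E1] [TopologicalSpace B]
  [TopologicalSpace E2] [TopologicalSpace E3] [TopologicalSpace X]
  [MulAction G E0] [MulAction G E1] [MulAction G B] [MulAction G E2] [MulAction G E3]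
  {p : E3 → X}

/-- Pushing a cell chain forward along an equivariant map and translating it. -/
theorem chainMap_smul_cell {Z : Type} [TopologicalSpace Z] (hp : IsQuotientCoveringMap p G)
    {d : ℕ} (ι : C(Z, E3)) (Φ Φ' : C(Dsk d, Z)) (g : G)
    (h : ∀ x, g • ι (Φ x) = ι (Φ' x)) :
    chainMap (smulMap hp g) d (chainMap ι d (chainMap Φ d (cubeChain d))) =
      chainMap ι d (chainMap Φ' d (cubeChain d)) := by
  rw [← chainMap_comp, ← chainMap_comp, ← chainMap_comp]
  have e : ((smulMap hp g).comp ι).comp Φ = ι.comp Φ' := by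
    ext x
    exact h x
  rw [e]

end Tower

/-- **PD-MAIN, part 2.** -/
theorem propD_of_tower (RC : IfaceRC)
    {E0 E1 B E2 E3 X : Type} [TopologicalSpace E0] [TopologicalSpace E1] [TopologicalSpace B]
    [TopologicalSpace E2] [TopologicalSpace E3] [TopologicalSpace X]
    [MulAction Wall.G E0] [MulAction Wall.G E1] [MulAction Wall.G B] [MulAction Wall.G E2]
    [MulAction Wall.G E3]
    -- the base
    [T2Space X] [CWComplex (Set.univ : Set X)]
    (hfin : CWComplex.Finite (Set.univ : Set X))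
    (hdim : ∀ m : ℕ, 3 < m → IsEmpty (RelCWComplex.cell (Set.univ : Set X) m))
    (hcell : Nonempty (RelCWComplex.cell (Set.univ : Set X) 3))
    (heuler : cellEuler (Set.univ : Set X) = 0)
    -- the covering
    {p : E3 → X} (hp : IsQuotientCoveringMap p Wall.G) [SimplyConnectedSpace E3]
    -- the tower
    {J0 S Q Q' T : Type}
    (ca0 : CellAttach E0 ∅ 0 J0) (w0 : ca0.IsWeak)
    (eq0 : ∀ (g : Wall.G) (j : J0), ∃ j', ∀ x, g • ca0.Φ j x = ca0.Φ j' x)
    (s1 : EqAttach Wall.G E0 E1 1 S) (s2 : EqAttach Wall.G E1 E2 2 Q)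
    (sB : EqAttach Wall.G E1 B 2 Q') (s3 : EqAttach Wall.G E2 E3 3 T)
    -- `B` inside `E2`
    (inc : Q' → Q) (incT : T → Q) (hincT : Function.Injective incT)
    (hdisj : ∀ a b, inc a ≠ incT b) (hcov : ∀ q, (∃ a, inc a = q) ∨ ∃ b, incT b = q)
    (iB : C(B, E2)) (hiB : IsEmbedding iB) (iB_smul : ∀ (g : Wall.G) (x : B), iB (g • x) = g • iB x)
    (iB_b : ∀ a, iB (sB.b a) = s2.b a)
    (iB_Φ : ∀ (g : Wall.G) (q : Q') (x : Dsk 2), iB (sB.ca.Φ (g, q) x) = s2.ca.Φ (g, inc q) x)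
    -- the boundary of the 3-cells
    (ε : T → ℤˣ)
    (hs : ∀ t : T, IsRelBoundary (Set.range s3.b) (Set.range (s3.b.comp iB)) 2
      (bd E3 2 (s3.ca.cellChain (1, t)) -
        (ε t : ℤ) • chainMap s3.b 2 (s2.ca.cellChain (1, incT t)))) :
    PropD := by
  -- the embeddings into `E3`
  set ι2 : C(E2, E3) := s3.b with hι2
  set ι1 : C(E1, E3) := s3.b.comp s2.b with hι1
  set ι0 : C(E0, E3) := (s3.b.comp s2.b).comp s1.b with hι0
  set ιB : C(B, E3) := s3.b.comp iB with hιB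
  have e2 : IsEmbedding ι2 := s3.emb
  have e1 : IsEmbedding ι1 := s3.emb.comp s2.emb
  have e0 : IsEmbedding ι0 := (s3.emb.comp s2.emb).comp s1.emb
  have eB : IsEmbedding ιB := s3.emb.comp hiB
  have sm2 : ∀ (g : Wall.G) a, g • ι2 a = ι2 (g • a) := fun g a => (s3.b_smul g a).symm
  have sm1 : ∀ (g : Wall.G) a, g • ι1 a = ι1 (g • a) := fun g a => by
    change g • s3.b (s2.b a) = s3.b (s2.b (g • a))
    rw [s2.b_smul, s3.b_smul]
  have sm0 : ∀ (g : Wall.G) a, g • ι0 a = ι0 (g • a) := fun g a => by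
    change g • s3.b (s2.b (s1.b a)) = s3.b (s2.b (s1.b (g • a)))
    rw [s1.b_smul, s2.b_smul, s3.b_smul]
  have smB : ∀ (g : Wall.G) a, g • ιB a = ιB (g • a) := fun g a => by
    change g • s3.b (iB a) = s3.b (iB (g • a))
    rw [iB_smul, s3.b_smul]
  have hιB1 : ∀ a, ιB (sB.b a) = ι1 a := fun a => congrArg s3.b (iB_b a)
  -- the cells
  let c0 : J0 → Chains E3 0 := fun j => chainMap ι0 0 (ca0.cellChain j)
  let c1 : Wall.G × S → Chains E3 1 := fun j => chainMap ι1 1 (s1.ca.cellChain j)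
  let c2 : Wall.G × Q → Chains E3 2 := fun j => chainMap ι2 2 (s2.ca.cellChain j)
  let c3 : Wall.G × T → Chains E3 3 := fun j => s3.ca.cellChain j
  let f₁ : Wall.G × Q' → Wall.G × Q := Prod.map id inc
  let f₂ : Wall.G × T → Wall.G × Q := Prod.map id incT
  have hc2B : ∀ j : Wall.G × Q', chainMap ιB 2 (sB.ca.cellChain j) = c2 (f₁ j) := by
    rintro ⟨g, q⟩
    change chainMap (s3.b.comp iB) 2 (chainMap (sB.ca.Φ (g, q)) 2 (cubeChain 2)) =
      chainMap s3.b 2 (chainMap (s2.ca.Φ (g, inc q)) 2 (cubeChain 2))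
    rw [← chainMap_comp, ← chainMap_comp]
    have e : (s3.b.comp iB).comp (sB.ca.Φ (g, q)) = s3.b.comp (s2.ca.Φ (g, inc q)) := by
      ext x
      exact congrArg s3.b (iB_Φ g q x)
    rw [e]
  -- relative cells
  have r3 : RelCells (Set.univ : Set E3) (Set.range ι2) 3 c3 := RC E3 _ 3 _ s3.ca s3.weak
  have r2 : RelCells (Set.range ι2) (Set.range ι1) 2 c2 :=
    RelCells.image_univ e2 s2.b (RC E2 _ 2 _ s2.ca s2.weak)
  have r1 : RelCells (Set.range ι1) (Set.range ι0) 1 c1 :=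
    RelCells.image_univ e1 s1.b (RC E1 _ 1 _ s1.ca s1.weak)
  have r0 : RelCells (Set.range ι0) ∅ 0 c0 := by
    have := (RC E0 _ 0 _ ca0 w0).image e0
    rwa [Set.image_univ, Set.image_empty] at this
  have rB : RelCells (Set.range ιB) (Set.range ι1) 2 (fun j => c2 (f₁ j)) := by
    have h := RelCells.image_univ eB sB.b (RC B _ 2 _ sB.ca sB.weak)
    have h1 : Set.range (ιB ∘ sB.b) = Set.range ι1 := by
      congr 1
      funext a
      exact hιB1 a
    rw [h1] at h
    have h2 : (fun j => chainMap ιB 2 (chainMap (sB.ca.Φ j) 2 (cubeChain 2))) =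
        fun j => c2 (f₁ j) := funext hc2B
    rwa [h2] at h
  -- inclusions
  have h01 : Set.range ι0 ⊆ Set.range ι1 := by
    rintro _ ⟨a, rfl⟩
    exact ⟨s1.b a, rfl⟩
  have h1B : Set.range ι1 ⊆ Set.range ιB := by
    rintro _ ⟨a, rfl⟩
    exact ⟨sB.b a, hιB1 a⟩
  have hB2 : Set.range ιB ⊆ Set.range ι2 := by
    rintro _ ⟨a, rfl⟩
    exact ⟨iB a, rfl⟩
  -- translation of the cells
  have t2 : ∀ (g g' : Wall.G) (q : Q), chainMap (smulMap hp g) 2 (c2 (g', q)) = c2 (g * g', q) :=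
    fun g g' q => chainMap_smul_cell hp ι2 _ _ g fun x => by
      rw [sm2, s2.smul_Φ]
  have t3 : ∀ (g g' : Wall.G) (t : T), chainMap (smulMap hp g) 3 (c3 (g', t)) = c3 (g * g', t) := by
    intro g g' t
    change chainMap (smulMap hp g) 3 (chainMap (s3.ca.Φ (g', t)) 3 (cubeChain 3)) =
      chainMap (s3.ca.Φ (g * g', t)) 3 (cubeChain 3)
    rw [← chainMap_comp]
    have e : (smulMap hp g).comp (s3.ca.Φ (g', t)) = s3.ca.Φ (g * g', t) := by
      ext x
      exact s3.smul_Φ g g' t x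
    rw [e]
  refine propD_of_cover hfin hdim hcell heuler hp h01 h1B hB2 ?_ ?_ ?_ f₁ f₂ ?_ ?_ ?_ ?_ ?_ ?_
    r0 r1 r2 rB r3 (fun j => ε j.2) ?_
  · rintro g _ ⟨a, rfl⟩
    exact ⟨g • a, (sm0 g a).symm⟩
  · rintro g _ ⟨a, rfl⟩
    exact ⟨g • a, (sm1 g a).symm⟩
  · rintro g _ ⟨a, rfl⟩
    exact ⟨g • a, (smB g a).symm⟩
  · exact Function.injective_id.prodMap hincT
  · rintro ⟨g, a⟩ ⟨g', b⟩ h
    exact hdisj a b (congrArg Prod.snd h)
  · rintro ⟨g, q⟩
    rcases hcov q with ⟨a, rfl⟩ | ⟨b, rfl⟩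
    · exact Or.inl ⟨(g, a), rfl⟩
    · exact Or.inr ⟨(g, b), rfl⟩
  · intro g j
    obtain ⟨j', hj'⟩ := eq0 g j
    exact ⟨j', chainMap_smul_cell hp ι0 _ _ g fun x => by rw [sm0, hj']⟩
  · rintro g ⟨g', s⟩
    exact ⟨(g * g', s), chainMap_smul_cell hp ι1 _ _ g fun x => by rw [sm1, s1.smul_Φ]⟩
  · rintro g ⟨g', q⟩
    exact ⟨(g * g', q), t2 g g' (inc q)⟩
  · rintro ⟨g, t⟩
    have h := (hs t).chainMap_image (smulMap hp g)
    have h1 : chainMap (smulMap hp g) 2 (bd E3 2 (s3.ca.cellChain (1, t)) -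
        (ε t : ℤ) • chainMap s3.b 2 (s2.ca.cellChain (1, incT t))) =
        bd E3 2 (c3 (g, t)) - (ε t : ℤ) • c2 (f₂ (g, t)) := by
      rw [map_sub, map_zsmul, ← bd_chainMap]
      have a3 := t3 g 1 t
      have a2 := t2 g 1 (incT t)
      rw [mul_one] at a3 a2
      change bd E3 2 (chainMap (smulMap hp g) 3 (c3 (1, t))) -
        (ε t : ℤ) • chainMap (smulMap hp g) 2 (c2 (1, incT t)) = _
      rw [a3, a2]
      rfl
    rw [h1] at h
    refine h.mono ?_ ?_
    · rintro _ ⟨_, ⟨a, rfl⟩, rfl⟩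
      exact ⟨g • a, (sm2 g a).symm⟩
    · rintro _ ⟨_, ⟨a, rfl⟩, rfl⟩
      exact ⟨g • a, (smB g a).symm⟩

end

end Claimed.Open.R321
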