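import Claimed.Open.R321.RCDefs

/-!
# R321, package RC (local part): the point

`rcLocal_zero : RCLocal 0`.
-/

set_option autoImplicit false

namespace Claimed.Open.R321

noncomputable section

section Point

variable {P : Type} [TopologicalSpace P] [Unique P]

/-- The unique singular `n`-simplex of a one-point space. -/
def rcPtSimplex (P : Type) [TopologicalSpace P] [Unique P] (n : ℕ) : Simplex n P :=
  ContinuousMap.const _ default

theorem rcPt_simplex_eq {n : ℕ} (σ : Simplex n P) : σ = rcPtSimplex P n :=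
  ContinuousMap.ext fun _ => Subsingleton.elim _ _

/-- The generator of the `n`-chains of a one-point space. -/
def rcPtGen (P : Type) [TopologicalSpace P] [Unique P] (n : ℕ) : Chains P n :=
  gen (rcPtSimplex P n)

theorem rcPt_gen_eq {n : ℕ} (σ : Simplex n P) : gen σ = rcPtGen P n := by
  rw [rcPt_simplex_eq σ, rcPtGen]

theorem rcPt_exists_eq_zsmul {n : ℕ} (c : Chains P n) : ∃ k : ℤ, c = k • rcPtGen P n := by
  refine chains_induction (P := fun c => ∃ k : ℤ, c = k • rcPtGen P n) c ⟨0, by simp⟩ ?_ ?_ ?_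
  · rintro _ _ ⟨k, rfl⟩ ⟨l, rfl⟩
    exact ⟨k + l, (add_zsmul _ _ _).symm⟩
  · rintro _ ⟨k, rfl⟩
    exact ⟨-k, (neg_zsmul _ _).symm⟩
  · intro σ
    exact ⟨1, by rw [one_zsmul, rcPt_gen_eq]⟩

theorem rcPt_zsmul_eq_zero {n : ℕ} {k : ℤ} (h : k • rcPtGen P n = 0) : k = 0 := by
  have h1 := congrArg (fun c => chainsEquiv P n c (rcPtSimplex P n)) h
  simpa [rcPtGen, chainsEquiv_gen, map_zsmul] using h1

theorem rcPt_bd (n : ℕ) :
    bd P n (rcPtGen P (n + 1)) = (if Even n then (0 : ℤ) else 1) • rcPtGen P n := by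
  rw [rcPtGen, bd_gen]
  simp only [rcPt_gen_eq]
  have h2 : ∑ i : Fin (n + 2), (-1 : ℤ) ^ (i : ℕ) = if Even n then 0 else 1 := by
    rw [Fin.sum_univ_eq_sum_range (fun i => (-1 : ℤ) ^ i) (n + 2), neg_one_geom_sum]
    simp [Nat.even_add]
  rw [← h2]
  exact (map_sum ((zmultiplesHom (Chains P n)) (rcPtGen P n))
    (fun i : Fin (n + 2) => (-1 : ℤ) ^ (i : ℕ)) Finset.univ).symm

/-- The homology of a point, in the language of `RelCells`. -/
theorem relCells_point : RelCells (Set.univ : Set P) ∅ 0 (fun _ : Unit => rcPtGen P 0) where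
  isRelCycle _ := mem_chainsIn_univ _
  vanish n hn := by
    obtain ⟨m, rfl⟩ : ∃ m, n = m + 1 := ⟨n - 1, by omega⟩
    intro z hz
    obtain ⟨k, rfl⟩ := rcPt_exists_eq_zsmul z
    have h1 : bd P m (k • rcPtGen P (m + 1)) = 0 := by
      have := hz.2
      rwa [chainsIn_empty, AddSubgroup.mem_bot] at this
    by_cases hm : Even m
    · refine ⟨k • rcPtGen P (m + 2), mem_chainsIn_univ _, 0, AddSubgroup.zero_mem _, ?_⟩
      rw [map_zsmul, rcPt_bd, if_neg (by simpa [Nat.even_add_one] using hm), one_smul, add_zero]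
    · rw [map_zsmul, rcPt_bd, if_neg hm, one_smul] at h1
      rw [rcPt_zsmul_eq_zero h1, zero_smul]
      exact isRelBoundary_zero_chain _ _ _
  span z _ := by
    obtain ⟨k, rfl⟩ := rcPt_exists_eq_zsmul z
    refine ⟨Finsupp.single () k, ?_⟩
    rw [chainComb_single, sub_self]
    exact isRelBoundary_zero_chain _ _ _
  indep m hm := by
    obtain ⟨y, -, a, ha, h1⟩ := hm
    rw [chainsIn_empty, AddSubgroup.mem_bot] at ha
    obtain ⟨l, rfl⟩ := rcPt_exists_eq_zsmul y
    have hm' : m = Finsupp.single () (m ()) := by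
      ext
      simp
    have h2 : bd P 0 (l • rcPtGen P (0 + 1)) = 0 := by
      rw [map_zsmul, rcPt_bd, if_pos (by simp), zero_smul, zsmul_zero]
    rw [hm', chainComb_single, ha, add_zero, h2] at h1
    rw [hm', rcPt_zsmul_eq_zero h1, Finsupp.single_zero]

end Point

instance rcDskZeroUnique : Unique (Dsk 0) where
  default := dskZero 0
  uniq _ := Subtype.ext (Subsingleton.elim _ _)

theorem dskBdry_zero : dskBdry 0 = ∅ := by
  ext x
  simp only [dskBdry, Set.mem_ofPred_eq, Set.mem_empty_iff_false, iff_false]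
  have : x.1 = 0 := Subsingleton.elim _ _
  rw [this, norm_zero]
  exact zero_ne_one

theorem cubeChain_zero : cubeChain 0 = rcPtGen (Dsk 0) 0 := by
  rw [cubeChain, lcube, lreal_of, rcPt_gen_eq]

/-- **The local computation in dimension `0`.** -/
theorem rcLocal_zero : RCLocal 0 := by
  unfold RCLocal
  rw [dskBdry_zero, cubeChain_zero]
  exact relCells_point

end

end Claimed.Open.R321
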