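import Claimed.Open.R321.RelSub

/-!
# R321, package RC (local part): the shift lemma

`RelCells.shift`: let `Λ ⊆ S ⊆ D` with `H_*(D, Λ) = 0`.  If `H_*(S, Λ)` is free on the `d`-cells `c j` and the chains
`c' j` carried by `D` satisfy `∂ c' j = c j` in `H_d(S, Λ)`, then `H_*(D, S)` is free on the `(d+1)`-cells `c' j`.
(The connecting homomorphism of the triple `(D, S, Λ)` is an isomorphism.)
-/

set_option autoImplicit false

namespace Claimed.Open.R321

noncomputable section

variable {E : Type} [TopologicalSpace E]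

theorem IsRelBoundary.mem {Z A : Set E} (hAZ : A ⊆ Z) {n : ℕ} {z : Chains E n}
    (h : IsRelBoundary Z A n z) : z ∈ chainsIn Z n := by
  obtain ⟨y, hy, a, ha, rfl⟩ := h
  exact AddSubgroup.add_mem _ (bd_mem_chainsIn hy) (chainsIn_mono hAZ _ ha)

/-- **The shift lemma.** -/
theorem RelCells.shift {D S Λ : Set E} (hΛS : Λ ⊆ S) (hSD : S ⊆ D) (hv : ∀ n, RelVanish D Λ n)
    {d : ℕ} {J : Type} {c : J → Chains E d} {c' : J → Chains E (d + 1)}
    (hS : RelCells S Λ d c) (hc' : ∀ j, c' j ∈ chainsIn D (d + 1))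
    (hb : ∀ j, IsRelBoundary S Λ d (bd E d (c' j) - c j)) : RelCells D S (d + 1) c' := by
  have key : ∀ m : J →₀ ℤ,
      IsRelBoundary S Λ d (bd E d (chainComb c' m) - chainComb c m) := by
    intro m
    rw [map_chainComb, ← chainComb_sub]
    exact isRelBoundary_chainComb hb m
  have hcyc : ∀ j, IsRelCycle D S (d + 1) (c' j) := by
    intro j
    refine ⟨hc' j, ?_⟩
    have h1 := (hb j).mem hΛS
    have h2 := (hS.isRelCycle j).mem
    have := AddSubgroup.add_mem _ h1 h2
    rwa [sub_add_cancel] at this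
  -- a relative cycle of `(D, S)` whose boundary bounds in `(S, Λ)` is a relative boundary
  have fin : ∀ (n : ℕ) (x : Chains E (n + 1)), IsRelCycle D S (n + 1) x →
      IsRelBoundary S Λ n (bd E n x) → IsRelBoundary D S (n + 1) x := by
    intro n x hx hbx
    obtain ⟨y, hy, hc⟩ := hx.exists_correction hSD hbx
    have := (hv (n + 1) _ hc).add_mem hΛS hy
    rwa [sub_add_cancel] at this
  refine ⟨hcyc, ?_, ?_, ?_⟩
  · intro n hn x hx
    cases n with
    | zero => exact (hv 0 x hx).mono subset_rfl hΛS
    | succ n => exact fin n x hx (hS.vanish n (by omega) _ hx.bd_isRelCycle)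
  · intro x hx
    obtain ⟨m, hm⟩ := hS.span _ (hx.bd_isRelCycle (W' := Λ))
    refine ⟨m, fin d _ (hx.sub (isRelCycle_chainComb hcyc m)) ?_⟩
    have h1 : bd E d (x - chainComb c' m) =
        (bd E d x - chainComb c m) - (bd E d (chainComb c' m) - chainComb c m) := by
      rw [map_sub]
      abel
    rw [h1]
    exact hm.sub (key m)
  · intro m hm
    obtain ⟨y, hy, s, hs, h1⟩ := hm
    apply hS.indep
    have h2 : bd E d (chainComb c' m) = bd E d s := by
      rw [h1, map_add, bd_bd, zero_add]
    have h3 : chainComb c m = bd E d s - (bd E d (chainComb c' m) - chainComb c m) := by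
      rw [h2]
      abel
    rw [h3]
    exact (isRelBoundary_bd hs).sub (key m)

end

end Claimed.Open.R321
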