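import Claimed.Open.R321.RCBox
import Claimed.Open.R321.RCShift
import Claimed.Open.R321.RCPoint

/-!
# R321, package RC (local part): the induction step

`rcLocal_succ : RCGlobal d → RCLocal (d + 1)`.

The sphere `Sph (d + 1)` is the box with one `d`-cell (the top face) attached, so by `RCGlobal d` the relative
homology of `(sphere, box)` is free on the top face.  Since `H_*(cube, box) = 0`, the shift lemma gives that the
relative homology of `(cube, sphere)` is free on any chain whose boundary is the top face modulo the box;
`cubeChain (d + 1)` is such a chain by `bd_cubeChain`.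
-/

set_option autoImplicit false

namespace Claimed.Open.R321

open Topology Set Metric

noncomputable section

variable {d : ℕ}

/-- All faces of the cube except the top face lie in the box. -/
theorem faceMap_mem_boxD {p : Fin (d + 1) × Bool} (hp : p ≠ (0, true)) (x : Dsk d) :
    faceMap p.1 p.2 x ∈ boxD d := by
  obtain ⟨i, e⟩ := p
  induction i using Fin.cases with
  | zero =>
    left
    cases e with
    | true => exact absurd rfl hp
    | false =>
      change (faceMap 0 false x).1 0 = -1
      rw [faceMap_coe, Fin.insertNth_apply_same]
      simp [sgnR]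
  | succ j =>
    right
    refine norm_eq_one_of_abs _ j ?_
    rw [dropMap_zero_apply]
    exact abs_faceMap_same j.succ e x

/-- The boundary of the fundamental chain is the top face modulo the box. -/
theorem sphChain_sub_top_mem (d : ℕ) :
    sphChain d - chainMap (faceMap 0 true) d (cubeChain d) ∈ chainsIn (boxD d) d := by
  rw [sphChain, ← Finset.add_sum_erase _ _ (Finset.mem_univ ((0 : Fin (d + 1)), true))]
  have h1 : ((-1 : ℤ) ^ (((0 : Fin (d + 1)), true).1 : ℕ) * sgnZ ((0 : Fin (d + 1)), true).2) •
      chainMap (faceMap ((0 : Fin (d + 1)), true).1 ((0 : Fin (d + 1)), true).2) d (cubeChain d) =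
      chainMap (faceMap 0 true) d (cubeChain d) := by
    simp [sgnZ]
  rw [h1, add_sub_cancel_left]
  refine AddSubgroup.sum_mem _ fun p hp => AddSubgroup.zsmul_mem _ ?_ _
  exact chainMap_mem_chainsIn _ (A := Set.univ)
    (fun x _ => faceMap_mem_boxD (Finset.ne_of_mem_erase hp) x) (mem_chainsIn_univ _)

/-- **The induction step of the local computation.** -/
theorem rcLocal_succ (d : ℕ) (hG : RCGlobal d) : RCLocal (d + 1) := by
  have R1 := hG (Sph (d + 1)) (boxS d) Unit (topCell d) (topCell_isWeak d)
  have R2 := R1.image (isEmbedding_sphToDsk (d + 1))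
  rw [image_sphToDsk_univ, image_sphToDsk_boxS] at R2
  have R3 : RelCells (dskBdry (d + 1)) (boxD d) d
      (fun _ : Unit => chainMap (faceMap 0 true) d (cubeChain d)) := by
    have e : (fun j : Unit => chainMap (sphToDsk (d + 1)) d
        (chainMap ((topCell d).Φ j) d (cubeChain d))) =
        fun _ : Unit => chainMap (faceMap 0 true) d (cubeChain d) := by
      funext j
      rw [← chainMap_comp]
      rfl
    rwa [e] at R2
  refine RelCells.shift (boxD_subset_dskBdry d) (Set.subset_univ _) (relVanish_box d) R3
    (fun _ => mem_chainsIn_univ _) (fun _ => ?_)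
  rw [bd_cubeChain]
  exact isRelBoundary_of_mem (sphChain_sub_top_mem d)

/-- The relative cells theorem in all dimensions, from the global step. -/
theorem rcLocal_and_rcGlobal (hstep : ∀ d, RCLocal d → RCGlobal d) (d : ℕ) :
    RCLocal d ∧ RCGlobal d := by
  induction d with
  | zero => exact ⟨rcLocal_zero, hstep 0 rcLocal_zero⟩
  | succ d ih => exact ⟨rcLocal_succ d ih.2, hstep (d + 1) (rcLocal_succ d ih.2)⟩

end

end Claimed.Open.R321
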