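import Claimed.Open.R321.RCGlobal
import Claimed.Open.R321.RCCube
import Claimed.Open.R321.PDStage

/-!
# R321, package RC: the relative cells theorem

`relCells_of_cellAttach`: if `Z` is obtained from the closed subset `A` by attaching `d`-cells `Φ j` (arbitrary index
set, weak topology) then the relative homology of `(Z, A)` vanishes in degrees `≠ d` and is free in degree `d` on
the classes of the chains `(Φ j)_# cubeChain d`.  `ifaceRC : IfaceRC` is the form consumed by PD-MAIN.
-/

set_option autoImplicit false

namespace Claimed.Open.R321

noncomputable section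

/-- The local computation in all dimensions. -/
theorem rcLocal (d : ℕ) : RCLocal d :=
  (rcLocal_and_rcGlobal (fun _ h => rcGlobal_of_rcLocal h) d).1

/-- The relative cells theorem in all dimensions. -/
theorem rcGlobal (d : ℕ) : RCGlobal d :=
  (rcLocal_and_rcGlobal (fun _ h => rcGlobal_of_rcLocal h) d).2

/-- **The relative cells theorem.** -/
theorem relCells_of_cellAttach {Z : Type} [TopologicalSpace Z] {A : Set Z} {d : ℕ} {J : Type}
    (h : CellAttach Z A d J) (hw : h.IsWeak) :
    RelCells (Set.univ : Set Z) A d (fun j => chainMap (h.Φ j) d (cubeChain d)) :=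
  rcGlobal d Z A J h hw

/-- The interface of PD-MAIN. -/
theorem ifaceRC : IfaceRC := fun _ _ _ _ _ h hw => relCells_of_cellAttach h hw

end

end Claimed.Open.R321
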