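import Claimed.Open.R321.Subdivision

/-!
# Supports of singular chains

* `chainMap_injective`: an injective continuous map is injective on chains;
* `mem_smallChains_iff`: small chains in terms of the support;
* `smallChains_singleton_eq_range`: the chains carried by `A` are the image of the chains of `↥A`;
* `smallChains_singleton_inf`, `smallChains_union`, `smallChains_pair`.
-/

set_option autoImplicit false

namespace Claimed.Open.R321

open Topology

noncomputable section

variable {E E' : Type} [TopologicalSpace E] [TopologicalSpace E'] {n : ℕ}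

theorem chainsEquiv_chainMap (f : C(E, E')) (c : Chains E n) :
    chainsEquiv E' n (chainMap f n c) =
      Finsupp.mapDomain (fun σ : Simplex n E => f.comp σ) (chainsEquiv E n c) := by
  have h : (chainsEquiv E' n).toAddMonoidHom.comp (chainMap f n) =
      (Finsupp.mapDomain.addMonoidHom (fun σ : Simplex n E => f.comp σ)).comp
        (chainsEquiv E n).toAddMonoidHom := by
    apply chains_hom_ext
    intro σ
    simp only [AddMonoidHom.comp_apply, AddEquiv.coe_toAddMonoidHom, chainMap_gen, chainsEquiv_gen,
      Finsupp.mapDomain.addMonoidHom_apply, Finsupp.mapDomain_single]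
  exact congrArg (fun k => k c) h

/-- An injective continuous map induces an injective map on chains. -/
theorem chainMap_injective (f : C(E, E')) (hf : Function.Injective f) (n : ℕ) :
    Function.Injective (chainMap f n) := by
  intro c c' h
  have h1 := congrArg (chainsEquiv E' n) h
  rw [chainsEquiv_chainMap, chainsEquiv_chainMap] at h1
  have hinj : Function.Injective (fun σ : Simplex n E => f.comp σ) := by
    intro σ τ hστ
    ext t
    exact hf (DFunLike.congr_fun hστ t)
  exact (chainsEquiv E n).injective (Finsupp.mapDomain_injective hinj h1)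

theorem eq_sum_support (c : Chains E n) :
    c = ∑ σ ∈ (chainsEquiv E n c).support, (chainsEquiv E n c) σ • gen σ := by
  have h := congrArg (chainsEquiv E n).symm (Finsupp.sum_single (chainsEquiv E n c))
  rw [Finsupp.sum, map_sum, AddEquiv.symm_apply_apply] at h
  simp only [chainsEquiv_symm_single] at h
  exact h.symm

/-- A chain is `𝒰`-small iff all the simplices of its support are. -/
theorem mem_smallChains_iff {𝒰 : Set (Set E)} {c : Chains E n} :
    c ∈ smallChains 𝒰 n ↔
      ∀ σ ∈ (chainsEquiv E n c).support, ∃ U ∈ 𝒰, Set.range σ ⊆ U := by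
  constructor
  · intro hc
    have h : (chainsEquiv E n).toAddMonoidHom c ∈
        (Finsupp.supported ℤ ℤ {σ : Simplex n E | ∃ U ∈ 𝒰, Set.range σ ⊆ U}).toAddSubgroup := by
      refine map_mem_of_smallChains _ _ (fun σ U hU hσ => ?_) hc
      rw [AddEquiv.coe_toAddMonoidHom, chainsEquiv_gen]
      exact Finsupp.single_mem_supported ℤ _ ⟨U, hU, hσ⟩
    intro σ hσ
    exact (Finsupp.mem_supported ℤ _).1 h hσ
  · intro h
    rw [eq_sum_support c]
    refine AddSubgroup.sum_mem _ fun σ hσ => AddSubgroup.zsmul_mem _ ?_ _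
    obtain ⟨U, hU, hσU⟩ := h σ hσ
    exact gen_mem_smallChains hU hσU

theorem mem_smallChains_singleton_iff {A : Set E} {c : Chains E n} :
    c ∈ smallChains {A} n ↔ ∀ σ ∈ (chainsEquiv E n c).support, Set.range σ ⊆ A := by
  rw [mem_smallChains_iff]
  simp only [Set.mem_singleton_iff, exists_eq_left]

theorem smallChains_singleton_inf (A B : Set E) (n : ℕ) :
    smallChains {A} n ⊓ smallChains {B} n = smallChains {A ∩ B} n := by
  ext c
  rw [AddSubgroup.mem_inf, mem_smallChains_singleton_iff, mem_smallChains_singleton_iff,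
    mem_smallChains_singleton_iff]
  simp only [Set.subset_inter_iff]
  exact ⟨fun h σ hσ => ⟨h.1 σ hσ, h.2 σ hσ⟩, fun h => ⟨fun σ hσ => (h σ hσ).1, fun σ hσ => (h σ hσ).2⟩⟩

theorem smallChains_union (𝒰 𝒱 : Set (Set E)) (n : ℕ) :
    smallChains (𝒰 ∪ 𝒱) n = smallChains 𝒰 n ⊔ smallChains 𝒱 n := by
  unfold smallChains
  rw [← AddSubgroup.closure_union]
  congr 1
  ext c
  simp only [Set.mem_ofPred_eq, Set.mem_union]
  constructor
  · rintro ⟨σ, ⟨U, hU | hU, hσ⟩, rfl⟩
    · exact Or.inl ⟨σ, ⟨U, hU, hσ⟩, rfl⟩
    · exact Or.inr ⟨σ, ⟨U, hU, hσ⟩, rfl⟩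
  · rintro (⟨σ, ⟨U, hU, hσ⟩, rfl⟩ | ⟨σ, ⟨U, hU, hσ⟩, rfl⟩)
    · exact ⟨σ, ⟨U, Or.inl hU, hσ⟩, rfl⟩
    · exact ⟨σ, ⟨U, Or.inr hU, hσ⟩, rfl⟩

theorem smallChains_pair (A B : Set E) (n : ℕ) :
    smallChains {A, B} n = smallChains {A} n ⊔ smallChains {B} n := by
  rw [← smallChains_union]
  rfl

/-- The inclusion of a subset, as a continuous map. -/
def inclSet (A : Set E) : C(↥A, E) := ⟨Subtype.val, continuous_subtype_val⟩

theorem inclSet_injective (A : Set E) : Function.Injective (inclSet A) := Subtype.val_injective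

/-- The inclusion between two subsets, as a continuous map. -/
def inclSet₂ {A B : Set E} (h : A ⊆ B) : C(↥A, ↥B) :=
  ⟨Set.inclusion h, continuous_inclusion h⟩

theorem inclSet₂_injective {A B : Set E} (h : A ⊆ B) : Function.Injective (inclSet₂ h) :=
  Set.inclusion_injective h

theorem inclSet_comp_inclSet₂ {A B : Set E} (h : A ⊆ B) :
    (inclSet B).comp (inclSet₂ h) = inclSet A := rfl

/-- The corestriction of a simplex to a subset containing its image. -/
def Simplex.corestrict (σ : Simplex n E) (A : Set E) (h : Set.range σ ⊆ A) : Simplex n ↥A :=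
  ⟨fun t => ⟨σ t, h ⟨t, rfl⟩⟩, σ.continuous.subtype_mk _⟩

theorem inclSet_comp_corestrict (σ : Simplex n E) (A : Set E) (h : Set.range σ ⊆ A) :
    (inclSet A).comp (σ.corestrict A h) = σ := rfl

theorem chainMap_inclSet_mem (A : Set E) (c : Chains ↥A n) :
    chainMap (inclSet A) n c ∈ smallChains {A} n :=
  chainMap_mem_smallChains (inclSet A) (𝒰 := {Set.univ})
    (fun _ _ => ⟨A, Set.mem_singleton A, fun x _ => x.2⟩)
    (mem_smallChains_of_univ_mem (Set.mem_singleton _) c)

/-- The chains carried by `A` are the images of the chains of the subspace `A`. -/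
theorem smallChains_singleton_eq_range (A : Set E) (n : ℕ) :
    smallChains {A} n = (chainMap (inclSet A) n).range := by
  apply le_antisymm
  · intro c hc
    have : (AddMonoidHom.id _) c ∈ (chainMap (inclSet A) n).range := by
      refine map_mem_of_smallChains _ _ (fun σ U hU hσ => ?_) hc
      rw [Set.mem_singleton_iff.1 hU] at hσ
      exact ⟨gen (σ.corestrict A hσ), by rw [chainMap_gen, inclSet_comp_corestrict]; rfl⟩
    exact this
  · rintro _ ⟨c, rfl⟩
    exact chainMap_inclSet_mem A c

theorem mem_smallChains_singleton_iff_exists {A : Set E} {c : Chains E n} :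
    c ∈ smallChains {A} n ↔ ∃ c' : Chains ↥A n, chainMap (inclSet A) n c' = c := by
  rw [smallChains_singleton_eq_range]
  exact AddMonoidHom.mem_range

end

end Claimed.Open.R321
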