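import Claimed.Open.R321.RelTriple
import Claimed.Open.R321.SubSupport

/-!
# R321, package PD-ALG: transport of relative homology statements along an embedding

Let `ι : C(Y, E)` be a topological embedding.  Then `ι_# : S_*(Y) → S_*(E)` is injective and maps the chains
carried by `P ⊆ Y` onto the chains carried by `ι '' P`.  Hence `RelVanish P Q n`, `RelCells P Q d c` for
subsets of `Y` give `RelVanish (ι '' P) (ι '' Q) n`, `RelCells (ι '' P) (ι '' Q) d (ι_# ∘ c)`.
-/

set_option autoImplicit false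

namespace Claimed.Open.R321

open Topology

noncomputable section

variable {Y E : Type} [TopologicalSpace Y] [TopologicalSpace E]

theorem map_chainComb' {J : Type} {d d' : ℕ} (f : Chains Y d →+ Chains E d') (c : J → Chains Y d)
    (m : J →₀ ℤ) : f (chainComb c m) = chainComb (fun j => f (c j)) m := by
  induction m using Finsupp.induction_linear with
  | zero => simp
  | add a b ha hb => rw [map_add, map_add, map_add, ha, hb]
  | single j k => rw [chainComb_single, chainComb_single, map_zsmul]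

/-- A simplex of `E` whose image lies in `ι '' P` factors through `ι`. -/
theorem exists_simplex_factor {ι : C(Y, E)} (hι : IsEmbedding ι) {P : Set Y} {n : ℕ}
    (σ : Simplex n E) (hσ : Set.range σ ⊆ ι '' P) :
    ∃ σ' : Simplex n Y, Set.range σ' ⊆ P ∧ ι.comp σ' = σ := by
  have h : ∀ t, ∃ y, y ∈ P ∧ ι y = σ t := fun t => hσ ⟨t, rfl⟩
  choose f hfP hf using h
  have hcont : Continuous f := by
    rw [hι.continuous_iff]
    have : (ι ∘ f) = σ := funext hf
    rw [this]
    exact σ.continuous
  refine ⟨⟨f, hcont⟩, ?_, ?_⟩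
  · rintro _ ⟨t, rfl⟩
    exact hfP t
  · ext t
    exact hf t

/-- `ι_#` maps the chains carried by `P` onto the chains carried by `ι '' P`. -/
theorem exists_chainMap_eq_of_mem {ι : C(Y, E)} (hι : IsEmbedding ι) {P : Set Y} {n : ℕ}
    {c : Chains E n} (hc : c ∈ chainsIn (ι '' P) n) :
    ∃ c' ∈ chainsIn P n, chainMap ι n c' = c := by
  have : (AddMonoidHom.id (Chains E n)) c ∈ (chainsIn P n).map (chainMap ι n) := by
    refine map_mem_of_chainsIn _ _ (fun σ hσ => ?_) hc
    obtain ⟨σ', h1, h2⟩ := exists_simplex_factor hι σ hσ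
    exact ⟨gen σ', gen_mem_chainsIn h1, by rw [chainMap_gen, h2]; rfl⟩
  obtain ⟨c', h1, h2⟩ := this
  exact ⟨c', h1, h2⟩

/-- `ι_#` reflects the carrier. -/
theorem mem_chainsIn_of_chainMap_mem {ι : C(Y, E)} (hι : IsEmbedding ι) {P : Set Y} {n : ℕ}
    {c : Chains Y n} (hc : chainMap ι n c ∈ chainsIn (ι '' P) n) : c ∈ chainsIn P n := by
  obtain ⟨c', h1, h2⟩ := exists_chainMap_eq_of_mem hι hc
  rwa [← chainMap_injective ι hι.injective n h2]

theorem chainMap_mem_chainsIn_image (ι : C(Y, E)) {P : Set Y} {n : ℕ} {c : Chains Y n}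
    (hc : c ∈ chainsIn P n) : chainMap ι n c ∈ chainsIn (ι '' P) n :=
  chainMap_mem_chainsIn ι (Set.mapsTo_image ι P) hc

theorem IsRelCycle.chainMap_image (ι : C(Y, E)) {P Q : Set Y} {n : ℕ} {z : Chains Y n}
    (h : IsRelCycle P Q n z) : IsRelCycle (ι '' P) (ι '' Q) n (chainMap ι n z) := by
  cases n with
  | zero => exact chainMap_mem_chainsIn_image ι h
  | succ n =>
    exact ⟨chainMap_mem_chainsIn_image ι h.1, by
      rw [bd_chainMap]; exact chainMap_mem_chainsIn_image ι h.2⟩

theorem IsRelBoundary.chainMap_image (ι : C(Y, E)) {P Q : Set Y} {n : ℕ} {z : Chains Y n}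
    (h : IsRelBoundary P Q n z) : IsRelBoundary (ι '' P) (ι '' Q) n (chainMap ι n z) := by
  obtain ⟨y, hy, a, ha, rfl⟩ := h
  exact ⟨chainMap ι (n + 1) y, chainMap_mem_chainsIn_image ι hy, chainMap ι n a,
    chainMap_mem_chainsIn_image ι ha, by rw [map_add, bd_chainMap]⟩

/-- Every relative cycle of the image pair comes from a relative cycle. -/
theorem exists_isRelCycle_of_image {ι : C(Y, E)} (hι : IsEmbedding ι) {P Q : Set Y} {n : ℕ}
    {z : Chains E n} (h : IsRelCycle (ι '' P) (ι '' Q) n z) :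
    ∃ z', IsRelCycle P Q n z' ∧ chainMap ι n z' = z := by
  obtain ⟨z', h1, rfl⟩ := exists_chainMap_eq_of_mem hι h.mem
  refine ⟨z', ?_, rfl⟩
  cases n with
  | zero => exact h1
  | succ n =>
    refine ⟨h1, mem_chainsIn_of_chainMap_mem hι ?_⟩
    rw [← bd_chainMap]
    exact h.2

/-- `ι_#` reflects relative boundaries. -/
theorem isRelBoundary_of_image {ι : C(Y, E)} (hι : IsEmbedding ι) {P Q : Set Y} {n : ℕ}
    {z : Chains Y n} (h : IsRelBoundary (ι '' P) (ι '' Q) n (chainMap ι n z)) :
    IsRelBoundary P Q n z := by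
  obtain ⟨y, hy, a, ha, h1⟩ := h
  obtain ⟨y', hy', rfl⟩ := exists_chainMap_eq_of_mem hι hy
  obtain ⟨a', ha', rfl⟩ := exists_chainMap_eq_of_mem hι ha
  refine ⟨y', hy', a', ha', chainMap_injective ι hι.injective n ?_⟩
  rw [h1, map_add, bd_chainMap]

theorem RelVanish.image {ι : C(Y, E)} (hι : IsEmbedding ι) {P Q : Set Y} {n : ℕ}
    (h : RelVanish P Q n) : RelVanish (ι '' P) (ι '' Q) n := by
  intro z hz
  obtain ⟨z', h1, rfl⟩ := exists_isRelCycle_of_image hι hz
  exact (h z' h1).chainMap_image ι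

theorem RelCells.image {ι : C(Y, E)} (hι : IsEmbedding ι) {P Q : Set Y} {d : ℕ} {J : Type}
    {c : J → Chains Y d} (h : RelCells P Q d c) :
    RelCells (ι '' P) (ι '' Q) d (fun j => chainMap ι d (c j)) where
  isRelCycle j := (h.isRelCycle j).chainMap_image ι
  vanish n hn := (h.vanish n hn).image hι
  span z hz := by
    obtain ⟨z', h1, rfl⟩ := exists_isRelCycle_of_image hι hz
    obtain ⟨m, hm⟩ := h.span z' h1
    refine ⟨m, ?_⟩
    have := hm.chainMap_image ι
    rwa [map_sub, map_chainComb'] at this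
  indep m hm := by
    apply h.indep
    apply isRelBoundary_of_image hι
    rwa [map_chainComb']

end

end Claimed.Open.R321
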