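import Claimed.Open.R321.AttachDef

/-!
# Result 321: basic API for `Attach φ` (definitions in `Attach.lean`)

Quotient map, criteria for continuity / open / closed sets, `A` is closed in `Attach φ`, the open cells
are open, universal property.
-/

set_option autoImplicit false

set_option linter.unusedSectionVars false

namespace Claimed.Open.R321

open Metric Set Topology

noncomputable section

variable {A : Type} [TopologicalSpace A] {J : Type} {n : ℕ}

namespace Dsk

lemma norm_le (v : Dsk n) : ‖v.1‖ ≤ 1 := mem_closedBall_zero_iff.mp v.2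

/-- a boundary point of the disk, as a point of the sphere -/
def toSph (v : Dsk n) (h : ¬ ‖v.1‖ < 1) : Sph n :=
  ⟨v.1, mem_sphere_zero_iff_norm.mpr (le_antisymm v.norm_le (not_lt.mp h))⟩

/-- an interior point of the disk, as a point of the open ball -/
def toBal (v : Dsk n) (h : ‖v.1‖ < 1) : Bal n := ⟨v.1, mem_ball_zero_iff.mpr h⟩

end Dsk

lemma Sph.norm_eq (v : Sph n) : ‖v.1‖ = 1 := mem_sphere_zero_iff_norm.mp v.2

lemma Bal.norm_lt (v : Bal n) : ‖v.1‖ < 1 := mem_ball_zero_iff.mp v.2

lemma isClosedEmbedding_sphToDsk : IsClosedEmbedding (sphToDsk n) :=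
  IsClosedEmbedding.inclusion sphere_subset_closedBall
    (isClosed_sphere.preimage continuous_subtype_val)

lemma isOpenEmbedding_balToDsk : IsOpenEmbedding (balToDsk n) :=
  IsOpenEmbedding.inclusion ball_subset_closedBall
    (isOpen_ball.preimage continuous_subtype_val)

namespace Attach

variable {φ : J → C(Sph n, A)}

@[elab_as_elim]
lemma induction_on {P : Attach φ → Prop} (x : Attach φ) (h1 : ∀ a, P (base a))
    (h2 : ∀ j v, P (cell j v)) : P x := by
  rcases x with a | ⟨j, v⟩
  · exact h1 a
  · exact h2 j v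

lemma base_injective : Function.Injective (base : A → Attach φ) := fun _ _ h => by
  injection h

lemma base_ne_cell (a : A) (j : J) (v : Bal n) : (base a : Attach φ) ≠ cell j v := fun h => by
  injection h

lemma cell_ne_base (a : A) (j : J) (v : Bal n) : (cell j v : Attach φ) ≠ base a := fun h => by
  injection h

lemma cell_eq_cell_iff {j j' : J} {v v' : Bal n} :
    (cell j v : Attach φ) = cell j' v' ↔ j = j' ∧ v = v' := by
  constructor
  · intro h
    injection h with h1 h2
    exact ⟨h1, h2⟩
  · rintro ⟨rfl, rfl⟩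
    rfl

lemma char_of_lt (j : J) (v : Dsk n) (h : ‖v.1‖ < 1) : char φ j v = cell j (v.toBal h) :=
  dif_pos h

lemma char_of_not_lt (j : J) (v : Dsk n) (h : ¬ ‖v.1‖ < 1) :
    char φ j v = base (φ j (v.toSph h)) := dif_neg h

@[simp] lemma char_balToDsk (j : J) (v : Bal n) : char φ j (balToDsk n v) = cell j v :=
  char_of_lt j (balToDsk n v) v.norm_lt

@[simp] lemma char_sphToDsk (j : J) (v : Sph n) : char φ j (sphToDsk n v) = base (φ j v) :=
  char_of_not_lt j (sphToDsk n v) (by rw [not_lt]; exact v.norm_eq.ge)

@[simp] lemma q_inl (a : A) : q φ (Sum.inl a) = base a := rfl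

@[simp] lemma q_inr (j : J) (v : Dsk n) : q φ (Sum.inr ⟨j, v⟩) = char φ j v := rfl

lemma q_surjective : Function.Surjective (q φ) := by
  intro x
  induction x using induction_on with
  | h1 a => exact ⟨Sum.inl a, rfl⟩
  | h2 j v => exact ⟨Sum.inr ⟨j, balToDsk n v⟩, char_balToDsk j v⟩

lemma isQuotientMap_q : IsQuotientMap (q φ) := ⟨⟨rfl⟩, q_surjective⟩

lemma continuous_base : Continuous (base : A → Attach φ) :=
  isQuotientMap_q.continuous.comp continuous_inl

lemma continuous_char (j : J) : Continuous (char φ j) :=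
  isQuotientMap_q.continuous.comp (continuous_inr.comp continuous_sigmaMk)

/-- the characteristic map, bundled -/
def charMap (φ : J → C(Sph n, A)) (j : J) : C(Dsk n, Attach φ) := ⟨char φ j, continuous_char j⟩

/-- the inclusion of `A`, bundled -/
def baseMap (φ : J → C(Sph n, A)) : C(A, Attach φ) := ⟨base, continuous_base⟩

@[simp] lemma charMap_apply (j : J) (v : Dsk n) : charMap φ j v = char φ j v := rfl

@[simp] lemma baseMap_apply (a : A) : baseMap φ a = base a := rfl

lemma continuous_iff {Z : Type*} [TopologicalSpace Z] {f : Attach φ → Z} :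
    Continuous f ↔ Continuous (fun a => f (base a)) ∧ ∀ j, Continuous (fun v => f (char φ j v)) := by
  rw [isQuotientMap_q.continuous_iff, continuous_sum_dom, continuous_sigma_iff]
  rfl

lemma isOpen_iff {S : Set (Attach φ)} :
    IsOpen S ↔ IsOpen (base ⁻¹' S) ∧ ∀ j, IsOpen (char φ j ⁻¹' S) := by
  rw [← isQuotientMap_q.isOpen_preimage, isOpen_sum_iff, isOpen_sigma_iff]
  rfl

lemma isClosed_iff {S : Set (Attach φ)} :
    IsClosed S ↔ IsClosed (base ⁻¹' S) ∧ ∀ j, IsClosed (char φ j ⁻¹' S) := by
  rw [← isQuotientMap_q.isClosed_preimage, isClosed_sum_iff, isClosed_sigma_iff]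
  rfl

/-! ### `A` is closed in `Attach φ`, the open cells are open -/

lemma char_eq_base_iff {j : J} {v : Dsk n} {a : A} :
    char φ j v = base a ↔ ∃ w : Sph n, sphToDsk n w = v ∧ φ j w = a := by
  constructor
  · intro h
    by_cases hv : ‖v.1‖ < 1
    · rw [char_of_lt j v hv] at h
      exact absurd h (cell_ne_base _ _ _)
    · rw [char_of_not_lt j v hv] at h
      exact ⟨v.toSph hv, rfl, base_injective h⟩
  · rintro ⟨w, rfl, rfl⟩
    exact char_sphToDsk j w

lemma char_eq_cell_iff {j j' : J} {v : Dsk n} {w : Bal n} :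
    char φ j v = cell j' w ↔ j = j' ∧ balToDsk n w = v := by
  constructor
  · intro h
    by_cases hv : ‖v.1‖ < 1
    · rw [char_of_lt j v hv, cell_eq_cell_iff] at h
      exact ⟨h.1, by rw [← h.2]; rfl⟩
    · rw [char_of_not_lt j v hv] at h
      exact absurd h (base_ne_cell _ _ _)
  · rintro ⟨rfl, rfl⟩
    exact char_balToDsk j w

lemma preimage_char_image_base (j : J) (C : Set A) :
    char φ j ⁻¹' (base '' C) = sphToDsk n '' (φ j ⁻¹' C) := by
  ext v
  simp only [mem_preimage, mem_image]
  constructor
  · rintro ⟨a, ha, h⟩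
    obtain ⟨w, hw, rfl⟩ := char_eq_base_iff.mp h.symm
    exact ⟨w, ha, hw⟩
  · rintro ⟨w, hw, rfl⟩
    exact ⟨φ j w, hw, (char_sphToDsk j w).symm⟩

lemma preimage_char_image_cell_self (j : J) (W : Set (Bal n)) :
    char φ j ⁻¹' (cell j '' W) = balToDsk n '' W := by
  ext v
  simp only [mem_preimage, mem_image]
  constructor
  · rintro ⟨w, hw, h⟩
    exact ⟨w, hw, (char_eq_cell_iff.mp h.symm).2⟩
  · rintro ⟨w, hw, rfl⟩
    exact ⟨w, hw, (char_balToDsk j w).symm⟩

lemma preimage_char_image_cell_of_ne {j j' : J} (h : j ≠ j') (W : Set (Bal n)) :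
    char φ j ⁻¹' (cell j' '' W) = ∅ := by
  ext v
  simp only [mem_preimage, mem_image, mem_empty_iff_false, iff_false]
  rintro ⟨w, -, hw⟩
  exact h (char_eq_cell_iff.mp hw.symm).1

lemma preimage_base_image_cell (j : J) (W : Set (Bal n)) :
    (base : A → Attach φ) ⁻¹' (cell j '' W) = ∅ := by
  ext a
  simp only [mem_preimage, mem_image, mem_empty_iff_false, iff_false]
  rintro ⟨w, -, hw⟩
  exact cell_ne_base _ _ _ hw

lemma isClosedEmbedding_base : IsClosedEmbedding (base : A → Attach φ) := by
  refine IsClosedEmbedding.of_continuous_injective_isClosedMap continuous_base base_injective ?_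
  intro C hC
  rw [isClosed_iff]
  refine ⟨by rwa [preimage_image_eq _ base_injective], fun j => ?_⟩
  rw [preimage_char_image_base]
  exact isClosedEmbedding_sphToDsk.isClosedMap _ (hC.preimage (φ j).continuous)

lemma cell_injective (j : J) : Function.Injective (cell j : Bal n → Attach φ) :=
  fun _ _ h => (cell_eq_cell_iff.mp h).2

lemma continuous_cell (j : J) : Continuous (cell j : Bal n → Attach φ) := by
  have : (cell j : Bal n → Attach φ) = char φ j ∘ balToDsk n := by
    funext v
    exact (char_balToDsk j v).symm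
  rw [this]
  exact (continuous_char j).comp (balToDsk n).continuous

lemma isOpenEmbedding_cell (j : J) : IsOpenEmbedding (cell j : Bal n → Attach φ) := by
  refine IsOpenEmbedding.of_continuous_injective_isOpenMap (continuous_cell j) (cell_injective j) ?_
  intro W hW
  rw [isOpen_iff]
  refine ⟨by rw [preimage_base_image_cell]; exact isOpen_empty, fun j' => ?_⟩
  by_cases h : j' = j
  · subst h
    rw [preimage_char_image_cell_self]
    exact isOpenEmbedding_balToDsk.isOpenMap _ hW
  · rw [preimage_char_image_cell_of_ne h]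
    exact isOpen_empty

lemma isClosed_range_base : IsClosed (range (base : A → Attach φ)) :=
  isClosedEmbedding_base.isClosed_range

lemma isOpen_range_cell (j : J) : IsOpen (range (cell j : Bal n → Attach φ)) :=
  (isOpenEmbedding_cell j).isOpen_range

lemma compl_range_base : (range (base : A → Attach φ))ᶜ = ⋃ j, range (cell j) := by
  ext x
  induction x using induction_on with
  | h1 a => simp [cell_ne_base]
  | h2 j v =>
    simp only [mem_compl_iff, mem_range, mem_iUnion]
    exact ⟨fun _ => ⟨j, v, rfl⟩, fun _ ⟨a, ha⟩ => base_ne_cell _ _ _ ha⟩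

lemma disjoint_range_cell {j j' : J} (h : j ≠ j') :
    Disjoint (range (cell j : Bal n → Attach φ)) (range (cell j')) := by
  rw [Set.disjoint_left]
  rintro _ ⟨v, rfl⟩ ⟨w, hw⟩
  exact h (cell_eq_cell_iff.mp hw).1.symm

/-! ### The universal property -/

section Desc

variable {Z : Type*} [TopologicalSpace Z]

/-- The map out of `Attach φ` given by a map on `A` and compatible maps on the disks. -/
def descFun (f : A → Z) (g : J → Dsk n → Z) : Attach φ → Z
  | base a => f a
  | cell j v => g j (balToDsk n v)

@[simp] lemma descFun_base (f : A → Z) (g : J → Dsk n → Z) (a : A) :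
    descFun (φ := φ) f g (base a) = f a := rfl

@[simp] lemma descFun_cell (f : A → Z) (g : J → Dsk n → Z) (j : J) (v : Bal n) :
    descFun (φ := φ) f g (cell j v) = g j (balToDsk n v) := rfl

lemma descFun_char {f : A → Z} {g : J → Dsk n → Z}
    (h : ∀ j (w : Sph n), g j (sphToDsk n w) = f (φ j w)) (j : J) (v : Dsk n) :
    descFun f g (char φ j v) = g j v := by
  by_cases hv : ‖v.1‖ < 1
  · rw [char_of_lt j v hv]
    rfl
  · rw [char_of_not_lt j v hv, descFun_base, ← h]
    rfl

lemma continuous_descFun {f : A → Z} {g : J → Dsk n → Z} (hf : Continuous f)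
    (hg : ∀ j, Continuous (g j)) (h : ∀ j (w : Sph n), g j (sphToDsk n w) = f (φ j w)) :
    Continuous (descFun (φ := φ) f g) := by
  rw [continuous_iff]
  refine ⟨hf, fun j => ?_⟩
  have : (fun v => descFun (φ := φ) f g (char φ j v)) = g j := funext (descFun_char h j)
  rw [this]
  exact hg j

/-- The universal property of `Attach φ`. -/
def desc (f : C(A, Z)) (g : J → C(Dsk n, Z))
    (h : ∀ j (w : Sph n), g j (sphToDsk n w) = f (φ j w)) : C(Attach φ, Z) :=
  ⟨descFun f (fun j => g j), continuous_descFun f.continuous (fun j => (g j).continuous) h⟩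

@[simp] lemma desc_base (f : C(A, Z)) (g : J → C(Dsk n, Z))
    (h : ∀ j (w : Sph n), g j (sphToDsk n w) = f (φ j w)) (a : A) :
    desc f g h (base a) = f a := rfl

@[simp] lemma desc_char (f : C(A, Z)) (g : J → C(Dsk n, Z))
    (h : ∀ j (w : Sph n), g j (sphToDsk n w) = f (φ j w)) (j : J) (v : Dsk n) :
    desc f g h (char φ j v) = g j v := descFun_char h j v

@[simp] lemma desc_cell (f : C(A, Z)) (g : J → C(Dsk n, Z))
    (h : ∀ j (w : Sph n), g j (sphToDsk n w) = f (φ j w)) (j : J) (v : Bal n) :
    desc f g h (cell j v) = g j (balToDsk n v) := rfl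

/-- Two maps out of `Attach φ` agree if they agree on `A` and on the cells. -/
lemma hom_ext {f g : Attach φ → Z} (h1 : ∀ a, f (base a) = g (base a))
    (h2 : ∀ j v, f (char φ j v) = g (char φ j v)) : f = g := by
  funext x
  induction x using induction_on with
  | h1 a => exact h1 a
  | h2 j v =>
    rw [← char_balToDsk]
    exact h2 j _

end Desc

/-! ### `Attach φ` is an instance of `CellAttach` -/

/-- `Attach φ` is obtained from (the image of) `A` by attaching the cells `charMap φ j`. -/
def cellAttach (φ : J → C(Sph n, A)) :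
    CellAttach (Attach φ) (range (base : A → Attach φ)) n J where
  Φ := charMap φ
  sphere_mem j x hx := by
    have h : ¬ ‖x.1‖ < 1 := by rw [hx]; exact lt_irrefl _
    exact ⟨_, (char_of_not_lt j x h).symm⟩
  ball_not_mem j x hx := by
    rintro ⟨a, ha⟩
    rw [charMap_apply, char_of_lt j x hx] at ha
    exact base_ne_cell _ _ _ ha
  inj j j' x x' hx hx' h := by
    rw [charMap_apply, charMap_apply, char_of_lt j x hx, char_of_lt j' x' hx',
      cell_eq_cell_iff] at h
    exact ⟨h.1, Subtype.ext (congrArg (fun v : Bal n => v.1) h.2)⟩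
  cover z := by
    induction z using induction_on with
    | h1 a => exact Or.inl ⟨a, rfl⟩
    | h2 j v => exact Or.inr ⟨j, balToDsk n v, char_balToDsk j v⟩

@[simp] theorem cellAttach_Φ (φ : J → C(Sph n, A)) (j : J) :
    (cellAttach φ).Φ j = charMap φ j := rfl

/-- `Attach φ` has the weak topology (arbitrary index type `J`). -/
theorem cellAttach_isWeak (φ : J → C(Sph n, A)) : (cellAttach φ).IsWeak := by
  refine ⟨isClosed_range_base, fun C hC hj => ?_⟩
  rw [isClosed_iff]
  refine ⟨?_, hj⟩
  have : (base : A → Attach φ) ⁻¹' C = base ⁻¹' (C ∩ range base) := by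
    ext a
    simp
  rw [this]
  exact hC.preimage continuous_base

end Attach

end

end Claimed.Open.R321
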