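import Claimed.Open.R321.Statement

/-!
# R321, top of the proof: `Statement` from four propositions

* `PropA` (Euler–Poincaré): homotopy equivalent finite CW complexes have the same cellular Euler
  characteristic.
* `PropB` (van Kampen): the fundamental group of a finite path connected CW complex `Y` of dimension
  `≤ 2` has a finite presentation with `#generators - #relators = 1 - χ(Y)`.
* `PropC` (pure algebra; tower obstruction): the group
  `G = ⟨x₁,a₁,x₂,a₂,s | x₁a₁x₁⁻¹=a₁⁴, x₂a₂x₂⁻¹=a₂³, x₁=a₂¹³, s x₂ s⁻¹=a₁⁵, x₁², x₂³⟩`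
  has no finite presentation with more generators than relators.
* `PropD` (plus construction): there is a finite path connected CW complex `X` of dimension three
  with `χ(X) = 0`, `π₁(X) ≅ G`, satisfying the `D(2)` condition.

`statement_of_props` derives `Statement` from them, without `sorry`.
-/

set_option autoImplicit false

namespace Claimed.Open.R321

open Topology CategoryTheory

noncomputable section

/-! ### The cellular Euler characteristic -/

/-- The cellular Euler characteristic `∑ (-1)^n #(n-cells)` of a CW structure on `C ⊆ X`. -/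
def cellEuler {X : Type} [TopologicalSpace X] (C : Set X) [CWComplex C] : ℤ :=
  ∑ᶠ n : ℕ, (-1 : ℤ) ^ n * (Nat.card (RelCWComplex.cell C n) : ℤ)

/-! ### The groups `P` and `G` of the paper -/

namespace Wall

/-- the free group on `x₁, a₁, x₂, a₂, s` -/
abbrev F5 : Type := FreeGroup (Fin 5)

/-- generator `x₁` -/
def x1 : F5 := FreeGroup.of 0
/-- generator `a₁` -/
def a1 : F5 := FreeGroup.of 1
/-- generator `x₂` -/
def x2 : F5 := FreeGroup.of 2
/-- generator `a₂` -/
def a2 : F5 := FreeGroup.of 3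
/-- generator `s` -/
def s : F5 := FreeGroup.of 4

/-- `x₁ a₁ x₁⁻¹ a₁⁻⁴` -/
def r1 : F5 := x1 * a1 * x1⁻¹ * (a1 ^ 4)⁻¹
/-- `x₂ a₂ x₂⁻¹ a₂⁻³` -/
def r2 : F5 := x2 * a2 * x2⁻¹ * (a2 ^ 3)⁻¹
/-- `x₁ a₂⁻¹³` -/
def r3 : F5 := x1 * (a2 ^ 13)⁻¹
/-- `s x₂ s⁻¹ a₁⁻⁵` -/
def r4 : F5 := s * x2 * s⁻¹ * (a1 ^ 5)⁻¹
/-- `t₁ = x₁²` -/
def t1 : F5 := x1 ^ 2
/-- `t₂ = x₂³` -/
def t2 : F5 := x2 ^ 3

/-- the relators of `P` -/
def relsP : Fin 4 → F5 := ![r1, r2, r3, r4]
/-- the relators of `G = P / ⟨⟨t₁, t₂⟩⟩` -/
def relsG : Fin 6 → F5 := ![r1, r2, r3, r4, t1, t2]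

/-- The group `P` of equation (4.1) of the paper. -/
abbrev P : Type := PresentedGroup (Set.range relsP)
/-- The group `G = P / K`, `K` the normal closure of `t₁, t₂`. -/
abbrev G : Type := PresentedGroup (Set.range relsG)

end Wall

/-! ### The four propositions -/

/-- **Euler–Poincaré / homotopy invariance of the cellular Euler characteristic.** -/
def PropA : Prop :=
  ∀ (Z Z' : Type) [TopologicalSpace Z] [TopologicalSpace Z'] [T2Space Z] [T2Space Z']
    [CWComplex (Set.univ : Set Z)] [CWComplex (Set.univ : Set Z')]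
    [CWComplex.Finite (Set.univ : Set Z)] [CWComplex.Finite (Set.univ : Set Z')],
    Nonempty (ContinuousMap.HomotopyEquiv Z Z') →
      cellEuler (Set.univ : Set Z) = cellEuler (Set.univ : Set Z')

/-- **Presentation of the fundamental group of a finite 2-complex.** -/
def PropB : Prop :=
  ∀ (Y : Type) [TopologicalSpace Y] [T2Space Y] [CWComplex (Set.univ : Set Y)]
    [CWComplex.Finite (Set.univ : Set Y)] [PathConnectedSpace Y],
    (∀ m : ℕ, 2 < m → IsEmpty (RelCWComplex.cell (Set.univ : Set Y) m)) →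
    ∀ y : Y, ∃ (n m : ℕ) (rels : Fin m → FreeGroup (Fin n)),
      Nonempty (FundamentalGroup Y y ≃* PresentedGroup (Set.range rels)) ∧
        (n : ℤ) - (m : ℤ) = 1 - cellEuler (Set.univ : Set Y)

/-- **`G` has no finite presentation of positive deficiency.** -/
def PropC : Prop :=
  ∀ (n m : ℕ) (rels : Fin m → FreeGroup (Fin n)),
    Nonempty (Wall.G ≃* PresentedGroup (Set.range rels)) → n ≤ m

/-- **The finite plus construction applied to the presentation complex of `P`.** -/
def PropD : Prop :=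
  ∃ (X : Type) (_ : TopologicalSpace X) (_ : T2Space X) (_ : CWComplex (Set.univ : Set X)),
    CWComplex.Finite (Set.univ : Set X) ∧
    (∀ m : ℕ, 3 < m → IsEmpty (RelCWComplex.cell (Set.univ : Set X) m)) ∧
    Nonempty (RelCWComplex.cell (Set.univ : Set X) 3) ∧
    cellEuler (Set.univ : Set X) = 0 ∧
    PathConnectedSpace X ∧
    (∃ x : X, Nonempty (FundamentalGroup X x ≃* Wall.G)) ∧
    SatisfiesD2 X

/-! ### Glue -/

/-- A space homotopy equivalent to a path connected space is path connected. -/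
theorem pathConnectedSpace_of_homotopyEquiv {X Y : Type} [TopologicalSpace X] [TopologicalSpace Y]
    [PathConnectedSpace X] (h : ContinuousMap.HomotopyEquiv X Y) : PathConnectedSpace Y := by
  obtain ⟨x₀⟩ := (inferInstance : Nonempty X)
  obtain ⟨H⟩ := h.right_inv
  have key : ∀ y : Y, Joined (h.toFun x₀) y := by
    intro y
    have h1 : Joined (h.toFun x₀) (h.toFun (h.invFun y)) :=
      ⟨(PathConnectedSpace.somePath x₀ (h.invFun y)).map h.toFun.continuous⟩
    have h2 : Joined (h.toFun (h.invFun y)) y := ⟨H.evalAt y⟩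
    exact h1.trans h2
  exact ⟨⟨h.toFun x₀⟩, fun a b => (key a).symm.trans (key b)⟩

/-- A homotopy equivalence induces an isomorphism of fundamental groups. -/
def fundamentalGroupMulEquivOfHomotopyEquiv {X Y : Type} [TopologicalSpace X]
    [TopologicalSpace Y] (h : ContinuousMap.HomotopyEquiv X Y) (x : X) :
    FundamentalGroup X x ≃* FundamentalGroup Y (h.toFun x) :=
  (FundamentalGroupoidFunctor.equivOfHomotopyEquiv h).fullyFaithfulFunctor.mulEquivEnd
    (FundamentalGroupoid.mk x)

/-- **`Statement` follows from the four propositions.** -/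
theorem statement_of_props (hA : PropA) (hB : PropB) (hC : PropC) (hD : PropD) : Statement := by
  obtain ⟨X, tX, t2X, cwX, finX, dimX, cell3, chiX, pcX, ⟨x, ⟨eG⟩⟩, d2X⟩ := hD
  refine ⟨X, tX, ⟨t2X, cwX, finX, dimX, cell3⟩, inferInstance, d2X, ?_⟩
  rintro ⟨Y, tY, ⟨t2Y, cwY, finY, dimY⟩, ⟨h⟩⟩
  have pcY : PathConnectedSpace Y := pathConnectedSpace_of_homotopyEquiv h
  have chi : cellEuler (Set.univ : Set X) = cellEuler (Set.univ : Set Y) := hA X Y ⟨h⟩
  obtain ⟨n, m, rels, ⟨e⟩, hnm⟩ := hB Y dimY (h.toFun x)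
  have hle : n ≤ m :=
    hC n m rels ⟨(eG.symm.trans (fundamentalGroupMulEquivOfHomotopyEquiv h x)).trans e⟩
  rw [← chi, chiX] at hnm
  omega

end

end Claimed.Open.R321
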