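import Claimed.Open.R321.AttachT2
import Claimed.Open.R321.Top

/-!
# R321, ATTACH package, AT4: the CW structure of `Attach φ`

If `A` carries a finite CW structure (Mathlib's `Topology.CWComplex (univ : Set A)`) all of whose cells
have dimension `< d`, and `J` is finite, then `Attach φ` (`φ : J → C(Sph d, A)`) carries a finite
CW structure whose `n`-cells are the `n`-cells of `A`, plus `J` if `n = d`.

* `Attach.cwComplex φ hdim : CWComplex (univ : Set (Attach φ))`, `Attach.finite_cwComplex`;
* `HasCW A c`: `A` has a finite CW structure with exactly `c n` cells of dimension `n`;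
* `HasCW.attach`, `hasCW_of_finite_discrete`, `hasCW_unit`, `HasCW.summary`,
  `exists_cwComplex_of_tower`.
-/

set_option autoImplicit false

namespace Claimed.Open.R321

open Metric Set Topology

noncomputable section

variable {A : Type} [TopologicalSpace A] {J : Type} {d : ℕ}

namespace Attach

variable (φ : J → C(Sph d, A))

/-- the characteristic map of a cell of `A`, as a cell of `Attach φ` -/
def mapOld [CWComplex (univ : Set A)] (n : ℕ) (i : RelCWComplex.cell (univ : Set A) n) :
    PartialEquiv (Fin n → ℝ) (Attach φ) where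
  toFun x := base (RelCWComplex.map n i x)
  invFun z := match z with
    | base a => (RelCWComplex.map n i).symm a
    | cell _ _ => 0
  source := ball 0 1
  target := base '' (RelCWComplex.map n i).target
  map_source' x hx :=
    ⟨_, (RelCWComplex.map n i).map_source (by rwa [RelCWComplex.source_eq]), rfl⟩
  map_target' := by
    rintro _ ⟨a, ha, rfl⟩
    have := (RelCWComplex.map n i).map_target ha
    rwa [RelCWComplex.source_eq] at this
  left_inv' x hx := (RelCWComplex.map n i).left_inv (by rwa [RelCWComplex.source_eq])
  right_inv' := by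
    rintro _ ⟨a, ha, rfl⟩
    exact congrArg base ((RelCWComplex.map n i).right_inv ha)

open Classical in
/-- the characteristic map of a new cell -/
def mapNew (j : J) : PartialEquiv (Fin d → ℝ) (Attach φ) where
  toFun x := if h : x ∈ closedBall (0 : Fin d → ℝ) 1 then char φ j ⟨x, h⟩ else cell j ⟨0, by simp⟩
  invFun z := match z with
    | base _ => 0
    | cell _ x => x.1
  source := ball 0 1
  target := range (cell j)
  map_source' x hx := by
    refine ⟨⟨x, hx⟩, ?_⟩
    rw [dif_pos (ball_subset_closedBall hx)]
    exact (char_balToDsk j ⟨x, hx⟩).symm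
  map_target' := by
    rintro _ ⟨x, rfl⟩
    exact x.2
  left_inv' x hx := by
    rw [dif_pos (ball_subset_closedBall hx)]
    have : char φ j ⟨x, ball_subset_closedBall hx⟩ = cell j ⟨x, hx⟩ := char_balToDsk j ⟨x, hx⟩
    rw [this]
  right_inv' := by
    rintro _ ⟨x, rfl⟩
    show (if h : x.1 ∈ closedBall (0 : Fin d → ℝ) 1 then char φ j ⟨x.1, h⟩
      else cell j ⟨0, by simp⟩) = cell j x
    rw [dif_pos (ball_subset_closedBall x.2)]
    exact char_balToDsk j x

theorem mapNew_apply (j : J) (x : Dsk d) : mapNew φ j x.1 = char φ j x :=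
  dif_pos x.2

theorem mapOld_apply [CWComplex (univ : Set A)] (n : ℕ) (i : RelCWComplex.cell (univ : Set A) n)
    (x : Fin n → ℝ) : mapOld φ n i x = base (RelCWComplex.map n i x) := rfl

theorem mapOld_image [CWComplex (univ : Set A)] (n : ℕ) (i : RelCWComplex.cell (univ : Set A) n)
    (s : Set (Fin n → ℝ)) : mapOld φ n i '' s = base '' (RelCWComplex.map n i '' s) := by
  rw [image_image]
  rfl

theorem mapNew_image_ball (j : J) : mapNew φ j '' ball 0 1 = range (cell j) :=
  (mapNew φ j).image_source_eq_target

theorem mapNew_image_closedBall (j : J) : mapNew φ j '' closedBall 0 1 = range (char φ j) := by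
  ext z
  constructor
  · rintro ⟨x, hx, rfl⟩
    exact ⟨⟨x, hx⟩, (mapNew_apply φ j ⟨x, hx⟩).symm⟩
  · rintro ⟨x, rfl⟩
    exact ⟨x.1, x.2, mapNew_apply φ j x⟩

theorem continuousOn_mapOld [CWComplex (univ : Set A)] (n : ℕ)
    (i : RelCWComplex.cell (univ : Set A) n) : ContinuousOn (mapOld φ n i) (closedBall 0 1) :=
  continuous_base.comp_continuousOn (RelCWComplex.continuousOn n i)

theorem continuousOn_mapOld_symm [CWComplex (univ : Set A)] (n : ℕ)
    (i : RelCWComplex.cell (univ : Set A) n) :
    ContinuousOn (mapOld φ n i).symm (mapOld φ n i).target :=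
  (isClosedEmbedding_base (φ := φ)).isInducing.continuousOn_image_iff.2
    (RelCWComplex.continuousOn_symm n i)

theorem continuousOn_mapNew (j : J) : ContinuousOn (mapNew φ j) (closedBall 0 1) := by
  rw [continuousOn_iff_continuous_domRestrict]
  have : (closedBall (0 : Fin d → ℝ) 1).domRestrict (mapNew φ j) = char φ j := by
    ext x
    exact mapNew_apply φ j x
  rw [this]
  exact continuous_char j

theorem continuousOn_mapNew_symm (j : J) :
    ContinuousOn (mapNew φ j).symm (mapNew φ j).target := by
  have h : (mapNew φ j).target = cell j '' univ := image_univ.symm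
  rw [h, (isOpenEmbedding_cell (φ := φ) j).isInducing.continuousOn_image_iff]
  exact continuous_subtype_val.continuousOn

/-- the `n`-cells of `Attach φ` -/
def cwCell [CWComplex (univ : Set A)] (_ : J → C(Sph d, A)) (n : ℕ) : Type :=
  RelCWComplex.cell (univ : Set A) n ⊕ {_j : J // d = n}

/-- the characteristic maps of `Attach φ` -/
def cwMap [CWComplex (univ : Set A)] (n : ℕ) : cwCell φ n → PartialEquiv (Fin n → ℝ) (Attach φ)
  | Sum.inl i => mapOld φ n i
  | Sum.inr ⟨j, h⟩ => h ▸ mapNew φ j

/-- **The CW structure of `Attach φ`.** -/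
@[instance_reducible]
def cwComplex [CWComplex (univ : Set A)] [CWComplex.Finite (univ : Set A)] [Finite J]
    (hdim : ∀ m, d ≤ m → IsEmpty (RelCWComplex.cell (univ : Set A) m)) :
    CWComplex (univ : Set (Attach φ)) :=
  CWComplex.mkFinite (univ : Set (Attach φ)) (cwCell φ) (cwMap φ)
    (by
      rw [Filter.eventually_atTop]
      refine ⟨d + 1, fun m hm => ?_⟩
      have := hdim m (by omega)
      have : IsEmpty {_j : J // d = m} := ⟨fun x => by have := x.2; omega⟩
      exact instIsEmptySum)
    (fun n => by
      have : Finite (RelCWComplex.cell (univ : Set A) n) :=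
        RelCWComplex.FiniteType.finite_cell n
      exact Finite.instSum)
    (by
      rintro n (i | ⟨j, rfl⟩)
      · rfl
      · rfl)
    (by
      rintro n (i | ⟨j, rfl⟩)
      · exact continuousOn_mapOld φ n i
      · exact continuousOn_mapNew φ j)
    (by
      rintro n (i | ⟨j, rfl⟩)
      · exact continuousOn_mapOld_symm φ n i
      · exact continuousOn_mapNew_symm φ j)
    (by
      rintro ⟨n, c⟩ - ⟨m, c'⟩ - hne
      rcases c with i | ⟨j, rfl⟩ <;> rcases c' with i' | ⟨j', h'⟩
      · show Disjoint (mapOld φ n i '' ball 0 1) (mapOld φ m i' '' ball 0 1)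
        rw [mapOld_image, mapOld_image]
        refine (disjoint_image_iff base_injective).2 ?_
        apply RelCWComplex.disjoint_openCell_of_ne
        intro h
        apply hne
        obtain ⟨rfl, h2⟩ := Sigma.mk.inj_iff.1 h
        rw [eq_of_heq h2]
      · subst h'
        show Disjoint (mapOld φ n i '' ball 0 1) (mapNew φ j' '' ball 0 1)
        rw [mapOld_image, mapNew_image_ball, Set.disjoint_left]
        rintro _ ⟨a, -, rfl⟩ ⟨x, hx⟩
        exact cell_ne_base _ _ _ hx
      · show Disjoint (mapNew φ j '' ball 0 1) (mapOld φ m i' '' ball 0 1)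
        rw [mapOld_image, mapNew_image_ball, Set.disjoint_right]
        rintro _ ⟨a, -, rfl⟩ ⟨x, hx⟩
        exact cell_ne_base _ _ _ hx
      · subst h'
        show Disjoint (mapNew φ j '' ball 0 1) (mapNew φ j' '' ball 0 1)
        rw [mapNew_image_ball, mapNew_image_ball]
        apply disjoint_range_cell
        rintro rfl
        exact hne rfl)
    (by
      rintro n (i | ⟨j, rfl⟩)
      · obtain ⟨I, hI⟩ := CWComplex.mapsTo (C := (univ : Set A)) n i
        intro x hx
        have := hI hx
        simp only [mem_iUnion] at this ⊢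
        obtain ⟨m, hm, i', -, hi'⟩ := this
        refine ⟨m, hm, Sum.inl i', ?_⟩
        show mapOld φ n i x ∈ mapOld φ m i' '' closedBall 0 1
        rw [mapOld_image]
        exact mem_image_of_mem _ hi'
      · intro x hx
        have h1 : mapNew φ j x = base (φ j ⟨x, hx⟩) :=
          (mapNew_apply φ j ⟨x, sphere_subset_closedBall hx⟩).trans (char_sphToDsk j ⟨x, hx⟩)
        have h2 : φ j ⟨x, hx⟩ ∈ (univ : Set A) := mem_univ _
        rw [← CWComplex.union (C := (univ : Set A))] at h2
        simp only [mem_iUnion] at h2 ⊢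
        obtain ⟨m, i', hi'⟩ := h2
        have hm : m < d := by
          by_contra hcon
          exact (hdim m (not_lt.1 hcon)).false i'
        refine ⟨m, hm, Sum.inl i', ?_⟩
        show mapNew φ j x ∈ mapOld φ m i' '' closedBall 0 1
        rw [mapOld_image, h1]
        exact mem_image_of_mem _ hi')
    (by
      rw [eq_univ_iff_forall]
      intro z
      simp only [mem_iUnion]
      induction z using induction_on with
      | h1 a =>
        have h2 : a ∈ (univ : Set A) := mem_univ _
        rw [← CWComplex.union (C := (univ : Set A))] at h2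
        simp only [mem_iUnion] at h2
        obtain ⟨m, i', hi'⟩ := h2
        refine ⟨m, Sum.inl i', ?_⟩
        show base a ∈ mapOld φ m i' '' closedBall 0 1
        rw [mapOld_image]
        exact mem_image_of_mem _ hi'
      | h2 j v =>
        refine ⟨d, Sum.inr ⟨j, rfl⟩, ?_⟩
        show cell j v ∈ mapNew φ j '' closedBall 0 1
        rw [mapNew_image_closedBall]
        exact ⟨balToDsk d v, char_balToDsk j v⟩)

theorem finite_cwComplex [CWComplex (univ : Set A)] [CWComplex.Finite (univ : Set A)] [Finite J]
    (hdim : ∀ m, d ≤ m → IsEmpty (RelCWComplex.cell (univ : Set A) m)) :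
    letI := cwComplex φ hdim
    CWComplex.Finite (univ : Set (Attach φ)) :=
  letI := cwComplex φ hdim
  { eventually_isEmpty_cell := by
      rw [Filter.eventually_atTop]
      refine ⟨d + 1, fun m hm => ?_⟩
      have := hdim m (by omega)
      have : IsEmpty {_j : J // d = m} := ⟨fun x => by have := x.2; omega⟩
      exact (instIsEmptySum : IsEmpty (RelCWComplex.cell (univ : Set A) m ⊕ {_j : J // d = m}))
    finite_cell := fun n => by
      have : Finite (RelCWComplex.cell (univ : Set A) n) :=
        RelCWComplex.FiniteType.finite_cell n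
      exact (Finite.instSum : Finite (RelCWComplex.cell (univ : Set A) n ⊕ {_j : J // d = n})) }

theorem card_cwCell [CWComplex (univ : Set A)] [CWComplex.Finite (univ : Set A)] [Finite J]
    (n : ℕ) : Nat.card (cwCell φ n) =
      Nat.card (RelCWComplex.cell (univ : Set A) n) + if d = n then Nat.card J else 0 := by
  have : Finite (RelCWComplex.cell (univ : Set A) n) := RelCWComplex.FiniteType.finite_cell n
  rw [cwCell, Nat.card_sum]
  congr 1
  split_ifs with h
  · exact Nat.card_congr (Equiv.subtypeUnivEquiv fun _ => h)
  · have : IsEmpty {_j : J // d = n} := ⟨fun x => h x.2⟩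
    exact Nat.card_of_isEmpty

end Attach

/-! ### Cell counts -/

/-- `A` has a finite CW structure with exactly `c n` cells of dimension `n`. -/
def HasCW (A : Type) [TopologicalSpace A] (c : ℕ → ℕ) : Prop :=
  ∃ _ : CWComplex (univ : Set A), CWComplex.Finite (univ : Set A) ∧
    ∀ n, Nat.card (RelCWComplex.cell (univ : Set A) n) = c n

/-- Attaching finitely many `d`-cells to a finite CW complex of dimension `< d`. -/
theorem HasCW.attach [Finite J] {c : ℕ → ℕ} (h : HasCW A c) (hc : ∀ m, d ≤ m → c m = 0)
    (φ : J → C(Sph d, A)) :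
    HasCW (Attach φ) (fun k => c k + if k = d then Nat.card J else 0) := by
  obtain ⟨cw, fin, hcard⟩ := h
  have hdim : ∀ m, d ≤ m → IsEmpty (RelCWComplex.cell (univ : Set A) m) := by
    intro m hm
    have : Finite (RelCWComplex.cell (univ : Set A) m) := RelCWComplex.FiniteType.finite_cell m
    exact (Nat.card_eq_zero.1 ((hcard m).trans (hc m hm))).resolve_right (not_infinite_iff_finite.2 this)
  refine ⟨Attach.cwComplex φ hdim, Attach.finite_cwComplex φ hdim, fun n => ?_⟩
  show _ = c n + if n = d then Nat.card J else 0
  rw [← hcard n]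
  refine (Attach.card_cwCell φ n).trans ?_
  simp only [eq_comm]

/-- A finite discrete space is a finite CW complex of dimension `0`. -/
theorem hasCW_of_finite_discrete (F : Type) [TopologicalSpace F] [DiscreteTopology F] [Finite F] :
    HasCW F (fun n => if n = 0 then Nat.card F else 0) := by
  refine ⟨CWComplex.ofDiscreteTopology, ?_, ?_⟩
  · exact
      { eventually_isEmpty_cell := by
          rw [Filter.eventually_atTop]
          refine ⟨1, fun m hm => ?_⟩
          obtain ⟨m, rfl⟩ : ∃ k, m = k + 1 := ⟨m - 1, by omega⟩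
          exact (inferInstance : IsEmpty PEmpty.{1})
        finite_cell := fun n => by
          cases n with
          | zero => exact (inferInstance : Finite (univ : Set F))
          | succ n => exact (inferInstance : Finite PEmpty.{1}) }
  · intro n
    cases n with
    | zero =>
      show _ = if 0 = 0 then Nat.card F else 0
      rw [if_pos rfl]
      exact Nat.card_congr (Equiv.Set.univ F)
    | succ n =>
      show _ = if n + 1 = 0 then Nat.card F else 0
      rw [if_neg (Nat.succ_ne_zero n)]
      exact (Nat.card_of_isEmpty : Nat.card PEmpty.{1} = 0)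

/-- The one point space. -/
theorem hasCW_unit : HasCW Unit (fun k => if k = 0 then 1 else 0) := by
  simpa using hasCW_of_finite_discrete Unit

/-- What `PropD` needs from the cell counts. -/
theorem HasCW.summary {X : Type} [TopologicalSpace X] {c : ℕ → ℕ} (h : HasCW X c)
    (N : ℕ) (hN : ∀ m, N < m → c m = 0) :
    ∃ _ : CWComplex (univ : Set X), CWComplex.Finite (univ : Set X) ∧
      (∀ m, N < m → IsEmpty (RelCWComplex.cell (univ : Set X) m)) ∧
      (c N ≠ 0 → Nonempty (RelCWComplex.cell (univ : Set X) N)) ∧
      cellEuler (univ : Set X) = ∑ n ∈ Finset.range (N + 1), (-1 : ℤ) ^ n * (c n : ℤ) := by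
  obtain ⟨cw, fin, hcard⟩ := h
  refine ⟨cw, fin, ?_, ?_, ?_⟩
  · intro m hm
    have : Finite (RelCWComplex.cell (univ : Set X) m) := RelCWComplex.FiniteType.finite_cell m
    exact (Nat.card_eq_zero.1 ((hcard m).trans (hN m hm))).resolve_right
      (not_infinite_iff_finite.2 this)
  · intro hpos
    by_contra hcon
    rw [not_nonempty_iff] at hcon
    exact hpos ((hcard N).symm.trans Nat.card_of_isEmpty)
  · rw [cellEuler, finsum_eq_sum_of_support_subset]
    · exact Finset.sum_congr rfl fun n _ => by rw [hcard n]
    · intro n hn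
      simp only [Function.mem_support, hcard n] at hn
      simp only [Finset.coe_range, mem_Iio]
      by_contra hcon
      exact hn (by rw [hN n (by omega)]; simp)

/-- The CW structure of a three-stage tower of attachments over a point: this is the form used for
the space `X` of `PropD`. -/
theorem exists_cwComplex_of_tower {J₁ J₂ J₃ : Type} [Finite J₁] [Finite J₂] [Finite J₃]
    [Nonempty J₃] (φ₁ : J₁ → C(Sph 1, Unit)) (φ₂ : J₂ → C(Sph 2, Attach φ₁))
    (φ₃ : J₃ → C(Sph 3, Attach φ₂)) :
    ∃ _ : CWComplex (univ : Set (Attach φ₃)), CWComplex.Finite (univ : Set (Attach φ₃)) ∧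
      (∀ m, 3 < m → IsEmpty (RelCWComplex.cell (univ : Set (Attach φ₃)) m)) ∧
      Nonempty (RelCWComplex.cell (univ : Set (Attach φ₃)) 3) ∧
      cellEuler (univ : Set (Attach φ₃)) =
        1 - (Nat.card J₁ : ℤ) + (Nat.card J₂ : ℤ) - (Nat.card J₃ : ℤ) := by
  have h0 := hasCW_of_finite_discrete Unit
  have h1 := h0.attach (d := 1) (fun m hm => by simp; omega) φ₁
  have h2 := h1.attach (d := 2) (fun m hm => by
    have e1 : m ≠ 0 := by omega
    have e2 : m ≠ 1 := by omega
    simp [e1, e2]) φ₂
  have h3 := h2.attach (d := 3) (fun m hm => by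
    have e1 : m ≠ 0 := by omega
    have e2 : m ≠ 1 := by omega
    have e3 : m ≠ 2 := by omega
    simp [e1, e2, e3]) φ₃
  obtain ⟨cw, fin, hd, hne, hχ⟩ := h3.summary 3 (fun m hm => by
    have e1 : m ≠ 0 := by omega
    have e2 : m ≠ 1 := by omega
    have e3 : m ≠ 2 := by omega
    have e4 : m ≠ 3 := by omega
    simp [e1, e2, e3, e4])
  refine ⟨cw, fin, hd, hne (by
    have : Nat.card J₃ ≠ 0 := Nat.card_pos.ne'
    simpa using this), ?_⟩
  rw [hχ]
  simp [Finset.sum_range_succ]
  ring

end

end Claimed.Open.R321
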