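import Claimed.Open.R321.AttachMap

/-!
# Result 321: group actions on `Attach φ` and quotient covering maps (package AT6 = COV)

Owner: helper272.

* for `[MulAction Γ A'] [MulAction Γ J']` there is an (unconditional) instance
  `MulAction Γ (Attach φ')`: `γ • base a = base (γ • a)`, `γ • cell j v = cell (γ • j) v`;
* `Attach.IsEquivariant Γ φ'`: `φ' (γ • j) w = γ • φ' j w`; then `γ • char φ' j v = char φ' (γ • j) v`
  and the action is continuous (`Attach.continuousConstSMul`);
* `Attach.isQuotientCoveringMap_map`: **COV**, general form;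
* `CovIdx Γ J` (`= Γ × J`, `γ • (γ', j) = (γ * γ', j)`), `Attach.liftFam Γ ψ (γ, j) = γ • ψ j`,
  `Attach.covMap hp0 hψ : C(Attach (liftFam Γ ψ), Attach φ)` and
  `Attach.isQuotientCoveringMap_covMap`: **COV**, the form used in `PropD`;
* `Attach.subMap Γ ψ inc`: the equivariant closed embedding given by a subfamily of the cells.
-/

set_option autoImplicit false

set_option linter.unusedSectionVars false

namespace Claimed.Open.R321

open Metric Set Topology

noncomputable section

namespace Attach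

section Action

variable {Γ : Type} [Group Γ] {A' : Type} [TopologicalSpace A'] [MulAction Γ A']
  {J' : Type} [MulAction Γ J'] {n : ℕ} {φ' : J' → C(Sph n, A')}

instance instSMul : SMul Γ (Attach φ') := ⟨fun γ => mapFun φ' φ' (γ • ·) (γ • ·)⟩

lemma smul_def (γ : Γ) (x : Attach φ') : γ • x = mapFun φ' φ' (γ • ·) (γ • ·) x := rfl

@[simp] lemma smul_base (γ : Γ) (a : A') : γ • (base a : Attach φ') = base (γ • a) := rfl

@[simp] lemma smul_cell (γ : Γ) (j : J') (v : Bal n) :
    γ • (cell j v : Attach φ') = cell (γ • j) v := rfl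

instance instMulAction : MulAction Γ (Attach φ') where
  one_smul x := by
    induction x using induction_on with
    | h1 a => rw [smul_base, one_smul]
    | h2 j v => rw [smul_cell, one_smul]
  mul_smul g h x := by
    induction x using induction_on with
    | h1 a => rw [smul_base, smul_base, smul_base, mul_smul]
    | h2 j v => rw [smul_cell, smul_cell, smul_cell, mul_smul]

variable (Γ) in
/-- The family of attaching maps is equivariant. -/
def IsEquivariant (φ' : J' → C(Sph n, A')) : Prop :=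
  ∀ (γ : Γ) (j : J') (w : Sph n), φ' (γ • j) w = γ • φ' j w

lemma smul_char (hφ : IsEquivariant Γ φ') (γ : Γ) (j : J') (v : Dsk n) :
    γ • char φ' j v = char φ' (γ • j) v :=
  mapFun_char (hφ γ) j v

/-- The action on `Attach φ'` is continuous. -/
theorem continuousConstSMul [ContinuousConstSMul Γ A'] (hφ : IsEquivariant Γ φ') :
    ContinuousConstSMul Γ (Attach φ') :=
  ⟨fun γ => continuous_mapFun (continuous_const_smul γ) (hφ γ)⟩

lemma base_mem_orbit_base {a b : A'} :
    (base a : Attach φ') ∈ MulAction.orbit Γ (base b : Attach φ') ↔ a ∈ MulAction.orbit Γ b := by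
  constructor
  · rintro ⟨γ, hγ⟩
    exact ⟨γ, base_injective hγ⟩
  · rintro ⟨γ, rfl⟩
    exact ⟨γ, rfl⟩

lemma cell_mem_orbit_cell {j j' : J'} {v v' : Bal n} :
    (cell j v : Attach φ') ∈ MulAction.orbit Γ (cell j' v' : Attach φ') ↔
      j ∈ MulAction.orbit Γ j' ∧ v = v' := by
  constructor
  · rintro ⟨γ, hγ⟩
    obtain ⟨h1, h2⟩ := cell_eq_cell_iff.mp hγ
    exact ⟨⟨γ, h1⟩, h2.symm⟩
  · rintro ⟨⟨γ, rfl⟩, rfl⟩
    exact ⟨γ, rfl⟩

lemma base_notMem_orbit_cell {a : A'} {j : J'} {v : Bal n} :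
    (base a : Attach φ') ∉ MulAction.orbit Γ (cell j v : Attach φ') := by
  rintro ⟨γ, hγ⟩
  exact cell_ne_base _ _ _ hγ

lemma cell_notMem_orbit_base {a : A'} {j : J'} {v : Bal n} :
    (cell j v : Attach φ') ∉ MulAction.orbit Γ (base a : Attach φ') := by
  rintro ⟨γ, hγ⟩
  exact base_ne_cell _ _ _ hγ

/-- Equivariant maps induce equivariant maps. -/
lemma mapFun_smul {B' : Type} [TopologicalSpace B'] [MulAction Γ B'] {K' : Type} [MulAction Γ K']
    {χ' : K' → C(Sph n, B')} {f : A' → B'} {ι : J' → K'} (hf : ∀ (γ : Γ) a, f (γ • a) = γ • f a)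
    (hι : ∀ (γ : Γ) j, ι (γ • j) = γ • ι j) (γ : Γ) (x : Attach φ') :
    mapFun φ' χ' f ι (γ • x) = γ • mapFun φ' χ' f ι x := by
  induction x using induction_on with
  | h1 a => rw [smul_base, mapFun_base, mapFun_base, smul_base, hf]
  | h2 j v => rw [smul_cell, mapFun_cell, mapFun_cell, smul_cell, hι]

/-- **COV**, general form: a quotient covering map `p0 : A' → A` with group `Γ`, an equivariant
family `φ'` of attaching maps indexed by a free `Γ`-set `J'` with quotient `π : J' → J`, lifting the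
family `φ`: then `Attach φ' → Attach φ` is a quotient covering map with group `Γ`. -/
theorem isQuotientCoveringMap_map {A : Type} [TopologicalSpace A] {J : Type}
    {φ : J → C(Sph n, A)} {p0 : C(A', A)} (hp0 : IsQuotientCoveringMap p0 Γ) {π : J' → J}
    (hπ : Function.Surjective π) (hπ' : ∀ j₁ j₂, π j₁ = π j₂ ↔ j₁ ∈ MulAction.orbit Γ j₂)
    (hfree : ∀ (γ : Γ) (j : J'), γ • j = j → γ = 1) (hφ : IsEquivariant Γ φ')
    (h : ∀ j w, φ (π j) w = p0 (φ' j w)) : IsQuotientCoveringMap (map p0 π h) Γ := by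
  have hc : ContinuousConstSMul Γ A' := hp0.toContinuousConstSMul
  refine ⟨isQuotientMap_map p0 π h hp0.isOpenQuotientMap.isOpenMap hp0.surjective hπ,
    continuousConstSMul hφ, ?_, ?_⟩
  · intro e₁ e₂
    induction e₁ using induction_on with
    | h1 a =>
      induction e₂ using induction_on with
      | h1 b =>
        rw [map_base, map_base, base_mem_orbit_base, ← hp0.apply_eq_iff_mem_orbit]
        exact ⟨fun h => base_injective h, fun h => by rw [h]⟩
      | h2 j v =>
        rw [map_base, map_cell]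
        exact ⟨fun h => absurd h (base_ne_cell _ _ _), fun h => absurd h base_notMem_orbit_cell⟩
    | h2 j v =>
      induction e₂ using induction_on with
      | h1 b =>
        rw [map_base, map_cell]
        exact ⟨fun h => absurd h (cell_ne_base _ _ _), fun h => absurd h cell_notMem_orbit_base⟩
      | h2 j' v' =>
        rw [map_cell, map_cell, cell_mem_orbit_cell, cell_eq_cell_iff, hπ']
  · intro e
    induction e using induction_on with
    | h1 a =>
      obtain ⟨U, hU, hdisj⟩ := hp0.disjoint a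
      refine ⟨collar φ' (interior U), (isOpen_collar isOpen_interior).mem_nhds
        (base_mem_collar.mpr (mem_interior_iff_mem_nhds.mpr hU)), ?_⟩
      rintro γ ⟨_, ⟨x, hx, rfl⟩, hx'⟩
      change γ • x ∈ _ at hx'
      induction x using induction_on with
      | h1 b =>
        rw [smul_base] at hx'
        exact hdisj γ ⟨γ • b, ⟨b, interior_subset (base_mem_collar.mp hx), rfl⟩,
          interior_subset (base_mem_collar.mp hx')⟩
      | h2 j v =>
        rw [smul_cell] at hx'
        obtain ⟨h0, h1⟩ := cell_mem_collar.mp hx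
        obtain ⟨_, h2⟩ := cell_mem_collar.mp hx'
        rw [hφ] at h2
        exact hdisj γ ⟨_, ⟨_, interior_subset h1, rfl⟩, interior_subset h2⟩
    | h2 j v =>
      refine ⟨range (cell j), (isOpen_range_cell j).mem_nhds ⟨v, rfl⟩, ?_⟩
      rintro γ ⟨_, ⟨_, ⟨w, rfl⟩, rfl⟩, ⟨w', hw'⟩⟩
      change cell j w' = γ • cell j w at hw'
      rw [smul_cell] at hw'
      exact hfree γ j (cell_eq_cell_iff.mp hw').1.symm

end Action

end Attach

/-! ### The index set `Γ × J` -/

/-- The free `Γ`-set `Γ × J`: `γ • (γ', j) = (γ * γ', j)`. -/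
def CovIdx (Γ J : Type) : Type := Γ × J

namespace CovIdx

variable {Γ J J₁ : Type}

/-- constructor -/
def mk (γ : Γ) (j : J) : CovIdx Γ J := (γ, j)

/-- the group component -/
def fst (x : CovIdx Γ J) : Γ := Prod.fst x

/-- the index component -/
def snd (x : CovIdx Γ J) : J := Prod.snd x

@[simp] lemma fst_mk (γ : Γ) (j : J) : (mk γ j).fst = γ := rfl

@[simp] lemma snd_mk (γ : Γ) (j : J) : (mk γ j).snd = j := rfl

@[simp] lemma mk_fst_snd (x : CovIdx Γ J) : mk x.fst x.snd = x := rfl

@[ext] lemma ext {x y : CovIdx Γ J} (h1 : x.fst = y.fst) (h2 : x.snd = y.snd) : x = y :=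
  Prod.ext h1 h2

lemma mk_eq_mk_iff {γ γ' : Γ} {j j' : J} : mk γ j = mk γ' j' ↔ γ = γ' ∧ j = j' :=
  Prod.mk_inj

lemma snd_surjective [Nonempty Γ] : Function.Surjective (snd : CovIdx Γ J → J) := fun j =>
  ⟨mk (Classical.arbitrary Γ) j, rfl⟩

/-- functoriality in `J` -/
def map (Γ : Type) (inc : J₁ → J) (x : CovIdx Γ J₁) : CovIdx Γ J := mk x.fst (inc x.snd)

@[simp] lemma map_mk (inc : J₁ → J) (γ : Γ) (j : J₁) : map Γ inc (mk γ j) = mk γ (inc j) := rfl

lemma map_injective {inc : J₁ → J} (h : Function.Injective inc) :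
    Function.Injective (map Γ inc) := by
  intro x y hxy
  have h1 : (map Γ inc x).fst = (map Γ inc y).fst := congrArg fst hxy
  have h2 : (map Γ inc x).snd = (map Γ inc y).snd := congrArg snd hxy
  exact ext h1 (h h2)

variable [Group Γ]

instance : MulAction Γ (CovIdx Γ J) where
  smul γ x := mk (γ * x.fst) x.snd
  one_smul _ := ext (one_mul _) rfl
  mul_smul _ _ _ := ext (mul_assoc _ _ _) rfl

@[simp] lemma smul_mk (γ γ' : Γ) (j : J) : γ • mk γ' j = mk (γ * γ') j := rfl

@[simp] lemma fst_smul (γ : Γ) (x : CovIdx Γ J) : (γ • x).fst = γ * x.fst := rfl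

@[simp] lemma snd_smul (γ : Γ) (x : CovIdx Γ J) : (γ • x).snd = x.snd := rfl

lemma eq_one_of_smul_eq (γ : Γ) (x : CovIdx Γ J) (h : γ • x = x) : γ = 1 := by
  have := congrArg fst h
  rwa [fst_smul, mul_eq_right] at this

lemma snd_eq_snd_iff (x y : CovIdx Γ J) : x.snd = y.snd ↔ x ∈ MulAction.orbit Γ y := by
  constructor
  · intro h
    exact ⟨x.fst * y.fst⁻¹, ext (by simp) h.symm⟩
  · rintro ⟨γ, rfl⟩
    rfl

lemma map_smul (inc : J₁ → J) (γ : Γ) (x : CovIdx Γ J₁) : map Γ inc (γ • x) = γ • map Γ inc x := rfl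

end CovIdx

namespace Attach

section Cov

variable {Γ : Type} [Group Γ] {A' : Type} [TopologicalSpace A'] [MulAction Γ A']
  [ContinuousConstSMul Γ A'] {J J₁ : Type} {n : ℕ}

variable (Γ) in
/-- The equivariant family `(γ, j) ↦ γ • ψ j` generated by the family `ψ`. -/
def liftFam (ψ : J → C(Sph n, A')) (x : CovIdx Γ J) : C(Sph n, A') :=
  ⟨fun w => x.fst • ψ x.snd w, (continuous_const_smul x.fst).comp (ψ x.snd).continuous⟩

@[simp] lemma liftFam_apply (ψ : J → C(Sph n, A')) (x : CovIdx Γ J) (w : Sph n) :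
    liftFam Γ ψ x w = x.fst • ψ x.snd w := rfl

lemma liftFam_mk (ψ : J → C(Sph n, A')) (γ : Γ) (j : J) (w : Sph n) :
    liftFam Γ ψ (CovIdx.mk γ j) w = γ • ψ j w := rfl

lemma isEquivariant_liftFam (ψ : J → C(Sph n, A')) : IsEquivariant Γ (liftFam Γ ψ) :=
  fun γ x w => mul_smul γ x.fst (ψ x.snd w)

instance instContinuousConstSMul_liftFam (ψ : J → C(Sph n, A')) :
    ContinuousConstSMul Γ (Attach (liftFam Γ ψ)) :=
  continuousConstSMul (isEquivariant_liftFam ψ)

lemma smul_char_liftFam (ψ : J → C(Sph n, A')) (γ : Γ) (x : CovIdx Γ J) (v : Dsk n) :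
    γ • char (liftFam Γ ψ) x v = char (liftFam Γ ψ) (γ • x) v :=
  smul_char (isEquivariant_liftFam ψ) γ x v

variable {A : Type} [TopologicalSpace A] {φ : J → C(Sph n, A)} {p0 : C(A', A)}
  {ψ : J → C(Sph n, A')}

/-- The map `Attach (liftFam Γ ψ) → Attach φ` over `p0`, for lifts `ψ j` of the `φ j`. -/
def covMap (hp0 : IsQuotientCoveringMap p0 Γ) (hψ : ∀ j w, p0 (ψ j w) = φ j w) :
    C(Attach (liftFam Γ ψ), Attach φ) :=
  map p0 CovIdx.snd fun x w => by rw [liftFam_apply, hp0.map_smul, hψ]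

@[simp] lemma covMap_base (hp0 : IsQuotientCoveringMap p0 Γ) (hψ : ∀ j w, p0 (ψ j w) = φ j w)
    (a : A') : covMap hp0 hψ (base a) = base (p0 a) := rfl

@[simp] lemma covMap_cell (hp0 : IsQuotientCoveringMap p0 Γ) (hψ : ∀ j w, p0 (ψ j w) = φ j w)
    (x : CovIdx Γ J) (v : Bal n) : covMap hp0 hψ (cell x v) = cell x.snd v := rfl

@[simp] lemma covMap_char (hp0 : IsQuotientCoveringMap p0 Γ) (hψ : ∀ j w, p0 (ψ j w) = φ j w)
    (x : CovIdx Γ J) (v : Dsk n) : covMap hp0 hψ (char (liftFam Γ ψ) x v) = char φ x.snd v :=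
  map_char _ _ _ x v

/-- **COV**: `Attach (liftFam Γ ψ) → Attach φ` is a quotient covering map with group `Γ`. -/
theorem isQuotientCoveringMap_covMap (hp0 : IsQuotientCoveringMap p0 Γ)
    (hψ : ∀ j w, p0 (ψ j w) = φ j w) : IsQuotientCoveringMap (covMap hp0 hψ) Γ :=
  isQuotientCoveringMap_map hp0 CovIdx.snd_surjective CovIdx.snd_eq_snd_iff
    CovIdx.eq_one_of_smul_eq (isEquivariant_liftFam ψ) _

/-! ### Subfamilies -/

variable (Γ) in
/-- The inclusion of the space obtained by attaching only the cells of a subfamily. -/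
def subMap (ψ : J → C(Sph n, A')) (inc : J₁ → J) :
    C(Attach (liftFam Γ (ψ ∘ inc)), Attach (liftFam Γ ψ)) :=
  map (ContinuousMap.id A') (CovIdx.map Γ inc) fun _ _ => rfl

@[simp] lemma subMap_base (ψ : J → C(Sph n, A')) (inc : J₁ → J) (a : A') :
    subMap Γ ψ inc (base a) = base a := rfl

@[simp] lemma subMap_cell (ψ : J → C(Sph n, A')) (inc : J₁ → J) (x : CovIdx Γ J₁) (v : Bal n) :
    subMap Γ ψ inc (cell x v) = cell (CovIdx.map Γ inc x) v := rfl

@[simp] lemma subMap_char (ψ : J → C(Sph n, A')) (inc : J₁ → J) (x : CovIdx Γ J₁) (v : Dsk n) :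
    subMap Γ ψ inc (char (liftFam Γ (ψ ∘ inc)) x v) = char (liftFam Γ ψ) (CovIdx.map Γ inc x) v :=
  map_char _ _ _ x v

lemma subMap_smul (ψ : J → C(Sph n, A')) (inc : J₁ → J) (γ : Γ)
    (x : Attach (liftFam Γ (ψ ∘ inc))) : subMap Γ ψ inc (γ • x) = γ • subMap Γ ψ inc x :=
  mapFun_smul (fun _ _ => rfl) (CovIdx.map_smul inc) γ x

theorem isClosedEmbedding_subMap (ψ : J → C(Sph n, A')) {inc : J₁ → J}
    (hinc : Function.Injective inc) : IsClosedEmbedding (subMap Γ ψ inc) :=
  isClosedEmbedding_map _ _ _ IsClosedEmbedding.id (CovIdx.map_injective hinc)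

end Cov

end Attach

end

end Claimed.Open.R321
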