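import Claimed.Open.R321.AttachT2

/-!
# Result 321: functoriality of `Attach φ`

Owner: helper272.

* `Attach.mapFun φ φ' f ι`, `Attach.map f ι h : C(Attach φ, Attach φ')` for `f : C(A, A')`,
  `ι : J → J'` with `φ' (ι j) w = f (φ j w)`;
* `Attach.isClosedEmbedding_map`: closed embedding if `f` is one and `ι` is injective
  (attaching a subfamily of cells: `f = id`);
* `Attach.isQuotientMap_map`: quotient map if `f` is an open surjection and `ι` is surjective;
* `Attach.pathConnectedSpace`: attaching cells of dimension `≥ 1` to a path connected space.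
-/

set_option autoImplicit false

set_option linter.unusedSectionVars false

namespace Claimed.Open.R321

open Metric Set Topology

noncomputable section

namespace Attach

variable {A A' A'' : Type} [TopologicalSpace A] [TopologicalSpace A'] [TopologicalSpace A'']
  {J J' J'' : Type} {n : ℕ}

/-- The map `Attach φ → Attach φ'` induced by `f : A → A'` and `ι : J → J'`, as a function. -/
def mapFun (φ : J → C(Sph n, A)) (φ' : J' → C(Sph n, A')) (f : A → A') (ι : J → J') :
    Attach φ → Attach φ'
  | base a => base (f a)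
  | cell j v => cell (ι j) v

variable {φ : J → C(Sph n, A)} {φ' : J' → C(Sph n, A')} {φ'' : J'' → C(Sph n, A'')}

@[simp] lemma mapFun_base (f : A → A') (ι : J → J') (a : A) :
    mapFun φ φ' f ι (base a) = base (f a) := rfl

@[simp] lemma mapFun_cell (f : A → A') (ι : J → J') (j : J) (v : Bal n) :
    mapFun φ φ' f ι (cell j v) = cell (ι j) v := rfl

lemma mapFun_char {f : A → A'} {ι : J → J'} (h : ∀ j w, φ' (ι j) w = f (φ j w)) (j : J)
    (v : Dsk n) : mapFun φ φ' f ι (char φ j v) = char φ' (ι j) v := by
  by_cases hv : ‖v.1‖ < 1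
  · rw [char_of_lt j v hv, char_of_lt (ι j) v hv]
    rfl
  · rw [char_of_not_lt j v hv, char_of_not_lt (ι j) v hv, mapFun_base, h]

lemma continuous_mapFun {f : A → A'} {ι : J → J'} (hf : Continuous f)
    (h : ∀ j w, φ' (ι j) w = f (φ j w)) : Continuous (mapFun φ φ' f ι) := by
  rw [continuous_iff]
  refine ⟨continuous_base.comp hf, fun j => ?_⟩
  have : (fun v => mapFun φ φ' f ι (char φ j v)) = char φ' (ι j) := funext (mapFun_char h j)
  rw [this]
  exact continuous_char _

lemma mapFun_id : mapFun φ φ id id = id := by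
  funext x
  induction x using induction_on with
  | h1 a => rfl
  | h2 j v => rfl

lemma mapFun_mapFun (f : A → A') (ι : J → J') (f' : A' → A'') (ι' : J' → J'') (x : Attach φ) :
    mapFun φ' φ'' f' ι' (mapFun φ φ' f ι x) = mapFun φ φ'' (f' ∘ f) (ι' ∘ ι) x := by
  induction x using induction_on with
  | h1 a => rfl
  | h2 j v => rfl

lemma mapFun_injective {f : A → A'} {ι : J → J'} (hf : Function.Injective f)
    (hι : Function.Injective ι) : Function.Injective (mapFun φ φ' f ι) := by
  intro x y hxy
  induction x using induction_on with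
  | h1 a =>
    induction y using induction_on with
    | h1 b => rw [hf (base_injective hxy)]
    | h2 j v => exact absurd hxy (base_ne_cell _ _ _)
  | h2 j v =>
    induction y using induction_on with
    | h1 b => exact absurd hxy (cell_ne_base _ _ _)
    | h2 j' v' =>
      obtain ⟨h1, h2⟩ := cell_eq_cell_iff.mp hxy
      rw [hι h1, h2]

lemma mapFun_surjective {f : A → A'} {ι : J → J'} (hf : Function.Surjective f)
    (hι : Function.Surjective ι) : Function.Surjective (mapFun φ φ' f ι) := by
  intro y
  induction y using induction_on with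
  | h1 b =>
    obtain ⟨a, rfl⟩ := hf b
    exact ⟨base a, rfl⟩
  | h2 j v =>
    obtain ⟨i, rfl⟩ := hι j
    exact ⟨cell i v, rfl⟩

/-- The map `f ⊕ (ι × id)`. -/
def preMap (n : ℕ) (f : A → A') (ι : J → J') : A ⊕ (Σ _ : J, Dsk n) → A' ⊕ (Σ _ : J', Dsk n) :=
  Sum.map f (Sigma.map ι fun _ => id)

/-- The square `q' ∘ (f ⊕ (ι × id)) = mapFun ∘ q`. -/
lemma mapFun_q {f : A → A'} {ι : J → J'} (h : ∀ j w, φ' (ι j) w = f (φ j w))
    (x : A ⊕ (Σ _ : J, Dsk n)) :
    mapFun φ φ' f ι (q φ x) = q φ' (preMap n f ι x) := by
  rcases x with a | ⟨j, v⟩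
  · rfl
  · exact mapFun_char h j v

/-- The map `Attach φ → Attach φ'` induced by `f : C(A, A')` and `ι : J → J'`. -/
def map (f : C(A, A')) (ι : J → J') (h : ∀ j w, φ' (ι j) w = f (φ j w)) :
    C(Attach φ, Attach φ') :=
  ⟨mapFun φ φ' f ι, continuous_mapFun f.continuous h⟩

section

variable (f : C(A, A')) (ι : J → J') (h : ∀ j w, φ' (ι j) w = f (φ j w))

lemma coe_map : ⇑(map f ι h) = mapFun φ φ' f ι := rfl

@[simp] lemma map_base (a : A) : map f ι h (base a) = base (f a) := rfl

@[simp] lemma map_cell (j : J) (v : Bal n) : map f ι h (cell j v) = cell (ι j) v := rfl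

@[simp] lemma map_char (j : J) (v : Dsk n) : map f ι h (char φ j v) = char φ' (ι j) v :=
  mapFun_char h j v

lemma preimage_base_image_map (C : Set (Attach φ)) :
    (base : A' → Attach φ') ⁻¹' (map f ι h '' C) = f '' (base ⁻¹' C) := by
  ext b
  simp only [mem_preimage, mem_image]
  constructor
  · rintro ⟨x, hx, hxb⟩
    induction x using induction_on with
    | h1 a => exact ⟨a, hx, base_injective hxb⟩
    | h2 j v => exact absurd hxb (cell_ne_base _ _ _)
  · rintro ⟨a, ha, rfl⟩
    exact ⟨base a, ha, rfl⟩

/-- `map f ι h` is a closed embedding if `f` is one and `ι` is injective. -/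
theorem isClosedEmbedding_map (hf : IsClosedEmbedding f) (hι : Function.Injective ι) :
    IsClosedEmbedding (map f ι h) := by
  refine IsClosedEmbedding.of_continuous_injective_isClosedMap (map f ι h).continuous
    (mapFun_injective hf.injective hι) ?_
  intro C hC
  obtain ⟨hC1, hC2⟩ := isClosed_iff.mp hC
  rw [isClosed_iff]
  refine ⟨?_, fun j' => ?_⟩
  · rw [preimage_base_image_map]
    exact hf.isClosedMap _ hC1
  · by_cases hj : ∃ j, ι j = j'
    · obtain ⟨j, rfl⟩ := hj
      have : char φ' (ι j) ⁻¹' (map f ι h '' C) = char φ j ⁻¹' C := by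
        ext v
        simp only [mem_preimage]
        rw [← map_char f ι h j v]
        exact (mapFun_injective hf.injective hι).mem_set_image
      rw [this]
      exact hC2 j
    · have : char φ' j' ⁻¹' (map f ι h '' C) = sphToDsk n '' (φ' j' ⁻¹' (f '' (base ⁻¹' C))) := by
        rw [← preimage_char_image_base, ← preimage_base_image_map f ι h]
        ext v
        simp only [mem_preimage, mem_image]
        constructor
        · rintro ⟨x, hx, hxv⟩
          induction x using induction_on with
          | h1 a => exact ⟨f a, ⟨base a, hx, rfl⟩, hxv⟩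
          | h2 j w =>
            rw [map_cell] at hxv
            exact absurd ⟨j, (char_eq_cell_iff.mp hxv.symm).1.symm⟩ hj
        · rintro ⟨b, ⟨x, hx, hxb⟩, hbv⟩
          exact ⟨x, hx, hxb.trans hbv⟩
      rw [this]
      exact isClosedEmbedding_sphToDsk.isClosedMap _
        ((hf.isClosedMap _ hC1).preimage (φ' j').continuous)

lemma range_map : range (map f ι h) = base '' range f ∪ ⋃ j, range (cell (ι j)) := by
  ext y
  simp only [mem_range, mem_union, mem_image, mem_iUnion]
  constructor
  · rintro ⟨x, rfl⟩
    induction x using induction_on with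
    | h1 a => exact Or.inl ⟨f a, ⟨a, rfl⟩, rfl⟩
    | h2 j v => exact Or.inr ⟨j, v, rfl⟩
  · rintro (⟨_, ⟨a, rfl⟩, rfl⟩ | ⟨j, v, rfl⟩)
    · exact ⟨base a, rfl⟩
    · exact ⟨cell j v, rfl⟩

/-- `map f ι h` is a quotient map if `f` is an open surjection and `ι` is surjective. -/
theorem isQuotientMap_map (hf : IsOpenMap f) (hf' : Function.Surjective f)
    (hι : Function.Surjective ι) : IsQuotientMap (map f ι h) := by
  have h1 : IsOpenMap (preMap n f ι) :=
    hf.sumMap (isOpenMap_sigma_map.mpr fun _ => IsOpenMap.id)
  have h2 : Continuous (preMap n f ι) :=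
    f.continuous.sumMap (Continuous.sigma_map fun _ => continuous_id)
  have h3 : Function.Surjective (preMap n f ι) :=
    hf'.sumMap (hι.sigma_map fun _ => Function.surjective_id)
  have h4 : IsQuotientMap (q φ' ∘ preMap n f ι) :=
    isQuotientMap_q.comp (h1.isQuotientMap h2 h3)
  have h5 : (map f ι h : Attach φ → Attach φ') ∘ q φ = q φ' ∘ preMap n f ι := funext (mapFun_q h)
  rw [← h5] at h4
  exact IsQuotientMap.of_comp isQuotientMap_q.continuous (map f ι h).continuous h4

end

/-! ### Path connectedness -/

lemma joined_cell_base (hn : 0 < n) (j : J) (v : Bal n) :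
    ∃ a : A, Joined (cell j v : Attach φ) (base a) := by
  have : Nonempty (Sph n) := by
    have : Nonempty (Fin n) := ⟨⟨0, hn⟩⟩
    exact ⟨⟨fun _ => 1, by
      rw [mem_sphere_zero_iff_norm, pi_norm_const]
      simp⟩⟩
  obtain ⟨w⟩ := this
  have hpc : PathConnectedSpace (Dsk n) := inferInstance
  have h1 : Joined (balToDsk n v) (sphToDsk n w) := hpc.joined _ _
  obtain ⟨p⟩ := h1
  refine ⟨φ j w, ⟨(p.map (continuous_char (φ := φ) j)).cast ?_ ?_⟩⟩
  · exact (char_balToDsk j v).symm
  · exact (char_sphToDsk j w).symm

/-- Attaching cells of positive dimension to a path connected space. -/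
theorem pathConnectedSpace [PathConnectedSpace A] (hn : 0 < n) :
    PathConnectedSpace (Attach φ) := by
  obtain ⟨a₀⟩ := (inferInstance : Nonempty A)
  have hb : ∀ a : A, Joined (base a₀ : Attach φ) (base a) := fun a =>
    ⟨(PathConnectedSpace.somePath a₀ a).map continuous_base⟩
  have key : ∀ x : Attach φ, Joined (base a₀ : Attach φ) x := by
    intro x
    induction x using induction_on with
    | h1 a => exact hb a
    | h2 j v =>
      obtain ⟨a, ha⟩ := joined_cell_base (φ := φ) hn j v
      exact (hb a).trans ha.symm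
  exact ⟨⟨base a₀⟩, fun x y => (key x).symm.trans (key y)⟩

end Attach

end

end Claimed.Open.R321
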