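import Claimed.Open.R321.PBPath

/-!
# R321, PropB, leaf B1: cell attachments: gluing of maps, generation of the fundamental groupoid

* `CellAttach.exists_desc`, `exists_desc'`: continuous maps out of `Z = A ∪ cells` (times a parameter
  space) are glued from continuous maps on `A` and on the disks.
* `CellAttach.generation`: the fundamental groupoid of `Z` on the points of `A` is generated by the paths
  in `A` and the images of the disk paths with end points on the sphere.
* `CellAttach.exists_path_in` (`n ≥ 2`), `CellAttach.generation_one` (`n = 1`, `A` finite).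
-/

set_option autoImplicit false

namespace Claimed.Open.R321

open Topology unitInterval

variable {Z : Type} [TopologicalSpace Z] {A : Set Z} {n : ℕ} {ι : Type}

theorem CellAttach.norm_lt_one_of_not_mem (c : CellAttach Z A n ι) {i : ι} {x : Dsk n}
    (h : c.Φ i x ∉ A) : ‖x.1‖ < 1 :=
  lt_of_le_of_ne (Dsk.norm_le_one x) fun h1 => h (c.sphere_mem i x h1)

theorem CellAttach.norm_eq_one_of_mem (c : CellAttach Z A n ι) {i : ι} {x : Dsk n}
    (h : c.Φ i x ∈ A) : ‖x.1‖ = 1 :=
  le_antisymm (Dsk.norm_le_one x) (not_lt.1 fun h1 => c.ball_not_mem i x h1 h)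

/-- **Gluing of continuous maps, with a parameter space `T`.** -/
theorem CellAttach.exists_desc [T2Space Z] [Finite ι] (hA : IsClosed A) (c : CellAttach Z A n ι)
    {T W : Type} [TopologicalSpace T] [TopologicalSpace W]
    (gA : C(A × T, W)) (g : ι → C(Dsk n × T, W))
    (hcompat : ∀ (i : ι) (x : Dsk n) (hx : ‖x.1‖ = 1) (t : T),
      g i (x, t) = gA (⟨c.Φ i x, c.sphere_mem i x hx⟩, t)) :
    ∃ G : C(Z × T, W), (∀ (a : A) (t : T), G (a.1, t) = gA (a, t)) ∧
      ∀ (i : ι) (x : Dsk n) (t : T), G (c.Φ i x, t) = g i (x, t) := by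
  classical
  have hex : ∀ z : Z, z ∉ A → ∃ p : ι × Dsk n, c.Φ p.1 p.2 = z := by
    intro z hz
    rcases c.cover z with h | ⟨i, x, h⟩
    · exact absurd h hz
    · exact ⟨(i, x), h⟩
  let G₀ : Z × T → W := fun p =>
    if hz : p.1 ∈ A then gA (⟨p.1, hz⟩, p.2)
    else g (Classical.choose (hex p.1 hz)).1 ((Classical.choose (hex p.1 hz)).2, p.2)
  have hGA : ∀ (a : A) (t : T), G₀ (a.1, t) = gA (a, t) := by
    intro a t
    simp only [G₀, dif_pos a.2]
  have hGc : ∀ (i : ι) (x : Dsk n) (t : T), G₀ (c.Φ i x, t) = g i (x, t) := by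
    intro i x t
    by_cases hz : c.Φ i x ∈ A
    · simp only [G₀, dif_pos hz]
      exact (hcompat i x (c.norm_eq_one_of_mem hz) t).symm
    · simp only [G₀, dif_neg hz]
      have hs := Classical.choose_spec (hex (c.Φ i x) hz)
      set p := Classical.choose (hex (c.Φ i x) hz) with hp
      have h1 : ‖p.2.1‖ < 1 := c.norm_lt_one_of_not_mem (by rw [hs]; exact hz)
      obtain ⟨e1, e2⟩ := c.inj p.1 i p.2 x h1 (c.norm_lt_one_of_not_mem hz) hs
      rw [e1, e2]
  have hcont : Continuous G₀ := by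
    rw [continuous_iff_isClosed]
    intro C hC
    have hset : G₀ ⁻¹' C = (Prod.map (Subtype.val : A → Z) (id : T → T)) '' (gA ⁻¹' C) ∪
        ⋃ i, (Prod.map (c.Φ i) (id : T → T)) '' (g i ⁻¹' C) := by
      ext ⟨z, t⟩
      simp only [Set.mem_preimage, Set.mem_union, Set.mem_image, Set.mem_iUnion, Prod.exists,
        Prod.map_apply, id_eq, Prod.mk.injEq]
      constructor
      · intro h
        rcases c.cover z with hz | ⟨i, x, hx⟩
        · left
          exact ⟨⟨z, hz⟩, t, by rw [← hGA]; exact h, rfl, rfl⟩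
        · right
          exact ⟨i, x, t, by rw [← hGc, hx]; exact h, hx, rfl⟩
      · rintro (⟨a, t', h, rfl, rfl⟩ | ⟨i, x, t', h, rfl, rfl⟩)
        · rw [hGA]; exact h
        · rw [hGc]; exact h
    rw [hset]
    refine IsClosed.union ?_ (isClosed_iUnion_of_finite fun i => ?_)
    · exact (hA.isProperMap_subtypeVal.universally_closed T) _ (hC.preimage gA.continuous)
    · exact ((c.Φ i).continuous.isProperMap.universally_closed T) _ (hC.preimage (g i).continuous)
  exact ⟨⟨G₀, hcont⟩, hGA, hGc⟩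

/-- Gluing of continuous maps, without parameters. -/
theorem CellAttach.exists_desc' [T2Space Z] [Finite ι] (hA : IsClosed A) (c : CellAttach Z A n ι)
    {W : Type} [TopologicalSpace W] (gA : C(A, W)) (g : ι → C(Dsk n, W))
    (hcompat : ∀ (i : ι) (x : Dsk n) (hx : ‖x.1‖ = 1),
      g i x = gA ⟨c.Φ i x, c.sphere_mem i x hx⟩) :
    ∃ G : C(Z, W), (∀ a : A, G a.1 = gA a) ∧ ∀ (i : ι) (x : Dsk n), G (c.Φ i x) = g i x := by
  obtain ⟨G, h1, h2⟩ := c.exists_desc hA (T := Unit) (gA.comp ContinuousMap.fst)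
    (fun i => (g i).comp ContinuousMap.fst) (fun i x hx _ => hcompat i x hx)
  exact ⟨G.comp (ContinuousMap.prodMk (ContinuousMap.id Z) (ContinuousMap.const Z ())),
    fun a => h1 a (), fun i x => h2 i x ()⟩

/-- radial projection of `(1+t) x` to the unit ball -/
noncomputable def Dsk.stretch (n : ℕ) : C(Dsk n × I, Dsk n) where
  toFun p := ⟨(max 1 ‖(1 + (p.2 : ℝ)) • p.1.1‖)⁻¹ • ((1 + (p.2 : ℝ)) • p.1.1), by
    rw [mem_closedBall_zero_iff, norm_smul, norm_inv, Real.norm_eq_abs,
      abs_of_pos (lt_of_lt_of_le one_pos (le_max_left _ _))]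
    rw [inv_mul_le_iff₀ (lt_of_lt_of_le one_pos (le_max_left _ _)), mul_one]
    exact le_max_right _ _⟩
  continuous_toFun := by
    apply Continuous.subtype_mk
    have h1 : Continuous fun p : Dsk n × I => (1 + (p.2 : ℝ)) • p.1.1 := by fun_prop
    have h2 : Continuous fun p : Dsk n × I => max 1 ‖(1 + (p.2 : ℝ)) • p.1.1‖ :=
      continuous_const.max h1.norm
    exact (h2.inv₀ fun p => (lt_of_lt_of_le one_pos (le_max_left _ _)).ne').smul h1

theorem Dsk.stretch_zero {n : ℕ} (x : Dsk n) : Dsk.stretch n (x, 0) = x := by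
  apply Subtype.ext
  simp only [Dsk.stretch, ContinuousMap.coe_mk, Set.Icc.coe_zero, add_zero, one_smul]
  rw [max_eq_left (Dsk.norm_le_one x)]
  simp

theorem Dsk.stretch_of_norm_eq_one {n : ℕ} (x : Dsk n) (hx : ‖x.1‖ = 1) (t : I) :
    Dsk.stretch n (x, t) = x := by
  apply Subtype.ext
  have ht : (0 : ℝ) < 1 + t := by have := t.2.1; linarith
  simp only [Dsk.stretch, ContinuousMap.coe_mk]
  rw [norm_smul, hx, mul_one, Real.norm_eq_abs, abs_of_pos ht,
    max_eq_right (by have := t.2.1; linarith), smul_smul, inv_mul_cancel₀ ht.ne', one_smul]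

theorem Dsk.norm_stretch_one {n : ℕ} (x : Dsk n) (hx : 1 / 2 ≤ ‖x.1‖) :
    ‖(Dsk.stretch n (x, 1)).1‖ = 1 := by
  simp only [Dsk.stretch, ContinuousMap.coe_mk, Set.Icc.coe_one]
  have h2 : ‖((1 : ℝ) + 1) • x.1‖ = 2 * ‖x.1‖ := by
    rw [norm_smul]; norm_num
  have h3 : (1 : ℝ) ≤ 2 * ‖x.1‖ := by linarith
  rw [norm_smul, h2, max_eq_right h3, norm_inv, Real.norm_eq_abs, abs_of_pos (by linarith)]
  exact inv_mul_cancel₀ (by linarith)

/-- the track of `x` under the stretching -/
noncomputable def Dsk.track {n : ℕ} (x : Dsk n) : Path x (Dsk.stretch n (x, 1)) where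
  toFun t := Dsk.stretch n (x, t)
  continuous_toFun := by fun_prop
  source' := Dsk.stretch_zero x
  target' := rfl


/-- The stretching homotopy of `Z`: it fixes `A` and stretches every cell radially by the factor
`1 + t`. -/
theorem CellAttach.exists_stretch [T2Space Z] [Finite ι] (hA : IsClosed A)
    (c : CellAttach Z A n ι) :
    ∃ (R1 : C(Z, Z)) (H : (ContinuousMap.id Z).Homotopy R1),
      (∀ a ∈ A, ∀ t, H (t, a) = a) ∧
        ∀ i x t, H (t, c.Φ i x) = c.Φ i (Dsk.stretch n (x, t)) := by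
  obtain ⟨G, h1, h2⟩ := c.exists_desc hA (T := I) (W := Z)
    (⟨fun p => p.1.1, by fun_prop⟩) (fun i => (c.Φ i).comp (Dsk.stretch n)) (by
      intro i x hx t
      simp [Dsk.stretch_of_norm_eq_one x hx t])
  refine ⟨⟨fun z => G (z, 1), by fun_prop⟩,
    ⟨⟨fun p => G (p.2, p.1), by fun_prop⟩, ?_, ?_⟩, ?_, ?_⟩
  · intro z
    rcases c.cover z with hz | ⟨i, x, rfl⟩
    · exact h1 ⟨z, hz⟩ 0
    · change G (c.Φ i x, 0) = c.Φ i x
      rw [h2]
      simp [Dsk.stretch_zero]
  · intro z
    rfl
  · intro a ha t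
    exact h1 ⟨a, ha⟩ t
  · intro i x t
    exact h2 i x t

/-- the open cells -/
def CellAttach.openCell (c : CellAttach Z A n ι) (i : ι) : Set Z :=
  {z | ∃ x : Dsk n, ‖x.1‖ < 1 ∧ c.Φ i x = z}

/-- the complement of the closed half cells -/
def CellAttach.outer (c : CellAttach Z A n ι) : Set Z :=
  {z | ∀ (i : ι) (x : Dsk n), c.Φ i x = z → 1 / 2 < ‖x.1‖}

theorem CellAttach.isOpen_openCell [T2Space Z] [Finite ι] (hA : IsClosed A)
    (c : CellAttach Z A n ι) (i : ι) : IsOpen (c.openCell i) := by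
  have hset : (c.openCell i)ᶜ = A ∪ ⋃ j : {j : ι // j ≠ i}, Set.range (c.Φ j.1) := by
    ext z
    constructor
    · intro h
      rcases c.cover z with hz | ⟨j, x, rfl⟩
      · exact Or.inl hz
      · by_cases hz : c.Φ j x ∈ A
        · exact Or.inl hz
        · right
          refine Set.mem_iUnion.2 ⟨⟨j, ?_⟩, x, rfl⟩
          rintro rfl
          exact h ⟨x, c.norm_lt_one_of_not_mem hz, rfl⟩
    · rintro (hz | hz) ⟨x, hx, hxz⟩
      · exact c.ball_not_mem i x hx (hxz ▸ hz)
      · obtain ⟨⟨j, hj⟩, y, rfl⟩ := Set.mem_iUnion.1 hz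
        have hy : ‖y.1‖ < 1 := c.norm_lt_one_of_not_mem (hxz ▸ c.ball_not_mem i x hx)
        exact hj (c.inj i j x y hx hy hxz).1.symm
  rw [← isClosed_compl_iff, hset]
  exact hA.union (isClosed_iUnion_of_finite fun j => (isCompact_range (c.Φ j.1).continuous).isClosed)

theorem CellAttach.isOpen_outer [T2Space Z] [Finite ι] (c : CellAttach Z A n ι) :
    IsOpen c.outer := by
  have hset : c.outerᶜ = ⋃ i, c.Φ i '' {x : Dsk n | ‖x.1‖ ≤ 1 / 2} := by
    ext z
    constructor
    · intro h
      by_contra hcon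
      apply h
      intro i x hx
      by_contra hlt
      exact hcon (Set.mem_iUnion.2 ⟨i, x, not_lt.1 hlt, hx⟩)
    · intro h hz
      obtain ⟨i, x, hx, hxz⟩ := Set.mem_iUnion.1 h
      exact absurd (hz i x hxz) (not_lt.2 hx)
  rw [← isClosed_compl_iff, hset]
  refine isClosed_iUnion_of_finite fun i => IsCompact.isClosed ?_
  refine IsCompact.image ?_ (c.Φ i).continuous
  exact (isClosed_le (by fun_prop) continuous_const).isCompact

theorem CellAttach.mem_outer_of_mem (c : CellAttach Z A n ι) {z : Z} (hz : z ∈ A) :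
    z ∈ c.outer := by
  intro i x hx
  rw [c.norm_eq_one_of_mem (hx ▸ hz)]
  norm_num

/-- A path in an open cell is the image of a path of the disk. -/
theorem CellAttach.exists_lift_of_range_subset [T2Space Z] (c : CellAttach Z A n ι) (i : ι)
    {x x' : Dsk n} (γ : Path (c.Φ i x) (c.Φ i x')) (hγ : Set.range γ ⊆ c.openCell i) :
    ∃ β : Path x x', β.map (c.Φ i).continuous = γ := by
  classical
  have hex : ∀ s : I, ∃ y : Dsk n, ‖y.1‖ < 1 ∧ c.Φ i y = γ s := fun s => hγ ⟨s, rfl⟩
  choose β hβ1 hβ2 using hex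
  have huniq : ∀ (s : I) (y : Dsk n), c.Φ i y = γ s → y = β s := by
    intro s y hy
    have h1 : ‖y.1‖ < 1 := c.norm_lt_one_of_not_mem (by
      rw [hy, ← hβ2 s]; exact c.ball_not_mem i _ (hβ1 s))
    exact (c.inj i i y (β s) h1 (hβ1 s) (hy.trans (hβ2 s).symm)).2
  have hcont : Continuous β := by
    rw [continuous_iff_isClosed]
    intro C hC
    have hset : β ⁻¹' C = γ ⁻¹' (c.Φ i '' C) := by
      ext s
      constructor
      · intro hs
        exact ⟨β s, hs, hβ2 s⟩
      · rintro ⟨y, hy, hys⟩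
        rw [Set.mem_preimage, ← huniq s y hys]
        exact hy
    rw [hset]
    exact ((hC.isCompact.image (c.Φ i).continuous).isClosed).preimage γ.continuous
  refine ⟨⟨⟨β, hcont⟩, (huniq 0 x (by simp)).symm, (huniq 1 x' (by simp)).symm⟩, ?_⟩
  ext s
  exact hβ2 s


/-- Admissible tails: the constant paths at the points of `A`, and the images of the disk paths which
end on the boundary sphere. -/
inductive CellAttach.Adm (c : CellAttach Z A n ι) :
    ∀ {z z' : Z}, Path.Homotopic.Quotient z z' → Prop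
  | base (a : Z) (ha : a ∈ A) : c.Adm (Path.Homotopic.Quotient.refl a)
  | cell (i : ι) {x y : Dsk n} (β : Path.Homotopic.Quotient x y) (hy : ‖y.1‖ = 1) :
      c.Adm (β.map (c.Φ i))

theorem Dsk.exists_norm_eq_one {n : ℕ} (hn : 1 ≤ n) : ∃ y : Dsk n, ‖y.1‖ = 1 := by
  have : Nonempty (Fin n) := ⟨⟨0, hn⟩⟩
  have h : ‖(fun _ : Fin n => (1 : ℝ))‖ = 1 := by
    rw [pi_norm_const]; simp
  exact ⟨⟨fun _ => 1, by rw [mem_closedBall_zero_iff, h]⟩, h⟩

theorem CellAttach.exists_adm (c : CellAttach Z A n ι) (hn : 1 ≤ n) (z : Z) :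
    ∃ (z' : Z) (δ : Path.Homotopic.Quotient z z'), c.Adm δ := by
  rcases c.cover z with hz | ⟨i, x, rfl⟩
  · exact ⟨z, _, CellAttach.Adm.base z hz⟩
  · obtain ⟨y, hy⟩ := Dsk.exists_norm_eq_one hn
    exact ⟨_, _, CellAttach.Adm.cell i
      (Path.Homotopic.Quotient.mk (PathConnectedSpace.somePath x y)) hy⟩

section generation

variable [T2Space Z] [Finite ι] (c : CellAttach Z A n ι)
  (P : ∀ {a b : Z}, Path.Homotopic.Quotient a b → Prop)
  (htrans : ∀ {a b c : Z} (q : Path.Homotopic.Quotient a b) (q' : Path.Homotopic.Quotient b c),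
      P q → P q' → P (q.trans q'))
  (hPA : ∀ {a b : Z} (γ : Path a b), Set.range γ ⊆ A → P (Path.Homotopic.Quotient.mk γ))
  (hcell : ∀ (i : ι) {x y : Dsk n} (β : Path.Homotopic.Quotient x y), ‖x.1‖ = 1 → ‖y.1‖ = 1 →
      P (β.map (c.Φ i)))

omit [T2Space Z] [Finite ι] in
include hcell in
/-- a tail followed by the image of a disk path ending on the sphere -/
theorem CellAttach.gen_tail (i : ι) {x y y' : Dsk n} (β : Path.Homotopic.Quotient x y)
    (sg : Path x y') {z' : Z} (τ : Path (c.Φ i x) z') (hτ : ∀ t, τ t = c.Φ i (sg t))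
    (hy : ‖y.1‖ = 1) (hy' : ‖y'.1‖ = 1) :
    P ((β.map (c.Φ i)).symm.trans (Path.Homotopic.Quotient.mk τ)) ∧
      P ((Path.Homotopic.Quotient.mk τ).symm.trans (β.map (c.Φ i))) := by
  have hz : z' = c.Φ i y' := by rw [← τ.target, hτ 1, sg.target]
  subst hz
  have hτ' : τ = sg.map (c.Φ i).continuous := by
    ext t; exact hτ t
  subst hτ'
  rw [Path.Homotopic.Quotient.mk_map, ← pbq_map_symm, ← pbq_map_symm, ← pbq_map_trans,
    ← pbq_map_trans]
  exact ⟨hcell i _ hy hy', hcell i _ hy' hy⟩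

omit [T2Space Z] [Finite ι] in
include hPA hcell in
theorem CellAttach.gen_adm_track {R1 : C(Z, Z)} (H : (ContinuousMap.id Z).Homotopy R1)
    (hHA : ∀ a ∈ A, ∀ t, H (t, a) = a)
    (hHc : ∀ i x t, H (t, c.Φ i x) = c.Φ i (Dsk.stretch n (x, t)))
    {z z' : Z} (δ : Path.Homotopic.Quotient z z') (hδ : c.Adm δ) (hz : z ∈ c.outer) :
    P (δ.symm.trans (Path.Homotopic.Quotient.mk (pbTrack H z))) ∧
      P ((Path.Homotopic.Quotient.mk (pbTrack H z)).symm.trans δ) := by
  cases hδ with
  | base a ha =>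
    rw [pbq_symm_refl, Path.Homotopic.Quotient.refl_trans, Path.Homotopic.Quotient.trans_refl,
      ← Path.Homotopic.Quotient.mk_symm]
    have hr : Set.range (pbTrack H z) ⊆ A := by
      rintro _ ⟨t, rfl⟩
      change H (t, z) ∈ A
      rw [hHA z ha t]; exact ha
    refine ⟨hPA _ hr, hPA _ ?_⟩
    rw [Path.symm_range]
    exact hr
  | @cell i x y β hy =>
    refine c.gen_tail P hcell i β (Dsk.track x) (pbTrack H (c.Φ i x)) (fun t => hHc i x t) hy ?_
    exact Dsk.norm_stretch_one x (hz i x rfl).le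

omit [T2Space Z] [Finite ι] in
include htrans hPA hcell in
/-- small paths in the outer region -/
theorem CellAttach.gen_outer {R1 : C(Z, Z)} (H : (ContinuousMap.id Z).Homotopy R1)
    (hHA : ∀ a ∈ A, ∀ t, H (t, a) = a)
    (hHc : ∀ i x t, H (t, c.Φ i x) = c.Φ i (Dsk.stretch n (x, t)))
    {a b a' b' : Z} (γ : Path a b) (hγ : Set.range γ ⊆ c.outer)
    (δa : Path.Homotopic.Quotient a a') (δb : Path.Homotopic.Quotient b b')
    (ha : c.Adm δa) (hb : c.Adm δb) :
    P (δa.symm.trans ((Path.Homotopic.Quotient.mk γ).trans δb)) := by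
  have haO : a ∈ c.outer := hγ ⟨0, γ.source⟩
  have hbO : b ∈ c.outer := hγ ⟨1, γ.target⟩
  have h1 := (c.gen_adm_track P hPA hcell H hHA hHc δa ha haO).1
  have h3 := (c.gen_adm_track P hPA hcell H hHA hHc δb hb hbO).2
  have h2 : P ((Path.Homotopic.Quotient.mk γ).map R1) := by
    rw [← Path.Homotopic.Quotient.mk_map]
    refine hPA _ ?_
    rintro _ ⟨s, rfl⟩
    change R1 (γ s) ∈ A
    have hs : γ s ∈ c.outer := hγ ⟨s, rfl⟩
    rw [← H.apply_one]
    rcases c.cover (γ s) with hz | ⟨i, x, hx⟩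
    · rw [hHA _ hz]; exact hz
    · rw [← hx, hHc]
      exact c.sphere_mem i _ (Dsk.norm_stretch_one x (hs i x hx).le)
  have h4 := htrans _ _ h1 (htrans _ _ h2 h3)
  have htr := pb_track_id H (Path.Homotopic.Quotient.mk γ)
  have key : δa.symm.trans ((Path.Homotopic.Quotient.mk γ).trans δb) =
      (δa.symm.trans (Path.Homotopic.Quotient.mk (pbTrack H a))).trans
        (((Path.Homotopic.Quotient.mk γ).map R1).trans
          ((Path.Homotopic.Quotient.mk (pbTrack H b)).symm.trans δb)) := by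
    rw [Path.Homotopic.Quotient.trans_assoc, ← Path.Homotopic.Quotient.trans_assoc
      (Path.Homotopic.Quotient.mk (pbTrack H a)), ← htr, Path.Homotopic.Quotient.trans_assoc,
      ← Path.Homotopic.Quotient.trans_assoc (Path.Homotopic.Quotient.mk (pbTrack H b)),
      Path.Homotopic.Quotient.trans_symm, Path.Homotopic.Quotient.refl_trans]
  rw [key]
  exact h4

omit [Finite ι] in
include hcell in
/-- small paths in an open cell -/
theorem CellAttach.gen_inner (i : ι)
    {a b a' b' : Z} (γ : Path a b) (hγ : Set.range γ ⊆ c.openCell i)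
    (δa : Path.Homotopic.Quotient a a') (δb : Path.Homotopic.Quotient b b')
    (ha : c.Adm δa) (hb : c.Adm δb) :
    P (δa.symm.trans ((Path.Homotopic.Quotient.mk γ).trans δb)) := by
  have haO : a ∈ c.openCell i := hγ ⟨0, γ.source⟩
  have hbO : b ∈ c.openCell i := hγ ⟨1, γ.target⟩
  have hnot : ∀ z ∈ c.openCell i, z ∉ A := by
    rintro z ⟨x, hx, rfl⟩
    exact c.ball_not_mem i x hx
  have hidx : ∀ (j : ι) (x : Dsk n), c.Φ j x ∈ c.openCell i → j = i := by
    rintro j x ⟨x0, hx0, h⟩
    have hx : ‖x.1‖ < 1 := c.norm_lt_one_of_not_mem (h ▸ c.ball_not_mem i x0 hx0)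
    exact (c.inj i j x0 x hx0 hx h).1.symm
  cases ha with
  | base a ha => exact absurd ha (hnot _ haO)
  | @cell j x y β hy =>
    cases hb with
    | base b hb => exact absurd hb (hnot _ hbO)
    | @cell k x' y' β' hy' =>
      obtain rfl := hidx j x haO
      obtain rfl := hidx k x' hbO
      obtain ⟨β0, rfl⟩ := c.exists_lift_of_range_subset k γ hγ
      rw [Path.Homotopic.Quotient.mk_map, ← pbq_map_symm, ← pbq_map_trans, ← pbq_map_trans]
      exact hcell k _ hy hy'

end generation

/-- **Generation of the fundamental groupoid on `A`.**  A property of homotopy classes of paths which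
is stable under concatenation, holds for the paths in `A` and for the images under the characteristic
maps of the paths of the disk with end points on the boundary sphere, holds for all paths of `Z` with
end points in `A`. -/
theorem CellAttach.generation [T2Space Z] [Finite ι] (hA : IsClosed A) (c : CellAttach Z A n ι)
    (hn : 1 ≤ n)
    (P : ∀ {a b : Z}, Path.Homotopic.Quotient a b → Prop)
    (htrans : ∀ {a b c : Z} (q : Path.Homotopic.Quotient a b) (q' : Path.Homotopic.Quotient b c),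
      P q → P q' → P (q.trans q'))
    (hPA : ∀ {a b : Z} (γ : Path a b), Set.range γ ⊆ A → P (Path.Homotopic.Quotient.mk γ))
    (hcell : ∀ (i : ι) {x y : Dsk n} (β : Path.Homotopic.Quotient x y), ‖x.1‖ = 1 → ‖y.1‖ = 1 →
      P (β.map (c.Φ i)))
    {a b : Z} (ha : a ∈ A) (hb : b ∈ A) (q : Path.Homotopic.Quotient a b) : P q := by
  obtain ⟨R1, H, hHA, hHc⟩ := c.exists_stretch hA
  have main := pb_path_induction (Z := Z) (κ := Option ι)
    (fun k => match k with
      | none => c.outer
      | some i => c.openCell i)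
    (by
      rintro (_ | i)
      · exact c.isOpen_outer
      · exact c.isOpen_openCell hA i)
    (by
      intro z
      rcases c.cover z with hz | ⟨i, x, rfl⟩
      · exact ⟨none, c.mem_outer_of_mem hz⟩
      · by_cases hz : c.Φ i x ∈ A
        · exact ⟨none, c.mem_outer_of_mem hz⟩
        · exact ⟨some i, x, c.norm_lt_one_of_not_mem hz, rfl⟩)
    (fun {a b} q => ∀ (a' b' : Z) (δa : Path.Homotopic.Quotient a a')
      (δb : Path.Homotopic.Quotient b b'), c.Adm δa → c.Adm δb → P (δa.symm.trans (q.trans δb)))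
    (by
      intro a b d q q' h1 h2 a' d' δa δd hδa hδd
      obtain ⟨b', δb, hδb⟩ := c.exists_adm hn b
      have h3 := htrans _ _ (h1 _ _ δa δb hδa hδb) (h2 _ _ δb δd hδb hδd)
      have key : δa.symm.trans ((q.trans q').trans δd) =
          (δa.symm.trans (q.trans δb)).trans (δb.symm.trans (q'.trans δd)) := by
        rw [Path.Homotopic.Quotient.trans_assoc, Path.Homotopic.Quotient.trans_assoc,
          Path.Homotopic.Quotient.trans_assoc, ← Path.Homotopic.Quotient.trans_assoc δb,
          Path.Homotopic.Quotient.trans_symm, Path.Homotopic.Quotient.refl_trans]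
      rw [key]
      exact h3)
    (by
      rintro a b γ (_ | i) hγ a' b' δa δb hδa hδb
      · exact c.gen_outer P htrans hPA hcell H hHA hHc γ hγ δa δb hδa hδb
      · exact c.gen_inner P hcell i γ hγ δa δb hδa hδb)
    q
  have h := main _ _ _ _ (CellAttach.Adm.base a ha) (CellAttach.Adm.base b hb)
  rwa [pbq_symm_refl, Path.Homotopic.Quotient.refl_trans, Path.Homotopic.Quotient.trans_refl] at h

/-- **Cells of dimension `≥ 2` do not contribute generators**: every path of `Z` with end points in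
`A` is homotopic to a path in `A`. -/
theorem CellAttach.exists_path_in [T2Space Z] [Finite ι] (hA : IsClosed A)
    (c : CellAttach Z A n ι) (hn : 2 ≤ n) {a b : A} (q : Path.Homotopic.Quotient a.1 b.1) :
    ∃ q' : Path.Homotopic.Quotient a b, q'.map ⟨Subtype.val, continuous_subtype_val⟩ = q := by
  have hPA : ∀ {a b : Z} (γ : Path a b), Set.range γ ⊆ A →
      ∃ (ha : a ∈ A) (hb : b ∈ A) (q' : Path.Homotopic.Quotient (⟨a, ha⟩ : A) ⟨b, hb⟩),
        q'.map ⟨Subtype.val, continuous_subtype_val⟩ = Path.Homotopic.Quotient.mk γ := by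
    intro a b γ hγ
    have ha : a ∈ A := hγ ⟨0, γ.source⟩
    have hb : b ∈ A := hγ ⟨1, γ.target⟩
    refine ⟨ha, hb, Path.Homotopic.Quotient.mk
      ⟨⟨fun s => ⟨γ s, hγ ⟨s, rfl⟩⟩, by fun_prop⟩, Subtype.ext γ.source, Subtype.ext γ.target⟩, ?_⟩
    rw [← Path.Homotopic.Quotient.mk_map]
    congr 1
  obtain ⟨_, _, q', hq'⟩ := c.generation hA (by omega)
    (fun {a b} q => ∃ (ha : a ∈ A) (hb : b ∈ A)
      (q' : Path.Homotopic.Quotient (⟨a, ha⟩ : A) ⟨b, hb⟩),
      q'.map ⟨Subtype.val, continuous_subtype_val⟩ = q)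
    (by
      rintro a b d q q' ⟨ha, hb, p, rfl⟩ ⟨_, hd, p', rfl⟩
      exact ⟨ha, hd, p.trans p', pbq_map_trans _ _ _⟩)
    hPA
    (by
      intro i x y β hx hy
      have hrank : 1 < Module.rank ℝ (Fin n → ℝ) := by
        rw [rank_fin_fun]
        exact_mod_cast hn
      have hj := (isPathConnected_sphere hrank (0 : Fin n → ℝ) zero_le_one).joinedIn x.1
        (by simpa using hx) y.1 (by simpa using hy)
      obtain ⟨sg, hsg⟩ := hj
      let sg' : Path x y := ⟨⟨fun s => ⟨sg s, Metric.sphere_subset_closedBall (hsg s)⟩,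
        by fun_prop⟩, Subtype.ext sg.source, Subtype.ext sg.target⟩
      rw [Dsk.quotient_eq β (Path.Homotopic.Quotient.mk sg'), ← Path.Homotopic.Quotient.mk_map]
      refine hPA _ ?_
      rintro _ ⟨s, rfl⟩
      exact c.sphere_mem i _ (mem_sphere_zero_iff_norm.1 (hsg s)))
    a.2 b.2 q
  exact ⟨q', hq'⟩

/-- the left end point `-1` of `Dsk 1 = [-1,1]` -/
def Dsk.left : Dsk 1 := ⟨fun _ => -1, by simp⟩

/-- the right end point `1` of `Dsk 1 = [-1,1]` -/
def Dsk.right : Dsk 1 := ⟨fun _ => 1, by simp⟩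

theorem Dsk.eq_left_or_right (x : Dsk 1) (hx : ‖x.1‖ = 1) : x = Dsk.left ∨ x = Dsk.right := by
  have h0 : ‖x.1‖ = |x.1 0| := by
    rw [Pi.norm_def]
    simp
  rw [h0] at hx
  rcases (abs_eq zero_le_one).1 hx with h | h
  · right
    apply Subtype.ext
    funext j
    rw [Subsingleton.elim j 0, h]
    rfl
  · left
    apply Subtype.ext
    funext j
    rw [Subsingleton.elim j 0, h]
    rfl

/-- The homotopy class of the `i`-th edge, from `Φ i (-1)` to `Φ i 1`. -/
noncomputable def CellAttach.edge (c : CellAttach Z A 1 ι) (i : ι) :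
    Path.Homotopic.Quotient (c.Φ i Dsk.left) (c.Φ i Dsk.right) :=
  (Path.Homotopic.Quotient.mk (PathConnectedSpace.somePath Dsk.left Dsk.right)).map (c.Φ i)

/-- a path in a finite subset of a Hausdorff space is constant -/
theorem pb_path_const_of_finite [T2Space Z] (hA : A.Finite) {a b : Z} (γ : Path a b)
    (hγ : Set.range γ ⊆ A) (s : I) : γ s = a := by
  have h1 : IsPreconnected (Set.range γ) := isPreconnected_range γ.continuous
  have h2 : (Set.range γ).Subsingleton := by
    by_contra hne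
    exact h1.infinite_of_nontrivial (Set.not_subsingleton_iff.1 hne) (hA.subset hγ)
  exact h2 ⟨s, rfl⟩ ⟨0, γ.source⟩

/-- **Graphs**: if `A` is finite, the fundamental groupoid on `A` of `Z = A ∪ 1-cells` is generated by
the edges. -/
theorem CellAttach.generation_one [T2Space Z] [Finite ι] (hA : A.Finite)
    (c : CellAttach Z A 1 ι)
    (P : ∀ {a b : Z}, Path.Homotopic.Quotient a b → Prop)
    (htrans : ∀ {a b c : Z} (q : Path.Homotopic.Quotient a b) (q' : Path.Homotopic.Quotient b c),
      P q → P q' → P (q.trans q'))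
    (hsymm : ∀ {a b : Z} (q : Path.Homotopic.Quotient a b), P q → P q.symm)
    (hrefl : ∀ a ∈ A, P (Path.Homotopic.Quotient.refl a))
    (hedge : ∀ i : ι, P (c.edge i))
    {a b : Z} (ha : a ∈ A) (hb : b ∈ A) (q : Path.Homotopic.Quotient a b) : P q := by
  refine c.generation hA.isClosed le_rfl P htrans ?_ ?_ ha hb q
  · intro a b γ hγ
    have hab : b = a := by rw [← γ.target]; exact pb_path_const_of_finite hA γ hγ 1
    subst hab
    have : γ = Path.refl b := by
      ext s; exact pb_path_const_of_finite hA γ hγ s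
    rw [this, Path.Homotopic.Quotient.mk_refl]
    exact hrefl b (hγ ⟨0, γ.source⟩)
  · intro i x y β hx hy
    rcases Dsk.eq_left_or_right x hx with rfl | rfl <;>
      rcases Dsk.eq_left_or_right y hy with rfl | rfl
    · rw [Dsk.quotient_eq β (Path.Homotopic.Quotient.refl _), pbq_map_refl]
      exact hrefl _ (c.sphere_mem i _ hx)
    · rw [Dsk.quotient_eq β
        (Path.Homotopic.Quotient.mk (PathConnectedSpace.somePath Dsk.left Dsk.right))]
      exact hedge i
    · rw [Dsk.quotient_eq β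
        (Path.Homotopic.Quotient.mk (PathConnectedSpace.somePath Dsk.left Dsk.right)).symm,
        pbq_map_symm]
      exact hsymm _ (hedge i)
    · rw [Dsk.quotient_eq β (Path.Homotopic.Quotient.refl _), pbq_map_refl]
      exact hrefl _ (c.sphere_mem i _ hx)

end Claimed.Open.R321
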