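import Claimed.Open.R321.EquivModel

/-!
# R321: from Mathlib's `IsQuotientCoveringMap p G` to the notions of `Statement.lean`

Let `p : E → X` be a quotient covering map with group `G`.

* `simplyConnectedSpace_of_injective`: if `E` is path connected and the monodromy homomorphism
  `π₁(X, p e₀) → Gᵐᵒᵖ` is injective, then `E` is simply connected.
* `UniversalCover.ofQuotient`: the universal cover of `X` given by `p` if `E` is simply connected.
* `smulDeck : G ≃* deckGroup p` (`E` connected).
* `fundamentalGroupMulEquivOfQuotient : π₁(X, x) ≃* G`.
-/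

set_option autoImplicit false

namespace Claimed.Open.R321

open Topology Function

noncomputable section

variable {E X G : Type} [TopologicalSpace E] [TopologicalSpace X] [Group G] [MulAction G E]
  {p : E → X}

/-- In a path connected space, if all loops at one point are null-homotopic, the space is simply
connected. -/
theorem simplyConnectedSpace_of_loops_at {Y : Type} [TopologicalSpace Y] [PathConnectedSpace Y]
    (y₀ : Y) (h : ∀ γ : Path.Homotopic.Quotient y₀ y₀, γ = Path.Homotopic.Quotient.refl y₀) :
    SimplyConnectedSpace Y := by
  rw [simply_connected_iff_loops_nullhomotopic]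
  refine ⟨inferInstance, fun x γ => ?_⟩
  rw [← Path.Homotopic.Quotient.eq]
  let δ : Path.Homotopic.Quotient y₀ x :=
    Path.Homotopic.Quotient.mk (PathConnectedSpace.somePath y₀ x)
  have h1 := h ((δ.trans (Path.Homotopic.Quotient.mk γ)).trans δ.symm)
  calc Path.Homotopic.Quotient.mk γ
      = (δ.symm.trans ((δ.trans (Path.Homotopic.Quotient.mk γ)).trans δ.symm)).trans δ := by
        rw [Path.Homotopic.Quotient.trans_assoc, Path.Homotopic.Quotient.trans_assoc,
          Path.Homotopic.Quotient.trans_assoc, Path.Homotopic.Quotient.symm_trans,
          Path.Homotopic.Quotient.trans_refl, ← Path.Homotopic.Quotient.trans_assoc,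
          Path.Homotopic.Quotient.symm_trans, Path.Homotopic.Quotient.refl_trans]
    _ = Path.Homotopic.Quotient.mk (Path.refl x) := by rw [h1]; simp

/-- **Q1.**  If the monodromy homomorphism is injective, the total space is simply connected. -/
theorem simplyConnectedSpace_of_injective (hp : IsQuotientCoveringMap p G) [PathConnectedSpace E]
    (e₀ : E)
    (hinj : Injective (hp.fundamentalGroupToMulOpposite (x := p e₀) ⟨e₀, rfl⟩)) :
    SimplyConnectedSpace E := by
  apply simplyConnectedSpace_of_loops_at e₀
  intro γ
  let e : p ⁻¹' {p e₀} := ⟨e₀, rfl⟩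
  let P : C(E, X) := ⟨p, hp.continuous⟩
  have he : P e₀ = p e₀ := rfl
  have hmem : FundamentalGroup.mapOfEq P he (FundamentalGroup.fromPath γ) ∈
      (hp.fundamentalGroupToMulOpposite e).ker := by
    rw [hp.ker_fundamentalGroupToMulOpposite, hp.ker_monodromyPerm e]
    exact ⟨_, rfl⟩
  have h1 : FundamentalGroup.mapOfEq P he (FundamentalGroup.fromPath γ) = 1 :=
    hinj (by rw [MonoidHom.mem_ker.1 hmem, map_one])
  have h2 : FundamentalGroup.mapOfEq P he (FundamentalGroup.fromPath γ) =
      FundamentalGroup.mapOfEq P he
        (FundamentalGroup.fromPath (Path.Homotopic.Quotient.refl e₀)) := by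
    rw [h1]
    exact (map_one _).symm
  rw [FundamentalGroup.mapOfEq_apply, FundamentalGroup.mapOfEq_apply] at h2
  exact hp.isCoveringMap.injective_path_homotopic_map e₀ e₀ (by simpa using h2)

/-- **Q2.**  The universal cover defined by a quotient covering map with simply connected total
space. -/
def UniversalCover.ofQuotient (hp : IsQuotientCoveringMap p G) [SimplyConnectedSpace E] :
    UniversalCover X where
  E := E
  p := p
  isCoveringMap := hp.isCoveringMap
  simplyConnected := inferInstance

/-- the deck transformation `e ↦ g • e` -/
def smulDeckHom (hp : IsQuotientCoveringMap p G) : G →* deckGroup p :=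
  haveI := hp.toContinuousConstSMul
  { toFun := fun g => ⟨Homeomorph.smul g, fun e => hp.map_smul g⟩
    map_one' := by
      apply Subtype.ext
      ext e
      exact one_smul G e
    map_mul' := fun g h => by
      apply Subtype.ext
      ext e
      exact mul_smul g h e }

@[simp] theorem smulDeckHom_apply (hp : IsQuotientCoveringMap p G) (g : G) (e : E) :
    (smulDeckHom hp g).1 e = g • e := rfl

theorem smulDeckHom_bijective (hp : IsQuotientCoveringMap p G) [PreconnectedSpace E]
    [Nonempty E] : Bijective (smulDeckHom hp) := by
  obtain ⟨e₀⟩ := (inferInstance : Nonempty E)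
  constructor
  · intro g h hgh
    have h1 : g • e₀ = h • e₀ := congrArg (fun d : deckGroup p => d.1 e₀) hgh
    exact hp.isCancelSMul.right_cancel _ _ e₀ h1
  · intro d
    obtain ⟨g, hg⟩ := hp.apply_eq_iff_mem_orbit.1 (d.2 e₀)
    refine ⟨g, ?_⟩
    have h1 : ((smulDeckHom hp g).1 : E → E) = (d.1 : E → E) :=
      hp.isCoveringMap.eq_of_comp_eq (smulDeckHom hp g).1.continuous d.1.continuous
        (funext fun x => ((smulDeckHom hp g).2 x).trans (d.2 x).symm) e₀ hg
    apply Subtype.ext
    ext x
    exact congrFun h1 x

/-- **Q3.**  The deck group of a quotient covering map with connected total space is `G`. -/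
def smulDeck (hp : IsQuotientCoveringMap p G) [PreconnectedSpace E] [Nonempty E] :
    G ≃* deckGroup p :=
  MulEquiv.ofBijective (smulDeckHom hp) (smulDeckHom_bijective hp)

@[simp] theorem smulDeck_apply (hp : IsQuotientCoveringMap p G) [PreconnectedSpace E]
    [Nonempty E] (g : G) (e : E) : (smulDeck hp g).1 e = g • e := rfl

theorem smulDeck_symm_smul (hp : IsQuotientCoveringMap p G) [PreconnectedSpace E]
    [Nonempty E] (d : deckGroup p) (e : E) : (smulDeck hp).symm d • e = d.1 e := by
  conv_rhs => rw [← (smulDeck hp).apply_symm_apply d]
  rfl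

/-- **Q5.**  The fundamental group of the base of a quotient covering map with simply connected
total space is `G`. -/
def fundamentalGroupMulEquivOfQuotient (hp : IsQuotientCoveringMap p G) [SimplyConnectedSpace E]
    {x : X} (e : p ⁻¹' {x}) : FundamentalGroup X x ≃* G :=
  (hp.fundamentalGroupEquiv e).trans (MulEquiv.inv' G).symm

end

end Claimed.Open.R321

namespace Claimed.Open.R321

open Topology Function

noncomputable section

variable {E X G : Type} [TopologicalSpace E] [TopologicalSpace X] [Group G] [MulAction G E]
  {p : E → X}

/-- the continuous map `e ↦ g • e` -/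
def smulMap (hp : IsQuotientCoveringMap p G) (g : G) : C(E, E) :=
  ⟨fun e => g • e, hp.toContinuousConstSMul.continuous_const_smul g⟩

/-- the action of a deck transformation on chains is the action of the corresponding element of
`G` -/
theorem chainAct_deck_eq (hp : IsQuotientCoveringMap p G) [PreconnectedSpace E] [Nonempty E]
    (d : deckGroup p) (n : ℕ) :
    chainAct (deckGroup p) d n = chainMap (smulMap hp ((smulDeck hp).symm d)) n := by
  have : ((d.1 : E ≃ₜ E) : C(E, E)) = smulMap hp ((smulDeck hp).symm d) := by
    ext e
    exact (smulDeck_symm_smul hp d e).symm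
  rw [chainAct, this]

theorem chainAct_smulDeck (hp : IsQuotientCoveringMap p G) [PreconnectedSpace E] [Nonempty E]
    (g : G) (n : ℕ) : chainAct (deckGroup p) (smulDeck hp g) n = chainMap (smulMap hp g) n := by
  rw [chainAct_deck_eq hp, MulEquiv.symm_apply_apply]

/-- **Q4.**  `SatisfiesD2 X` from a model of dimension `≤ 2` of the chains of the total space of a
quotient covering map with simply connected total space. -/
theorem satisfiesD2_of_quotient_model (hp : IsQuotientCoveringMap p G) [SimplyConnectedSpace E]
    (m : ChainModel E (deckGroup p)) (hC : ∀ n, 3 ≤ n → ∀ c : m.C n, c = 0) : SatisfiesD2 X :=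
  satisfiesD2_of_model (UniversalCover.ofQuotient hp) m hC

end

end Claimed.Open.R321
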