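import Claimed.Open.R321.AttachCov
import Claimed.Open.R321.QuotCover
import Claimed.Open.R321.PBCell

/-!
# Result 321: attaching cells of dimension `≥ 2` upstairs preserves simple connectivity (T9)

Owner: helper272.

`Attach.simplyConnectedSpace_liftFam`: in the situation of `AttachCov` (a quotient covering map
`p0 : A' → A` with group `Γ`, lifts `ψ j` of finitely many attaching maps `φ j` of cells of dimension
`n ≥ 2`, `A` Hausdorff), if `A'` is simply connected then so is `Attach (liftFam Γ ψ)`.
-/

set_option autoImplicit false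

namespace Claimed.Open.R321

open Metric Set Topology unitInterval

noncomputable section

/-- A path in the range of an embedding comes from a path of the source. -/
theorem exists_path_of_forall_mem_range {X Y : Type} [TopologicalSpace X] [TopologicalSpace Y]
    {f : X → Y} (hf : IsEmbedding f) {x x' : X} (γ : Path (f x) (f x'))
    (h : ∀ s, γ s ∈ range f) : ∃ γ₀ : Path x x', γ₀.map hf.continuous = γ := by
  let e := hf.toHomeomorph
  have he : ∀ s, f (e.symm ⟨γ s, h s⟩) = γ s := fun s =>
    congrArg Subtype.val (e.apply_symm_apply ⟨γ s, h s⟩)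
  refine ⟨⟨⟨fun s => e.symm ⟨γ s, h s⟩, ?_⟩, ?_, ?_⟩, ?_⟩
  · exact e.symm.continuous.comp (γ.continuous.subtype_mk h)
  · exact hf.injective ((he 0).trans γ.source)
  · exact hf.injective ((he 1).trans γ.target)
  · ext s
    exact he s

namespace Attach

variable {Γ : Type} [Group Γ] {A' : Type} [TopologicalSpace A'] [MulAction Γ A']
  [ContinuousConstSMul Γ A'] {J : Type} {n : ℕ}
  {A : Type} [TopologicalSpace A] {φ : J → C(Sph n, A)} {p0 : C(A', A)}
  {ψ : J → C(Sph n, A')}

lemma mem_range_base_of_covMap (hp0 : IsQuotientCoveringMap p0 Γ) (hψ : ∀ j w, p0 (ψ j w) = φ j w)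
    {x : Attach (liftFam Γ ψ)} (h : covMap hp0 hψ x ∈ range (base : A → Attach φ)) :
    x ∈ range (base : A' → Attach (liftFam Γ ψ)) := by
  induction x using induction_on with
  | h1 a => exact ⟨a, rfl⟩
  | h2 j v =>
    obtain ⟨a, ha⟩ := h
    exact absurd ha (base_ne_cell _ _ _)

/-- **T9.** -/
theorem simplyConnectedSpace_liftFam [T2Space A] [Finite J] (hn : 2 ≤ n) [SimplyConnectedSpace A']
    (hp0 : IsQuotientCoveringMap p0 Γ) (hψ : ∀ j w, p0 (ψ j w) = φ j w) :
    SimplyConnectedSpace (Attach (liftFam Γ ψ)) := by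
  have : PathConnectedSpace (Attach (liftFam Γ ψ)) := pathConnectedSpace (by omega)
  obtain ⟨a'⟩ := (inferInstance : Nonempty A')
  apply simplyConnectedSpace_of_loops_at (base a' : Attach (liftFam Γ ψ))
  intro γ
  induction γ using Path.Homotopic.Quotient.ind with
  | mk g =>
  have hP := isQuotientCoveringMap_covMap hp0 hψ
  have cov := hP.isCoveringMap
  -- push the image loop into `A`
  obtain ⟨q', hq'⟩ := (cellAttach φ).exists_path_in isClosed_range_base hn
    (a := ⟨covMap hp0 hψ (base a'), ⟨p0 a', rfl⟩⟩) (b := ⟨covMap hp0 hψ (base a'), ⟨p0 a', rfl⟩⟩)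
    ((Path.Homotopic.Quotient.mk g).map (covMap hp0 hψ))
  induction q' using Path.Homotopic.Quotient.ind with
  | mk β' =>
  let β : Path (covMap hp0 hψ (base a')) (covMap hp0 hψ (base a')) :=
    β'.map continuous_subtype_val
  have hβ : β.Homotopic (g.map (covMap hp0 hψ).continuous) := by
    rw [← Path.Homotopic.Quotient.eq, Path.Homotopic.Quotient.mk_map]
    exact hq'
  -- lift it
  have h0 : β.toContinuousMap 0 = covMap hp0 hψ (base a') := β.source
  have h0' : (g.map (covMap hp0 hψ).continuous).toContinuousMap 0 =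
      covMap hp0 hψ (base a') := (g.map (covMap hp0 hψ).continuous).source
  have hg : g.toContinuousMap = cov.liftPath _ (base a') h0' :=
    (cov.eq_liftPath_iff' h0').mpr ⟨rfl, g.source⟩
  have hG1 : cov.liftPath _ (base a') h0 1 = base a' := by
    rw [cov.liftPath_apply_one_eq_of_homotopicRel hβ (base a') h0 h0', ← hg]
    exact g.target
  let G : Path (base a' : Attach (liftFam Γ ψ)) (base a') :=
    ⟨cov.liftPath _ (base a') h0, cov.liftPath_zero _ _ h0, hG1⟩
  have hGβ : ∀ s, covMap hp0 hψ (G s) = β s := fun s => congrFun (cov.liftPath_lifts _ _ h0) s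
  have hGg : Path.Homotopic.Quotient.mk g = Path.Homotopic.Quotient.mk G := by
    apply cov.injective_path_homotopic_map
    change (Path.Homotopic.Quotient.mk g).map (covMap hp0 hψ) =
      (Path.Homotopic.Quotient.mk G).map (covMap hp0 hψ)
    rw [← Path.Homotopic.Quotient.mk_map, ← Path.Homotopic.Quotient.mk_map,
      Path.Homotopic.Quotient.eq]
    have : G.map (covMap hp0 hψ).continuous = β := by
      ext s
      exact hGβ s
    rw [this]
    exact hβ.symm
  -- the lift lies in `A'`
  have hrange : ∀ s, G s ∈ range (base : A' → Attach (liftFam Γ ψ)) := by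
    intro s
    apply mem_range_base_of_covMap hp0 hψ
    rw [hGβ s]
    exact (β' s).2
  obtain ⟨G₀, hG₀⟩ := exists_path_of_forall_mem_range isClosedEmbedding_base.isEmbedding G hrange
  have h1 : G₀.Homotopic (Path.refl a') := SimplyConnectedSpace.paths_homotopic _ _
  rw [hGg, ← hG₀, ← Path.Homotopic.Quotient.mk_refl, Path.Homotopic.Quotient.eq]
  have h2 := h1.map (baseMap (liftFam Γ ψ))
  exact h2

end Attach

end

end Claimed.Open.R321
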