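import Claimed.Open.R321.AttachBasic

/-!
# Result 321: collar neighbourhoods in `Attach φ`; `Attach φ` is Hausdorff
-/

set_option autoImplicit false

set_option linter.unusedSectionVars false

namespace Claimed.Open.R321

open Metric Set Topology

noncomputable section

variable {A : Type} [TopologicalSpace A] {J : Type} {n : ℕ}

/-- the punctured disk -/
abbrev PDsk (n : ℕ) : Type := {v : Dsk n // v.1 ≠ 0}

/-- the radial projection of the punctured disk onto the sphere -/
def radial (n : ℕ) : C(PDsk n, Sph n) where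
  toFun v := ⟨‖v.1.1‖⁻¹ • v.1.1, by
    rw [mem_sphere_zero_iff_norm, norm_smul, norm_inv, norm_norm]
    exact inv_mul_cancel₀ (norm_ne_zero_iff.mpr v.2)⟩
  continuous_toFun := by
    apply Continuous.subtype_mk
    have h1 : Continuous (fun v : PDsk n => v.1.1) :=
      continuous_subtype_val.comp continuous_subtype_val
    exact (h1.norm.inv₀ fun v => norm_ne_zero_iff.mpr v.2).smul h1

lemma radial_sphToDsk (w : Sph n) (h : (sphToDsk n w).1 ≠ 0) :
    radial n ⟨sphToDsk n w, h⟩ = w := by
  apply Subtype.ext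
  change ‖w.1‖⁻¹ • w.1 = w.1
  rw [w.norm_eq, inv_one, one_smul]

lemma Sph.ne_zero (w : Sph n) : (sphToDsk n w).1 ≠ 0 := by
  intro h
  have := w.norm_eq
  rw [show w.1 = (sphToDsk n w).1 from rfl, h, norm_zero] at this
  exact zero_ne_one this

lemma isOpenEmbedding_pdsk : IsOpenEmbedding (Subtype.val : PDsk n → Dsk n) :=
  IsOpen.isOpenEmbedding_subtypeVal
    (isOpen_ne_fun continuous_subtype_val continuous_const)

namespace Attach

variable {φ : J → C(Sph n, A)}

/-- The collar neighbourhood of `U ⊆ A`: `U` together with the points `≠` centre of the cells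
whose radial projection is attached to a point of `U`. -/
def collar (φ : J → C(Sph n, A)) (U : Set A) : Set (Attach φ) :=
  base '' U ∪ ⋃ j, char φ j '' (Subtype.val '' ((fun v : PDsk n => φ j (radial n v)) ⁻¹' U))

lemma base_mem_collar {U : Set A} {a : A} : base a ∈ collar φ U ↔ a ∈ U := by
  constructor
  · rintro (⟨b, hb, h⟩ | h)
    · rwa [← base_injective h]
    · simp only [mem_iUnion, mem_image] at h
      obtain ⟨j, _, ⟨v, hv, rfl⟩, h⟩ := h
      obtain ⟨w, hw, rfl⟩ := char_eq_base_iff.mp h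
      have : v = ⟨sphToDsk n w, w.ne_zero⟩ := Subtype.ext hw.symm
      rw [this] at hv
      simpa [radial_sphToDsk] using hv
  · intro h
    exact Or.inl ⟨a, h, rfl⟩

lemma preimage_base_collar (U : Set A) : base ⁻¹' collar φ U = U := by
  ext a
  exact base_mem_collar

lemma char_mem_collar {U : Set A} {j : J} {v : Dsk n} :
    char φ j v ∈ collar φ U ↔ ∃ h : v.1 ≠ 0, φ j (radial n ⟨v, h⟩) ∈ U := by
  constructor
  · intro hv
    by_cases hlt : ‖v.1‖ < 1
    · rcases hv with ⟨b, -, h⟩ | h
      · rw [char_of_lt j v hlt] at h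
        exact absurd h (base_ne_cell _ _ _)
      · simp only [mem_iUnion, mem_image] at h
        obtain ⟨j', _, ⟨v', hv', rfl⟩, h⟩ := h
        rw [char_of_lt j v hlt, char_eq_cell_iff] at h
        obtain ⟨rfl, h2⟩ := h
        have h3 : v'.1 = v := by rw [← h2]; rfl
        refine ⟨h3 ▸ v'.2, ?_⟩
        have : v' = ⟨v, h3 ▸ v'.2⟩ := Subtype.ext h3
        rw [← this]
        exact hv'
    · rw [char_of_not_lt j v hlt, base_mem_collar] at hv
      have h0 : v = sphToDsk n (v.toSph hlt) := rfl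
      refine ⟨h0 ▸ (v.toSph hlt).ne_zero, ?_⟩
      have := radial_sphToDsk (v.toSph hlt) (v.toSph hlt).ne_zero
      rw [show (⟨v, h0 ▸ (v.toSph hlt).ne_zero⟩ : PDsk n) =
        ⟨sphToDsk n (v.toSph hlt), (v.toSph hlt).ne_zero⟩ from rfl, this]
      exact hv
  · rintro ⟨h, hU⟩
    refine Or.inr (mem_iUnion.mpr ⟨j, ⟨v, ⟨⟨v, h⟩, hU, rfl⟩, rfl⟩⟩)

lemma preimage_char_collar (U : Set A) (j : J) :
    char φ j ⁻¹' collar φ U = Subtype.val '' ((fun v : PDsk n => φ j (radial n v)) ⁻¹' U) := by
  ext v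
  rw [mem_preimage, char_mem_collar]
  constructor
  · rintro ⟨h, hU⟩
    exact ⟨⟨v, h⟩, hU, rfl⟩
  · rintro ⟨v', hv', rfl⟩
    exact ⟨v'.2, hv'⟩

lemma cell_mem_collar {U : Set A} {j : J} {v : Bal n} :
    cell j v ∈ collar φ U ↔ ∃ h : (balToDsk n v).1 ≠ 0, φ j (radial n ⟨balToDsk n v, h⟩) ∈ U := by
  rw [← char_balToDsk, char_mem_collar]

/-- The collar of an open set is open. -/
lemma isOpen_collar {U : Set A} (hU : IsOpen U) : IsOpen (collar φ U) := by
  rw [isOpen_iff]
  refine ⟨by rwa [preimage_base_collar], fun j => ?_⟩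
  rw [preimage_char_collar]
  exact isOpenEmbedding_pdsk.isOpenMap _ (hU.preimage ((φ j).continuous.comp (radial n).continuous))

lemma collar_mono {U V : Set A} (h : U ⊆ V) : collar φ U ⊆ collar φ V := by
  intro x hx
  induction x using induction_on with
  | h1 a => exact base_mem_collar.mpr (h (base_mem_collar.mp hx))
  | h2 j v =>
    obtain ⟨h0, hU⟩ := cell_mem_collar.mp hx
    exact cell_mem_collar.mpr ⟨h0, h hU⟩

lemma collar_inter (U V : Set A) : collar φ (U ∩ V) = collar φ U ∩ collar φ V := by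
  ext x
  induction x using induction_on with
  | h1 a => simp [base_mem_collar]
  | h2 j v =>
    simp only [mem_inter_iff, cell_mem_collar]
    constructor
    · rintro ⟨h0, h1, h2⟩
      exact ⟨⟨h0, h1⟩, ⟨h0, h2⟩⟩
    · rintro ⟨⟨h0, h1⟩, ⟨_, h2⟩⟩
      exact ⟨h0, h1, h2⟩

lemma collar_empty : collar φ (∅ : Set A) = ∅ := by
  ext x
  induction x using induction_on with
  | h1 a => simp [base_mem_collar]
  | h2 j v => simp [cell_mem_collar]

lemma disjoint_collar {U V : Set A} (h : Disjoint U V) : Disjoint (collar φ U) (collar φ V) := by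
  rw [Set.disjoint_iff_inter_eq_empty, ← collar_inter, Set.disjoint_iff_inter_eq_empty.mp h,
    collar_empty]

/-- The closed concentric ball of radius `ρ < 1` in the cell `j` is closed in `Attach φ`. -/
lemma isClosed_image_cell_le (j : J) {ρ : ℝ} (hρ : ρ < 1) :
    IsClosed ((cell j : Bal n → Attach φ) '' {w | ‖w.1‖ ≤ ρ}) := by
  rw [isClosed_iff]
  refine ⟨by rw [preimage_base_image_cell]; exact isClosed_empty, fun j' => ?_⟩
  by_cases h : j' = j
  · subst h
    rw [preimage_char_image_cell_self]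
    have : balToDsk n '' {w | ‖w.1‖ ≤ ρ} = {v : Dsk n | ‖v.1‖ ≤ ρ} := by
      ext v
      constructor
      · rintro ⟨w, hw, rfl⟩
        exact hw
      · intro hv
        exact ⟨v.toBal (lt_of_le_of_lt hv hρ), hv, rfl⟩
    rw [this]
    exact isClosed_le (continuous_norm.comp continuous_subtype_val) continuous_const
  · rw [preimage_char_image_cell_of_ne h]
    exact isClosed_empty

/-- `Attach φ` is Hausdorff if `A` is. -/
instance instT2Space [T2Space A] : T2Space (Attach φ) := by
  have key : ∀ (a : A) (j : J) (v : Bal n), ∃ u w : Set (Attach φ), IsOpen u ∧ IsOpen w ∧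
      base a ∈ u ∧ cell j v ∈ w ∧ Disjoint u w := by
    intro a j v
    have h1 : ‖v.1‖ < (‖v.1‖ + 1) / 2 := by linarith [v.norm_lt]
    have h2 : (‖v.1‖ + 1) / 2 < 1 := by linarith [v.norm_lt]
    refine ⟨((cell j : Bal n → Attach φ) '' {w | ‖w.1‖ ≤ (‖v.1‖ + 1) / 2})ᶜ,
      (cell j : Bal n → Attach φ) '' {w | ‖w.1‖ < (‖v.1‖ + 1) / 2},
      (isClosed_image_cell_le j h2).isOpen_compl,
      (isOpenEmbedding_cell j).isOpenMap _
        (isOpen_lt (continuous_norm.comp continuous_subtype_val) continuous_const),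
      ?_, ⟨v, h1, rfl⟩, ?_⟩
    · rintro ⟨w, -, hw⟩
      exact cell_ne_base _ _ _ hw
    · rw [Set.disjoint_left]
      rintro _ hx ⟨w, hw, rfl⟩
      exact hx ⟨w, le_of_lt (show ‖w.1‖ < (‖v.1‖ + 1) / 2 from hw), rfl⟩
  refine ⟨fun x y hxy => ?_⟩
  induction x using induction_on with
  | h1 a =>
    induction y using induction_on with
    | h1 b =>
      have hab : a ≠ b := fun h => hxy (by rw [h])
      obtain ⟨U, V, hU, hV, haU, hbV, hUV⟩ := t2_separation hab
      exact ⟨collar φ U, collar φ V, isOpen_collar hU, isOpen_collar hV, base_mem_collar.mpr haU,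
        base_mem_collar.mpr hbV, disjoint_collar hUV⟩
    | h2 j v => exact key a j v
  | h2 j v =>
    induction y using induction_on with
    | h1 b =>
      obtain ⟨u, w, hu, hw, h1, h2, h3⟩ := key b j v
      exact ⟨w, u, hw, hu, h2, h1, h3.symm⟩
    | h2 j' v' =>
      by_cases hj : j = j'
      · subst hj
        have hv : v ≠ v' := fun h => hxy (by rw [h])
        obtain ⟨U, V, hU, hV, haU, hbV, hUV⟩ := t2_separation hv
        refine ⟨cell j '' U, cell j '' V, (isOpenEmbedding_cell j).isOpenMap _ hU,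
          (isOpenEmbedding_cell j).isOpenMap _ hV, ⟨v, haU, rfl⟩, ⟨v', hbV, rfl⟩, ?_⟩
        exact (Set.disjoint_image_iff (cell_injective j)).mpr hUV
      · exact ⟨range (cell j), range (cell j'), isOpen_range_cell j, isOpen_range_cell j',
          ⟨v, rfl⟩, ⟨v', rfl⟩, disjoint_range_cell hj⟩

end Attach

end

end Claimed.Open.R321
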