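import Claimed.Open.R321.AttachSC

/-!
# Result 321: the discrete `Γ`-space `Vt Γ` (the vertices of the Cayley complex)

Owner: helper272.

* `Vt Γ`: the group `Γ` with the discrete topology and the action by left multiplication;
* `Vt.proj : C(Vt Γ, Unit)`, `Vt.isQuotientCoveringMap_proj`;
* `Vt.cellAttach : CellAttach (Vt Γ) ∅ 0 Γ`, `Vt.cellAttach_isWeak`, `Vt.smul_cellAttach_Φ`.
-/

set_option autoImplicit false

set_option linter.unusedSectionVars false

namespace Claimed.Open.R321

open Metric Set Topology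

noncomputable section

/-- The group `Γ` as a discrete space with the action of `Γ` by left multiplication. -/
def Vt (Γ : Type) : Type := Γ

namespace Vt

variable {Γ : Type}

/-- the point of `Vt Γ` given by a group element -/
def mk (γ : Γ) : Vt Γ := γ

/-- the group element of a point of `Vt Γ` -/
def val (x : Vt Γ) : Γ := x

@[simp] lemma val_mk (γ : Γ) : (mk γ).val = γ := rfl

@[simp] lemma mk_val (x : Vt Γ) : mk x.val = x := rfl

lemma mk_injective : Function.Injective (mk : Γ → Vt Γ) := fun _ _ h => h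

@[ext] lemma ext {x y : Vt Γ} (h : x.val = y.val) : x = y := h

instance : TopologicalSpace (Vt Γ) := ⊥

instance : DiscreteTopology (Vt Γ) := ⟨rfl⟩

variable [Group Γ]

instance : Nonempty (Vt Γ) := ⟨mk 1⟩

instance : MulAction Γ (Vt Γ) where
  smul γ x := mk (γ * x.val)
  one_smul _ := ext (one_mul _)
  mul_smul _ _ _ := ext (mul_assoc _ _ _)

@[simp] lemma smul_mk (γ γ' : Γ) : γ • mk γ' = mk (γ * γ') := rfl

@[simp] lemma val_smul (γ : Γ) (x : Vt Γ) : (γ • x).val = γ * x.val := rfl

instance : ContinuousConstSMul Γ (Vt Γ) := ⟨fun _ => continuous_of_discreteTopology⟩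

variable (Γ) in
/-- the projection to the point -/
def proj : C(Vt Γ, Unit) := ContinuousMap.const _ ()

variable (Γ) in
theorem isQuotientCoveringMap_proj : IsQuotientCoveringMap (proj Γ) Γ := by
  refine ⟨?_, inferInstance, ?_, ?_⟩
  · exact IsOpenMap.isQuotientMap (fun _ _ => isOpen_discrete _) (proj Γ).continuous
      (fun _ => ⟨mk 1, rfl⟩)
  · intro e₁ e₂
    refine ⟨fun _ => ⟨e₁.val * e₂.val⁻¹, ext ?_⟩, fun _ => rfl⟩
    simp
  · intro e
    refine ⟨{e}, (isOpen_discrete _).mem_nhds rfl, ?_⟩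
    rintro γ ⟨_, ⟨x, hx, rfl⟩, h⟩
    rw [mem_singleton_iff] at hx h
    subst hx
    have h1 : (γ • x).val = x.val := congrArg val h
    rwa [val_smul, mul_eq_right] at h1

variable (Γ) in
/-- `Vt Γ` is obtained from the empty set by attaching the `0`-cells `γ : Γ`. -/
def cellAttach : CellAttach (Vt Γ) ∅ 0 Γ where
  Φ γ := ContinuousMap.const _ (mk γ)
  sphere_mem _ x hx := by
    have : x.1 = 0 := Subsingleton.elim _ _
    rw [this, norm_zero] at hx
    exact absurd hx zero_ne_one
  ball_not_mem _ _ _ := notMem_empty _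
  inj _ _ _ _ _ _ h := ⟨h, Subsingleton.elim _ _⟩
  cover z := Or.inr ⟨z.val, ⟨0, by simp⟩, rfl⟩

@[simp] lemma cellAttach_Φ (γ : Γ) (x : Dsk 0) : (cellAttach Γ).Φ γ x = mk γ := rfl

variable (Γ) in
theorem cellAttach_isWeak : (cellAttach Γ).IsWeak :=
  ⟨isClosed_empty, fun _ _ _ => isClosed_discrete _⟩

theorem smul_cellAttach_Φ (γ γ' : Γ) (x : Dsk 0) :
    γ • (cellAttach Γ).Φ γ' x = (cellAttach Γ).Φ (γ * γ') x := rfl

end Vt

end

end Claimed.Open.R321
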