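import Claimed.Open.R321.Statement

/-!
# Uniqueness of the universal cover

Two simply connected covering spaces of a locally path connected space are homeomorphic over the
base.  This shows that the existential quantifier over universal covers in `SatisfiesD2` is harmless.
-/

set_option autoImplicit false

namespace Claimed.Open.R321

open Topology

/-- The domain of a local homeomorphism into a locally path connected space is locally path
connected. -/
theorem locallyPathConnectedSpace_of_isLocalHomeomorph {E X : Type} [TopologicalSpace E]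
    [TopologicalSpace X] [LocallyPathConnectedSpace X] {p : E → X} (hp : IsLocalHomeomorph p) :
    LocallyPathConnectedSpace E := by
  let _ : ChartedSpace X E :=
    { atlas := Set.univ
      chartAt := fun e => (hp e).choose
      mem_chart_source := fun e => (hp e).choose_spec.1
      chart_mem_atlas := fun _ => trivial }
  exact ChartedSpace.locallyPathConnectedSpace X E

/-- Two simply connected, locally path connected covering spaces are homeomorphic over the base. -/
theorem exists_homeomorph_of_simplyConnected_covers {X E₁ E₂ : Type} [TopologicalSpace X]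
    [TopologicalSpace E₁] [TopologicalSpace E₂] {p₁ : E₁ → X} {p₂ : E₂ → X}
    (h₁ : IsCoveringMap p₁) (h₂ : IsCoveringMap p₂)
    [SimplyConnectedSpace E₁] [SimplyConnectedSpace E₂]
    [LocallyPathConnectedSpace E₁] [LocallyPathConnectedSpace E₂]
    (e₁ : E₁) (e₂ : E₂) (h : p₁ e₁ = p₂ e₂) :
    ∃ Φ : E₁ ≃ₜ E₂, (∀ e, p₂ (Φ e) = p₁ e) ∧ Φ e₁ = e₂ := by
  obtain ⟨F, ⟨hF0, hF⟩, -⟩ :=
    h₂.existsUnique_continuousMap_lifts ⟨p₁, h₁.continuous⟩ e₁ e₂ h.symm
  obtain ⟨H, ⟨hH0, hH⟩, -⟩ :=
    h₁.existsUnique_continuousMap_lifts ⟨p₂, h₂.continuous⟩ e₂ e₁ h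
  have hF' : ∀ e, p₂ (F e) = p₁ e := fun e => congrFun hF e
  have hH' : ∀ e, p₁ (H e) = p₂ e := fun e => congrFun hH e
  have hHF : (H ∘ F : E₁ → E₁) = id :=
    h₁.eq_of_comp_eq (H.continuous.comp F.continuous) continuous_id
      (by funext e; simp [hH', hF']) e₁ (by simp [hF0, hH0])
  have hFH : (F ∘ H : E₂ → E₂) = id :=
    h₂.eq_of_comp_eq (F.continuous.comp H.continuous) continuous_id
      (by funext e; simp [hH', hF']) e₂ (by simp [hF0, hH0])
  exact ⟨{ toFun := F, invFun := H, left_inv := congrFun hHF, right_inv := congrFun hFH,
           continuous_toFun := F.continuous, continuous_invFun := H.continuous }, hF', hF0⟩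

/-- Any two universal covers (in the sense of `Statement.lean`) of a locally path connected space
are homeomorphic over the base as soon as their images meet. -/
theorem UniversalCover.exists_homeomorph {X : Type} [TopologicalSpace X]
    [LocallyPathConnectedSpace X] (U U' : UniversalCover X) (e : U.E) (e' : U'.E)
    (h : U.p e = U'.p e') : ∃ Φ : U.E ≃ₜ U'.E, (∀ x, U'.p (Φ x) = U.p x) ∧ Φ e = e' := by
  have := locallyPathConnectedSpace_of_isLocalHomeomorph U.isCoveringMap.isLocalHomeomorph
  have := locallyPathConnectedSpace_of_isLocalHomeomorph U'.isCoveringMap.isLocalHomeomorph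
  exact exists_homeomorph_of_simplyConnected_covers U.isCoveringMap U'.isCoveringMap e e' h

end Claimed.Open.R321
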