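import Claimed.Open.R321.Statement

/-!
# Sanity checks for R321: unfolding the definition of `H^n(X; M)`

* `subsingleton_localCohomology_succ_iff`: `H^{n+1}(X; M) = 0` means literally that every equivariant
  cocycle is the coboundary of an equivariant cochain.
-/

set_option autoImplicit false

namespace Claimed.Open.R321

open CategoryTheory AlgebraicTopology Topology

noncomputable section

variable {X : Type} [TopologicalSpace X]

section

variable (U : UniversalCover X) (e₀ : U.E)
  (M : Type) [AddCommGroup M] [Module (MonoidAlgebra ℤ (FundamentalGroup X (U.p e₀))) M]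

lemma mem_cochains {n : ℕ} {φ : U.chains n →+ M} :
    φ ∈ cochains U e₀ M n ↔ ∀ (g : deckGroup U.p) (c : U.chains n),
      φ (U.deckAct g n c) = MonoidAlgebra.of ℤ _ (deckToFundamentalGroup U e₀ g) • φ c :=
  Iff.rfl

lemma coboundaryMap_apply {n : ℕ} (φ : U.chains n →+ M) (c : U.chains (n + 1)) :
    coboundaryMap U M n φ c = φ (U.boundary n c) := rfl

lemma mem_cocycles {n : ℕ} {φ : U.chains n →+ M} :
    φ ∈ cocycles U e₀ M n ↔ φ ∈ cochains U e₀ M n ∧ ∀ c, φ (U.boundary n c) = 0 := by
  unfold cocycles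
  rw [AddSubgroup.mem_inf, AddMonoidHom.mem_ker]
  refine and_congr_right fun _ => ?_
  rw [DFunLike.ext_iff]
  rfl

lemma mem_coboundaries_succ {n : ℕ} {φ : U.chains (n + 1) →+ M} :
    φ ∈ coboundaries U e₀ M (n + 1) ↔
      ∃ ψ ∈ cochains U e₀ M n, ∀ c, ψ (U.boundary n c) = φ c := by
  change φ ∈ (cochains U e₀ M n).map (coboundaryMap U M n) ↔ _
  rw [AddSubgroup.mem_map]
  refine exists_congr fun ψ => and_congr_right fun _ => ?_
  rw [DFunLike.ext_iff]
  rfl

/-- `H^n(X; M) = 0` iff every cocycle is a coboundary. -/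
lemma subsingleton_localCohomology_iff {n : ℕ} :
    Subsingleton (localCohomology U e₀ M n) ↔ cocycles U e₀ M n ≤ coboundaries U e₀ M n := by
  unfold localCohomology
  rw [QuotientAddGroup.subsingleton_iff, AddSubgroup.addSubgroupOf_eq_top]

/-- `H^{n+1}(X; M) = 0` means: every equivariant additive map `φ : S_{n+1}(X̃) → M` which vanishes
on boundaries is of the form `ψ ∘ ∂` for an equivariant additive map `ψ : S_n(X̃) → M`. -/
theorem subsingleton_localCohomology_succ_iff {n : ℕ} :
    Subsingleton (localCohomology U e₀ M (n + 1)) ↔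
      ∀ φ ∈ cochains U e₀ M (n + 1), (∀ c, φ (U.boundary (n + 1) c) = 0) →
        ∃ ψ ∈ cochains U e₀ M n, ∀ c, ψ (U.boundary n c) = φ c := by
  rw [subsingleton_localCohomology_iff]
  constructor
  · intro h φ hφ hφ'
    exact (mem_coboundaries_succ U e₀ M).1 (h ((mem_cocycles U e₀ M).2 ⟨hφ, hφ'⟩))
  · intro h φ hφ
    obtain ⟨h1, h2⟩ := (mem_cocycles U e₀ M).1 hφ
    exact (mem_coboundaries_succ U e₀ M).2 (h φ h1 h2)

end

end

end Claimed.Open.R321
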