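import Claimed.Open.R321.HomologyBridge
import Claimed.Open.R321.SanityChains

/-!
# The `D(2)` condition from a small equivariant model of the singular chains of `X̃`

Architecture-independent endgame of the positive clause of Theorem 1.1.

Let `U` be a universal cover of `X` with deck group `D`.  A `D2Model U` is a sequence of abelian groups
`C n` with an additive action of `D`, differentials, and a `D`-equivariant chain map
`w : C → S_*(X̃)` which induces an isomorphism in homology (stated elementwise, no equivariance and no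
freeness of `C` required), such that `C n = 0` for `n ≥ 3`.

`satisfiesD2_of_model`: if `U` has a `D2Model` then `X` satisfies `SatisfiesD2` (with this `U`).

Proof.  `D` acts freely on singular simplices, so by recursion over orbit representatives one gets
equivariant `u_n : S_n → C_n`, `h_n : S_n → S_{n+1}` (`n ≤ 2`) with `d u = u ∂` and
`w u + ∂ h + h ∂ = id`.  For an equivariant 3-cocycle `φ` put `ψ = φ ∘ h_2`; for a 3-chain `τ` one has
`u_2 ∂ τ = 0` (injectivity in `H_2`, `C_3 = 0`), so `τ - h_2 ∂ τ` is a cycle, hence a boundary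
(`H_3 = 0`), hence killed by `φ`.
-/

set_option autoImplicit false

namespace Claimed.Open.R321

open CategoryTheory AlgebraicTopology Topology

noncomputable section

/-! ### Equivariant choice for a free action -/

/-- For a free action of `D` on `B`, a `D`-invariant solvable problem `P b t` has an equivariant
solution `f : B → T`. -/
theorem exists_equivariant_choice {D B T : Type*} [Group D] [MulAction D B]
    (hfree : ∀ (g : D) (b : B), g • b = b → g = 1)
    (actT : D → T → T) (hmul : ∀ g h t, actT (g * h) t = actT g (actT h t))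
    (P : B → T → Prop) (hP : ∀ b, ∃ t, P b t)
    (hPeq : ∀ g b t, P b t → P (g • b) (actT g t)) :
    ∃ f : B → T, (∀ b, P b (f b)) ∧ ∀ g b, f (g • b) = actT g (f b) := by
  classical
  let q : B → MulAction.orbitRel.Quotient D B := fun b => Quotient.mk _ b
  let rep : B → B := fun b => (q b).out
  have hrep : ∀ b, ∃ g : D, g • rep b = b := by
    intro b
    have h : (MulAction.orbitRel D B) (rep b) b := Quotient.exact (Quotient.out_eq (q b))
    rw [MulAction.orbitRel_apply] at h
    obtain ⟨g, hg⟩ := h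
    exact ⟨g⁻¹, by rw [← hg, inv_smul_smul]⟩
  choose γ hγ using hrep
  choose t₀ ht₀ using hP
  have hq : ∀ (g : D) (b : B), rep (g • b) = rep b := by
    intro g b
    have : q (g • b) = q b := by
      apply Quotient.sound
      change (MulAction.orbitRel D B) (g • b) b
      rw [MulAction.orbitRel_apply]
      exact ⟨g, rfl⟩
    simp only [rep, this]
  refine ⟨fun b => actT (γ b) (t₀ (rep b)), fun b => ?_, fun g b => ?_⟩
  · have := hPeq (γ b) (rep b) _ (ht₀ (rep b))
    rwa [hγ] at this
  · have h1 : γ (g • b) • rep b = (g * γ b) • rep b := by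
      rw [mul_smul, hγ b, ← hq g b, hγ (g • b)]
    have h2 : γ (g • b) = g * γ b := by
      have h3 : ((g * γ b)⁻¹ * γ (g • b)) • rep b = rep b := by
        rw [mul_smul, h1, inv_smul_smul]
      have h4 := hfree _ _ h3
      rw [inv_mul_eq_one] at h4
      exact h4.symm
    change actT (γ (g • b)) (t₀ (rep (g • b))) = actT g (actT (γ b) (t₀ (rep b)))
    rw [hq, h2, hmul]

/-! ### Equivariant additive maps out of singular chains -/

section Free

variable {E : Type} [TopologicalSpace E] (D : Subgroup (E ≃ₜ E))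

/-- The action of a group of homeomorphisms on singular simplices. -/
@[instance_reducible]
def simplexMulAction (n : ℕ) : MulAction D (Simplex n E) where
  smul g σ := ((g.1 : E ≃ₜ E) : C(E, E)).comp σ
  one_smul σ := by
    ext x
    rfl
  mul_smul g h σ := by
    ext x
    rfl

/-- The action of a group of homeomorphisms on singular chains. -/
def chainAct (g : D) (n : ℕ) : Chains E n →+ Chains E n :=
  chainMap ((g.1 : E ≃ₜ E) : C(E, E)) n

theorem chainAct_gen (g : D) {n : ℕ} (σ : Simplex n E) :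
    chainAct D g n (gen σ) = gen (((g.1 : E ≃ₜ E) : C(E, E)).comp σ) :=
  chainMap_gen _ σ

theorem chainAct_mul (g h : D) (n : ℕ) (c : Chains E n) :
    chainAct D (g * h) n c = chainAct D g n (chainAct D h n c) :=
  chainMap_comp ((g.1 : E ≃ₜ E) : C(E, E)) ((h.1 : E ≃ₜ E) : C(E, E)) c

theorem bd_chainAct (g : D) (n : ℕ) (c : Chains E (n + 1)) :
    bd E n (chainAct D g (n + 1) c) = chainAct D g n (bd E n c) :=
  bd_chainMap _ c

variable {D}

/-- A free action on points is free on singular simplices. -/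
theorem simplex_free (hfree : ∀ (g : D) (e : E), g.1 e = e → g = 1) {n : ℕ} (g : D)
    (σ : Simplex n E) (h : ((g.1 : E ≃ₜ E) : C(E, E)).comp σ = σ) : g = 1 := by
  have x : stdSimplex ℝ (Fin (n + 1)) := ⟨Pi.single 0 1, single_mem_stdSimplex ℝ 0⟩
  exact hfree g (σ x) (congrArg (fun k => k x) h)

/-- For a free action, an invariant solvable problem on simplices has an equivariant additive
solution on chains. -/
theorem exists_equivariant_hom (hfree : ∀ (g : D) (e : E), g.1 e = e → g = 1)
    {T : Type} [AddCommGroup T] (actT : D → T →+ T)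
    (hmul : ∀ g h t, actT (g * h) t = actT g (actT h t)) (n : ℕ)
    (P : Simplex n E → T → Prop) (hP : ∀ σ, ∃ t, P σ t)
    (hPeq : ∀ (g : D) σ t, P σ t → P (((g.1 : E ≃ₜ E) : C(E, E)).comp σ) (actT g t)) :
    ∃ F : Chains E n →+ T, (∀ σ, P σ (F (gen σ))) ∧
      ∀ g c, F (chainAct D g n c) = actT g (F c) := by
  let _ := simplexMulAction D n
  obtain ⟨f, hf1, hf2⟩ := exists_equivariant_choice (D := D) (B := Simplex n E) (T := T)
    (fun g σ h => simplex_free hfree g σ h) (fun g t => actT g t) hmul P hP hPeq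
  refine ⟨chainsLift f, fun σ => by rw [chainsLift_gen]; exact hf1 σ, fun g c => ?_⟩
  have key : (chainsLift f).comp (chainAct D g n) = (actT g).comp (chainsLift f) := by
    apply chains_hom_ext
    intro σ
    simp only [AddMonoidHom.comp_apply, chainAct_gen, chainsLift_gen]
    exact hf2 g σ
  exact congrArg (fun k => k c) key

end Free

/-! ### Models -/

/-- A small equivariant model of the singular chain complex of a space `E` with a group `D` of
homeomorphisms: an equivariant chain map `w : C → S_*(E)` inducing an isomorphism in homology. -/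
structure ChainModel (E : Type) [TopologicalSpace E] (D : Subgroup (E ≃ₜ E)) where
  /-- the groups of the model -/
  C : ℕ → Type
  /-- they are abelian groups -/
  [grp : ∀ n, AddCommGroup (C n)]
  /-- the differential -/
  d : ∀ n, C (n + 1) →+ C n
  /-- the action of `D` -/
  act : ∀ n, D → C n →+ C n
  /-- the comparison map -/
  w : ∀ n, C n →+ Chains E n
  act_mul : ∀ n g h c, act n (g * h) c = act n g (act n h c)
  d_act : ∀ n g c, d n (act (n + 1) g c) = act n g (d n c)
  w_act : ∀ n g c, w n (act n g c) = chainAct D g n (w n c)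
  bd_w : ∀ n c, bd E n (w (n + 1) c) = w n (d n c)
  /-- `H_0(w)` is onto -/
  surj_zero : ∀ z : Chains E 0, ∃ (c : C 0) (y : Chains E 1), z = w 0 c + bd E 0 y
  /-- `H_{n+1}(w)` is onto -/
  surj_succ : ∀ (n : ℕ) (z : Chains E (n + 1)), bd E n z = 0 →
    ∃ (c : C (n + 1)) (y : Chains E (n + 2)), d n c = 0 ∧ z = w (n + 1) c + bd E (n + 1) y
  /-- `H_0(w)` is injective -/
  inj_zero : ∀ (c : C 0) (y : Chains E 1), w 0 c = bd E 0 y → ∃ c' : C 1, d 0 c' = c
  /-- `H_{n+1}(w)` is injective -/
  inj_succ : ∀ (n : ℕ) (c : C (n + 1)) (y : Chains E (n + 2)), d n c = 0 →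
    w (n + 1) c = bd E (n + 1) y → ∃ c' : C (n + 2), d (n + 1) c' = c

attribute [instance] ChainModel.grp

namespace ChainModel

variable {E : Type} [TopologicalSpace E] {D : Subgroup (E ≃ₜ E)} (m : ChainModel E D)

/-- One step of the equivariant recursion. -/
theorem step (hfree : ∀ (g : D) (e : E), g.1 e = e → g = 1) (n : ℕ)
    (u : Chains E n →+ m.C n) (h : Chains E n →+ Chains E (n + 1))
    (hu : ∀ g c, u (chainAct D g n c) = m.act n g (u c))
    (hh : ∀ g c, h (chainAct D g n c) = chainAct D g (n + 1) (h c))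
    (hex : ∀ σ : Simplex (n + 1) E, ∃ (c : m.C (n + 1)) (y : Chains E (n + 2)),
      m.d n c = u (bd E n (gen σ)) ∧
        m.w (n + 1) c + bd E (n + 1) y = gen σ - h (bd E n (gen σ))) :
    ∃ (u' : Chains E (n + 1) →+ m.C (n + 1)) (h' : Chains E (n + 1) →+ Chains E (n + 2)),
      (∀ g c, u' (chainAct D g (n + 1) c) = m.act (n + 1) g (u' c)) ∧
      (∀ g c, h' (chainAct D g (n + 1) c) = chainAct D g (n + 2) (h' c)) ∧
      (∀ x, m.d n (u' x) = u (bd E n x)) ∧
      (∀ x, m.w (n + 1) (u' x) + bd E (n + 1) (h' x) = x - h (bd E n x)) := by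
  obtain ⟨F, hF1, hF2⟩ := exists_equivariant_hom (D := D) hfree
    (T := m.C (n + 1) × Chains E (n + 2))
    (fun g => (m.act (n + 1) g).prodMap (chainAct D g (n + 2)))
    (fun g k t => by
      ext
      · exact m.act_mul (n + 1) g k t.1
      · exact chainAct_mul D g k (n + 2) t.2)
    (n + 1)
    (fun σ t => m.d n t.1 = u (bd E n (gen σ)) ∧
        m.w (n + 1) t.1 + bd E (n + 1) t.2 = gen σ - h (bd E n (gen σ)))
    (fun σ => by
      obtain ⟨c, y, h1, h2⟩ := hex σ
      exact ⟨(c, y), h1, h2⟩)
    (fun g σ t ht => by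
      obtain ⟨h1, h2⟩ := ht
      constructor
      · change m.d n (m.act (n + 1) g t.1) = _
        rw [m.d_act, h1, ← chainAct_gen, bd_chainAct, hu]
      · change m.w (n + 1) (m.act (n + 1) g t.1) + bd E (n + 1) (chainAct D g (n + 2) t.2) = _
        rw [m.w_act, bd_chainAct, ← map_add, h2, ← chainAct_gen, bd_chainAct, hh, map_sub])
  refine ⟨(AddMonoidHom.fst _ _).comp F, (AddMonoidHom.snd _ _).comp F, ?_, ?_, ?_, ?_⟩
  · intro g c
    exact congrArg Prod.fst (hF2 g c)
  · intro g c
    exact congrArg Prod.snd (hF2 g c)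
  · intro x
    have key : (m.d n).comp ((AddMonoidHom.fst _ _).comp F) = u.comp (bd E n) := by
      apply chains_hom_ext
      intro σ
      exact (hF1 σ).1
    exact congrArg (fun k => k x) key
  · intro x
    have key : (m.w (n + 1)).comp ((AddMonoidHom.fst _ _).comp F) +
        (bd E (n + 1)).comp ((AddMonoidHom.snd _ _).comp F) =
        AddMonoidHom.id _ - h.comp (bd E n) := by
      apply chains_hom_ext
      intro σ
      exact (hF1 σ).2
    exact congrArg (fun k => k x) key

/-- Stage `0` of the recursion. -/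
theorem stage_zero (hfree : ∀ (g : D) (e : E), g.1 e = e → g = 1) :
    ∃ (u : Chains E 0 →+ m.C 0) (h : Chains E 0 →+ Chains E 1),
      (∀ g c, u (chainAct D g 0 c) = m.act 0 g (u c)) ∧
      (∀ g c, h (chainAct D g 0 c) = chainAct D g 1 (h c)) ∧
      (∀ x, m.w 0 (u x) + bd E 0 (h x) = x) := by
  obtain ⟨F, hF1, hF2⟩ := exists_equivariant_hom (D := D) hfree
    (T := m.C 0 × Chains E 1)
    (fun g => (m.act 0 g).prodMap (chainAct D g 1))
    (fun g k t => by
      ext
      · exact m.act_mul 0 g k t.1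
      · exact chainAct_mul D g k 1 t.2)
    0
    (fun σ t => m.w 0 t.1 + bd E 0 t.2 = gen σ)
    (fun σ => by
      obtain ⟨c, y, h1⟩ := m.surj_zero (gen σ)
      exact ⟨(c, y), h1.symm⟩)
    (fun g σ t ht => by
      change m.w 0 (m.act 0 g t.1) + bd E 0 (chainAct D g 1 t.2) = _
      rw [m.w_act, bd_chainAct, ← map_add, ht, chainAct_gen])
  refine ⟨(AddMonoidHom.fst _ _).comp F, (AddMonoidHom.snd _ _).comp F, ?_, ?_, ?_⟩
  · intro g c
    exact congrArg Prod.fst (hF2 g c)
  · intro g c
    exact congrArg Prod.snd (hF2 g c)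
  · intro x
    have key : (m.w 0).comp ((AddMonoidHom.fst _ _).comp F) +
        (bd E 0).comp ((AddMonoidHom.snd _ _).comp F) = AddMonoidHom.id _ := by
      apply chains_hom_ext
      intro σ
      exact hF1 σ
    exact congrArg (fun k => k x) key

/-- Acyclicity of the cone of `w` in degree `1`. -/
theorem cone_one (a : m.C 0) (z : Chains E 1) (hz : bd E 0 z = m.w 0 a) :
    ∃ (c : m.C 1) (y : Chains E 2), m.d 0 c = a ∧ m.w 1 c + bd E 1 y = z := by
  obtain ⟨c', hc'⟩ := m.inj_zero a z hz.symm
  obtain ⟨c'', y, h1, h2⟩ := m.surj_succ 0 (z - m.w 1 c') (by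
    rw [map_sub, m.bd_w, hc', hz, sub_self])
  refine ⟨c' + c'', y, by rw [map_add, hc', h1, add_zero], ?_⟩
  rw [map_add, add_assoc, ← h2]
  abel

/-- Acyclicity of the cone of `w` in degree `n + 2`. -/
theorem cone_succ (n : ℕ) (a : m.C (n + 1)) (z : Chains E (n + 2)) (ha : m.d n a = 0)
    (hz : bd E (n + 1) z = m.w (n + 1) a) :
    ∃ (c : m.C (n + 2)) (y : Chains E (n + 3)),
      m.d (n + 1) c = a ∧ m.w (n + 2) c + bd E (n + 2) y = z := by
  obtain ⟨c', hc'⟩ := m.inj_succ n a z ha hz.symm
  obtain ⟨c'', y, h1, h2⟩ := m.surj_succ (n + 1) (z - m.w (n + 2) c') (by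
    rw [map_sub, m.bd_w, hc', hz, sub_self])
  refine ⟨c' + c'', y, by rw [map_add, hc', h1, add_zero], ?_⟩
  rw [map_add, add_assoc, ← h2]
  abel

/-- The equivariant partial contraction: an equivariant `κ : S_2 → S_3` such that `τ - κ ∂ τ` is a
boundary for every 3-chain `τ`, provided `C 3 = 0`. -/
theorem exists_kappa (hfree : ∀ (g : D) (e : E), g.1 e = e → g = 1)
    (hC : ∀ c : m.C 3, c = 0) :
    ∃ κ : Chains E 2 →+ Chains E 3,
      (∀ g c, κ (chainAct D g 2 c) = chainAct D g 3 (κ c)) ∧
      ∀ τ : Chains E 3, ∃ ξ : Chains E 4, bd E 3 ξ = τ - κ (bd E 2 τ) := by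
  obtain ⟨u0, h0, hu0, hh0, H0⟩ := m.stage_zero hfree
  obtain ⟨u1, h1, hu1, hh1, U1, H1⟩ := m.step hfree 0 u0 h0 hu0 hh0 (fun σ => by
    apply m.cone_one
    rw [map_sub, sub_eq_iff_eq_add]
    exact (H0 (bd E 0 (gen σ))).symm)
  obtain ⟨u2, h2, hu2, hh2, U2, H2⟩ := m.step hfree 1 u1 h1 hu1 hh1 (fun σ => by
    apply m.cone_succ 0
    · rw [U1, bd_bd, map_zero]
    · rw [map_sub, sub_eq_iff_eq_add]
      have := H1 (bd E 1 (gen σ))
      rw [bd_bd, map_zero, sub_zero] at this
      exact this.symm)
  refine ⟨h2, hh2, fun τ => ?_⟩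
  have hb : bd E 2 (τ - h2 (bd E 2 τ)) = m.w 2 (u2 (bd E 2 τ)) := by
    rw [map_sub, sub_eq_iff_eq_add]
    have := H2 (bd E 2 τ)
    rw [bd_bd, map_zero, sub_zero] at this
    exact this.symm
  have hu : u2 (bd E 2 τ) = 0 := by
    obtain ⟨c', hc'⟩ := m.inj_succ 1 (u2 (bd E 2 τ)) (τ - h2 (bd E 2 τ))
      (by rw [U2, bd_bd, map_zero]) hb.symm
    rw [← hc', hC c', map_zero]
  rw [hu, map_zero] at hb
  obtain ⟨c, y, -, hy⟩ := m.surj_succ 2 _ hb
  rw [hC c, map_zero, zero_add] at hy
  exact ⟨y, hy.symm⟩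

/-- Vanishing of homology above the dimension of the model. -/
theorem exists_bd_eq (n : ℕ) (hC : ∀ c : m.C (n + 1), c = 0) (z : Chains E (n + 1))
    (hz : bd E n z = 0) : ∃ y : Chains E (n + 2), bd E (n + 1) y = z := by
  obtain ⟨c, y, -, hy⟩ := m.surj_succ n z hz
  rw [hC c, map_zero, zero_add] at hy
  exact ⟨y, hy.symm⟩

end ChainModel

/-! ### Application to universal covers -/

variable {X : Type} [TopologicalSpace X]

/-- Deck transformations of a universal cover act freely. -/
theorem UniversalCover.deck_free (U : UniversalCover X) (g : deckGroup U.p) (e : U.E)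
    (h : g.1 e = e) : g = 1 := by
  have h1 : (g.1 : U.E → U.E) = id :=
    U.isCoveringMap.eq_of_comp_eq g.1.continuous continuous_id (funext fun x => g.2 x) e h
  apply Subtype.ext
  ext x
  exact congrFun h1 x

/-- **The `D(2)` condition from a model of dimension at most two.** -/
theorem d2_clauses_of_model (U : UniversalCover X) (m : ChainModel U.E (deckGroup U.p))
    (hC : ∀ n, 3 ≤ n → ∀ c : m.C n, c = 0) :
    (∀ i : ℕ, 2 < i → Limits.IsZero (singularHomology i U.E)) ∧
    ∀ (e₀ : U.E) (M : Type) [AddCommGroup M]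
      [Module (MonoidAlgebra ℤ (FundamentalGroup X (U.p e₀))) M],
      Subsingleton (localCohomology U e₀ M 3) := by
  constructor
  · intro i hi
    obtain ⟨n, rfl⟩ : ∃ n, i = n + 1 := ⟨i - 1, by omega⟩
    rw [isZero_singularHomology_succ_iff]
    intro c hc
    exact m.exists_bd_eq n (hC (n + 1) (by omega)) c hc
  · intro e₀ M _ _
    rw [subsingleton_localCohomology_succ_iff]
    intro φ hφ hφ'
    obtain ⟨κ, hκ, hκ'⟩ := m.exists_kappa U.deck_free (hC 3 le_rfl)
    refine ⟨φ.comp κ, ?_, ?_⟩
    · intro g c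
      change φ (κ (chainAct (deckGroup U.p) g 2 c)) = _
      rw [hκ]
      exact hφ g (κ c)
    · intro τ
      obtain ⟨ξ, hξ⟩ := hκ' τ
      have h1 : φ (bd U.E 3 ξ) = 0 := hφ' ξ
      rw [hξ, map_sub, sub_eq_zero] at h1
      exact h1.symm

/-- **`SatisfiesD2` from a model of dimension at most two.** -/
theorem satisfiesD2_of_model (U : UniversalCover X) (m : ChainModel U.E (deckGroup U.p))
    (hC : ∀ n, 3 ≤ n → ∀ c : m.C n, c = 0) : SatisfiesD2 X :=
  ⟨U, d2_clauses_of_model U m hC⟩

end

end Claimed.Open.R321
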