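import Claimed.Open.R321.SanityIndep

/-!
# Sanity check: CW complexes are locally path connected

A Hausdorff space with a CW structure (Mathlib's `Topology.CWComplex (Set.univ)`) is a quotient of the
disjoint union of its closed cells, hence locally path connected.  So the two checks
`deckToFundamentalGroup_bijective` (`SanityDeck.lean`) and `satisfiesD2_iff_forall`
(`SanityIndep.lean`) apply to all the spaces which occur in `Statement`.
-/

set_option autoImplicit false

namespace Claimed.Open.R321

open Topology Metric Set

noncomputable section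

variable {X : Type} [TopologicalSpace X]

/-- The disjoint union of the closed balls indexed by the cells of a CW structure. -/
abbrev CellSum (X : Type) [TopologicalSpace X] [CWComplex (univ : Set X)] : Type :=
  Σ (n : ℕ) (_ : RelCWComplex.cell (univ : Set X) n), closedBall (0 : Fin n → ℝ) 1

/-- The characteristic maps, on the disjoint union of the closed balls. -/
def cellSumMap (X : Type) [TopologicalSpace X] [CWComplex (univ : Set X)] : CellSum X → X :=
  fun x => RelCWComplex.map x.1 x.2.1 x.2.2.1

theorem continuous_cellSumMap [CWComplex (univ : Set X)] : Continuous (cellSumMap X) := by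
  refine continuous_sigma fun n => continuous_sigma fun i => ?_
  exact (RelCWComplex.continuousOn n i).comp_continuous continuous_subtype_val fun x => x.2

theorem isQuotientMap_cellSumMap [T2Space X] [CWComplex (univ : Set X)] :
    IsQuotientMap (cellSumMap X) := by
  refine isQuotientMap_iff_isClosed.2 ⟨?_, fun A => ⟨fun h => h.preimage continuous_cellSumMap,
    fun h => ?_⟩⟩
  · intro x
    have hx : x ∈ ⋃ (n : ℕ) (j : RelCWComplex.cell (univ : Set X) n),
        RelCWComplex.closedCell n j := by
      rw [CWComplex.union]
      trivial
    simp only [mem_iUnion] at hx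
    obtain ⟨n, j, y, hy, rfl⟩ := hx
    exact ⟨⟨n, j, ⟨y, hy⟩⟩, rfl⟩
  · rw [CWComplex.closed (univ : Set X) A (subset_univ A)]
    intro n j
    have h1 : IsClosed ((fun y : closedBall (0 : Fin n → ℝ) 1 =>
        (⟨n, j, y⟩ : CellSum X)) ⁻¹' (cellSumMap X ⁻¹' A)) :=
      h.preimage (continuous_sigmaMk.comp continuous_sigmaMk)
    have h2 : A ∩ RelCWComplex.closedCell n j =
        (fun y : closedBall (0 : Fin n → ℝ) 1 => RelCWComplex.map n j y.1) ''
          ((fun y : closedBall (0 : Fin n → ℝ) 1 =>
            (⟨n, j, y⟩ : CellSum X)) ⁻¹' (cellSumMap X ⁻¹' A)) := by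
      ext x
      constructor
      · rintro ⟨hxA, y, hy, rfl⟩
        exact ⟨⟨y, hy⟩, hxA, rfl⟩
      · rintro ⟨y, hy, rfl⟩
        exact ⟨hy, y.1, y.2, rfl⟩
    rw [h2]
    exact (h1.isCompact.image ((RelCWComplex.continuousOn n j).comp_continuous
      continuous_subtype_val fun x => x.2)).isClosed

/-- A Hausdorff CW complex is locally path connected. -/
theorem locallyPathConnectedSpace_of_cwComplex [T2Space X] [CWComplex (univ : Set X)] :
    LocallyPathConnectedSpace X := by
  have : ∀ n : ℕ, LocallyPathConnectedSpace (closedBall (0 : Fin n → ℝ) 1) := fun n =>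
    (convex_closedBall _ _).locallyPathConnectedSpace
  exact isQuotientMap_cellSumMap.locallyPathConnectedSpace

theorem IsFiniteCWComplexOfDimLE.locallyPathConnectedSpace {n : ℕ}
    (h : IsFiniteCWComplexOfDimLE X n) : LocallyPathConnectedSpace X := by
  obtain ⟨_, _, -⟩ := h
  exact locallyPathConnectedSpace_of_cwComplex

theorem IsFiniteCWComplexOfDimEq.locallyPathConnectedSpace {n : ℕ}
    (h : IsFiniteCWComplexOfDimEq X n) : LocallyPathConnectedSpace X := by
  obtain ⟨_, _, -⟩ := h
  exact locallyPathConnectedSpace_of_cwComplex

/-- For a finite CW complex the deck group of a universal cover is `π₁`, via the map used in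
`Statement.lean`. -/
theorem IsFiniteCWComplexOfDimEq.deckToFundamentalGroup_bijective {n : ℕ}
    (h : IsFiniteCWComplexOfDimEq X n) (U : UniversalCover X) (e₀ : U.E) :
    Function.Bijective (deckToFundamentalGroup U e₀) := by
  have := h.locallyPathConnectedSpace
  exact Claimed.Open.R321.deckToFundamentalGroup_bijective U e₀

/-- For a finite connected CW complex, `SatisfiesD2` holds iff there is a universal cover and the two
clauses hold for *every* universal cover. -/
theorem IsFiniteCWComplexOfDimEq.satisfiesD2_iff_forall {n : ℕ}
    (h : IsFiniteCWComplexOfDimEq X n) [ConnectedSpace X] :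
    SatisfiesD2 X ↔ Nonempty (UniversalCover X) ∧ ∀ U : UniversalCover X, D2Clauses U := by
  have := h.locallyPathConnectedSpace
  exact Claimed.Open.R321.satisfiesD2_iff_forall

end

end Claimed.Open.R321
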