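import Claimed.Open.R321.Main
import Claimed.Open.R321.SanityLPC

/-!
# Result 321: a variant of the theorem with `∀` over universal covers

`main_forall`: the space `X` of `main` has a universal cover, *every* universal cover of `X` satisfies
the two clauses of the `D(2)` condition (`D2Clauses`, `SanityIndep.lean`), and `π₁(X)` is infinite.
This is `main_infinite` combined with `IsFiniteCWComplexOfDimEq.satisfiesD2_iff_forall`.
-/

set_option autoImplicit false

namespace Claimed.Open.R321

/-- Theorem 1.1 of the paper, with the `D(2)` condition for every universal cover of `X`, and the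
remark that `π₁(X)` is infinite. -/
theorem main_forall :
    ∃ (X : Type) (_ : TopologicalSpace X),
      IsFiniteCWComplexOfDimEq X 3 ∧ ConnectedSpace X ∧
      (Nonempty (UniversalCover X) ∧ ∀ U : UniversalCover X, D2Clauses U) ∧
      (∀ x : X, Infinite (FundamentalGroup X x)) ∧
      ¬ ∃ (Y : Type) (_ : TopologicalSpace Y),
        IsFiniteCWComplexOfDimLE Y 2 ∧ Nonempty (ContinuousMap.HomotopyEquiv X Y) := by
  obtain ⟨X, tX, h1, h2, h3, h4, h5⟩ := main_infinite
  exact ⟨X, tX, h1, h2, h1.satisfiesD2_iff_forall.1 h3, h4, h5⟩

end Claimed.Open.R321
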