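import Claimed.Open.R321.GroupG

/-!
# Result 321: twisted derivations of `G` are inner

For a character `ρ : Γ → kˣ`, a `ρ`-twisted derivation is a map `δ : Γ → k` with
`δ (g h) = δ g + ρ g · δ h`.  For the group `G` and the character `ρ` of the paper (over `ℤ/7`)
every twisted derivation is inner, `δ g = (1 - ρ g) c`.  This is the statement that the Fox matrix
(4.7) of the paper has rank four.
-/

set_option autoImplicit false

namespace Claimed.Open.R321

/-- `δ` is a `ρ`-twisted derivation. -/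
def IsTwistedDer {Γ k : Type*} [Group Γ] [CommRing k] (ρ : Γ →* kˣ) (δ : Γ → k) : Prop :=
  ∀ g h, δ (g * h) = δ g + (ρ g : k) * δ h

namespace IsTwistedDer

variable {Γ k : Type*} [Group Γ] [CommRing k] {ρ : Γ →* kˣ} {δ : Γ → k}

lemma map_one (h : IsTwistedDer ρ δ) : δ 1 = 0 := by
  have := h 1 1
  simpa using this

lemma map_inv (h : IsTwistedDer ρ δ) (g : Γ) : δ g⁻¹ = -((ρ g)⁻¹ : kˣ) * δ g := by
  have h1 := h g⁻¹ g
  rw [inv_mul_cancel, h.map_one, _root_.map_inv] at h1
  linear_combination -h1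

lemma map_pow (h : IsTwistedDer ρ δ) (g : Γ) (n : ℕ) :
    δ (g ^ n) = (∑ j ∈ Finset.range n, (ρ g : k) ^ j) * δ g := by
  induction n with
  | zero => simp [h.map_one]
  | succ n ih =>
    rw [pow_succ, h, ih, Finset.sum_range_succ, _root_.map_pow]
    push_cast
    ring

/-- conjugation: `δ (x a x⁻¹) = (1 - ρ a) δ x + ρ x δ a`. -/
lemma map_conj (h : IsTwistedDer ρ δ) (x a : Γ) :
    δ (x * a * x⁻¹) = (1 - (ρ a : k)) * δ x + (ρ x : k) * δ a := by
  rw [h, h, h.map_inv, _root_.map_mul]
  push_cast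
  have hx : (ρ x : k) * ((ρ x)⁻¹ : kˣ) = 1 := (ρ x).mul_inv
  linear_combination (-(ρ a : k) * δ x) * hx

/-- The inner derivation `g ↦ (1 - ρ g) c`. -/
lemma inner (ρ : Γ →* kˣ) (c : k) : IsTwistedDer ρ (fun g => (1 - (ρ g : k)) * c) := by
  intro g h
  simp only [_root_.map_mul, Units.val_mul]
  ring

lemma sub {δ' : Γ → k} (h : IsTwistedDer ρ δ) (h' : IsTwistedDer ρ δ') :
    IsTwistedDer ρ (fun g => δ g - δ' g) := by
  intro g g'
  simp only [h g g', h' g g']
  ring

/-- The elements on which a twisted derivation vanishes form a subgroup. -/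
def kerSubgroup (h : IsTwistedDer ρ δ) : Subgroup Γ where
  carrier := {g | δ g = 0}
  mul_mem' := by
    intro a b ha hb
    simp only [Set.mem_ofPred_eq] at *
    rw [h, ha, hb]
    simp
  one_mem' := h.map_one
  inv_mem' := by
    intro a ha
    simp only [Set.mem_ofPred_eq] at *
    rw [h.map_inv, ha]
    simp

/-- A twisted derivation which vanishes on a generating set vanishes. -/
lemma eq_zero_of_closure (h : IsTwistedDer ρ δ) {S : Set Γ} (hS : Subgroup.closure S = ⊤)
    (h0 : ∀ g ∈ S, δ g = 0) (g : Γ) : δ g = 0 := by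
  have : Subgroup.closure S ≤ h.kerSubgroup := (Subgroup.closure_le _).mpr h0
  rw [hS] at this
  exact this (Subgroup.mem_top g)

end IsTwistedDer

namespace Wall

/-- **Every `ρ`-twisted derivation of `G` with values in `ℤ/7` is inner.** -/
theorem der_inner {δ : G → ZMod 7} (h : IsTwistedDer rho δ) :
    ∃ c : ZMod 7, ∀ g, δ g = (1 - (rho g : ZMod 7)) * c := by
  obtain ⟨h1, h2, h3, h4⟩ := four_relations mkG mkG_r1 mkG_r2 mkG_r3 mkG_r4
  have rx1 : (rho (mkG x1) : ZMod 7) = -1 := by rw [rho_x1]; rfl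
  have ra2 : (rho (mkG a2) : ZMod 7) = -1 := by rw [rho_a2]; rfl
  have rs : (rho (mkG s) : ZMod 7) = 1 := by rw [rho_s]; rfl
  -- the four rows of the Fox matrix
  have e1 := congrArg δ h1
  have e2 := congrArg δ h2
  have e3 := congrArg δ h3
  have e4 := congrArg δ h4
  rw [h.map_conj, h.map_pow, rho_a1, rx1] at e1
  rw [h.map_conj, h.map_pow, rho_x2, ra2] at e2
  rw [h.map_pow, ra2] at e3
  rw [h.map_conj, h.map_pow, rho_x2, rho_a1, rs] at e4
  simp only [Finset.sum_range_succ, Finset.sum_range_zero] at e1 e2 e3 e4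
  set dx1 := δ (mkG x1)
  set da1 := δ (mkG a1)
  set dx2 := δ (mkG x2)
  set da2 := δ (mkG a2)
  set ds := δ (mkG s)
  have seven : (7 : ZMod 7) = 0 := by decide
  refine ⟨4 * dx1, ?_⟩
  have hd := h.sub (IsTwistedDer.inner rho (4 * dx1))
  intro g
  have := hd.eq_zero_of_closure (PresentedGroup.closure_range_of (Set.range relsG)) ?_ g
  · exact sub_eq_zero.mp this
  · rintro _ ⟨i, rfl⟩
    fin_cases i
    · change dx1 - (1 - (rho (mkG x1) : ZMod 7)) * (4 * dx1) = 0
      rw [rx1]
      linear_combination (-dx1) * seven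
    · change da1 - (1 - (rho (mkG a1) : ZMod 7)) * (4 * dx1) = 0
      rw [rho_a1]
      linear_combination (-4) * e1 - 9 * da1 * seven
    · change dx2 - (1 - (rho (mkG x2) : ZMod 7)) * (4 * dx1) = 0
      rw [rho_x2]
      linear_combination 4 * e2 + 12 * e3 - dx2 * seven
    · change da2 - (1 - (rho (mkG a2) : ZMod 7)) * (4 * dx1) = 0
      rw [ra2]
      linear_combination (-1) * e3 - dx1 * seven
    · change ds - (1 - (rho (mkG s) : ZMod 7)) * (4 * dx1) = 0
      rw [rs]
      linear_combination 2 * e4 - 8 * e2 - 24 * e3 - 248 * e1 +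
        (2 * dx2 - 558 * da1 - 32 * dx1 + ds) * seven

end Wall

end Claimed.Open.R321
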