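import Claimed.Open.R321.TwCx
import Claimed.Open.R321.GroupDer

/-!
# R321, package C: the Fox matrix of a presentation of positive deficiency

Let `Γ = ⟨Fin n | rels⟩` with `m < n` relators and `ρ : Γ → kˣ` a character such that every
`ρ`-twisted derivation of `Γ` is inner.  Then the rows `fox ρ (rels j)` of the Fox matrix are
linearly independent (`fox_linearIndependent`).
-/

set_option autoImplicit false

namespace Claimed.Open.R321.Tw

open Module

/-! ### Linear algebra -/

/-- If every `d` orthogonal to the `m < n` vectors `r j ∈ k^n` is a multiple of one vector `u`, the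
`r j` are linearly independent. -/
theorem linearIndependent_of_orth {k : Type} [Field k] {n m : ℕ} (r : Fin m → (Fin n →₀ k))
    (u : Fin n → k)
    (h : ∀ d : Fin n → k, (∀ j, Finsupp.linearCombination k d (r j) = 0) →
      ∃ c : k, ∀ i, d i = u i * c)
    (hnm : m < n) : LinearIndependent k r := by
  set W : Submodule k (Fin n →₀ k) := Submodule.span k (Set.range r) with hW
  have h1 := Subspace.finrank_add_finrank_dualAnnihilator_eq W
  have hV : finrank k (Fin n →₀ k) = n := by simp
  have h2 : W.dualAnnihilator ≤
      Submodule.span k {(Finsupp.linearCombination k u : Dual k (Fin n →₀ k))} := by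
    intro f hf
    rw [Submodule.mem_dualAnnihilator] at hf
    have hfd : f = Finsupp.linearCombination k fun i => f (Finsupp.single i 1) := by
      apply Finsupp.lhom_ext
      intro i a
      rw [Finsupp.linearCombination_single, ← map_smul, Finsupp.smul_single, smul_eq_mul, mul_one]
    obtain ⟨c, hc⟩ := h (fun i => f (Finsupp.single i 1)) (by
      intro j
      rw [← hfd]
      exact hf _ (Submodule.subset_span ⟨j, rfl⟩))
    rw [Submodule.mem_span_singleton]
    refine ⟨c, ?_⟩
    rw [hfd]
    apply Finsupp.lhom_ext
    intro i a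
    simp only [LinearMap.smul_apply, Finsupp.linearCombination_single, smul_eq_mul]
    rw [hc i]
    ring
  have h3 : finrank k W.dualAnnihilator ≤ 1 := by
    refine (Submodule.finrank_mono h2).trans ?_
    refine (finrank_span_le_card _).trans ?_
    simp
  rw [linearIndependent_iff_card_le_finrank_span, Fintype.card_fin]
  show m ≤ finrank k W
  omega

/-! ### The affine group -/

/-- the group of affine maps `x ↦ u x + a` of the line -/
@[ext] structure Aff (k : Type) [Field k] where
  /-- translation part -/
  a : k
  /-- linear part -/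
  u : kˣ

namespace Aff

variable {k : Type} [Field k]

instance : Mul (Aff k) := ⟨fun x y => ⟨x.a + x.u * y.a, x.u * y.u⟩⟩
instance : One (Aff k) := ⟨⟨0, 1⟩⟩
instance : Inv (Aff k) := ⟨fun x => ⟨-(((x.u)⁻¹ : kˣ) : k) * x.a, x.u⁻¹⟩⟩

@[simp] theorem mul_a (x y : Aff k) : (x * y).a = x.a + x.u * y.a := rfl
@[simp] theorem mul_u (x y : Aff k) : (x * y).u = x.u * y.u := rfl
@[simp] theorem one_a : (1 : Aff k).a = 0 := rfl
@[simp] theorem one_u : (1 : Aff k).u = 1 := rfl
@[simp] theorem inv_a (x : Aff k) : (x⁻¹).a = -(((x.u)⁻¹ : kˣ) : k) * x.a := rfl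
@[simp] theorem inv_u (x : Aff k) : (x⁻¹).u = x.u⁻¹ := rfl

instance : Group (Aff k) :=
  Group.ofLeftAxioms
    (by
      intro x y z
      ext
      · simp only [mul_a, mul_u, Units.val_mul]; ring
      · simp [mul_assoc])
    (by intro x; ext <;> simp)
    (by intro x; ext <;> simp)

/-- the linear part, as a homomorphism -/
def uHom : Aff k →* kˣ where
  toFun x := x.u
  map_one' := rfl
  map_mul' _ _ := rfl

end Aff

/-! ### Derivations from solutions of the Fox equations -/

section der

variable {k : Type} [Field k] {S : Type}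

/-- the homomorphism `FreeGroup S → Aff k` with `s ↦ (d s, ρ s)` -/
def affLift (ρ : S → kˣ) (d : S → k) : FreeGroup S →* Aff k :=
  FreeGroup.lift fun s => ⟨d s, ρ s⟩

theorem affLift_mk (ρ : S → kˣ) (d : S → k) (l : Word S) :
    affLift ρ d (FreeGroup.mk l) = ⟨Finsupp.linearCombination k d (fox ρ l), ev ρ l⟩ := by
  induction l with
  | nil => rfl
  | cons x l ih =>
    obtain ⟨e, b⟩ := x
    have hcons : (FreeGroup.mk ((e, b) :: l) : FreeGroup S) =
        FreeGroup.mk [(e, b)] * FreeGroup.mk l := by
      rw [FreeGroup.mul_mk]; rfl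
    rw [hcons, map_mul, ih]
    cases b
    · have h1 : affLift ρ d (FreeGroup.mk [(e, false)]) = (⟨d e, ρ e⟩ : Aff k)⁻¹ := by
        simp [affLift, FreeGroup.lift_mk]
      rw [h1]
      ext
      · simp only [Aff.mul_a, Aff.inv_a, Aff.inv_u, fox_cons_false, map_smul, map_sub,
          Finsupp.linearCombination_single, smul_eq_mul, one_mul]
        ring
      · simp [ev_cons]
    · have h1 : affLift ρ d (FreeGroup.mk [(e, true)]) = (⟨d e, ρ e⟩ : Aff k) := by
        simp [affLift, FreeGroup.lift_mk]
      rw [h1]
      ext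
      · simp only [Aff.mul_a, fox_cons_true, map_add, map_smul,
          Finsupp.linearCombination_single, smul_eq_mul, one_mul]
      · simp [ev_cons]

end der

/-- **The Fox rows of a presentation of positive deficiency are independent**, if all twisted
derivations are inner. -/
theorem fox_linearIndependent {k : Type} [Field k] {n m : ℕ} (rels : Fin m → FreeGroup (Fin n))
    (ρ : PresentedGroup (Set.range rels) →* kˣ)
    (hder : ∀ δ : PresentedGroup (Set.range rels) → k, IsTwistedDer ρ δ →
      ∃ c : k, ∀ g, δ g = (1 - (ρ g : k)) * c)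
    (hnm : m < n) :
    LinearIndependent k fun j => fox (fun s => ρ (PresentedGroup.of s)) (rels j).toWord := by
  set ρE : Fin n → kˣ := fun s => ρ (PresentedGroup.of s) with hρE
  apply linearIndependent_of_orth _ (fun i => 1 - (ρE i : k)) _ hnm
  intro d hd
  have hlift : ∀ g : FreeGroup (Fin n),
      FreeGroup.lift ρE g = ρ (PresentedGroup.mk (Set.range rels) g) := by
    intro g
    have : FreeGroup.lift ρE = ρ.comp (PresentedGroup.mk (Set.range rels)) := by
      ext i
      simp [hρE, PresentedGroup.of]
    rw [this]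
    rfl
  have hrel : ∀ r ∈ Set.range rels, FreeGroup.lift (fun s => (⟨d s, ρE s⟩ : Aff k)) r = 1 := by
    rintro _ ⟨j, rfl⟩
    have h1 := affLift_mk ρE d (rels j).toWord
    rw [FreeGroup.mk_toWord, hd j, ← lift_mk, FreeGroup.mk_toWord, hlift,
      PresentedGroup.one_of_mem (Set.mem_range_self j), map_one] at h1
    exact h1
  let Ψ : PresentedGroup (Set.range rels) →* Aff k := PresentedGroup.toGroup hrel
  have hΨof : ∀ i, Ψ (PresentedGroup.of i) = ⟨d i, ρE i⟩ := fun i => PresentedGroup.toGroup.of hrel
  have hu : ∀ g, (Ψ g).u = ρ g := by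
    intro g
    have : Aff.uHom.comp Ψ = ρ := by
      apply PresentedGroup.ext
      intro i
      simp [Aff.uHom, hΨof, hρE]
    exact DFunLike.congr_fun this g
  obtain ⟨c, hc⟩ := hder (fun g => (Ψ g).a) (by
    intro g g'
    simp only [map_mul, Aff.mul_a, hu])
  refine ⟨c, fun i => ?_⟩
  have := hc (PresentedGroup.of i)
  simpa [hΨof] using this

end Claimed.Open.R321.Tw
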