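import Mathlib

/-!
# Result 321: the perfect normal subgroup (Lemma 4.1 of the paper), abstractly

For any group `Γ` with elements `x₁ a₁ x₂ a₂ s` satisfying the four relations of the paper,
the normal closure `K` of `x₁², x₂³` is perfect.
-/

namespace Claimed.Open.R321

open scoped commutatorElement

section Core

variable {Q : Type*} [Group Q]

lemma conj_pow_eq {x a : Q} {n : ℕ} (h : x * a * x⁻¹ = a ^ n) (k : ℕ) :
    x * a ^ k * x⁻¹ = a ^ (n * k) := by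
  rw [← conj_pow, h, ← pow_mul]

lemma conj_iter_eq {x a : Q} {n : ℕ} (h : x * a * x⁻¹ = a ^ n) (m : ℕ) :
    x ^ m * a * (x ^ m)⁻¹ = a ^ (n ^ m) := by
  induction m with
  | zero => simp
  | succ m ih =>
    have : x ^ (m + 1) * a * (x ^ (m + 1))⁻¹ = x * (x ^ m * a * (x ^ m)⁻¹) * x⁻¹ := by
      rw [pow_succ']
      group
    rw [this, ih, conj_pow_eq h, pow_succ']

/-- Telescoping: if `v = u * (a u a⁻¹)⁻¹` and `a` commutes with `v`, then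
`v ^ n = u * (aⁿ u a⁻ⁿ)⁻¹`. -/
lemma telescope {u v a : Q} (hv : v = u * (a * u * a⁻¹)⁻¹) (hc : a * v = v * a) (n : ℕ) :
    v ^ n = u * (a ^ n * u * (a ^ n)⁻¹)⁻¹ := by
  have hcn : ∀ j : ℕ, a ^ j * v * (a ^ j)⁻¹ = v := by
    intro j
    have : Commute (a ^ j) v := (show Commute a v from hc).pow_left j
    rw [this.eq, mul_assoc, mul_inv_cancel, mul_one]
  induction n with
  | zero => simp
  | succ n ih =>
    have h1 : v = a ^ n * u * (a ^ n)⁻¹ * (a ^ (n + 1) * u * (a ^ (n + 1))⁻¹)⁻¹ := by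
      conv_lhs => rw [← hcn n, hv]
      rw [pow_succ]
      group
    rw [pow_succ, ih]
    conv_lhs => rw [h1]
    group

/-- The algebraic core of Lemma 4.1. -/
theorem core_perfect {x₁ a₁ x₂ a₂ s : Q}
    (h1 : x₁ * a₁ * x₁⁻¹ = a₁ ^ 4) (h2 : x₂ * a₂ * x₂⁻¹ = a₂ ^ 3)
    (h3 : x₁ = a₂ ^ 13) (h4 : s * x₂ * s⁻¹ = a₁ ^ 5)
    (A : Subgroup Q) [A.Normal] (hA : ∀ a ∈ A, ∀ b ∈ A, a * b = b * a)
    (hu1 : x₁ ^ 2 ∈ A) (hu2 : x₂ ^ 3 ∈ A) : x₁ ^ 2 = 1 ∧ x₂ ^ 3 = 1 := by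
  set u1 := x₁ ^ 2 with hu1def
  set u2 := x₂ ^ 3 with hu2def
  set v := s * u2 * s⁻¹ with hvdef
  have hvA : v ∈ A := Subgroup.Normal.conj_mem inferInstance _ hu2 s
  -- `u1 = a₂ ^ 26`
  have e1 : u1 = a₂ ^ 26 := by
    rw [hu1def, h3, ← pow_mul]
  -- `v = a₁ ^ 15`
  have e2 : v = a₁ ^ 15 := by
    rw [hvdef, hu2def, ← conj_pow, h4, ← pow_mul]
  -- commutator relations
  have c1 : u1 = u2 * (a₂ * u2 * a₂⁻¹)⁻¹ := by
    have := conj_iter_eq h2 3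
    have h27 : u2 * a₂ * u2⁻¹ = a₂ ^ 27 := by simpa using this
    have : u2 * (a₂ * u2 * a₂⁻¹)⁻¹ = (u2 * a₂ * u2⁻¹) * a₂⁻¹ := by group
    rw [this, h27, e1, pow_succ a₂ 26, mul_assoc, mul_inv_cancel, mul_one]
  have c2 : v = u1 * (a₁ * u1 * a₁⁻¹)⁻¹ := by
    have := conj_iter_eq h1 2
    have h16 : u1 * a₁ * u1⁻¹ = a₁ ^ 16 := by simpa using this
    have : u1 * (a₁ * u1 * a₁⁻¹)⁻¹ = (u1 * a₁ * u1⁻¹) * a₁⁻¹ := by group
    rw [this, h16, e2, pow_succ a₁ 15, mul_assoc, mul_inv_cancel, mul_one]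
  have k1 : a₂ * u1 = u1 * a₂ := by
    rw [e1, ← pow_succ', ← pow_succ]
  have k2 : a₁ * v = v * a₁ := by
    rw [e2, ← pow_succ', ← pow_succ]
  -- `u1 ^ 26 = 1`
  have p1 : u1 ^ 26 = 1 := by
    rw [telescope c1 k1 26, ← e1, hA u1 hu1 u2 hu2, mul_assoc, mul_inv_cancel, mul_one,
      mul_inv_cancel]
  -- `v ^ 15 = 1`
  have p2 : v ^ 15 = 1 := by
    rw [telescope c2 k2 15, ← e2, hA v hvA u1 hu1, mul_assoc, mul_inv_cancel, mul_one,
      mul_inv_cancel]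
  have p3 : u2 ^ 15 = 1 := by
    have : s * u2 ^ 15 * s⁻¹ = 1 := by rw [← conj_pow, ← hvdef, p2]
    have h := congrArg (fun g => s⁻¹ * g * s) this
    simpa [mul_assoc] using h
  have p4 : u1 ^ 15 = 1 := by
    have hcA : a₂ * u2 * a₂⁻¹ ∈ A := Subgroup.Normal.conj_mem inferInstance _ hu2 a₂
    have hcomm : Commute u2 (a₂ * u2 * a₂⁻¹)⁻¹ :=
      hA _ hu2 _ (A.inv_mem hcA)
    rw [c1, hcomm.mul_pow, p3, inv_pow, conj_pow, p3]
    simp
  have q1 : u1 = 1 := by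
    have h105 : u1 ^ 105 = 1 := by
      rw [show 105 = 15 * 7 from rfl, pow_mul, p4, one_pow]
    have h104 : u1 ^ 104 = 1 := by
      rw [show 104 = 26 * 4 from rfl, pow_mul, p1, one_pow]
    rw [pow_succ, h104, one_mul] at h105
    exact h105
  have q2 : v = 1 := by
    rw [c2, q1]
    simp
  refine ⟨q1, ?_⟩
  have h := congrArg (fun g => s⁻¹ * g * s) q2
  simpa [hvdef, mul_assoc] using h

end Core

section Perfect

variable {Γ : Type*} [Group Γ]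

/-- **Lemma 4.1.** In a group with elements satisfying the four relations, the generators
`x₁²`, `x₂³` of `K = ⟨⟨x₁², x₂³⟩⟩` lie in `[K, K]`. -/
theorem mem_commutator_normalClosure {x₁ a₁ x₂ a₂ s : Γ}
    (h1 : x₁ * a₁ * x₁⁻¹ = a₁ ^ 4) (h2 : x₂ * a₂ * x₂⁻¹ = a₂ ^ 3)
    (h3 : x₁ = a₂ ^ 13) (h4 : s * x₂ * s⁻¹ = a₁ ^ 5) :
    x₁ ^ 2 ∈ ⁅Subgroup.normalClosure {x₁ ^ 2, x₂ ^ 3}, Subgroup.normalClosure {x₁ ^ 2, x₂ ^ 3}⁆ ∧
    x₂ ^ 3 ∈ ⁅Subgroup.normalClosure {x₁ ^ 2, x₂ ^ 3}, Subgroup.normalClosure {x₁ ^ 2, x₂ ^ 3}⁆ := by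
  set K : Subgroup Γ := Subgroup.normalClosure {x₁ ^ 2, x₂ ^ 3} with hK
  set N : Subgroup Γ := ⁅K, K⁆ with hN
  have hNn : N.Normal := Subgroup.commutator_normal K K
  let mk : Γ →* Γ ⧸ N := QuotientGroup.mk' N
  have hsurj : Function.Surjective mk := QuotientGroup.mk'_surjective N
  have hAn : (K.map mk).Normal := Subgroup.Normal.map inferInstance mk hsurj
  have hA : ∀ a ∈ K.map mk, ∀ b ∈ K.map mk, a * b = b * a := by
    rintro _ ⟨a, ha, rfl⟩ _ ⟨b, hb, rfl⟩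
    rw [← map_mul, ← map_mul]
    apply (QuotientGroup.eq (s := N)).mpr
    have : (a * b)⁻¹ * (b * a) = ⁅b⁻¹, a⁻¹⁆ := by
      rw [commutatorElement_def]
      group
    rw [this]
    exact Subgroup.commutator_mem_commutator (K.inv_mem hb) (K.inv_mem ha)
  have ht1 : x₁ ^ 2 ∈ K := Subgroup.subset_normalClosure (by simp)
  have ht2 : x₂ ^ 3 ∈ K := Subgroup.subset_normalClosure (by simp)
  have := core_perfect (x₁ := mk x₁) (a₁ := mk a₁) (x₂ := mk x₂) (a₂ := mk a₂) (s := mk s)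
    (by rw [← map_inv, ← map_mul, ← map_mul, h1, map_pow])
    (by rw [← map_inv, ← map_mul, ← map_mul, h2, map_pow])
    (by rw [← map_pow, ← h3])
    (by rw [← map_inv, ← map_mul, ← map_mul, h4, map_pow])
    (K.map mk) hA
    (by rw [← map_pow]; exact Subgroup.mem_map_of_mem mk ht1)
    (by rw [← map_pow]; exact Subgroup.mem_map_of_mem mk ht2)
  constructor
  · have h := this.1
    rw [← map_pow] at h
    exact (QuotientGroup.eq_one_iff _).mp h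
  · have h := this.2
    rw [← map_pow] at h
    exact (QuotientGroup.eq_one_iff _).mp h

/-- `K = ⟨⟨x₁², x₂³⟩⟩` is perfect. -/
theorem commutator_normalClosure_eq {x₁ a₁ x₂ a₂ s : Γ}
    (h1 : x₁ * a₁ * x₁⁻¹ = a₁ ^ 4) (h2 : x₂ * a₂ * x₂⁻¹ = a₂ ^ 3)
    (h3 : x₁ = a₂ ^ 13) (h4 : s * x₂ * s⁻¹ = a₁ ^ 5) :
    ⁅Subgroup.normalClosure {x₁ ^ 2, x₂ ^ 3}, Subgroup.normalClosure {x₁ ^ 2, x₂ ^ 3}⁆ =
      Subgroup.normalClosure ({x₁ ^ 2, x₂ ^ 3} : Set Γ) := by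
  apply le_antisymm
  · exact Subgroup.commutator_le_left _ _
  · have := mem_commutator_normalClosure h1 h2 h3 h4
    apply Subgroup.normalClosure_le_normal
    rintro g (rfl | rfl)
    · exact this.1
    · exact this.2

end Perfect

end Claimed.Open.R321
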