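import Claimed.Open.R321.Top
import Claimed.Open.R321.GroupPerfect

/-!
# Result 321: the groups `P`, `G` of Section 4 of the paper

* relations in `P` and `G`;
* `K = ⟨⟨t₁, t₂⟩⟩ ≤ P` is perfect (Lemma 4.1), also in free-group form;
* the projection `P → G` and its kernel;
* the character `ρ : G → (ℤ/7)ˣ` (with `ζ = 2`), `x₁` has order two and `ρ x₁ = -1 ≠ 1`;
* the epimorphism `G → ℤ`;
* every `ρ`-twisted derivation `G → ℤ/7` is inner (the Fox matrix has rank four).
-/

set_option autoImplicit false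

namespace Claimed.Open.R321

namespace Wall

open scoped commutatorElement

noncomputable section

/-! ### Relations -/

lemma relsP_mem (i : Fin 4) : relsP i ∈ Set.range relsP := ⟨i, rfl⟩

lemma relsG_mem (i : Fin 6) : relsG i ∈ Set.range relsG := ⟨i, rfl⟩

/-- the quotient map `F₅ → P` -/
abbrev mkP : F5 →* P := PresentedGroup.mk (Set.range relsP)

/-- the quotient map `F₅ → G` -/
abbrev mkG : F5 →* G := PresentedGroup.mk (Set.range relsG)

lemma mkP_r1 : mkP r1 = 1 := PresentedGroup.one_of_mem (relsP_mem 0)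
lemma mkP_r2 : mkP r2 = 1 := PresentedGroup.one_of_mem (relsP_mem 1)
lemma mkP_r3 : mkP r3 = 1 := PresentedGroup.one_of_mem (relsP_mem 2)
lemma mkP_r4 : mkP r4 = 1 := PresentedGroup.one_of_mem (relsP_mem 3)

lemma mkG_r1 : mkG r1 = 1 := PresentedGroup.one_of_mem (relsG_mem 0)
lemma mkG_r2 : mkG r2 = 1 := PresentedGroup.one_of_mem (relsG_mem 1)
lemma mkG_r3 : mkG r3 = 1 := PresentedGroup.one_of_mem (relsG_mem 2)
lemma mkG_r4 : mkG r4 = 1 := PresentedGroup.one_of_mem (relsG_mem 3)
lemma mkG_t1 : mkG t1 = 1 := PresentedGroup.one_of_mem (relsG_mem 4)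
lemma mkG_t2 : mkG t2 = 1 := PresentedGroup.one_of_mem (relsG_mem 5)

/-- The four relations, for a homomorphism out of `F₅` that kills `r₁, …, r₄`. -/
lemma four_relations {Γ : Type*} [Group Γ] (φ : F5 →* Γ) (h1 : φ r1 = 1) (h2 : φ r2 = 1)
    (h3 : φ r3 = 1) (h4 : φ r4 = 1) :
    φ x1 * φ a1 * (φ x1)⁻¹ = φ a1 ^ 4 ∧ φ x2 * φ a2 * (φ x2)⁻¹ = φ a2 ^ 3 ∧
      φ x1 = φ a2 ^ 13 ∧ φ s * φ x2 * (φ s)⁻¹ = φ a1 ^ 5 := by
  refine ⟨?_, ?_, ?_, ?_⟩
  · simpa [r1, mul_inv_eq_one] using h1
  · simpa [r2, mul_inv_eq_one] using h2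
  · simpa [r3, mul_inv_eq_one] using h3
  · simpa [r4, mul_inv_eq_one] using h4

/-! ### `K` is perfect -/

/-- The normal subgroup `K = ⟨⟨t₁, t₂⟩⟩` of `P`. -/
def K : Subgroup P := Subgroup.normalClosure {mkP t1, mkP t2}

instance K_normal : K.Normal := Subgroup.normalClosure_normal

/-- **Lemma 4.1**: `K` is perfect. -/
theorem K_perfect : ⁅K, K⁆ = K := by
  obtain ⟨h1, h2, h3, h4⟩ := four_relations mkP mkP_r1 mkP_r2 mkP_r3 mkP_r4
  have := commutator_normalClosure_eq h1 h2 h3 h4
  simpa [K, t1, t2] using this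

theorem mkP_t1_mem_commutator : mkP t1 ∈ ⁅K, K⁆ := by
  rw [K_perfect]
  exact Subgroup.subset_normalClosure (by simp)

theorem mkP_t2_mem_commutator : mkP t2 ∈ ⁅K, K⁆ := by
  rw [K_perfect]
  exact Subgroup.subset_normalClosure (by simp)

/-! ### Free-group form -/

/-- the normal closure of the relators of `P` in `F₅` -/
def NP : Subgroup F5 := Subgroup.normalClosure (Set.range relsP)

/-- the normal closure of the relators of `G` in `F₅` -/
def NG : Subgroup F5 := Subgroup.normalClosure (Set.range relsG)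

instance NP_normal : NP.Normal := Subgroup.normalClosure_normal

instance NG_normal : NG.Normal := Subgroup.normalClosure_normal

lemma mkP_eq_one_iff {w : F5} : mkP w = 1 ↔ w ∈ NP := PresentedGroup.mk_eq_one_iff

lemma mkG_eq_one_iff {w : F5} : mkG w = 1 ↔ w ∈ NG := PresentedGroup.mk_eq_one_iff

lemma NP_le_NG : NP ≤ NG := by
  apply Subgroup.normalClosure_le_normal
  rintro _ ⟨i, rfl⟩
  apply Subgroup.subset_normalClosure
  fin_cases i
  · exact relsG_mem 0
  · exact relsG_mem 1
  · exact relsG_mem 2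
  · exact relsG_mem 3

lemma t1_mem_NG : t1 ∈ NG := Subgroup.subset_normalClosure (relsG_mem 4)

lemma t2_mem_NG : t2 ∈ NG := Subgroup.subset_normalClosure (relsG_mem 5)

/-- `K` is the image of `N_G` in `P`. -/
lemma map_NG : NG.map mkP = K := by
  have hsurj : Function.Surjective mkP := PresentedGroup.mk_surjective _
  apply le_antisymm
  · rw [Subgroup.map_le_iff_le_comap]
    apply Subgroup.normalClosure_le_normal
    rintro _ ⟨i, rfl⟩
    change mkP (relsG i) ∈ K
    fin_cases i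
    · change mkP r1 ∈ K; rw [mkP_r1]; exact K.one_mem
    · change mkP r2 ∈ K; rw [mkP_r2]; exact K.one_mem
    · change mkP r3 ∈ K; rw [mkP_r3]; exact K.one_mem
    · change mkP r4 ∈ K; rw [mkP_r4]; exact K.one_mem
    · exact Subgroup.subset_normalClosure (by simp [relsG])
    · exact Subgroup.subset_normalClosure (by simp [relsG])
  · have : (NG.map mkP).Normal := Subgroup.Normal.map inferInstance mkP hsurj
    apply Subgroup.normalClosure_le_normal
    rintro g (rfl | rfl)
    · exact Subgroup.mem_map_of_mem mkP t1_mem_NG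
    · exact Subgroup.mem_map_of_mem mkP t2_mem_NG

/-- Perfectness in the free group: `N_G = N_P · [N_G, N_G]`. -/
theorem NG_le : NG ≤ NP ⊔ ⁅NG, NG⁆ := by
  intro w hw
  have h1 : mkP w ∈ ⁅K, K⁆ := by
    rw [K_perfect, ← map_NG]
    exact Subgroup.mem_map_of_mem mkP hw
  rw [← map_NG, ← Subgroup.map_commutator] at h1
  obtain ⟨c, hc, hcw⟩ := h1
  have h2 : w * c⁻¹ ∈ NP := by
    rw [← mkP_eq_one_iff, map_mul, map_inv, hcw, mul_inv_cancel]
  have : w = (w * c⁻¹) * c := by group
  rw [this]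
  exact Subgroup.mul_mem_sup h2 hc

theorem t1_mem : t1 ∈ NP ⊔ ⁅NG, NG⁆ := NG_le t1_mem_NG

theorem t2_mem : t2 ∈ NP ⊔ ⁅NG, NG⁆ := NG_le t2_mem_NG

/-! ### The projection `P → G` -/

/-- The quotient map `P → G`. -/
def PtoG : P →* G :=
  QuotientGroup.map _ _ (MonoidHom.id F5) NP_le_NG

@[simp] lemma PtoG_mkP (w : F5) : PtoG (mkP w) = mkG w := rfl

lemma PtoG_surjective : Function.Surjective PtoG := by
  intro g
  obtain ⟨w, rfl⟩ := PresentedGroup.mk_surjective _ g
  exact ⟨mkP w, rfl⟩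

theorem ker_PtoG : PtoG.ker = K := by
  ext g
  obtain ⟨w, rfl⟩ := PresentedGroup.mk_surjective _ g
  rw [MonoidHom.mem_ker]
  change mkG w = 1 ↔ _
  rw [mkG_eq_one_iff, ← map_NG]
  constructor
  · exact fun h => Subgroup.mem_map_of_mem mkP h
  · rintro ⟨v, hv, hvw⟩
    have : v⁻¹ * w ∈ NP := by
      rw [← mkP_eq_one_iff, map_mul, map_inv]
      change (mkP v)⁻¹ * mkP w = 1
      rw [hvw, inv_mul_cancel]
    have h2 : w = v * (v⁻¹ * w) := by group
    rw [h2]
    exact NG.mul_mem hv (NP_le_NG this)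

/-! ### The character -/

/-- The values of the character on the generators: `-1, ζ, ζ², -1, 1` with `ζ = 2 ∈ ℤ/7`. -/
def rhoGen : Fin 5 → (ZMod 7)ˣ :=
  ![-1, ⟨2, 4, by decide, by decide⟩, ⟨4, 2, by decide, by decide⟩, -1, 1]

lemma lift_rhoGen_rels : ∀ r ∈ Set.range relsG, FreeGroup.lift rhoGen r = 1 := by
  have h : ∀ i, FreeGroup.lift rhoGen (relsG i) = 1 := by
    intro i
    fin_cases i
    · change FreeGroup.lift rhoGen r1 = 1
      simp only [r1, x1, a1, map_mul, map_inv, map_pow, FreeGroup.lift_apply_of]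
      decide
    · change FreeGroup.lift rhoGen r2 = 1
      simp only [r2, x2, a2, map_mul, map_inv, map_pow, FreeGroup.lift_apply_of]
      decide
    · change FreeGroup.lift rhoGen r3 = 1
      simp only [r3, x1, a2, map_mul, map_inv, map_pow, FreeGroup.lift_apply_of]
      decide
    · change FreeGroup.lift rhoGen r4 = 1
      simp only [r4, x2, a1, s, map_mul, map_inv, map_pow, FreeGroup.lift_apply_of]
      decide
    · change FreeGroup.lift rhoGen t1 = 1
      simp only [t1, x1, map_pow, FreeGroup.lift_apply_of]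
      decide
    · change FreeGroup.lift rhoGen t2 = 1
      simp only [t2, x2, map_pow, FreeGroup.lift_apply_of]
      decide
  rintro _ ⟨i, rfl⟩
  exact h i

/-- The character `ρ : G → (ℤ/7)ˣ`. -/
def rho : G →* (ZMod 7)ˣ := PresentedGroup.toGroup lift_rhoGen_rels

lemma rho_mkG_of (i : Fin 5) : rho (mkG (FreeGroup.of i)) = rhoGen i :=
  PresentedGroup.toGroup.of lift_rhoGen_rels

lemma rho_x1 : rho (mkG x1) = -1 := rho_mkG_of 0
lemma rho_a1 : (rho (mkG a1) : ZMod 7) = 2 := by
  rw [a1, rho_mkG_of]; rfl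
lemma rho_x2 : (rho (mkG x2) : ZMod 7) = 4 := by
  rw [x2, rho_mkG_of]; rfl
lemma rho_a2 : rho (mkG a2) = -1 := rho_mkG_of 3
lemma rho_s : rho (mkG s) = 1 := rho_mkG_of 4

lemma rho_x1_ne_one : rho (mkG x1) ≠ 1 := by
  rw [rho_x1]
  decide

/-- `x₁` has order exactly two in `G`. -/
theorem orderOf_x1 : orderOf (mkG x1) = 2 := by
  apply orderOf_eq_prime
  · rw [← map_pow]
    exact mkG_t1
  · intro h
    apply rho_x1_ne_one
    rw [h, map_one]

theorem isOfFinOrder_x1 : IsOfFinOrder (mkG x1) :=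
  orderOf_pos_iff.mp (by rw [orderOf_x1]; norm_num)

/-! ### The epimorphism onto `ℤ` -/

/-- `s ↦ 1`, the other generators `↦ 0`. -/
def heightGen : Fin 5 → Multiplicative ℤ := ![1, 1, 1, 1, Multiplicative.ofAdd 1]

lemma lift_heightGen_rels : ∀ r ∈ Set.range relsG, FreeGroup.lift heightGen r = 1 := by
  rintro _ ⟨i, rfl⟩
  fin_cases i <;>
    simp [relsG, r1, r2, r3, r4, t1, t2, x1, a1, x2, a2, s, heightGen]

/-- The epimorphism `G → ℤ`. -/
def height : G →* Multiplicative ℤ := PresentedGroup.toGroup lift_heightGen_rels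

lemma height_s : height (mkG s) = Multiplicative.ofAdd 1 :=
  PresentedGroup.toGroup.of lift_heightGen_rels

theorem height_surjective : Function.Surjective height := by
  intro n
  refine ⟨mkG s ^ (Multiplicative.toAdd n), ?_⟩
  rw [map_zpow, height_s, ← ofAdd_zsmul]
  simp

theorem infinite_G : Infinite G := Infinite.of_surjective height height_surjective

end

end Wall

end Claimed.Open.R321
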