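import Claimed.Open.R321.PAInduct

/-!
# PropA (Euler-Poincaré) from its packages
-/

set_option autoImplicit false

namespace Claimed.Open.R321

open Topology

/-- **PropA.** Homotopy equivalent finite CW complexes have the same cellular Euler
characteristic. -/
theorem propA : PropA := by
  intro Z Z' _ _ _ _ _ _ _ _ ⟨h⟩
  have h1 : HasEulerSp Z (cellEuler (Set.univ : Set Z)) :=
    (hasEulerSp_cwComplex (Set.univ : Set Z)).of_homeomorph (Homeomorph.Set.univ Z)
  have h2 : HasEulerSp Z' (cellEuler (Set.univ : Set Z')) :=
    (hasEulerSp_cwComplex (Set.univ : Set Z')).of_homeomorph (Homeomorph.Set.univ Z')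
  exact PaCx.HasEuler.unique (h1.of_homotopyEquiv h) h2

end Claimed.Open.R321
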