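import Mathlib

/-!
# R321, PropB: basic definitions

`Dsk n` is the closed unit ball of `Fin n → ℝ` (sup norm, i.e. the cube `[-1,1]^n`), the domain of the
characteristic maps of Mathlib's CW complexes.

`CellAttach Z A n ι` : the space `Z` is obtained from the subset `A` by attaching the `n`-cells
`Φ i`, `i : ι`.  No topology of `Z` is prescribed: in all theorems `Z` is Hausdorff, `A` is closed and
`ι` is finite, and then `Z` automatically carries the quotient topology.
-/

set_option autoImplicit false

namespace Claimed.Open.R321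

open Topology unitInterval

/-- The closed unit ball of `Fin n → ℝ` for the sup norm: the cube `[-1,1]^n`. -/
abbrev Dsk (n : ℕ) : Type := ↥(Metric.closedBall (0 : Fin n → ℝ) 1)

instance Dsk.compactSpace (n : ℕ) : CompactSpace (Dsk n) :=
  isCompact_iff_compactSpace.mp (isCompact_closedBall _ _)

instance Dsk.contractibleSpace (n : ℕ) : ContractibleSpace (Dsk n) :=
  (convex_closedBall (0 : Fin n → ℝ) 1).contractibleSpace ⟨0, by simp⟩

theorem Dsk.norm_le_one {n : ℕ} (x : Dsk n) : ‖x.1‖ ≤ 1 :=
  mem_closedBall_zero_iff.mp x.2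

/-- Any two paths of `Dsk n` with the same end points are homotopic. -/
theorem Dsk.quotient_eq {n : ℕ} {x y : Dsk n} (q q' : Path.Homotopic.Quotient x y) : q = q' :=
  Subsingleton.elim _ _

/-- `Z` is obtained from `A ⊆ Z` by attaching the `n`-cells `Φ i`. -/
structure CellAttach (Z : Type) [TopologicalSpace Z] (A : Set Z) (n : ℕ) (ι : Type) where
  /-- the characteristic maps -/
  Φ : ι → C(Dsk n, Z)
  /-- the boundary of a cell is mapped to `A` -/
  sphere_mem : ∀ (i : ι) (x : Dsk n), ‖x.1‖ = 1 → Φ i x ∈ A
  /-- the open cells are disjoint from `A` -/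
  ball_not_mem : ∀ (i : ι) (x : Dsk n), ‖x.1‖ < 1 → Φ i x ∉ A
  /-- the characteristic maps are injective on the open balls, and the open cells are disjoint -/
  inj : ∀ (i j : ι) (x y : Dsk n), ‖x.1‖ < 1 → ‖y.1‖ < 1 → Φ i x = Φ j y → i = j ∧ x = y
  /-- `A` and the cells cover `Z` -/
  cover : ∀ z : Z, z ∈ A ∨ ∃ (i : ι) (x : Dsk n), Φ i x = z

end Claimed.Open.R321
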