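import Claimed.Open.R321.Top
import Claimed.Open.R321.PBDefs

/-!
# R321, PropB, leaf B4: from Mathlib's CW complexes to `CellAttach`
-/

set_option autoImplicit false

namespace Claimed.Open.R321

open Topology Metric Set

section

variable {Y : Type} [TopologicalSpace Y] [CWComplex (Set.univ : Set Y)]

/-- The characteristic map of a cell as a continuous map on the closed ball. -/
noncomputable def pbChar (n : ℕ) (j : RelCWComplex.cell (Set.univ : Set Y) n) : C(Dsk n, Y) :=
  ⟨fun x => RelCWComplex.map n j x.1, (RelCWComplex.continuousOn n j).domRestrict⟩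

theorem pbChar_apply (n : ℕ) (j : RelCWComplex.cell (Set.univ : Set Y) n) (x : Dsk n) :
    pbChar n j x = RelCWComplex.map n j x.1 := rfl

theorem pbChar_mem_closedCell (n : ℕ) (j : RelCWComplex.cell (Set.univ : Set Y) n) (x : Dsk n) :
    pbChar n j x ∈ RelCWComplex.closedCell n j := ⟨x.1, x.2, rfl⟩

theorem pbChar_mem_cellFrontier (n : ℕ) (j : RelCWComplex.cell (Set.univ : Set Y) n) (x : Dsk n)
    (hx : ‖x.1‖ = 1) : pbChar n j x ∈ RelCWComplex.cellFrontier n j :=
  ⟨x.1, by simpa using hx, rfl⟩

theorem pbChar_mem_openCell (n : ℕ) (j : RelCWComplex.cell (Set.univ : Set Y) n) (x : Dsk n)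
    (hx : ‖x.1‖ < 1) : pbChar n j x ∈ RelCWComplex.openCell n j :=
  ⟨x.1, by simpa using hx, rfl⟩

theorem pbChar_inj (n : ℕ) (i j : RelCWComplex.cell (Set.univ : Set Y) n) (x y : Dsk n)
    (hx : ‖x.1‖ < 1) (hy : ‖y.1‖ < 1) (h : pbChar n i x = pbChar n j y) : i = j ∧ x = y := by
  have hij : i = j := by
    by_contra hne
    have hd := RelCWComplex.disjoint_openCell_of_ne (C := (Set.univ : Set Y))
      (n := n) (m := n) (i := i) (j := j) (by simpa using hne)
    exact Set.disjoint_left.mp hd (pbChar_mem_openCell n i x hx)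
      (h ▸ pbChar_mem_openCell n j y hy)
  subst hij
  refine ⟨rfl, Subtype.ext ?_⟩
  have hs := RelCWComplex.source_eq (C := (Set.univ : Set Y)) n i
  apply (RelCWComplex.map (C := (Set.univ : Set Y)) n i).injOn
  · rw [hs]; simpa using hx
  · rw [hs]; simpa using hy
  · exact h

theorem exists_pbChar_of_mem_openCell (n : ℕ) (j : RelCWComplex.cell (Set.univ : Set Y) n) (z : Y)
    (hz : z ∈ RelCWComplex.openCell n j) : ∃ x : Dsk n, pbChar n j x = z := by
  obtain ⟨x, hx, rfl⟩ := hz
  exact ⟨⟨x, ball_subset_closedBall hx⟩, rfl⟩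

end

/-- A finite CW complex of dimension `≤ 2` is obtained from a closed subset `A1` (its 1-skeleton) by
attaching its 2-cells, and `A1` is obtained from a finite set `A0` (the 0-cells) by attaching the
1-cells. -/
theorem pb_cw_data (Y : Type) [TopologicalSpace Y] [T2Space Y] [CWComplex (Set.univ : Set Y)]
    [CWComplex.Finite (Set.univ : Set Y)]
    (hdim : ∀ m : ℕ, 2 < m → IsEmpty (RelCWComplex.cell (Set.univ : Set Y) m)) :
    ∃ (A1 : Set Y) (A0 : Set A1), IsClosed A1 ∧ A0.Finite ∧
      Nat.card A0 = Nat.card (RelCWComplex.cell (Set.univ : Set Y) 0) ∧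
      Nonempty (CellAttach Y A1 2 (RelCWComplex.cell (Set.univ : Set Y) 2)) ∧
      Nonempty (CellAttach A1 A0 1 (RelCWComplex.cell (Set.univ : Set Y) 1)) := by
  classical
  let C : Set Y := Set.univ
  let A1 : Set Y := (RelCWComplex.skeletonLT C 2 : Set Y)
  let A0 : Set A1 := {a | a.1 ∈ (RelCWComplex.skeletonLT C 1 : Set Y)}
  have h01 : (RelCWComplex.skeletonLT C 1 : Set Y) ⊆ A1 :=
    RelCWComplex.skeletonLT_mono (by norm_num)
  -- the zero cells
  have hz0 : ∀ j : RelCWComplex.cell C 0,
      RelCWComplex.map 0 j ![] ∈ (RelCWComplex.skeletonLT C 1 : Set Y) := by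
    intro j
    have := RelCWComplex.closedCell_subset_skeletonLT (C := C) 0 j
    apply this
    rw [RelCWComplex.closedCell_zero_eq_singleton]
    rfl
  let f : RelCWComplex.cell C 0 → A0 := fun j => ⟨⟨RelCWComplex.map 0 j ![], h01 (hz0 j)⟩, hz0 j⟩
  have hf : Function.Bijective f := by
    constructor
    · intro i j hij
      have : RelCWComplex.map 0 i ![] = RelCWComplex.map 0 j ![] :=
        congrArg (fun a : A0 => (a.1.1 : Y)) hij
      exact RelCWComplex.injective_map_zero C this
    · rintro ⟨⟨a, ha1⟩, ha0⟩
      have ha0' : a ∈ RelCWComplex.skeletonLT C 1 := ha0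
      rw [CWComplex.mem_skeletonLT_iff] at ha0'
      obtain ⟨m, hm, j, hj⟩ := ha0'
      have hm0 : m = 0 := by
        have : m < 1 := by exact_mod_cast hm
        omega
      subst hm0
      rw [RelCWComplex.openCell_zero_eq_singleton] at hj
      refine ⟨j, ?_⟩
      apply Subtype.ext
      apply Subtype.ext
      exact hj.symm
  have hfin0 : Finite (RelCWComplex.cell C 0) := RelCWComplex.FiniteType.finite_cell 0
  refine ⟨A1, A0, (RelCWComplex.skeletonLT C 2).closed, ?_, ?_, ⟨?_⟩, ⟨?_⟩⟩
  · have : Finite A0 := Finite.of_surjective f hf.surjective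
    exact Set.toFinite A0
  · exact (Nat.card_congr (Equiv.ofBijective f hf)).symm
  · exact
      { Φ := fun j => pbChar 2 j
        sphere_mem := fun j x hx =>
          RelCWComplex.cellFrontier_subset_skeletonLT 2 j (pbChar_mem_cellFrontier 2 j x hx)
        ball_not_mem := fun j x hx hmem =>
          Set.disjoint_left.mp
            (RelCWComplex.disjoint_skeletonLT_openCell (C := C) (n := 2) (m := 2) (j := j) le_rfl)
            hmem (pbChar_mem_openCell 2 j x hx)
        inj := fun i j x y hx hy h => pbChar_inj 2 i j x y hx hy h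
        cover := fun z => by
          have hz : z ∈ ⋃ (n : ℕ) (j : RelCWComplex.cell C n), RelCWComplex.openCell n j := by
            rw [CWComplex.iUnion_openCell_eq_complex]
            exact Set.mem_univ z
          simp only [Set.mem_iUnion] at hz
          obtain ⟨n, j, hj⟩ := hz
          have hn : n ≤ 2 := by
            by_contra hn
            exact (hdim n (by omega)).false j
          rcases Nat.lt_or_ge n 2 with h2 | h2
          · left
            change z ∈ RelCWComplex.skeletonLT C 2
            rw [CWComplex.mem_skeletonLT_iff]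
            exact ⟨n, by exact_mod_cast h2, j, hj⟩
          · right
            have : n = 2 := by omega
            subst this
            exact ⟨j, exists_pbChar_of_mem_openCell 2 j z hj⟩ }
  · have hmem : ∀ (j : RelCWComplex.cell C 1) (x : Dsk 1), pbChar 1 j x ∈ A1 := fun j x =>
      RelCWComplex.closedCell_subset_skeletonLT (C := C) 1 j (pbChar_mem_closedCell 1 j x)
    exact
      { Φ := fun j => ⟨fun x => ⟨pbChar 1 j x, hmem j x⟩, (pbChar 1 j).continuous.subtype_mk _⟩
        sphere_mem := fun j x hx =>
          RelCWComplex.cellFrontier_subset_skeletonLT 1 j (pbChar_mem_cellFrontier 1 j x hx)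
        ball_not_mem := fun j x hx hmem =>
          Set.disjoint_left.mp
            (RelCWComplex.disjoint_skeletonLT_openCell (C := C) (n := 1) (m := 1) (j := j) le_rfl)
            hmem (pbChar_mem_openCell 1 j x hx)
        inj := fun i j x y hx hy h =>
          pbChar_inj 1 i j x y hx hy (congrArg Subtype.val h)
        cover := fun z => by
          have hz : z.1 ∈ RelCWComplex.skeletonLT C 2 := z.2
          rw [CWComplex.mem_skeletonLT_iff] at hz
          obtain ⟨n, hn, j, hj⟩ := hz
          have hn' : n < 2 := by exact_mod_cast hn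
          rcases Nat.lt_or_ge n 1 with h1 | h1
          · left
            change z.1 ∈ RelCWComplex.skeletonLT C 1
            rw [CWComplex.mem_skeletonLT_iff]
            exact ⟨n, by exact_mod_cast h1, j, hj⟩
          · right
            have : n = 1 := by omega
            subst this
            obtain ⟨x, hx⟩ := exists_pbChar_of_mem_openCell 1 j z.1 hj
            exact ⟨j, x, Subtype.ext hx⟩ }

theorem pb_cellEuler (Y : Type) [TopologicalSpace Y] [CWComplex (Set.univ : Set Y)]
    (hdim : ∀ m : ℕ, 2 < m → IsEmpty (RelCWComplex.cell (Set.univ : Set Y) m)) :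
    cellEuler (Set.univ : Set Y) = (Nat.card (RelCWComplex.cell (Set.univ : Set Y) 0) : ℤ)
      - Nat.card (RelCWComplex.cell (Set.univ : Set Y) 1)
      + Nat.card (RelCWComplex.cell (Set.univ : Set Y) 2) := by
  unfold cellEuler
  rw [finsum_eq_sum_of_support_subset (s := Finset.range 3)]
  · simp [Finset.sum_range_succ]
    ring
  · intro n hn
    simp only [Finset.coe_range, Set.mem_Iio]
    by_contra h3
    have := hdim n (by omega)
    apply hn
    simp [Nat.card_of_isEmpty]

end Claimed.Open.R321
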