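import Claimed.Open.R321.PBMain
import Claimed.Open.R321.PBCW

/-!
# R321: `PropB` from its leaves
-/

set_option autoImplicit false

namespace Claimed.Open.R321

open Topology

theorem propB : PropB := by
  intro Y _ _ _ _ _ hdim y
  obtain ⟨A1, A0, hA1, hA0, hcard, ⟨c2⟩, ⟨c1⟩⟩ := pb_cw_data Y hdim
  haveI : Finite (RelCWComplex.cell (Set.univ : Set Y) 2) := CWComplex.FiniteType.finite_cell 2
  haveI : Finite (RelCWComplex.cell (Set.univ : Set Y) 1) := CWComplex.FiniteType.finite_cell 1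
  obtain ⟨n, m, rels, e, hn, hm⟩ := pb_abstract hA1 c2 hA0 c1 y
  refine ⟨n, m, rels, e, ?_⟩
  rw [pb_cellEuler Y hdim, ← hcard, ← hn]
  have : (m : ℤ) + 1 = Nat.card (RelCWComplex.cell (Set.univ : Set Y) 2) + Nat.card A0 := by
    exact_mod_cast hm
  linarith

end Claimed.Open.R321
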