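import Claimed.Open.R321.PCDefs

/-!
# R321, PD-CAYLEY, leaf PC-1: calculus of the edge paths `up`, `dn`, `cls`, `r`
-/

set_option autoImplicit false

namespace Claimed.Open.R321.PC.EdgeData

open Topology unitInterval

noncomputable section

variable {Γ S E : Type} [Group Γ] [TopologicalSpace E] [MulAction Γ E] (D : EdgeData Γ S E)

theorem up_nil (g g' : Γ) (h : g * val D.gen [] = g') :
    D.up [] g g' h = (Path.refl (D.vt g)).cast rfl (by rw [← h]; simp) := rfl

theorem up_cons_true (s : S) (l : List (S × Bool)) (g g' : Γ)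
    (h : g * val D.gen ((s, true) :: l) = g') :
    D.up ((s, true) :: l) g g' h =
      (D.edge g s).trans (D.up l (g * D.gen s) g' (by rw [← h]; simp [mul_assoc])) := rfl

theorem up_cons_false (s : S) (l : List (S × Bool)) (g g' : Γ)
    (h : g * val D.gen ((s, false) :: l) = g') :
    D.up ((s, false) :: l) g g' h =
      (D.edgeInv g s).trans (D.up l (g * (D.gen s)⁻¹) g' (by rw [← h]; simp [mul_assoc])) := rfl

theorem up_congr (l : List (S × Bool)) {g₁ g₂ g₁' g₂' : Γ} (hg : g₁ = g₂) (hg' : g₁' = g₂')
    (h₁ : g₁ * val D.gen l = g₁') (h₂ : g₂ * val D.gen l = g₂') (t : I) :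
    D.up l g₁ g₁' h₁ t = D.up l g₂ g₂' h₂ t := by
  subst hg hg'
  rfl

theorem edge_congr {g₁ g₂ : Γ} (hg : g₁ = g₂) (s : S) (t : I) :
    D.edge g₁ s t = D.edge g₂ s t := by
  subst hg
  rfl

theorem edgeInv_apply (g : Γ) (s : S) (t : I) :
    D.edgeInv g s t = D.edge (g * (D.gen s)⁻¹) s (σ t) := rfl

/-- naturality of `up` -/
theorem up_map {E' : Type} [TopologicalSpace E'] [MulAction Γ E'] (f : C(E, E'))
    (hf : ∀ (a : Γ) (e : E), f (a • e) = a • f e) (l : List (S × Bool)) (g g' : Γ)
    (h : g * val D.gen l = g') :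
    (D.map f hf).up l g g' h = (D.up l g g' h).map f.continuous := by
  induction l generalizing g with
  | nil => rfl
  | cons x l ih =>
    obtain ⟨s, b⟩ := x
    cases b
    · have h' : g * (D.gen s)⁻¹ * val D.gen l = g' := by rw [← h]; simp [mul_assoc]
      have e1 : (D.map f hf).up ((s, false) :: l) g g' h =
          ((D.edgeInv g s).map f.continuous).trans
            ((D.map f hf).up l (g * (D.gen s)⁻¹) g' h') := rfl
      rw [e1, ih, up_cons_false, Path.map_trans]
      rfl
    · have h' : g * D.gen s * val D.gen l = g' := by rw [← h]; simp [mul_assoc]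
      have e1 : (D.map f hf).up ((s, true) :: l) g g' h =
          ((D.edge g s).map f.continuous).trans
            ((D.map f hf).up l (g * D.gen s) g' h') := rfl
      rw [e1, ih, up_cons_true, Path.map_trans]
      rfl

theorem loopUp_map [DecidableEq S] {E' : Type} [TopologicalSpace E'] [MulAction Γ E'] (f : C(E, E'))
    (hf : ∀ (a : Γ) (e : E), f (a • e) = a • f e) (w : FreeGroup S)
    (h : FreeGroup.lift D.gen w = 1) :
    (D.map f hf).loopUp w h = (D.loopUp w h).map f.continuous :=
  D.up_map f hf _ _ _ _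

/-- equivariance of `up` -/
theorem smul_up (a : Γ) (l : List (S × Bool)) (g g' : Γ) (h : g * val D.gen l = g') (t : I) :
    a • D.up l g g' h t = D.up l (a * g) (a * g') (by rw [mul_assoc, h]) t := by
  induction l generalizing g t with
  | nil => exact D.smul_vt a g
  | cons x l ih =>
    obtain ⟨s, b⟩ := x
    cases b
    · rw [up_cons_false, up_cons_false, Path.trans_apply, Path.trans_apply]
      split_ifs
      · rw [edgeInv_apply, edgeInv_apply, D.smul_edge]
        exact D.edge_congr (mul_assoc _ _ _).symm s _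
      · rw [ih]
        exact D.up_congr l (mul_assoc _ _ _).symm rfl _ _ _
    · rw [up_cons_true, up_cons_true, Path.trans_apply, Path.trans_apply]
      split_ifs
      · rw [D.smul_edge]
      · rw [ih]
        exact D.up_congr l (mul_assoc _ _ _).symm rfl _ _ _

variable {X : Type} [TopologicalSpace X] {p : E → X} (hp : IsQuotientCoveringMap p Γ)

theorem dn_apply (l : List (S × Bool)) (g g' : Γ) (h : g * val D.gen l = g') (t : I) :
    D.dn hp l g g' h t = p (D.up l g g' h t) := rfl

/-- `dn` does not depend on the starting vertex -/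
theorem dn_eq (l : List (S × Bool)) (g g' : Γ) (h : g * val D.gen l = g') :
    D.dn hp l g g' h = D.dn hp l 1 (val D.gen l) (one_mul _) := by
  ext t
  rw [dn_apply, dn_apply, ← hp.map_smul g (e := D.up l 1 (val D.gen l) (one_mul _) t), D.smul_up]
  exact congrArg p (D.up_congr l (mul_one g).symm h.symm _ _ t)

/-- the image downstairs of an edge -/
def dnEdge (g : Γ) (s : S) : Path (p (D.vt 1)) (p (D.vt 1)) :=
  ((D.edge g s).map hp.continuous).cast (D.p_vt hp g).symm (D.p_vt hp _).symm

theorem dnEdge_apply (g : Γ) (s : S) (t : I) : D.dnEdge hp g s t = p (D.edge g s t) := rfl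

theorem dnEdge_eq (g : Γ) (s : S) : D.dnEdge hp g s = D.dnEdge hp 1 s := by
  ext t
  rw [dnEdge_apply, dnEdge_apply, ← hp.map_smul g (e := D.edge 1 s t), D.smul_edge]
  exact congrArg p (D.edge_congr (mul_one g).symm s t)

theorem dn_nil (g g' : Γ) (h : g * val D.gen [] = g') :
    D.dn hp [] g g' h = Path.refl (p (D.vt 1)) := by
  ext t
  exact D.p_vt hp g

theorem dn_cons_true (s : S) (l : List (S × Bool)) (g g' : Γ)
    (h : g * val D.gen ((s, true) :: l) = g') :
    D.dn hp ((s, true) :: l) g g' h =
      (D.dnEdge hp 1 s).trans (D.dn hp l 1 (val D.gen l) (one_mul _)) := by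
  rw [← D.dnEdge_eq hp g s, ← D.dn_eq hp l (g * D.gen s) g' (by rw [← h]; simp [mul_assoc])]
  ext t
  rw [dn_apply, up_cons_true, Path.trans_apply, Path.trans_apply]
  split_ifs <;> rfl

theorem dn_cons_false (s : S) (l : List (S × Bool)) (g g' : Γ)
    (h : g * val D.gen ((s, false) :: l) = g') :
    D.dn hp ((s, false) :: l) g g' h =
      (D.dnEdge hp 1 s).symm.trans (D.dn hp l 1 (val D.gen l) (one_mul _)) := by
  rw [← D.dnEdge_eq hp (g * (D.gen s)⁻¹) s,
    ← D.dn_eq hp l (g * (D.gen s)⁻¹) g' (by rw [← h]; simp [mul_assoc])]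
  ext t
  rw [dn_apply, up_cons_false, Path.trans_apply, Path.trans_apply]
  split_ifs <;> rfl

theorem cls_def (l : List (S × Bool)) : D.cls hp l =
    FundamentalGroup.fromPath
      (Path.Homotopic.Quotient.mk (D.dn hp l 1 (val D.gen l) (one_mul _))) := rfl

theorem cls_nil : D.cls hp [] = 1 := by
  rw [cls_def, dn_nil]
  rfl

theorem cls_single_true (s : S) : D.cls hp [(s, true)] =
    FundamentalGroup.fromPath (Path.Homotopic.Quotient.mk (D.dnEdge hp 1 s)) := by
  rw [cls_def, dn_cons_true, dn_nil, Path.Homotopic.Quotient.mk_trans,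
    Path.Homotopic.Quotient.mk_refl, Path.Homotopic.Quotient.trans_refl]

theorem cls_single_false (s : S) : D.cls hp [(s, false)] =
    FundamentalGroup.fromPath (Path.Homotopic.Quotient.mk (D.dnEdge hp 1 s)).symm := by
  rw [cls_def, dn_cons_false, dn_nil, Path.Homotopic.Quotient.mk_trans,
    Path.Homotopic.Quotient.mk_refl, Path.Homotopic.Quotient.trans_refl,
    Path.Homotopic.Quotient.mk_symm]

/-- Mathlib's product of loop classes is `a * b = b.trans a`. -/
theorem cls_cons (x : S × Bool) (l : List (S × Bool)) :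
    D.cls hp (x :: l) = D.cls hp l * D.cls hp [x] := by
  obtain ⟨s, b⟩ := x
  rw [FundamentalGroup.mul_def]
  cases b
  · rw [cls_single_false, cls_def, dn_cons_false, Path.Homotopic.Quotient.mk_trans,
      Path.Homotopic.Quotient.mk_symm]
    rfl
  · rw [cls_single_true, cls_def, dn_cons_true, Path.Homotopic.Quotient.mk_trans]
    rfl

theorem cls_inv (s : S) : D.cls hp [(s, false)] = (D.cls hp [(s, true)])⁻¹ := by
  rw [cls_single_false, cls_single_true, FundamentalGroup.inv_def]

theorem r_mk (l : List (S × Bool)) :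
    D.r hp (FreeGroup.mk l) = MulOpposite.op (D.cls hp l) := by
  induction l with
  | nil =>
    rw [cls_nil]
    exact map_one _
  | cons x l ih =>
    have hcons : (FreeGroup.mk (x :: l) : FreeGroup S) = FreeGroup.mk [x] * FreeGroup.mk l := by
      rw [FreeGroup.mul_mk]; rfl
    have hx : D.r hp (FreeGroup.mk [x]) = MulOpposite.op (D.cls hp [x]) := by
      obtain ⟨s, b⟩ := x
      cases b
      · have : (FreeGroup.mk [(s, false)] : FreeGroup S) = (FreeGroup.of s)⁻¹ := rfl
        rw [this, map_inv, cls_inv, MulOpposite.op_inv]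
        congr 1
        exact FreeGroup.lift_apply_of
      · exact FreeGroup.lift_apply_of
    rw [hcons, map_mul, ih, hx, ← MulOpposite.op_mul, ← cls_cons]

theorem r_apply [DecidableEq S] (w : FreeGroup S) :
    D.r hp w = MulOpposite.op (D.cls hp w.toWord) := by
  rw [← r_mk, FreeGroup.mk_toWord]

/-- the class downstairs of a closed edge path -/
theorem mapOfEq_loopUp [DecidableEq S] (w : FreeGroup S) (h : FreeGroup.lift D.gen w = 1) :
    FundamentalGroup.mapOfEq (⟨p, hp.continuous⟩ : C(E, X)) (rfl : p (D.vt 1) = p (D.vt 1))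
      (FundamentalGroup.fromPath (Path.Homotopic.Quotient.mk (D.loopUp w h))) =
      D.cls hp w.toWord := by
  rw [FundamentalGroup.mapOfEq_apply, cls_def]
  have h1 : (D.loopUp w h).map hp.continuous =
      D.dn hp w.toWord 1 (val D.gen w.toWord) (one_mul _) := by
    ext t
    exact congrArg p (D.up_congr w.toWord rfl (by rw [val_toWord, h]) _ _ t)
  rw [← h1]
  rfl

end

end Claimed.Open.R321.PC.EdgeData
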