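import Claimed.Open.R321.PCCayDown
import Claimed.Open.R321.AttachVt
import Claimed.Open.R321.PCUp

/-!
# R321, PD-CAYLEY (concrete part), upstairs: the Cayley complex

Owner: helper94.

For a group `Γ`, `gen : S → Γ` and words `ρ : Q → List (S × Bool)` with `PC.val gen (ρ q) = 1`:

* `Vt Γ`: the vertices (`Γ`, discrete, left multiplication), `Vt.proj Γ : C(Vt Γ, Unit)`;
* `PCE1 gen`: the Cayley graph, `pcp1 gen : C(PCE1 gen, PCX1 S)`, `pcD1 gen : PC.EdgeData Γ S _`;
* `pcψ2 gen ρ hρ q = loopSph ((pcD1 gen).up (ρ q) 1 1 _)`, `PCE2 gen ρ hρ`: the Cayley complex,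
  `pcp2 gen ρ hρ : C(PCE2 gen ρ hρ, PCX2 ρ)`, `pcD2 gen ρ hρ : PC.EdgeData Γ S _`;
* `isQuotientCoveringMap_pcp2` (T1), `pcD2_cls_relator` (T2), `pcD2_cls_surjective` (T3).
-/

set_option autoImplicit false

namespace Claimed.Open.R321

open Topology unitInterval Set Metric

noncomputable section

/-! ### The Cayley graph -/

section Graph

variable {Γ S : Type} [Group Γ] (gen : S → Γ)

/-- The lifts of the attaching maps of the petals: `-1 ↦ 1`, `+1 ↦ gen s`. -/
def pcψ1 (s : S) : C(Sph 1, Vt Γ) where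
  toFun w := if w.1 0 ≤ 0 then Vt.mk 1 else Vt.mk (gen s)
  continuous_toFun := by
    refine Continuous.if_le continuous_const continuous_const
      ((continuous_apply 0).comp continuous_subtype_val) continuous_const ?_
    intro w hw
    exfalso
    have h0 : w.1 = 0 := by
      funext i
      rw [Subsingleton.elim i 0, hw]
      rfl
    have h1 := w.norm_eq
    rw [h0, norm_zero] at h1
    exact zero_ne_one h1

theorem pcψ1_left (s : S) (h : ¬ ‖Dsk.left.1‖ < 1) : pcψ1 gen s (Dsk.left.toSph h) = Vt.mk 1 :=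
  if_pos (by change (-1 : ℝ) ≤ 0; norm_num)

theorem pcψ1_right (s : S) (h : ¬ ‖Dsk.right.1‖ < 1) :
    pcψ1 gen s (Dsk.right.toSph h) = Vt.mk (gen s) :=
  if_neg (by change ¬ (1 : ℝ) ≤ 0; norm_num)

/-- The Cayley graph of `(Γ, gen)`. -/
abbrev PCE1 : Type := Attach (Attach.liftFam Γ (pcψ1 gen))

theorem proj_pcψ1 (s : S) (w : Sph 1) : Vt.proj Γ (pcψ1 gen s w) = pcφ1 S s w := rfl

/-- The projection of the Cayley graph to the rose. -/
def pcp1 : C(PCE1 gen, PCX1 S) :=
  Attach.covMap (Vt.isQuotientCoveringMap_proj Γ) (proj_pcψ1 gen)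

theorem isQuotientCoveringMap_pcp1 : IsQuotientCoveringMap (pcp1 gen) Γ :=
  Attach.isQuotientCoveringMap_covMap _ _

/-- The edges of the Cayley graph. -/
def pcEdge (g : Γ) (s : S) :
    Path (Attach.base (Vt.mk g) : PCE1 gen) (Attach.base (Vt.mk (g * gen s))) where
  toFun t := Attach.char (Attach.liftFam Γ (pcψ1 gen)) (CovIdx.mk g s) (Dsk.seg t)
  continuous_toFun := (Attach.continuous_char _).comp Dsk.seg.continuous
  source' := by
    have h : ¬ ‖Dsk.left.1‖ < 1 := by rw [Dsk.norm_left]; exact lt_irrefl _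
    rw [Dsk.seg.source, Attach.char_of_not_lt _ _ h, Attach.liftFam_mk, pcψ1_left, Vt.smul_mk,
      mul_one]
  target' := by
    have h : ¬ ‖Dsk.right.1‖ < 1 := by rw [Dsk.norm_right]; exact lt_irrefl _
    rw [Dsk.seg.target, Attach.char_of_not_lt _ _ h, Attach.liftFam_mk, pcψ1_right, Vt.smul_mk]

theorem pcEdge_apply (g : Γ) (s : S) (t : I) :
    pcEdge gen g s t = Attach.char (Attach.liftFam Γ (pcψ1 gen)) (CovIdx.mk g s) (Dsk.seg t) := rfl

/-- The edge data of the Cayley graph. -/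
def pcD1 : PC.EdgeData Γ S (PCE1 gen) where
  gen := gen
  vt g := Attach.base (Vt.mk g)
  smul_vt _ _ := rfl
  edge := pcEdge gen
  smul_edge a g s t := Attach.smul_char_liftFam _ a (CovIdx.mk g s) (Dsk.seg t)

@[simp] theorem pcD1_gen : (pcD1 gen).gen = gen := rfl

theorem pcD1_vt (g : Γ) : (pcD1 gen).vt g = Attach.base (Vt.mk g) := rfl

theorem pcp1_edge (g : Γ) (s : S) (t : I) : pcp1 gen ((pcD1 gen).edge g s t) = pcLoop1 s t :=
  Attach.covMap_char _ _ (CovIdx.mk g s) (Dsk.seg t)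

theorem pcp1_vt (g : Γ) : pcp1 gen ((pcD1 gen).vt g) = pcx1 S := rfl

/-- The edge paths of the Cayley graph lie over the word paths of the rose. -/
theorem pcp1_up (l : List (S × Bool)) (g g' : Γ) (h : g * PC.val (pcD1 gen).gen l = g') (t : I) :
    pcp1 gen ((pcD1 gen).up l g g' h t) = wordPath pcLoop1 l t := by
  induction l generalizing g t with
  | nil =>
    rw [PC.EdgeData.up, Path.cast_coe, Path.refl_apply, pcp1_vt]
    rfl
  | cons a l ih =>
    obtain ⟨s, b⟩ := a
    cases b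
    · rw [PC.EdgeData.up, wordPath_cons, Path.trans_apply, Path.trans_apply]
      split_ifs with ht
      · rw [PC.EdgeData.edgeInv, Path.cast_coe, Path.symm_apply, Function.comp_apply, pcp1_edge]
        simp only [letterPath, Bool.false_eq_true, if_false, Path.symm_apply, Function.comp_apply]
      · exact ih _ _ _
    · rw [PC.EdgeData.up, wordPath_cons, Path.trans_apply, Path.trans_apply]
      split_ifs with ht
      · rw [pcp1_edge]
        simp only [letterPath, if_true]
      · exact ih _ _ _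

end Graph

/-! ### Transport along pointwise equalities of loops -/

section Transport

variable {A : Type} [TopologicalSpace A]

theorem loopSph_congr {x y : A} (γ : Path x x) (γ' : Path y y) (h : ∀ t, γ t = γ' t) :
    loopSph γ = loopSph γ' := by
  obtain rfl : x = y := by rw [← γ.source, h, γ'.source]
  obtain rfl : γ = γ' := Path.ext (funext h)
  rfl

theorem fromPath_mk_eq_one_of_homotopic {x y : A} (γ : Path x x) (γ' : Path y y)
    (h : ∀ t, γ t = γ' t) (h' : γ'.Homotopic (Path.refl y)) :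
    FundamentalGroup.fromPath (Path.Homotopic.Quotient.mk γ) = 1 := by
  obtain rfl : x = y := by rw [← γ.source, h, γ'.source]
  obtain rfl : γ = γ' := Path.ext (funext h)
  exact Path.Homotopic.Quotient.eq.mpr h'

theorem exists_fromPath_mk_eq {L : Type} {x y : A} (F : L → Path x x) (F' : L → Path y y)
    (h : ∀ l t, F l t = F' l t) (hxy : x = y)
    (h' : ∀ γ : Path.Homotopic.Quotient y y, ∃ l, γ = Path.Homotopic.Quotient.mk (F' l))
    (c : FundamentalGroup A x) :
    ∃ l, FundamentalGroup.fromPath (Path.Homotopic.Quotient.mk (F l)) = c := by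
  subst hxy
  obtain ⟨l, hl⟩ := h' (FundamentalGroup.toPath c)
  refine ⟨l, ?_⟩
  have : F l = F' l := Path.ext (funext (h l))
  rw [this]
  exact hl.symm

end Transport

/-! ### The Cayley complex -/

section Complex

variable {Γ S Q : Type} [Group Γ] (gen : S → Γ) (ρ : Q → List (S × Bool))
  (hρ : ∀ q, PC.val gen (ρ q) = 1)

/-- The lifts of the attaching maps of the two-cells: the closed edge paths of the relators. -/
def pcψ2 (q : Q) : C(Sph 2, PCE1 gen) :=
  loopSph ((pcD1 gen).up (ρ q) 1 1 (by rw [pcD1_gen, hρ, mul_one]))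

theorem pcp1_pcψ2 (q : Q) (w : Sph 2) : pcp1 gen (pcψ2 gen ρ hρ q w) = pcφ2 ρ q w := by
  have h := comp_loopSph (pcp1 gen) ((pcD1 gen).up (ρ q) 1 1 (by rw [pcD1_gen, hρ, mul_one]))
  rw [loopSph_congr _ (wordPath pcLoop1 (ρ q)) (fun t => pcp1_up gen (ρ q) 1 1 _ t)] at h
  exact congrArg (fun f : C(Sph 2, PCX1 S) => f w) h

/-- The Cayley complex of `(Γ, gen, ρ)`. -/
abbrev PCE2 : Type := Attach (Attach.liftFam Γ (pcψ2 gen ρ hρ))

/-- The projection of the Cayley complex to the presentation complex. -/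
def pcp2 : C(PCE2 gen ρ hρ, PCX2 ρ) :=
  Attach.covMap (isQuotientCoveringMap_pcp1 gen) (pcp1_pcψ2 gen ρ hρ)

/-- **T1.** -/
theorem isQuotientCoveringMap_pcp2 : IsQuotientCoveringMap (pcp2 gen ρ hρ) Γ :=
  Attach.isQuotientCoveringMap_covMap _ _

/-- The edge data of the Cayley complex. -/
def pcD2 : PC.EdgeData Γ S (PCE2 gen ρ hρ) :=
  (pcD1 gen).map (Attach.baseMap _) (fun _ _ => rfl)

@[simp] theorem pcD2_gen : (pcD2 gen ρ hρ).gen = gen := rfl

theorem pcD2_vt (g : Γ) :
    (pcD2 gen ρ hρ).vt g = Attach.base (Attach.base (Vt.mk g)) := rfl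

theorem pcp2_vt (g : Γ) : pcp2 gen ρ hρ ((pcD2 gen ρ hρ).vt g) = pcx2 ρ := rfl

theorem pcD2_up (l : List (S × Bool)) (g g' : Γ) (h : g * PC.val gen l = g') :
    (pcD2 gen ρ hρ).up l g g' h =
      ((pcD1 gen).up l g g' h).map (Attach.baseMap (Attach.liftFam Γ (pcψ2 gen ρ hρ))).continuous :=
  PC.EdgeData.up_map _ _ _ _ _ _ _

/-- The edge paths of the Cayley complex lie over the word paths of the presentation complex. -/
theorem pcp2_up (l : List (S × Bool)) (g g' : Γ) (h : g * PC.val gen l = g') (t : I) :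
    pcp2 gen ρ hρ ((pcD2 gen ρ hρ).up l g g' h t) = wordPath (pcLoop2 ρ) l t := by
  have h1 : (pcD2 gen ρ hρ).up l g g' h t = Attach.base ((pcD1 gen).up l g g' h t) := by
    rw [pcD2_up]
    rfl
  have h2 : wordPath (pcLoop2 ρ) l t = Attach.base (wordPath pcLoop1 l t) := by
    rw [wordPath_pcLoop2]
    rfl
  rw [h1, h2, ← pcp1_up gen l g g' h t]
  rfl

theorem pcD2_dn (l : List (S × Bool)) (g g' : Γ) (h : g * PC.val gen l = g') (t : I) :
    (pcD2 gen ρ hρ).dn (isQuotientCoveringMap_pcp2 gen ρ hρ) l g g' h t =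
      wordPath (pcLoop2 ρ) l t :=
  pcp2_up gen ρ hρ l g g' h t

/-- **T2.**  The relators die downstairs. -/
theorem pcD2_cls_relator (q : Q) :
    (pcD2 gen ρ hρ).cls (isQuotientCoveringMap_pcp2 gen ρ hρ) (ρ q) = 1 :=
  fromPath_mk_eq_one_of_homotopic _ _ (pcD2_dn gen ρ hρ (ρ q) _ _ _) (pc_relator_null ρ q)

/-- **T3.**  The words exhaust the fundamental group downstairs. -/
theorem pcD2_cls_surjective [Finite S] [Finite Q]
    (c : FundamentalGroup (PCX2 ρ) (pcp2 gen ρ hρ ((pcD2 gen ρ hρ).vt 1))) :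
    ∃ l, (pcD2 gen ρ hρ).cls (isQuotientCoveringMap_pcp2 gen ρ hρ) l = c :=
  exists_fromPath_mk_eq _ _ (fun l t => pcD2_dn gen ρ hρ l _ _ _ t) (pcp2_vt gen ρ hρ 1)
    (pc_x2_word ρ) c

instance pathConnectedSpace_PCX1 : PathConnectedSpace (PCX1 S) :=
  Attach.pathConnectedSpace one_pos

instance pathConnectedSpace_PCX2 : PathConnectedSpace (PCX2 ρ) :=
  Attach.pathConnectedSpace two_pos

end Complex

end

end Claimed.Open.R321
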