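import Claimed.Open.R321.GroupG

/-!
# R321, PD-CAYLEY: the group-theoretic inputs of the `B`-instance

Owner: helper67.

`incP : Fin 4 → Fin 6`, `incT : Fin 2 → Fin 6`: the index sets of the relators of `P` and of the two
extra relators `t₁`, `t₂` inside the index set of the relators of `G`.
`mk_incT_mem_commutator`: the hypothesis `hw` of `PC.EdgeData.loopUp_mem_commutator` for the family
`relsG ∘ incP` and the words `relsG (incT t)`.
-/

set_option autoImplicit false

namespace Claimed.Open.R321.Wall

open scoped commutatorElement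

noncomputable section

/-- the relators of `P` among the relators of `G` -/
def incP : Fin 4 → Fin 6 := Fin.castLE (by norm_num)

/-- the two extra relators `t₁`, `t₂` of `G` -/
def incT : Fin 2 → Fin 6 := Fin.natAdd 4

theorem incP_injective : Function.Injective incP := Fin.castLE_injective _

theorem incT_injective : Function.Injective incT := by
  decide

theorem incP_ne_incT (a : Fin 4) (b : Fin 2) : incP a ≠ incT b := by
  revert a b; decide

theorem incP_or_incT (q : Fin 6) : (∃ a, incP a = q) ∨ ∃ b, incT b = q := by
  revert q; decide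

theorem relsG_comp_incP : relsG ∘ incP = relsP := by
  funext i
  fin_cases i <;> rfl

theorem relsG_incT_zero : relsG (incT 0) = t1 := rfl

theorem relsG_incT_one : relsG (incT 1) = t2 := rfl

theorem lift_of_relsG (q : Fin 6) :
    FreeGroup.lift (PresentedGroup.of : Fin 5 → G) (relsG q) = 1 := by
  have h : FreeGroup.lift (PresentedGroup.of : Fin 5 → G) = mkG := by
    ext i; simp [PresentedGroup.of]
  rw [h]
  exact PresentedGroup.one_of_mem (relsG_mem q)

theorem lift_of_relsG_comp_incP :
    ∀ x ∈ Set.range (relsG ∘ incP), FreeGroup.lift (PresentedGroup.of : Fin 5 → G) x = 1 := by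
  rintro _ ⟨a, rfl⟩
  exact lift_of_relsG _

private theorem mem_commutator_aux (ρ' : Fin 4 → F5) (h : ρ' = relsP) (gen : Fin 5 → G)
    (hgen : gen = PresentedGroup.of) (hρ : ∀ x ∈ Set.range ρ', FreeGroup.lift gen x = 1)
    (w : F5) (hw : mkP w ∈ ⁅K, K⁆) :
    PresentedGroup.mk (Set.range ρ') w ∈
      ⁅(PresentedGroup.toGroup hρ).ker, (PresentedGroup.toGroup hρ).ker⁆ := by
  subst h hgen
  have h1 : PresentedGroup.toGroup hρ = PtoG := by
    ext i
    simp only [PresentedGroup.toGroup.of]
    rfl
  rw [h1, ker_PtoG]
  exact hw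

/-- the hypothesis `hw` of `loopUp_mem_commutator` -/
theorem mk_incT_mem_commutator (gen : Fin 5 → G) (hgen : gen = PresentedGroup.of)
    (hρ : ∀ x ∈ Set.range (relsG ∘ incP), FreeGroup.lift gen x = 1) (t : Fin 2) :
    PresentedGroup.mk (Set.range (relsG ∘ incP)) (relsG (incT t)) ∈
      ⁅(PresentedGroup.toGroup hρ).ker, (PresentedGroup.toGroup hρ).ker⁆ := by
  apply mem_commutator_aux _ relsG_comp_incP gen hgen
  fin_cases t
  · exact mkP_t1_mem_commutator
  · exact mkP_t2_mem_commutator

end

end Claimed.Open.R321.Wall
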