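import Claimed.Open.R321.PCMono

/-!
# R321, PD-CAYLEY, leaves PC-4 (simple connectivity, T7) and PC-5 (commutators, T8)
-/

set_option autoImplicit false

namespace Claimed.Open.R321.PC.EdgeData

open Topology unitInterval
open scoped commutatorElement

noncomputable section

variable {Γ S E X : Type} [Group Γ] [TopologicalSpace E] [MulAction Γ E] [TopologicalSpace X]
  {p : E → X}

/-- criterion for simple connectivity -/
theorem simplyConnectedSpace_of_cls (D : EdgeData Γ S E) (hp : IsQuotientCoveringMap p Γ)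
    [PathConnectedSpace E]
    (hsurj : ∀ c : FundamentalGroup X (p (D.vt 1)), ∃ l, D.cls hp l = c)
    (hker : ∀ l, val D.gen l = 1 → D.cls hp l = 1) : SimplyConnectedSpace E := by
  apply simplyConnectedSpace_of_injective hp (D.vt 1)
  rw [injective_iff_map_eq_one]
  intro c hc
  obtain ⟨l, rfl⟩ := hsurj c
  apply hker
  have h1 : D.mu hp (D.cls hp l) = 1 := hc
  rw [mu_cls] at h1
  exact MulOpposite.op_injective h1

/-- **T7.**  `Γ = ⟨S | ρ⟩`: if the loops `s` generate `π₁(X)` and the relators die in `π₁(X)`, then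
`E` is simply connected. -/
theorem simplyConnectedSpace_of_presentation {Q : Type} [DecidableEq S] (ρ : Q → FreeGroup S)
    [MulAction (PresentedGroup (Set.range ρ)) E]
    (D : EdgeData (PresentedGroup (Set.range ρ)) S E) (hgen : D.gen = PresentedGroup.of)
    (hp : IsQuotientCoveringMap p (PresentedGroup (Set.range ρ))) [PathConnectedSpace X]
    (hsurj : ∀ c : FundamentalGroup X (p (D.vt 1)), ∃ l, D.cls hp l = c)
    (hrel : ∀ q, D.cls hp (ρ q).toWord = 1) : SimplyConnectedSpace E := by
  have hgen' : Subgroup.closure (Set.range D.gen) = ⊤ := by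
    rw [hgen]
    exact PresentedGroup.closure_range_of _
  have : PathConnectedSpace E := D.pathConnectedSpace_of_closure hp hgen'
  apply D.simplyConnectedSpace_of_cls hp hsurj
  intro l hl
  have h1 : PresentedGroup.mk (Set.range ρ) (FreeGroup.mk l) = 1 := by
    rw [← hl, val_eq_lift, hgen]
    have h0 : FreeGroup.lift (PresentedGroup.of (rels := Set.range ρ)) =
        PresentedGroup.mk (Set.range ρ) := by
      ext s
      simp [PresentedGroup.of]
    rw [h0]
  have h2 : FreeGroup.mk l ∈ Subgroup.normalClosure (Set.range ρ) :=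
    (QuotientGroup.eq_one_iff _).1 h1
  have h3 : Subgroup.normalClosure (Set.range ρ) ≤ (D.r hp).ker := by
    apply Subgroup.normalClosure_le_normal
    rintro _ ⟨q, rfl⟩
    rw [SetLike.mem_coe, MonoidHom.mem_ker, r_apply, hrel]
    rfl
  have h4 := h3 h2
  rw [MonoidHom.mem_ker, r_mk] at h4
  exact MulOpposite.op_injective h4

/-- **T8.**  Let `P = ⟨S | ρ⟩ → Γ` with kernel `K`, and assume that the relators `ρ q` die in
`π₁(X)`.  If `w` represents an element of `⁅K, K⁆`, the closed edge path `loopUp w` represents an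
element of the commutator subgroup of `π₁(E, vt 1)`.

Proof: `r` descends to `r̄ : P →* π₁(X)ᵐᵒᵖ`; `μ (r̄ k).unop = op (π k)`, so `(r̄ k).unop` lies in
`ker μ = range p_*` for `k ∈ K` (`ker_fundamentalGroupToMulOpposite`, `ker_monodromyPerm`).  Hence
`⁅K, K⁆ ≤ ((commutator (π₁ E)).map p_*).op.comap r̄` (`Subgroup.commutator_le`).  Conclude with
`mapOfEq_loopUp` and the injectivity of `p_*` (`IsCoveringMap.injective_path_homotopic_map`). -/
theorem loopUp_mem_commutator {Q : Type} [DecidableEq S] (D : EdgeData Γ S E)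
    (hp : IsQuotientCoveringMap p Γ) (ρ : Q → FreeGroup S)
    (hρ : ∀ x ∈ Set.range ρ, FreeGroup.lift D.gen x = 1)
    (hrel : ∀ q, D.cls hp (ρ q).toWord = 1) (w : FreeGroup S)
    (hw : PresentedGroup.mk (Set.range ρ) w ∈
      ⁅(PresentedGroup.toGroup hρ).ker, (PresentedGroup.toGroup hρ).ker⁆)
    (h1 : FreeGroup.lift D.gen w = 1) :
    FundamentalGroup.fromPath (Path.Homotopic.Quotient.mk (D.loopUp w h1)) ∈
      commutator (FundamentalGroup E (D.vt 1)) := by
  let π : PresentedGroup (Set.range ρ) →* Γ := PresentedGroup.toGroup hρ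
  let pS : FundamentalGroup E (D.vt 1) →* FundamentalGroup X (p (D.vt 1)) :=
    FundamentalGroup.mapOfEq (⟨p, hp.continuous⟩ : C(E, X)) (rfl : p (D.vt 1) = p (D.vt 1))
  have hr : ∀ x ∈ Set.range ρ,
      FreeGroup.lift (fun s => MulOpposite.op (D.cls hp [(s, true)])) x = 1 := by
    rintro _ ⟨q, rfl⟩
    have : D.r hp (ρ q) = 1 := by
      rw [r_apply, hrel]
      rfl
    exact this
  let rb : PresentedGroup (Set.range ρ) →* (FundamentalGroup X (p (D.vt 1)))ᵐᵒᵖ :=
    PresentedGroup.toGroup hr
  have hrb : ∀ w, rb (PresentedGroup.mk _ w) = D.r hp w := fun w => rfl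
  have hπ : ∀ w, π (PresentedGroup.mk _ w) = FreeGroup.lift D.gen w := fun w => rfl
  have hK : ∀ k ∈ π.ker, (rb k).unop ∈ pS.range := by
    intro k hk
    obtain ⟨w, rfl⟩ := PresentedGroup.mk_surjective _ k
    rw [← hp.ker_monodromyPerm ⟨D.vt 1, rfl⟩,
      ← hp.ker_fundamentalGroupToMulOpposite ⟨D.vt 1, rfl⟩, MonoidHom.mem_ker, hrb]
    refine (D.mu_r hp w).trans ?_
    rw [← hπ, MonoidHom.mem_ker.1 hk]
    rfl
  have hle : ⁅π.ker, π.ker⁆ ≤
      (((commutator (FundamentalGroup E (D.vt 1))).map pS).op).comap rb := by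
    rw [Subgroup.commutator_le]
    intro k1 hk1 k2 hk2
    obtain ⟨a1, ha1⟩ := hK k1 hk1
    obtain ⟨a2, ha2⟩ := hK k2 hk2
    rw [Subgroup.mem_comap, Subgroup.mem_op, map_commutatorElement]
    have h3 : (⁅rb k1, rb k2⁆).unop = pS ⁅a2⁻¹, a1⁻¹⁆ := by
      rw [map_commutatorElement, map_inv, map_inv, ha1, ha2]
      simp [commutatorElement_def, mul_assoc]
    rw [h3]
    exact Subgroup.mem_map_of_mem _
      (Subgroup.commutator_mem_commutator (Subgroup.mem_top _) (Subgroup.mem_top _))
  have h2 := hle hw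
  rw [Subgroup.mem_comap, Subgroup.mem_op, hrb, r_apply, MulOpposite.unop_op,
    ← mapOfEq_loopUp D hp w h1] at h2
  obtain ⟨c, hc, hce⟩ := h2
  have hinj : Function.Injective pS := by
    intro a b hab
    simp only [pS, FundamentalGroup.mapOfEq_apply] at hab
    exact hp.isCoveringMap.injective_path_homotopic_map _ _ (by simpa using hab)
  rwa [← hinj hce]

end

end Claimed.Open.R321.PC.EdgeData
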