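import Claimed.Open.R321.PDFinal
import Claimed.Open.R321.RCFinal
import Claimed.Open.R321.PCCayUp
import Claimed.Open.R321.PCSC
import Claimed.Open.R321.PCGrp

/-!
# R321, PD-MAIN, part 4: the instance `Wall.G`, and `PropD`

Owner: helper290.

* `hasCW_pcX2`: the cell counts of the presentation complex;
* `propD : PropD`: `propD_of_cayley` applied to the Cayley complex of the presentation
  `G = ⟨x₁, a₁, x₂, a₂, s | r₁, r₂, r₃, r₄, t₁, t₂⟩` (package PD-CAYLEY) and to the relative cells
  theorem (package RC).
-/

set_option autoImplicit false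

namespace Claimed.Open.R321

open Topology

noncomputable section

/-- The cell counts of the presentation complex. -/
theorem hasCW_pcX2 {S Q : Type} [Finite S] [Finite Q] (ρ : Q → List (S × Bool)) :
    HasCW (PCX2 ρ) (fun k => ((if k = 0 then 1 else 0) + if k = 1 then Nat.card S else 0) +
      if k = 2 then Nat.card Q else 0) := by
  have h1 := hasCW_unit.attach (d := 1) (fun m hm => by rw [if_neg (by omega)]) (pcφ1 S)
  exact h1.attach (d := 2) (fun m hm => by
    show (if m = 0 then 1 else 0) + (if m = 1 then Nat.card S else 0) = 0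
    rw [if_neg (by omega), if_neg (by omega)]) (pcφ2 ρ)

namespace Wall

/-- the generators of `G` -/
def genG : Fin 5 → G := PresentedGroup.of

/-- the relators of `G`, as words -/
def wordG (q : Fin 6) : List (Fin 5 × Bool) := (relsG q).toWord

theorem val_wordG (q : Fin 6) : PC.val genG (wordG q) = 1 := by
  rw [wordG, PC.val_toWord]
  exact lift_of_relsG q

end Wall

open Wall in
/-- The Cayley complex of the presentation of `G` is simply connected. -/
instance simplyConnectedSpace_cayleyG : SimplyConnectedSpace (PCE2 genG wordG val_wordG) :=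
  PC.EdgeData.simplyConnectedSpace_of_presentation relsG (pcD2 genG wordG val_wordG) rfl
    (isQuotientCoveringMap_pcp2 genG wordG val_wordG)
    (pcD2_cls_surjective genG wordG val_wordG) (pcD2_cls_relator genG wordG val_wordG)

open Wall in
/-- **Proposition D.** -/
theorem propD : PropD := by
  -- the Cayley complex of `P`, with the action of `G`
  let D := pcD2 genG (wordG ∘ incP) (fun a => val_wordG (incP a))
  have hlift : ∀ t, FreeGroup.lift D.gen (relsG (incT t)) = 1 := fun t => lift_of_relsG _
  have hρ : ∀ x ∈ Set.range (relsG ∘ incP), FreeGroup.lift D.gen x = 1 := lift_of_relsG_comp_incP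
  refine propD_of_cayley ifaceRC (E0 := Vt G) (E1 := PCE1 genG) (X2 := PCX2 wordG)
    (hasCW_pcX2 wordG) (by simp) (by simp) (by simp)
    (fun m hm => by
      show ((if m = 0 then 1 else 0) + if m = 1 then Nat.card (Fin 5) else 0) +
        (if m = 2 then Nat.card (Fin 6) else 0) = 0
      rw [if_neg (by omega), if_neg (by omega), if_neg (by omega)])
    (Vt.cellAttach G) (Vt.cellAttach_isWeak G)
    (fun g j => ⟨g * j, fun x => Vt.smul_cellAttach_Φ g j x⟩)
    (EqAttach.ofLiftFam (pcψ1 genG))
    (pcψ2 genG wordG val_wordG) (pcp2 genG wordG val_wordG)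
    (isQuotientCoveringMap_pcp2 genG wordG val_wordG)
    incP incT incP_injective incT_injective incP_ne_incT incP_or_incT
    (D.vt 1) (fun t => D.loopUp (relsG (incT t)) (hlift t)) (fun t => ?_) (fun t => ?_)
  · exact D.loopUp_mem_commutator
      (isQuotientCoveringMap_pcp2 genG (wordG ∘ incP) (fun a => val_wordG (incP a)))
      (relsG ∘ incP) hρ (pcD2_cls_relator genG (wordG ∘ incP) (fun a => val_wordG (incP a)))
      (relsG (incT t)) (mk_incT_mem_commutator D.gen rfl hρ t) (hlift t)
  · have h1 : D.loopUp (relsG (incT t)) (hlift t) =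
        ((pcD1 genG).loopUp (relsG (incT t)) (hlift t)).map (Attach.baseMap _).continuous :=
      PC.EdgeData.loopUp_map _ _ _ _ _
    have h2 := comp_loopSph
      (Attach.baseMap (Attach.liftFam G (pcψ2 genG (wordG ∘ incP) (fun a => val_wordG (incP a)))))
      ((pcD1 genG).loopUp (relsG (incT t)) (hlift t))
    have h3 : ∀ w, loopSph (D.loopUp (relsG (incT t)) (hlift t)) w =
        Attach.base (loopSph ((pcD1 genG).loopUp (relsG (incT t)) (hlift t)) w) := by
      intro w
      rw [h1]
      exact (DFunLike.congr_fun h2 w).symm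
    ext w
    show Attach.char _ _ (sphToDsk 2 w) = _
    rw [Attach.char_sphToDsk, Attach.liftFam_mk, one_smul]
    exact (congrArg (Attach.subMap G (pcψ2 genG wordG val_wordG) incP) (h3 w)).symm

end

end Claimed.Open.R321
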