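import Claimed.Open.R321.TwData

/-!
# Tower theorem: the presentation complex, and normal closures as products of conjugates
-/

set_option autoImplicit false

namespace Claimed.Open.R321.Tw

/-- the presentation complex of `⟨S | rels⟩` -/
abbrev presCx {S : Type} [DecidableEq S] {m : ℕ} (rels : Fin m → FreeGroup S) : Cx where
  V := Unit
  E := S
  C := Fin m
  src _ := ()
  tgt _ := ()
  base _ := ()
  bdry j := (rels j).toWord

theorem isPath_presCx {S : Type} [DecidableEq S] {m : ℕ} (rels : Fin m → FreeGroup S) (l : Word S) :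
    (presCx rels).IsPath l () () := by
  induction l with
  | nil => rfl
  | cons x l ih => exact ⟨rfl, ih⟩

theorem term_inv (A : Cx) (x : Word A.E × A.C × Bool) :
    (A.term x)⁻¹ = A.term (x.1, x.2.1, !x.2.2) := by
  obtain ⟨u, c, b⟩ := x
  cases b <;> simp [Cx.term]

theorem prod_terms_inv (A : Cx) (L : List (Word A.E × A.C × Bool)) :
    ((L.map A.term).prod)⁻¹ =
      ((L.reverse.map fun x => (x.1, x.2.1, !x.2.2)).map A.term).prod := by
  induction L with
  | nil => simp
  | cons x L ih =>
    simp only [List.map_cons, List.prod_cons, mul_inv_rev, ih, List.reverse_cons, List.map_append,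
      List.prod_append, List.map_nil, List.prod_nil, mul_one, term_inv]

theorem exists_terms_of_mem_normalClosure {S : Type} [DecidableEq S] {m : ℕ}
    (rels : Fin m → FreeGroup S) (g : FreeGroup S)
    (hg : g ∈ Subgroup.normalClosure (Set.range rels)) :
    ∃ L : List (Word S × Fin m × Bool), g = (L.map (presCx rels).term).prod := by
  rw [Subgroup.normalClosure] at hg
  induction hg using Subgroup.closure_induction with
  | mem x hx =>
    obtain ⟨r, ⟨j, rfl⟩, hconj⟩ := Group.mem_conjugatesOfSet_iff.1 hx
    obtain ⟨u, rfl⟩ := isConj_iff.1 hconj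
    refine ⟨[(u.toWord, j, true)], ?_⟩
    simp [Cx.term, FreeGroup.mk_toWord]
  | one => exact ⟨[], rfl⟩
  | mul x y _ _ hx hy =>
    obtain ⟨L, rfl⟩ := hx
    obtain ⟨L', rfl⟩ := hy
    exact ⟨L ++ L', by simp⟩
  | inv x _ hx =>
    obtain ⟨L, rfl⟩ := hx
    exact ⟨_, prod_terms_inv (presCx rels) L⟩

end Claimed.Open.R321.Tw
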