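import Claimed.Open.R321.TwMain
import Claimed.Open.R321.TwNC

/-!
# Tower theorem, part 9: finite presentations

`torsion_of_fox_injective` (paper, Corollary 2.3): if the rows of the Fox matrix of a presentation
`⟨S | r₁, …, r_m⟩` at a character `ρ` are linearly independent, then `ρ` kills all elements of finite
order of the presented group.
-/

set_option autoImplicit false

namespace Claimed.Open.R321.Tw

theorem lift_of_eq {S : Type} {R : Set (FreeGroup S)} {U : Type} [Group U]
    (ρ : PresentedGroup R →* U) (g : FreeGroup S) :
    FreeGroup.lift (fun i => ρ (PresentedGroup.of i)) g = ρ (PresentedGroup.mk R g) := by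
  have : FreeGroup.lift (fun i => ρ (PresentedGroup.of i)) = ρ.comp (PresentedGroup.mk R) := by
    ext i
    simp [PresentedGroup.of]
  rw [this]
  rfl

/-- **Corollary 2.3 of the paper**: a character at which the Fox matrix of a presentation has
linearly independent rows kills the torsion. -/
theorem torsion_of_fox_injective {k : Type} [Field k] {S : Type} [DecidableEq S] {m : ℕ}
    (rels : Fin m → FreeGroup S) (ρ : PresentedGroup (Set.range rels) →* kˣ)
    (hinj : LinearIndependent k
      (fun j => fox (fun s => ρ (PresentedGroup.of s)) (rels j).toWord))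
    (g : PresentedGroup (Set.range rels)) (hg : IsOfFinOrder g) : ρ g = 1 := by
  obtain ⟨N, hN, hgN⟩ := isOfFinOrder_iff_pow_eq_one.1 hg
  obtain ⟨wF, rfl⟩ : ∃ wF : FreeGroup S, PresentedGroup.mk (Set.range rels) wF = g :=
    QuotientGroup.mk'_surjective _ g
  have hmem : wF ^ N ∈ Subgroup.normalClosure (Set.range rels) := by
    have h1 : PresentedGroup.mk (Set.range rels) (wF ^ N) = 1 := by
      rw [map_pow, hgN]
    exact (QuotientGroup.eq_one_iff _).1 h1
  obtain ⟨L, hL⟩ := exists_terms_of_mem_normalClosure rels _ hmem
  let D : Datum (presCx rels) := ⟨(), wF.toWord, N, L⟩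
  have hD : D.Valid (fun i => ρ (PresentedGroup.of i)) :=
    { closed := isPath_presCx rels _
      stem := fun _ _ => isPath_presCx rels _
      cell := fun _ _ => isPath_presCx rels _
      ev_cell := by
        intro x _
        show ev (fun i => ρ (PresentedGroup.of i)) (rels x.2.1).toWord = 1
        rw [← lift_mk, FreeGroup.mk_toWord, lift_of_eq,
          PresentedGroup.one_of_mem (Set.mem_range_self x.2.1), map_one]
      ident := by
        show FreeGroup.mk wF.toWord ^ N = _
        rw [FreeGroup.mk_toWord, hL] }
  have hinj' : ∀ x, d2 (presCx rels) (fun i => ρ (PresentedGroup.of i)) x = 0 → x = 0 := by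
    intro x hx
    apply hinj
    rw [map_zero]
    exact hx
  have key : ev (fun i => ρ (PresentedGroup.of i)) wF.toWord = 1 :=
    tower (presCx rels) _ hinj' D hD hN.ne'
  rwa [← lift_mk, FreeGroup.mk_toWord, lift_of_eq] at key

end Claimed.Open.R321.Tw
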