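import Claimed.Open.R321.PropCTw
import Claimed.Open.R321.TwPres

/-!
# R321, package C: `PropC` (every finite presentation of `G` has at least as many relators as
generators), unconditionally.
-/

set_option autoImplicit false

namespace Claimed.Open.R321

/-- the torsion form of the tower theorem -/
theorem Tw.torsionThm : Tw.TorsionThm :=
  fun _ _ _ _ rels ρ h g hg => Tw.torsion_of_fox_injective rels ρ h g hg

/-- **`PropC`**. -/
theorem propC : PropC := Tw.propC_of_torsionThm Tw.torsionThm

end Claimed.Open.R321
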