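import Claimed.Open.R321.Statement
import Claimed.Open.R321.Top
import Claimed.Open.R321.PATop
import Claimed.Open.R321.PBTop
import Claimed.Open.R321.PropC
import Claimed.Open.R321.PDInst

/-!
# Result 321: a counterexample to Wall's finite `D(2)` problem: the theorem

`main : Statement`, where `Statement` is the proposition of `Statement.lean` (Theorem 1.1 of the
paper): there is a finite connected 3-dimensional CW complex which satisfies Wall's condition `D(2)`
and is not homotopy equivalent to any finite CW complex of dimension at most two.

The proof is `statement_of_props` (`Top.lean`) applied to the four propositions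

* `propA` (`PATop.lean`): homotopy invariance of the cellular Euler characteristic;
* `propB` (`PBTop.lean`): the presentation of `π₁` of a finite 2-complex read off from its cells;
* `propC` (`PropC.lean`): `G` has no finite presentation of positive deficiency;
* `propD` (`PDInst.lean`): the finite plus construction on the presentation complex of `P`.

`main_infinite` adds the remark which follows Theorem 1.1 in the paper: the example has infinite
fundamental group.
-/

set_option autoImplicit false

namespace Claimed.Open.R321

/-- **Result 321 (Theorem 1.1 of the paper).**  A counterexample to Wall's finite `D(2)` problem. -/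
theorem main : Statement := statement_of_props propA propB propC propD

/-- Theorem 1.1 together with the remark which follows it in the paper: the example has infinite
fundamental group (at every base point). -/
theorem main_infinite :
    ∃ (X : Type) (_ : TopologicalSpace X),
      IsFiniteCWComplexOfDimEq X 3 ∧ ConnectedSpace X ∧ SatisfiesD2 X ∧
      (∀ x : X, Infinite (FundamentalGroup X x)) ∧
      ¬ ∃ (Y : Type) (_ : TopologicalSpace Y),
        IsFiniteCWComplexOfDimLE Y 2 ∧ Nonempty (ContinuousMap.HomotopyEquiv X Y) := by
  obtain ⟨X, tX, t2X, cwX, finX, dimX, cell3, chiX, pcX, ⟨x, ⟨eG⟩⟩, d2X⟩ := propD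
  refine ⟨X, tX, ⟨t2X, cwX, finX, dimX, cell3⟩, inferInstance, d2X, fun x' => ?_, ?_⟩
  · have := Wall.infinite_G
    exact Infinite.of_injective
      (eG.symm.trans (FundamentalGroup.fundamentalGroupMulEquivOfPathConnected x x'))
      (MulEquiv.injective _)
  · rintro ⟨Y, tY, ⟨t2Y, cwY, finY, dimY⟩, ⟨h⟩⟩
    have pcY : PathConnectedSpace Y := pathConnectedSpace_of_homotopyEquiv h
    have chi : cellEuler (Set.univ : Set X) = cellEuler (Set.univ : Set Y) := propA X Y ⟨h⟩
    obtain ⟨n, m, rels, ⟨e⟩, hnm⟩ := propB Y dimY (h.toFun x)
    have hle : n ≤ m :=
      propC n m rels ⟨(eG.symm.trans (fundamentalGroupMulEquivOfHomotopyEquiv h x)).trans e⟩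
    rw [← chi, chiX] at hnm
    omega

end Claimed.Open.R321
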