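import Claimed.Open.R321.PADefs

/-!
# PropA, package E0: Euler characteristics and exact sequences (pure algebra)

* `paRk`, `pa_finrank_of_exact`, `pa_finite_of_exact`: `ℤ`-ranks in exact sequences of abelian groups;
* `PaGrEuler`, `PaLES`, `PaLES.euler_right`, `PaLES.euler_mid`: Euler characteristics in long exact sequences;
* `PaCx.toH`, `PaCx.Hom.mapH`: homology by elements;
* `PaCx.ShortExact.δ`, `PaCx.ShortExact.les`: the long exact homology sequence of a short exact sequence of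
  complexes;
* `PaCx.HasEuler.unique`, `PaCx.Hom.IsQuasiIso.hasEuler_iff`, `PaCx.ShortExact.hasEuler_right`,
  `PaCx.ShortExact.hasEuler_mid`, `PaCx.HasEuler.prod`.
-/

set_option autoImplicit false

namespace Claimed.Open.R321

noncomputable section

open Module

/-! ### Ranks of abelian groups -/

section Rank

variable {A B C : Type} [AddCommGroup A] [AddCommGroup B] [AddCommGroup C]

/-- The rank of the image of a homomorphism of abelian groups. -/
def paRk (f : A →+ B) : ℕ := finrank ℤ (LinearMap.range f.toIntLinearMap)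

theorem pa_finrank_eq (g : B →+ C) [Module.Finite ℤ B] :
    finrank ℤ B = finrank ℤ (LinearMap.ker g.toIntLinearMap) + paRk g := by
  have h1 := (LinearMap.ker g.toIntLinearMap).finrank_quotient_add_finrank
  have h2 := (LinearMap.quotKerEquivRange g.toIntLinearMap).finrank_eq
  unfold paRk
  omega

theorem pa_ker_eq_range {f : A →+ B} {g : B →+ C} (h : ∀ b, g b = 0 ↔ ∃ a, f a = b) :
    LinearMap.ker g.toIntLinearMap = LinearMap.range f.toIntLinearMap := by
  ext b
  simp only [LinearMap.mem_ker, LinearMap.mem_range, AddMonoidHom.coe_toIntLinearMap]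
  exact h b

/-- In an exact sequence `A → B → C`, the rank of `B` is the sum of the ranks of the two maps. -/
theorem pa_finrank_of_exact {f : A →+ B} {g : B →+ C} (h : ∀ b, g b = 0 ↔ ∃ a, f a = b)
    [Module.Finite ℤ B] : finrank ℤ B = paRk f + paRk g := by
  rw [pa_finrank_eq g, pa_ker_eq_range h]
  rfl

theorem pa_finite_of_exact {f : A →+ B} {g : B →+ C} (h : ∀ b, g b = 0 ↔ ∃ a, f a = b)
    [Module.Finite ℤ A] [Module.Finite ℤ C] : Module.Finite ℤ B := by
  have h1 : Module.Finite ℤ (LinearMap.ker g.toIntLinearMap) := by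
    rw [pa_ker_eq_range h]
    exact Module.Finite.range _
  have h2 : Module.Finite ℤ (B ⧸ LinearMap.ker g.toIntLinearMap) :=
    Module.Finite.equiv (LinearMap.quotKerEquivRange g.toIntLinearMap).symm
  exact Module.Finite.of_submodule_quotient (LinearMap.ker g.toIntLinearMap)

theorem pa_subsingleton_of_exact {f : A →+ B} {g : B →+ C} (h : ∀ b, g b = 0 ↔ ∃ a, f a = b)
    [Subsingleton A] [Subsingleton C] : Subsingleton B := by
  refine ⟨fun x y => ?_⟩
  obtain ⟨a, ha⟩ := (h x).1 (Subsingleton.elim _ _)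
  obtain ⟨a', ha'⟩ := (h y).1 (Subsingleton.elim _ _)
  rw [← ha, ← ha', Subsingleton.elim a a']

theorem paRk_of_surjective {g : B →+ C} (hg : Function.Surjective g) : paRk g = finrank ℤ C := by
  unfold paRk
  have : LinearMap.range g.toIntLinearMap = ⊤ := LinearMap.range_eq_top.2 hg
  rw [this, finrank_top]

theorem paRk_of_subsingleton (g : B →+ C) [Subsingleton B] : paRk g = 0 := by
  unfold paRk
  have : Subsingleton (LinearMap.range g.toIntLinearMap) := by
    refine ⟨?_⟩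
    rintro ⟨_, x, rfl⟩ ⟨_, y, rfl⟩
    rw [Subsingleton.elim x y]
  exact finrank_zero_of_subsingleton

end Rank


/-! ### Graded groups and long exact sequences -/

/-- The graded version of `PaCx.HasEuler`. -/
def PaGrEuler (A : ℕ → Type) [∀ n, AddCommGroup (A n)] (χ : ℤ) : Prop :=
  (∀ n, Module.Finite ℤ (A n)) ∧
    ∃ N : ℕ, (∀ n, N ≤ n → Subsingleton (A n)) ∧
      ∑ n ∈ Finset.range N, (-1 : ℤ) ^ n * (finrank ℤ (A n) : ℤ) = χ

theorem pa_sum_range_eq (A : ℕ → Type) [∀ n, AddCommGroup (A n)] {N M : ℕ} (hNM : N ≤ M)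
    (hN : ∀ n, N ≤ n → Subsingleton (A n)) :
    ∑ n ∈ Finset.range M, (-1 : ℤ) ^ n * (finrank ℤ (A n) : ℤ) =
      ∑ n ∈ Finset.range N, (-1 : ℤ) ^ n * (finrank ℤ (A n) : ℤ) := by
  symm
  refine Finset.sum_subset (Finset.range_subset_range.2 hNM) fun n _ hn => ?_
  have := hN n (by simpa using hn)
  rw [finrank_zero_of_subsingleton]
  simp

theorem PaGrEuler.sum_eq {A : ℕ → Type} [∀ n, AddCommGroup (A n)] {χ : ℤ} (h : PaGrEuler A χ)
    {M : ℕ} (hM : ∀ n, M ≤ n → Subsingleton (A n)) :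
    ∑ n ∈ Finset.range M, (-1 : ℤ) ^ n * (finrank ℤ (A n) : ℤ) = χ := by
  obtain ⟨_, N, hN, hsum⟩ := h
  rw [← hsum, ← pa_sum_range_eq A (le_max_left M N) hM, ← pa_sum_range_eq A (le_max_right M N) hN]

theorem PaGrEuler.unique {A : ℕ → Type} [∀ n, AddCommGroup (A n)] {χ χ' : ℤ}
    (h : PaGrEuler A χ) (h' : PaGrEuler A χ') : χ = χ' := by
  obtain ⟨_, N, hN, hsum⟩ := h'
  rw [← hsum, h.sum_eq hN]

theorem PaGrEuler.of_equiv {A B : ℕ → Type} [∀ n, AddCommGroup (A n)] [∀ n, AddCommGroup (B n)]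
    (e : ∀ n, A n ≃+ B n) {χ : ℤ} (h : PaGrEuler A χ) : PaGrEuler B χ := by
  obtain ⟨hfin, N, hN, hsum⟩ := h
  refine ⟨fun n => ?_, N, fun n hn => ?_, ?_⟩
  · have := hfin n
    exact Module.Finite.equiv (e n).toIntLinearEquiv
  · have := hN n hn
    exact (e n).symm.toEquiv.subsingleton
  · rw [← hsum]
    refine Finset.sum_congr rfl fun n _ => ?_
    rw [(e n).toIntLinearEquiv.finrank_eq]

/-- A long exact sequence `⋯ → A n → B n → C n → A (n - 1) → ⋯ → C 0 → 0`. -/
structure PaLES (A B C : ℕ → Type) [∀ n, AddCommGroup (A n)] [∀ n, AddCommGroup (B n)]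
    [∀ n, AddCommGroup (C n)] where
  /-- `A n → B n` -/
  f : ∀ n, A n →+ B n
  /-- `B n → C n` -/
  g : ∀ n, B n →+ C n
  /-- the connecting homomorphism -/
  δ : ∀ n, C (n + 1) →+ A n
  exB : ∀ n b, g n b = 0 ↔ ∃ a, f n a = b
  exC : ∀ n c, δ n c = 0 ↔ ∃ b, g (n + 1) b = c
  exA : ∀ n a, f n a = 0 ↔ ∃ c, δ n c = a
  surj0 : Function.Surjective (g 0)

namespace PaLES

variable {A B C : ℕ → Type} [∀ n, AddCommGroup (A n)] [∀ n, AddCommGroup (B n)]
  [∀ n, AddCommGroup (C n)]

theorem sum_succ (L : PaLES A B C) [∀ n, Module.Finite ℤ (A n)] [∀ n, Module.Finite ℤ (B n)]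
    [∀ n, Module.Finite ℤ (C n)] (N : ℕ) :
    ∑ n ∈ Finset.range (N + 1), (-1 : ℤ) ^ n *
      ((finrank ℤ (A n) : ℤ) - finrank ℤ (B n) + finrank ℤ (C n)) = (-1) ^ N * (paRk (L.δ N) : ℤ) := by
  have hA : ∀ n, finrank ℤ (A n) = paRk (L.δ n) + paRk (L.f n) := fun n =>
    pa_finrank_of_exact (L.exA n)
  have hB : ∀ n, finrank ℤ (B n) = paRk (L.f n) + paRk (L.g n) := fun n =>
    pa_finrank_of_exact (L.exB n)
  have hC : ∀ n, finrank ℤ (C (n + 1)) = paRk (L.g (n + 1)) + paRk (L.δ n) := fun n =>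
    pa_finrank_of_exact (L.exC n)
  have hC0 : finrank ℤ (C 0) = paRk (L.g 0) := (paRk_of_surjective L.surj0).symm
  induction N with
  | zero =>
    simp only [zero_add, Finset.range_one, Finset.sum_singleton, pow_zero, one_mul]
    rw [hA, hB, hC0]
    push_cast
    ring
  | succ N ih =>
    rw [Finset.sum_range_succ, ih, hA (N + 1), hB (N + 1), hC N]
    push_cast
    ring

theorem sum_eq_zero (L : PaLES A B C) [∀ n, Module.Finite ℤ (A n)] [∀ n, Module.Finite ℤ (B n)]
    [∀ n, Module.Finite ℤ (C n)] (N : ℕ) (hN : Subsingleton (C N)) :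
    ∑ n ∈ Finset.range N, (-1 : ℤ) ^ n *
      ((finrank ℤ (A n) : ℤ) - finrank ℤ (B n) + finrank ℤ (C n)) = 0 := by
  cases N with
  | zero => simp
  | succ N => rw [L.sum_succ N, paRk_of_subsingleton]; simp

theorem euler_aux (L : PaLES A B C) (hA : ∀ n, Module.Finite ℤ (A n))
    (hB : ∀ n, Module.Finite ℤ (B n)) (hC : ∀ n, Module.Finite ℤ (C n)) (N : ℕ)
    (hN : Subsingleton (C N)) :
    ∑ n ∈ Finset.range N, (-1 : ℤ) ^ n * (finrank ℤ (B n) : ℤ) =
      ∑ n ∈ Finset.range N, (-1 : ℤ) ^ n * (finrank ℤ (A n) : ℤ) +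
        ∑ n ∈ Finset.range N, (-1 : ℤ) ^ n * (finrank ℤ (C n) : ℤ) := by
  have h := L.sum_eq_zero N hN
  simp only [mul_add, mul_sub, Finset.sum_add_distrib, Finset.sum_sub_distrib] at h
  linarith

theorem euler_right (L : PaLES A B C) {a b : ℤ} (hA : PaGrEuler A a) (hB : PaGrEuler B b) :
    PaGrEuler C (b - a) := by
  have hAf := hA.1
  have hBf := hB.1
  obtain ⟨NA, hNA, -⟩ := hA.2
  obtain ⟨NB, hNB, -⟩ := hB.2
  have hCf : ∀ n, Module.Finite ℤ (C n) := by
    intro n
    cases n with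
    | zero => exact Module.Finite.of_surjective (L.g 0).toIntLinearMap L.surj0
    | succ n => exact pa_finite_of_exact (L.exC n)
  set N := max NB (NA + 1) with hNdef
  have hCN : ∀ n, N ≤ n → Subsingleton (C n) := by
    intro n hn
    cases n with
    | zero => omega
    | succ n =>
      have h1 := hNB (n + 1) (by omega)
      have h2 := hNA n (by omega)
      exact pa_subsingleton_of_exact (L.exC n)
  refine ⟨hCf, N, hCN, ?_⟩
  have h := L.euler_aux hAf hBf hCf N (hCN N le_rfl)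
  rw [hA.sum_eq (M := N) fun n hn => hNA n (by omega),
    hB.sum_eq (M := N) fun n hn => hNB n (by omega)] at h
  linarith

theorem euler_mid (L : PaLES A B C) {a c : ℤ} (hA : PaGrEuler A a) (hC : PaGrEuler C c) :
    PaGrEuler B (a + c) := by
  have hAf := hA.1
  have hCf := hC.1
  obtain ⟨NA, hNA, -⟩ := hA.2
  obtain ⟨NC, hNC, -⟩ := hC.2
  have hBf : ∀ n, Module.Finite ℤ (B n) := fun n => pa_finite_of_exact (L.exB n)
  set N := max NA NC with hNdef
  have hBN : ∀ n, N ≤ n → Subsingleton (B n) := by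
    intro n hn
    have h1 := hNA n (by omega)
    have h2 := hNC n (by omega)
    exact pa_subsingleton_of_exact (L.exB n)
  refine ⟨hBf, N, hBN, ?_⟩
  have h := L.euler_aux hAf hBf hCf N (hNC N (by omega))
  rw [hA.sum_eq (M := N) fun n hn => hNA n (by omega),
    hC.sum_eq (M := N) fun n hn => hNC n (by omega)] at h
  exact h

end PaLES


/-! ### Homology by elements -/

namespace PaCx

/-- The class of a cycle. -/
def toH (K : PaCx) (n : ℕ) : K.cycles n →+ K.H n :=
  QuotientAddGroup.mk' ((K.boundaries n).addSubgroupOf (K.cycles n))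

theorem toH_surjective (K : PaCx) (n : ℕ) : Function.Surjective (K.toH n) :=
  QuotientAddGroup.mk'_surjective _

theorem toH_eq_zero_iff (K : PaCx) {n : ℕ} (z : K.cycles n) :
    K.toH n z = 0 ↔ (z : K.X n) ∈ K.boundaries n :=
  (QuotientAddGroup.eq_zero_iff (N := (K.boundaries n).addSubgroupOf (K.cycles n)) z).trans
    AddSubgroup.mem_addSubgroupOf

theorem toH_eq_iff (K : PaCx) {n : ℕ} (z z' : K.cycles n) :
    K.toH n z = K.toH n z' ↔ (z : K.X n) - z' ∈ K.boundaries n := by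
  rw [← sub_eq_zero, ← map_sub, toH_eq_zero_iff]
  rfl

theorem d_mem_boundaries (K : PaCx) {n : ℕ} (y : K.X (n + 1)) : K.d n y ∈ K.boundaries n :=
  ⟨y, rfl⟩

theorem d_mem_cycles (K : PaCx) {n : ℕ} (y : K.X (n + 1)) : K.d n y ∈ K.cycles n :=
  K.boundaries_le_cycles n (K.d_mem_boundaries y)

namespace Hom

variable {K L : PaCx} (φ : Hom K L)

theorem map_cycles {n : ℕ} {x : K.X n} (hx : x ∈ K.cycles n) : φ.f n x ∈ L.cycles n := by
  cases n with
  | zero => simp
  | succ n =>
    rw [mem_cycles_succ] at hx ⊢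
    rw [φ.comm, hx, map_zero]

theorem map_boundaries {n : ℕ} {x : K.X n} (hx : x ∈ K.boundaries n) :
    φ.f n x ∈ L.boundaries n := by
  obtain ⟨y, rfl⟩ := hx
  exact ⟨φ.f (n + 1) y, φ.comm n y⟩

theorem mem_cycles_of_injective {n : ℕ} (hinj : ∀ n, Function.Injective (φ.f n)) {x : K.X n}
    (hx : φ.f n x ∈ L.cycles n) : x ∈ K.cycles n := by
  cases n with
  | zero => simp
  | succ n =>
    rw [mem_cycles_succ] at hx ⊢
    rw [φ.comm] at hx
    exact hinj n (by rw [hx, map_zero])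

/-- The map on cycles. -/
def mapCycles (n : ℕ) : K.cycles n →+ L.cycles n :=
  ((φ.f n).comp (K.cycles n).subtype).codRestrict (L.cycles n) fun x => φ.map_cycles x.2

@[simp] theorem coe_mapCycles {n : ℕ} (z : K.cycles n) : (φ.mapCycles n z : L.X n) = φ.f n z := rfl

/-- The map on homology. -/
def mapH (n : ℕ) : K.H n →+ L.H n :=
  QuotientAddGroup.map _ _ (φ.mapCycles n) (by
    intro z hz
    rw [AddSubgroup.mem_addSubgroupOf] at hz
    rw [AddSubgroup.mem_comap, AddSubgroup.mem_addSubgroupOf]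
    exact φ.map_boundaries hz)

@[simp] theorem mapH_toH {n : ℕ} (z : K.cycles n) :
    φ.mapH n (K.toH n z) = L.toH n (φ.mapCycles n z) := rfl

theorem IsQuasiIso.bijective {φ : Hom K L} (hφ : φ.IsQuasiIso) (n : ℕ) :
    Function.Bijective (φ.mapH n) := by
  constructor
  · rw [injective_iff_map_eq_zero]
    intro x hx
    obtain ⟨z, rfl⟩ := K.toH_surjective n x
    rw [mapH_toH, toH_eq_zero_iff] at hx
    rw [toH_eq_zero_iff]
    exact hφ.2 n z z.2 hx
  · intro y
    obtain ⟨z, rfl⟩ := L.toH_surjective n y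
    obtain ⟨w, hw, hwz⟩ := hφ.1 n z z.2
    refine ⟨K.toH n ⟨w, hw⟩, ?_⟩
    rw [mapH_toH, toH_eq_iff]
    exact hwz

end Hom

theorem hasEuler_iff_grEuler (K : PaCx) (χ : ℤ) : K.HasEuler χ ↔ PaGrEuler K.H χ := Iff.rfl

/-- The Euler characteristic is determined by the complex. -/
theorem HasEuler.unique {K : PaCx} {χ χ' : ℤ} (h : K.HasEuler χ) (h' : K.HasEuler χ') :
    χ = χ' := PaGrEuler.unique h h'

/-- Quasi-isomorphic complexes have the same Euler characteristic. -/
theorem Hom.IsQuasiIso.hasEuler_iff {K L : PaCx} {φ : Hom K L} (hφ : φ.IsQuasiIso) (χ : ℤ) :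
    K.HasEuler χ ↔ L.HasEuler χ := by
  let e : ∀ n, K.H n ≃+ L.H n := fun n => AddEquiv.ofBijective (φ.mapH n) (hφ.bijective n)
  exact ⟨fun h => PaGrEuler.of_equiv e h, fun h => PaGrEuler.of_equiv (fun n => (e n).symm) h⟩

end PaCx


/-! ### The long exact sequence of a short exact sequence of complexes -/

/-- Descent of a homomorphism along a surjection. -/
def paDescend {W Q R : Type} [AddCommGroup W] [AddCommGroup Q] [AddCommGroup R] (π : W →+ Q)
    (hπ : Function.Surjective π) (ψ : W →+ R) (hker : π.ker ≤ ψ.ker) : Q →+ R :=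
  (QuotientAddGroup.lift π.ker ψ hker).comp
    (QuotientAddGroup.quotientKerEquivOfSurjective π hπ).symm.toAddMonoidHom

theorem paDescend_apply {W Q R : Type} [AddCommGroup W] [AddCommGroup Q] [AddCommGroup R]
    (π : W →+ Q) (hπ : Function.Surjective π) (ψ : W →+ R) (hker : π.ker ≤ ψ.ker) (w : W) :
    paDescend π hπ ψ hker (π w) = ψ w := by
  have h1 : (QuotientAddGroup.quotientKerEquivOfSurjective π hπ).symm (π w) =
      (QuotientAddGroup.mk w : W ⧸ π.ker) := by
    rw [AddEquiv.symm_apply_eq]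
    rfl
  simp only [paDescend, AddMonoidHom.comp_apply, AddEquiv.coe_toAddMonoidHom, h1]
  rfl

namespace PaCx

namespace ShortExact

variable {A B C : PaCx} {i : Hom A B} {p : Hom B C}

theorem p_i (h : ShortExact i p) (n : ℕ) (a : A.X n) : p.f n (i.f n a) = 0 :=
  (h.2.2 n _).2 ⟨a, rfl⟩

/-- The chains of `B` whose image in `C` is a cycle. -/
def liftGroup (p : Hom B C) (n : ℕ) : AddSubgroup (B.X (n + 1)) :=
  (C.cycles (n + 1)).comap (p.f (n + 1))

theorem d_mem_range (h : ShortExact i p) {n : ℕ} {b : B.X (n + 1)} (hb : b ∈ liftGroup p n) :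
    B.d n b ∈ (i.f n).range := by
  have h1 : p.f n (B.d n b) = 0 := by
    rw [← p.comm]
    exact (C.mem_cycles_succ _).1 hb
  exact (h.2.2 n _).1 h1

/-- `b ↦ i⁻¹ (d b)`, with values in the chains of `A`. -/
def preδ₀ (h : ShortExact i p) (n : ℕ) : liftGroup p n →+ A.X n :=
  ((AddMonoidHom.ofInjective (h.1 n)).symm.toAddMonoidHom).comp
    (((B.d n).comp (liftGroup p n).subtype).codRestrict (i.f n).range fun b => h.d_mem_range b.2)

theorem i_preδ₀ (h : ShortExact i p) {n : ℕ} (b : liftGroup p n) :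
    i.f n (h.preδ₀ n b) = B.d n b := by
  have h1 := (AddMonoidHom.ofInjective (h.1 n)).apply_symm_apply
    ((((B.d n).comp (liftGroup p n).subtype).codRestrict (i.f n).range
      fun b => h.d_mem_range b.2) b)
  exact congrArg Subtype.val h1

/-- `b ↦ i⁻¹ (d b)`, with values in the cycles of `A`. -/
def preδ (h : ShortExact i p) (n : ℕ) : liftGroup p n →+ A.cycles n :=
  (h.preδ₀ n).codRestrict (A.cycles n) fun b => by
    apply i.mem_cycles_of_injective h.1
    rw [i_preδ₀]
    exact B.d_mem_cycles _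

theorem i_preδ (h : ShortExact i p) {n : ℕ} (b : liftGroup p n) :
    i.f n (h.preδ n b : A.X n) = B.d n b := h.i_preδ₀ b

/-- `b ↦ [p b]`. -/
def liftπ (p : Hom B C) (n : ℕ) : liftGroup p n →+ C.H (n + 1) :=
  (C.toH (n + 1)).comp
    (((p.f (n + 1)).comp (liftGroup p n).subtype).codRestrict (C.cycles (n + 1)) fun b => b.2)

theorem liftπ_apply (p : Hom B C) {n : ℕ} (b : liftGroup p n) :
    liftπ p n b = C.toH (n + 1) ⟨p.f (n + 1) b, b.2⟩ := rfl

theorem liftπ_surjective (h : ShortExact i p) (n : ℕ) : Function.Surjective (liftπ p n) := by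
  intro x
  obtain ⟨z, rfl⟩ := C.toH_surjective (n + 1) x
  obtain ⟨b, hb⟩ := h.2.1 (n + 1) z
  have hb' : b ∈ liftGroup p n := by
    show p.f (n + 1) b ∈ C.cycles (n + 1)
    rw [hb]; exact z.2
  refine ⟨⟨b, hb'⟩, ?_⟩
  rw [liftπ_apply]
  congr 1
  exact Subtype.ext hb

theorem ker_liftπ_le (h : ShortExact i p) (n : ℕ) :
    (liftπ p n).ker ≤ ((A.toH n).comp (h.preδ n)).ker := by
  intro b hb
  rw [AddMonoidHom.mem_ker, liftπ_apply, toH_eq_zero_iff] at hb
  obtain ⟨c', hc'⟩ := hb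
  obtain ⟨b', rfl⟩ := h.2.1 (n + 2) c'
  have h1 : p.f (n + 1) ((b : B.X (n + 1)) - B.d (n + 1) b') = 0 := by
    rw [map_sub, ← p.comm, hc', sub_self]
  obtain ⟨a', ha'⟩ := (h.2.2 (n + 1) _).1 h1
  rw [AddMonoidHom.mem_ker, AddMonoidHom.comp_apply, toH_eq_zero_iff]
  refine ⟨a', h.1 n ?_⟩
  rw [← i.comm, ha', i_preδ, map_sub, B.d_d, sub_zero]

/-- The connecting homomorphism. -/
def δ (h : ShortExact i p) (n : ℕ) : C.H (n + 1) →+ A.H n :=
  paDescend (liftπ p n) (h.liftπ_surjective n) ((A.toH n).comp (h.preδ n)) (h.ker_liftπ_le n)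

theorem δ_liftπ (h : ShortExact i p) {n : ℕ} (b : liftGroup p n) :
    h.δ n (liftπ p n b) = A.toH n (h.preδ n b) :=
  paDescend_apply _ _ _ _ b

/-- The long exact homology sequence. -/
def les (h : ShortExact i p) : PaLES A.H B.H C.H where
  f := i.mapH
  g := p.mapH
  δ := h.δ
  exB n x := by
    obtain ⟨z, rfl⟩ := B.toH_surjective n x
    rw [Hom.mapH_toH, toH_eq_zero_iff]
    constructor
    · rintro ⟨c', hc'⟩
      obtain ⟨b', rfl⟩ := h.2.1 (n + 1) c'
      have h1 : p.f n ((z : B.X n) - B.d n b') = 0 := by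
        rw [map_sub, ← p.comm, hc']
        exact sub_self _
      obtain ⟨a, ha⟩ := (h.2.2 n _).1 h1
      have hacyc : a ∈ A.cycles n := by
        apply i.mem_cycles_of_injective h.1
        rw [ha]
        exact (B.cycles n).sub_mem z.2 (B.d_mem_cycles _)
      refine ⟨A.toH n ⟨a, hacyc⟩, ?_⟩
      rw [Hom.mapH_toH, toH_eq_iff]
      refine ⟨-b', ?_⟩
      rw [map_neg, Hom.coe_mapCycles]
      show _ = i.f n a - z
      rw [ha]
      abel
    · rintro ⟨y, hy⟩
      obtain ⟨a, rfl⟩ := A.toH_surjective n y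
      rw [Hom.mapH_toH, toH_eq_iff] at hy
      obtain ⟨b', hb'⟩ := hy
      refine ⟨-p.f (n + 1) b', ?_⟩
      have h2 : (z : B.X n) = i.f n a - B.d n b' := by
        rw [hb', Hom.coe_mapCycles]; abel
      rw [Hom.coe_mapCycles, h2, map_sub, h.p_i, map_neg, p.comm, zero_sub]
  exC n x := by
    obtain ⟨b, rfl⟩ := h.liftπ_surjective n x
    rw [δ_liftπ, toH_eq_zero_iff]
    constructor
    · rintro ⟨a', ha'⟩
      have hz : (b : B.X (n + 1)) - i.f (n + 1) a' ∈ B.cycles (n + 1) := by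
        rw [mem_cycles_succ, map_sub, i.comm, ha', i_preδ, sub_self]
      refine ⟨B.toH (n + 1) ⟨_, hz⟩, ?_⟩
      rw [Hom.mapH_toH, liftπ_apply]
      congr 1
      apply Subtype.ext
      rw [Hom.coe_mapCycles]
      show p.f (n + 1) ((b : B.X (n + 1)) - i.f (n + 1) a') = p.f (n + 1) b
      rw [map_sub, h.p_i, sub_zero]
    · rintro ⟨y, hy⟩
      obtain ⟨z, rfl⟩ := B.toH_surjective (n + 1) y
      rw [Hom.mapH_toH, liftπ_apply, toH_eq_iff] at hy
      obtain ⟨c', hc'⟩ := hy
      obtain ⟨b', rfl⟩ := h.2.1 (n + 2) c'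
      have h1 : p.f (n + 1) ((z : B.X (n + 1)) - b - B.d (n + 1) b') = 0 := by
        rw [map_sub, map_sub, ← p.comm, hc']
        exact sub_self _
      obtain ⟨a', ha'⟩ := (h.2.2 (n + 1) _).1 h1
      refine ⟨-a', h.1 n ?_⟩
      have hz : B.d n z = 0 := (B.mem_cycles_succ _).1 z.2
      rw [map_neg, map_neg, ← i.comm, ha', i_preδ, map_sub, map_sub, B.d_d, hz]
      abel
  exA n x := by
    obtain ⟨a, rfl⟩ := A.toH_surjective n x
    rw [Hom.mapH_toH, toH_eq_zero_iff]
    constructor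
    · rintro ⟨b, hb⟩
      have hb' : b ∈ liftGroup p n := by
        show p.f (n + 1) b ∈ C.cycles (n + 1)
        rw [mem_cycles_succ, p.comm, hb, Hom.coe_mapCycles, h.p_i]
      refine ⟨liftπ p n ⟨b, hb'⟩, ?_⟩
      rw [δ_liftπ]
      congr 1
      apply Subtype.ext
      apply h.1 n
      rw [i_preδ]
      exact hb
    · rintro ⟨y, hy⟩
      obtain ⟨b, rfl⟩ := h.liftπ_surjective n y
      rw [δ_liftπ, toH_eq_iff] at hy
      obtain ⟨a', ha'⟩ := hy
      refine ⟨(b : B.X (n + 1)) - i.f (n + 1) a', ?_⟩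
      rw [map_sub, i.comm, ha', map_sub, i_preδ, Hom.coe_mapCycles]
      abel
  surj0 x := by
    obtain ⟨z, rfl⟩ := C.toH_surjective 0 x
    obtain ⟨b, hb⟩ := h.2.1 0 z
    refine ⟨B.toH 0 ⟨b, B.mem_cycles_zero b⟩, ?_⟩
    rw [Hom.mapH_toH]
    congr 1
    exact Subtype.ext hb

/-- Additivity of the Euler characteristic in short exact sequences: the quotient. -/
theorem hasEuler_right (h : ShortExact i p) {a b : ℤ} (hA : A.HasEuler a) (hB : B.HasEuler b) :
    C.HasEuler (b - a) := h.les.euler_right hA hB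

/-- Additivity of the Euler characteristic in short exact sequences: the middle term. -/
theorem hasEuler_mid (h : ShortExact i p) {a c : ℤ} (hA : A.HasEuler a) (hC : C.HasEuler c) :
    B.HasEuler (a + c) := h.les.euler_mid hA hC

end ShortExact

end PaCx

namespace PaCx

/-- The Euler characteristic of a product. -/
theorem HasEuler.prod {K L : PaCx} {a b : ℤ} (hK : K.HasEuler a) (hL : L.HasEuler b) :
    (K.prod L).HasEuler (a + b) := by
  let i : Hom K (K.prod L) :=
    { f := fun n => AddMonoidHom.inl (K.X n) (L.X n)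
      comm := fun n x => Prod.ext rfl (map_zero (L.d n)) }
  let p : Hom (K.prod L) L :=
    { f := fun n => AddMonoidHom.snd (K.X n) (L.X n)
      comm := fun n x => rfl }
  have h : ShortExact i p := by
    refine ⟨fun n x y hxy => congrArg Prod.fst hxy, fun n y => ⟨(0, y), rfl⟩, fun n b => ?_⟩
    constructor
    · intro hb
      exact ⟨b.1, Prod.ext rfl (Eq.symm hb)⟩
    · rintro ⟨a, rfl⟩
      rfl
  exact h.hasEuler_mid hK hL

end PaCx

end

end Claimed.Open.R321
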