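import Claimed.Open.R321.PADefs

/-!
# PropA, package W2: the punctured cell deformation retracts to its frontier

Owner: see table `subtask` (target `open321`, name `A-W2`).

`A` closed in a Hausdorff space, `e` the characteristic map of an `n`-cell attached to `A`.  Then
`(A ∪ e(ball)) ∖ {e 0}` is homotopy equivalent to `A`: push radially,
`H(x, t) = x` on `A`, `H(e y, t) = e ((1 - t + t / ‖y‖) • y)` for `0 < ‖y‖ ≤ 1`.
Continuity: `A` and `e(closedBall) ∖ {e 0}` are closed in the punctured space, and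
`e × id : (closedBall ∖ {0}) × I → (e(closedBall) ∖ {e 0}) × I` is proper and onto, hence a quotient map.
-/

set_option autoImplicit false
set_option linter.unusedSectionVars false

namespace Claimed.Open.R321

open Metric Set

noncomputable section

/-- pasting along two closed sets, relative to a set `s` -/
theorem paret_paste {α β : Type*} [TopologicalSpace α] [TopologicalSpace β] {f : α → β}
    {s t1 t2 : Set α} (ht1 : IsClosed t1) (ht2 : IsClosed t2) (hs : s ⊆ t1 ∪ t2)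
    (h1 : ContinuousOn f (s ∩ t1)) (h2 : ContinuousOn f (s ∩ t2)) : ContinuousOn f s := by
  classical
  intro x hx
  have hs' : s = (s ∩ t1) ∪ (s ∩ t2) := by
    rw [← inter_union_distrib_left]; exact (inter_eq_left.2 hs).symm
  rw [hs']
  refine .union ?_ ?_
  · by_cases hx1 : x ∈ t1
    · exact h1 x ⟨hx, hx1⟩
    · refine continuousWithinAt_of_notMem_closure fun h => hx1 ?_
      exact (ht1.closure_subset_iff.2 inter_subset_right) h
  · by_cases hx2 : x ∈ t2
    · exact h2 x ⟨hx, hx2⟩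
    · refine continuousWithinAt_of_notMem_closure fun h => hx2 ?_
      exact (ht2.closure_subset_iff.2 inter_subset_right) h

/-- continuity can be tested after composing with a closed map -/
theorem paret_quot {W Z β : Type*} [TopologicalSpace W] [TopologicalSpace Z] [TopologicalSpace β]
    {Q : W → Z} (hQ : IsClosedMap Q) {s : Set Z} {f : Z → β}
    (h : ContinuousOn (f ∘ Q) (Q ⁻¹' s)) : ContinuousOn f (s ∩ range Q) := by
  rw [continuousOn_iff_isClosed] at h ⊢
  intro C hC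
  obtain ⟨u', hu', hu⟩ := h C hC
  refine ⟨Q '' u', hQ _ hu', ?_⟩
  ext z
  constructor
  · rintro ⟨hz, hzs, w, rfl⟩
    have : w ∈ (f ∘ Q) ⁻¹' C ∩ Q ⁻¹' s := ⟨hz, hzs⟩
    rw [hu] at this
    exact ⟨⟨w, this.1, rfl⟩, hzs, w, rfl⟩
  · rintro ⟨⟨w, hw, rfl⟩, hzs, -⟩
    have : w ∈ u' ∩ Q ⁻¹' s := ⟨hw, hzs⟩
    rw [← hu] at this
    exact ⟨this.1, hzs, w, rfl⟩

/-- the radial factor -/
def paretC (t r : ℝ) : ℝ := 1 - t + t / r

theorem paret_norm {n : ℕ} (y : Fin n → ℝ) (hy : y ≠ 0) (t : ℝ) (h0 : 0 ≤ t) (h1 : t ≤ 1) :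
    ‖paretC t ‖y‖ • y‖ = (1 - t) * ‖y‖ + t := by
  have hpos : 0 < ‖y‖ := norm_pos_iff.2 hy
  have hc : 0 ≤ paretC t ‖y‖ := by
    unfold paretC
    have : 0 ≤ t / ‖y‖ := div_nonneg h0 hpos.le
    linarith
  rw [norm_smul, Real.norm_eq_abs, abs_of_nonneg hc, paretC]
  field_simp

/-- the radial push as a total function -/
def paretH {X : Type} {n : ℕ} (A : Set X) (e : PartialEquiv (Fin n → ℝ) X)
    (z : X × unitInterval) : X := by
  classical
  exact if z.1 ∈ A then z.1 else e (paretC z.2 ‖e.symm z.1‖ • e.symm z.1)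

section main

variable {X : Type} [TopologicalSpace X] [T2Space X] {n : ℕ}
  (A : Set X) (e : PartialEquiv (Fin n → ℝ) X)

theorem paretH_of_mem {x : X} (hx : x ∈ A) (t : unitInterval) : paretH A e (x, t) = x := by
  simp [paretH, hx]

variable {A e}

theorem paret_zero_mem : (0 : Fin n → ℝ) ∈ ball (0 : Fin n → ℝ) 1 := by simp

theorem paret_notMem (hdisj : Disjoint (e '' ball 0 1) A) {y : Fin n → ℝ} (hy : y ∈ ball (0 : Fin n → ℝ) 1) :
    e y ∉ A := fun h => Set.disjoint_left.1 hdisj ⟨y, hy, rfl⟩ h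

theorem paret_symm (hsrc : e.source = ball 0 1) {y : Fin n → ℝ} (hy : y ∈ ball (0 : Fin n → ℝ) 1) :
    e.symm (e y) = y := e.left_inv (hsrc ▸ hy)

theorem paret_cases {y : Fin n → ℝ} (hy : y ∈ closedBall (0 : Fin n → ℝ) 1) :
    y ∈ ball (0 : Fin n → ℝ) 1 ∨ y ∈ sphere (0 : Fin n → ℝ) 1 := by
  simp only [mem_closedBall, mem_ball, mem_sphere] at *
  exact lt_or_eq_of_le hy

theorem paret_mem_union (hfr : MapsTo e (sphere 0 1) A) {y : Fin n → ℝ}
    (hy : y ∈ closedBall (0 : Fin n → ℝ) 1) : e y ∈ A ∪ e '' ball 0 1 := by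
  rcases paret_cases hy with h | h
  · exact Or.inr ⟨y, h, rfl⟩
  · exact Or.inl (hfr h)

theorem paret_ne (hsrc : e.source = ball 0 1) (hdisj : Disjoint (e '' ball 0 1) A)
    (hfr : MapsTo e (sphere 0 1) A) {y : Fin n → ℝ}
    (hy : y ∈ closedBall (0 : Fin n → ℝ) 1) (hy0 : y ≠ 0) : e y ≠ e 0 := by
  intro h
  rcases paret_cases hy with h' | h'
  · apply hy0
    rw [← paret_symm hsrc h', h, paret_symm hsrc paret_zero_mem]
  · exact paret_notMem hdisj paret_zero_mem (h ▸ hfr h')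

theorem paretH_formula (hsrc : e.source = ball 0 1) (hdisj : Disjoint (e '' ball 0 1) A)
    (hfr : MapsTo e (sphere 0 1) A) {y : Fin n → ℝ}
    (hy : y ∈ closedBall (0 : Fin n → ℝ) 1) (t : unitInterval) :
    paretH A e (e y, t) = e (paretC t ‖y‖ • y) := by
  rcases paret_cases hy with h | h
  · simp only [paretH, paret_notMem hdisj h, if_false, paret_symm hsrc h]
  · rw [paretH_of_mem A e (hfr h)]
    have : ‖y‖ = 1 := by simpa using h
    simp [paretC, this]

theorem paret_push_mem {y : Fin n → ℝ} (hy : y ∈ closedBall (0 : Fin n → ℝ) 1) (hy0 : y ≠ 0)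
    (t : unitInterval) :
    paretC t ‖y‖ • y ∈ closedBall (0 : Fin n → ℝ) 1 ∧ paretC t ‖y‖ • y ≠ 0 := by
  have hn := paret_norm y hy0 t t.2.1 t.2.2
  have hpos : 0 < ‖y‖ := norm_pos_iff.2 hy0
  have hle : ‖y‖ ≤ 1 := by simpa using hy
  have h0 := t.2.1
  have h1 := t.2.2
  constructor
  · rw [mem_closedBall, dist_zero_right, hn]
    nlinarith
  · rw [← norm_pos_iff, hn]
    rcases eq_or_lt_of_le h0 with h | h
    · rw [← h]; simpa using hpos
    · have : 0 ≤ (1 - (t : ℝ)) * ‖y‖ := mul_nonneg (by linarith) hpos.le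
      linarith

theorem paretH_mem (hsrc : e.source = ball 0 1) (hdisj : Disjoint (e '' ball 0 1) A)
    (hfr : MapsTo e (sphere 0 1) A) {x : X} (hx : x ∈ (A ∪ e '' ball 0 1) \ {e 0})
    (t : unitInterval) : paretH A e (x, t) ∈ (A ∪ e '' ball 0 1) \ {e 0} := by
  obtain ⟨hx1 | ⟨y, hy, rfl⟩, hx2⟩ := hx
  · rw [paretH_of_mem A e hx1]; exact ⟨Or.inl hx1, hx2⟩
  · have hy' : y ∈ closedBall (0 : Fin n → ℝ) 1 := ball_subset_closedBall hy
    have hy0 : y ≠ 0 := fun h => hx2 (by rw [h]; rfl)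
    rw [paretH_formula hsrc hdisj hfr hy']
    obtain ⟨h1, h2⟩ := paret_push_mem hy' hy0 t
    exact ⟨paret_mem_union hfr h1, paret_ne hsrc hdisj hfr h1 h2⟩

theorem paretH_zero (hsrc : e.source = ball 0 1) (hdisj : Disjoint (e '' ball 0 1) A)
    (hfr : MapsTo e (sphere 0 1) A) {x : X} (hx : x ∈ (A ∪ e '' ball 0 1) \ {e 0}) :
    paretH A e (x, 0) = x := by
  obtain ⟨hx1 | ⟨y, hy, rfl⟩, -⟩ := hx
  · exact paretH_of_mem A e hx1 0
  · rw [paretH_formula hsrc hdisj hfr (ball_subset_closedBall hy)]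
    simp [paretC]

theorem paretH_one (hsrc : e.source = ball 0 1) (hdisj : Disjoint (e '' ball 0 1) A)
    (hfr : MapsTo e (sphere 0 1) A) {x : X} (hx : x ∈ (A ∪ e '' ball 0 1) \ {e 0}) :
    paretH A e (x, 1) ∈ A := by
  obtain ⟨hx1 | ⟨y, hy, rfl⟩, hx2⟩ := hx
  · rw [paretH_of_mem A e hx1]; exact hx1
  · have hy' : y ∈ closedBall (0 : Fin n → ℝ) 1 := ball_subset_closedBall hy
    have hy0 : y ≠ 0 := fun h => hx2 (by rw [h]; rfl)
    rw [paretH_formula hsrc hdisj hfr hy']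
    apply hfr
    rw [mem_sphere, dist_zero_right, paret_norm y hy0 _ (1 : unitInterval).2.1 (1 : unitInterval).2.2]
    simp

theorem paretH_continuousOn (hA : IsClosed A) (hsrc : e.source = ball 0 1)
    (hcont : ContinuousOn e (closedBall 0 1)) (hdisj : Disjoint (e '' ball 0 1) A)
    (hfr : MapsTo e (sphere 0 1) A) :
    ContinuousOn (paretH A e) (((A ∪ e '' ball 0 1) \ {e 0}) ×ˢ (univ : Set unitInterval)) := by
  have : CompactSpace ↥(closedBall (0 : Fin n → ℝ) 1) :=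
    isCompact_iff_compactSpace.1 (isCompact_closedBall 0 1)
  let Q : ↥(closedBall (0 : Fin n → ℝ) 1) × unitInterval → X × unitInterval :=
    fun w => (e w.1, w.2)
  have hQc : Continuous Q :=
    ((hcont.comp_continuous continuous_subtype_val fun y => y.2).comp continuous_fst).prodMk
      continuous_snd
  have hQ : IsClosedMap Q := hQc.isClosedMap
  have hrange : range Q = (e '' closedBall 0 1) ×ˢ (univ : Set unitInterval) := by
    ext z
    constructor
    · rintro ⟨w, rfl⟩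
      exact ⟨⟨w.1, w.1.2, rfl⟩, mem_univ _⟩
    · rintro ⟨⟨y, hy, hyz⟩, -⟩
      exact ⟨(⟨y, hy⟩, z.2), Prod.ext hyz rfl⟩
  refine paret_paste (t1 := A ×ˢ (univ : Set unitInterval)) (t2 := range Q)
    (hA.prod isClosed_univ) hQ.isClosed_range ?_ ?_ ?_
  · rintro z ⟨⟨hz | ⟨y, hy, hyz⟩, -⟩, -⟩
    · exact Or.inl ⟨hz, mem_univ _⟩
    · right
      rw [hrange]
      exact ⟨⟨y, ball_subset_closedBall hy, hyz⟩, mem_univ _⟩
  · refine continuousOn_fst.congr ?_
    rintro ⟨x, t⟩ ⟨-, hx, -⟩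
    exact paretH_of_mem A e hx t
  · apply paret_quot hQ
    have hinner : ContinuousOn
        (fun w : ↥(closedBall (0 : Fin n → ℝ) 1) × unitInterval =>
          paretC (w.2 : ℝ) ‖(w.1 : Fin n → ℝ)‖ • (w.1 : Fin n → ℝ))
        {w | (w.1 : Fin n → ℝ) ≠ 0} := by
      have c1 : Continuous fun w : ↥(closedBall (0 : Fin n → ℝ) 1) × unitInterval => (w.2 : ℝ) :=
        continuous_subtype_val.comp continuous_snd
      have c2 : Continuous fun w : ↥(closedBall (0 : Fin n → ℝ) 1) × unitInterval =>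
          (w.1 : Fin n → ℝ) := continuous_subtype_val.comp continuous_fst
      have c3 : ContinuousOn (fun w : ↥(closedBall (0 : Fin n → ℝ) 1) × unitInterval =>
          (w.2 : ℝ) / ‖(w.1 : Fin n → ℝ)‖) {w | (w.1 : Fin n → ℝ) ≠ 0} :=
        c1.continuousOn.div c2.norm.continuousOn fun w hw => norm_ne_zero_iff.2 hw
      have c4 : ContinuousOn (fun w : ↥(closedBall (0 : Fin n → ℝ) 1) × unitInterval =>
          1 - (w.2 : ℝ) + (w.2 : ℝ) / ‖(w.1 : Fin n → ℝ)‖) {w | (w.1 : Fin n → ℝ) ≠ 0} :=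
        (continuous_const.sub c1).continuousOn.add c3
      exact c4.smul c2.continuousOn
    have hcomp : ContinuousOn
        (fun w : ↥(closedBall (0 : Fin n → ℝ) 1) × unitInterval =>
          e (paretC (w.2 : ℝ) ‖(w.1 : Fin n → ℝ)‖ • (w.1 : Fin n → ℝ)))
        {w | (w.1 : Fin n → ℝ) ≠ 0} :=
      hcont.comp hinner fun w hw => (paret_push_mem w.1.2 hw w.2).1
    have hsub : Q ⁻¹' (((A ∪ e '' ball 0 1) \ {e 0}) ×ˢ (univ : Set unitInterval)) ⊆
        {w | (w.1 : Fin n → ℝ) ≠ 0} := by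
      rintro w ⟨⟨-, hw⟩, -⟩ h0
      apply hw
      show e w.1 = e 0
      rw [h0]
    refine (hcomp.mono hsub).congr ?_
    intro w _
    exact paretH_formula hsrc hdisj hfr w.1.2 w.2

end main

/-- **W2.** -/
theorem nonempty_homotopyEquiv_punctured_attach {X : Type} [TopologicalSpace X] [T2Space X] {n : ℕ}
    (A : Set X) (hA : IsClosed A) (e : PartialEquiv (Fin n → ℝ) X) (hsrc : e.source = ball 0 1)
    (hcont : ContinuousOn e (closedBall 0 1)) (hdisj : Disjoint (e '' ball 0 1) A)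
    (hfr : MapsTo e (sphere 0 1) A) :
    Nonempty (ContinuousMap.HomotopyEquiv ↥A ↥((A ∪ e '' ball 0 1) \ {e 0})) := by
  have hH := paretH_continuousOn hA hsrc hcont hdisj hfr
  let i : C(↥A, ↥((A ∪ e '' ball 0 1) \ {e 0})) :=
    ⟨fun a => ⟨a.1, Or.inl a.2, fun h => paret_notMem hdisj paret_zero_mem
      ((show a.1 = e 0 from h) ▸ a.2)⟩, Continuous.subtype_mk continuous_subtype_val _⟩
  let r : C(↥((A ∪ e '' ball 0 1) \ {e 0}), ↥A) :=
    ⟨fun x => ⟨paretH A e (x.1, 1), paretH_one hsrc hdisj hfr x.2⟩,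
      Continuous.subtype_mk (hH.comp_continuous
        (continuous_subtype_val.prodMk continuous_const) fun x => ⟨x.2, mem_univ _⟩) _⟩
  let Hc : C(unitInterval × ↥((A ∪ e '' ball 0 1) \ {e 0}), ↥((A ∪ e '' ball 0 1) \ {e 0})) :=
    ⟨fun z => ⟨paretH A e (z.2.1, z.1), paretH_mem hsrc hdisj hfr z.2.2 z.1⟩,
      Continuous.subtype_mk (hH.comp_continuous
        ((continuous_subtype_val.comp continuous_snd).prodMk continuous_fst)
        fun z => ⟨z.2.2, mem_univ _⟩) _⟩
  refine ⟨⟨i, r, ?_, ?_⟩⟩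
  · have : r.comp i = ContinuousMap.id _ := by
      ext a
      exact paretH_of_mem A e a.2 1
    rw [this]
  · refine ContinuousMap.Homotopic.symm ⟨⟨Hc, ?_, ?_⟩⟩
    · intro x
      exact Subtype.ext (paretH_zero hsrc hdisj hfr x.2)
    · intro x
      rfl

end

end Claimed.Open.R321
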