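import Claimed.Open.R321.PASphere
import Claimed.Open.R321.PARetract

/-!
# PropA: attaching one cell changes the Euler characteristic by `(-1)ⁿ`
-/

set_option autoImplicit false

namespace Claimed.Open.R321

open Metric Set

noncomputable section

/-- A partial equivalence which is continuous on `s` with continuous inverse on the image of `s`
restricts to a homeomorphism from `s` onto its image. -/
def paHomeoImage {α β : Type} [TopologicalSpace α] [TopologicalSpace β] (e : PartialEquiv α β)
    (s : Set α) (hs : s ⊆ e.source) (h1 : ContinuousOn e s) (h2 : ContinuousOn e.symm (e '' s)) :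
    ↥s ≃ₜ ↥(e '' s) where
  toFun x := ⟨e x, mem_image_of_mem _ x.2⟩
  invFun y := ⟨e.symm y, by
    obtain ⟨x, hx, hxy⟩ := y.2
    rw [← hxy, e.left_inv (hs hx)]
    exact hx⟩
  left_inv x := Subtype.ext (e.left_inv (hs x.2))
  right_inv y := Subtype.ext (by
    obtain ⟨x, hx, hxy⟩ := y.2
    show e (e.symm y) = y
    rw [← hxy, e.left_inv (hs hx)])
  continuous_toFun := h1.domRestrict.subtype_mk _
  continuous_invFun := h2.domRestrict.subtype_mk _

/-- Attaching an `n`-cell adds `(-1)ⁿ` to the Euler characteristic. -/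
theorem hasEulerSp_attach {X : Type} [TopologicalSpace X] [T2Space X] {n : ℕ}
    (A : Set X) (hA : IsClosed A) (e : PartialEquiv (Fin n → ℝ) X) (hsrc : e.source = ball 0 1)
    (hcont : ContinuousOn e (closedBall 0 1)) (hsymm : ContinuousOn e.symm e.target)
    (hdisj : Disjoint (e '' ball 0 1) A) (hfr : MapsTo e (sphere 0 1) A) {χ : ℤ}
    (hχ : HasEulerSp ↥A χ) : HasEulerSp ↥(A ∪ e '' ball 0 1) (χ + (-1) ^ n) := by
  have h0 : (0 : Fin n → ℝ) ∈ ball (0 : Fin n → ℝ) 1 := by simp
  have hc : e 0 ∈ e '' ball 0 1 := mem_image_of_mem _ h0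
  have htgt : e '' ball 0 1 = e.target := by rw [← hsrc, e.image_source_eq_target]
  have hinj : InjOn e (ball 0 1) := hsrc ▸ e.injOn
  set u : Set X := (A ∪ e '' ball 0 1) \ {e 0} with hu
  set v : Set X := e '' ball 0 1 with hv
  have huv : u ∪ v = A ∪ v := by
    ext x
    simp only [hu, mem_union, mem_sdiff, mem_singleton_iff]
    constructor
    · rintro (⟨h, -⟩ | h)
      · exact h
      · exact Or.inr h
    · rintro (h | h)
      · by_cases hx : x = e 0
        · exact Or.inr (hx ▸ hc)
        · exact Or.inl ⟨Or.inl h, hx⟩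
      · exact Or.inr h
  have hinter : u ∩ v = e '' (ball 0 1 \ {0}) := by
    rw [hinj.image_sdiff_subset (by simp), image_singleton]
    ext x
    simp only [hu, mem_inter_iff, mem_sdiff, mem_union, mem_singleton_iff]
    tauto
  -- the three pieces
  have hb : HasEulerSp ↥u χ := by
    obtain ⟨h⟩ := nonempty_homotopyEquiv_punctured_attach A hA e hsrc hcont hdisj hfr
    exact hχ.of_homotopyEquiv h
  have hcv : HasEulerSp ↥v 1 := by
    have : ContractibleSpace ↥(ball (0 : Fin n → ℝ) 1) :=
      (convex_ball (0 : Fin n → ℝ) 1).contractibleSpace ⟨0, h0⟩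
    refine (hasEulerSp_of_contractible (E := ↥(ball (0 : Fin n → ℝ) 1))).of_homeomorph
      (paHomeoImage e (ball 0 1) hsrc.ge (hcont.mono ball_subset_closedBall) ?_)
    exact hsymm.mono htgt.le
  have ha : HasEulerSp ↥(u ∩ v) (1 - (-1) ^ n) := by
    rw [hinter]
    refine (hasEulerSp_puncturedBall n).of_homeomorph
      (paHomeoImage e (ball 0 1 \ {0}) (sdiff_subset.trans hsrc.ge)
        (hcont.mono (sdiff_subset.trans ball_subset_closedBall)) ?_)
    exact hsymm.mono ((image_mono sdiff_subset).trans htgt.le)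
  have hmv := hasEulerSp_union (u := u) (v := v)
    ⟨{e 0}ᶜ, isOpen_compl_singleton, by
      rw [huv]
      ext x
      simp only [hu, mem_inter_iff, mem_compl_iff, mem_singleton_iff, mem_sdiff, mem_union]
      tauto⟩
    ⟨Aᶜ, hA.isOpen_compl, by
      rw [huv]
      ext x
      have := fun hx : x ∈ v => disjoint_left.1 hdisj hx
      simp only [mem_inter_iff, mem_compl_iff, mem_union]
      tauto⟩ ha hb hcv
  rw [huv] at hmv
  have hχ' : χ + 1 - (1 - (-1) ^ n) = χ + (-1) ^ n := by ring
  rwa [hχ'] at hmv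

end

end Claimed.Open.R321
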