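import Claimed.Open.R321.ChainBridge

/-!
# PropA (Euler-Poincaré): definitions

Hand-rolled chain complexes of abelian groups (`PaCx`), their homology by elements, and the predicate
`PaCx.HasEuler K χ`: the homology of `K` is finitely generated, vanishes in large degrees, and the
alternating sum of its `ℤ`-ranks is `χ`.  `HasEulerSp E χ` is this predicate for the singular chain
complex of the space `E` (in the concrete form of `ChainBridge.lean`).

This file is FROZEN (interface of the package PropA): only definitions and trivial lemmas.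
-/

set_option autoImplicit false

namespace Claimed.Open.R321

noncomputable section

/-- A non-negatively graded chain complex of abelian groups. -/
structure PaCx where
  /-- the chain groups -/
  X : ℕ → Type
  /-- the group structures -/
  [grp : ∀ n, AddCommGroup (X n)]
  /-- the differentials -/
  d : ∀ n, X (n + 1) →+ X n
  /-- `d ∘ d = 0` -/
  d_d : ∀ n (x : X (n + 2)), d n (d (n + 1) x) = 0

attribute [instance] PaCx.grp

namespace PaCx

/-- The cycles. -/
def cycles (K : PaCx) : ∀ n, AddSubgroup (K.X n)
  | 0 => ⊤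
  | n + 1 => (K.d n).ker

/-- The boundaries. -/
def boundaries (K : PaCx) (n : ℕ) : AddSubgroup (K.X n) := (K.d n).range

@[simp] theorem mem_cycles_zero (K : PaCx) (x : K.X 0) : x ∈ K.cycles 0 := AddSubgroup.mem_top x

@[simp] theorem mem_cycles_succ (K : PaCx) {n : ℕ} (x : K.X (n + 1)) :
    x ∈ K.cycles (n + 1) ↔ K.d n x = 0 := AddMonoidHom.mem_ker

theorem mem_boundaries (K : PaCx) {n : ℕ} (x : K.X n) :
    x ∈ K.boundaries n ↔ ∃ y, K.d n y = x := AddMonoidHom.mem_range

theorem boundaries_le_cycles (K : PaCx) (n : ℕ) : K.boundaries n ≤ K.cycles n := by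
  rintro _ ⟨y, rfl⟩
  cases n with
  | zero => simp
  | succ n => simpa using K.d_d n y

/-- The homology groups. -/
def H (K : PaCx) (n : ℕ) : Type := K.cycles n ⧸ (K.boundaries n).addSubgroupOf (K.cycles n)

instance (K : PaCx) (n : ℕ) : AddCommGroup (K.H n) :=
  inferInstanceAs (AddCommGroup (K.cycles n ⧸ (K.boundaries n).addSubgroupOf (K.cycles n)))

/-- The homology of `K` is finitely generated in each degree, zero in large degrees, and its Euler
characteristic (alternating sum of `ℤ`-ranks) is `χ`. -/
def HasEuler (K : PaCx) (χ : ℤ) : Prop :=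
  (∀ n, Module.Finite ℤ (K.H n)) ∧
    ∃ N : ℕ, (∀ n, N ≤ n → Subsingleton (K.H n)) ∧
      ∑ n ∈ Finset.range N, (-1 : ℤ) ^ n * (Module.finrank ℤ (K.H n) : ℤ) = χ

/-- Chain maps. -/
structure Hom (K L : PaCx) where
  /-- the components -/
  f : ∀ n, K.X n →+ L.X n
  /-- compatibility with the differentials -/
  comm : ∀ n (x : K.X (n + 1)), L.d n (f (n + 1) x) = f n (K.d n x)

/-- A chain map is a quasi-isomorphism (stated by elements). -/
def Hom.IsQuasiIso {K L : PaCx} (φ : Hom K L) : Prop :=
  (∀ n, ∀ z ∈ L.cycles n, ∃ y ∈ K.cycles n, φ.f n y - z ∈ L.boundaries n) ∧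
    ∀ n, ∀ y ∈ K.cycles n, φ.f n y ∈ L.boundaries n → y ∈ K.boundaries n

/-- A short exact sequence of chain complexes (stated by elements). -/
def ShortExact {A B C : PaCx} (i : Hom A B) (p : Hom B C) : Prop :=
  (∀ n, Function.Injective (i.f n)) ∧ (∀ n, Function.Surjective (p.f n)) ∧
    ∀ n (b : B.X n), p.f n b = 0 ↔ ∃ a, i.f n a = b

/-- The product (direct sum) of two complexes. -/
def prod (K L : PaCx) : PaCx where
  X n := K.X n × L.X n
  d n := (K.d n).prodMap (L.d n)
  d_d n x := Prod.ext (K.d_d n x.1) (L.d_d n x.2)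

/-- The subcomplex given by a family of subgroups stable under the differential. -/
def sub (K : PaCx) (S : ∀ n, AddSubgroup (K.X n))
    (hS : ∀ n (x : K.X (n + 1)), x ∈ S (n + 1) → K.d n x ∈ S n) : PaCx where
  X n := S n
  d n := ((K.d n).comp (S (n + 1)).subtype).codRestrict (S n) fun x => hS n x.1 x.2
  d_d n x := Subtype.ext (K.d_d n x.1)

/-- The inclusion of a subcomplex. -/
def subHom (K : PaCx) (S : ∀ n, AddSubgroup (K.X n))
    (hS : ∀ n (x : K.X (n + 1)), x ∈ S (n + 1) → K.d n x ∈ S n) : Hom (K.sub S hS) K where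
  f n := (S n).subtype
  comm _ _ := rfl

end PaCx

/-- The singular chain complex of a space, in concrete form. -/
abbrev singCx (E : Type) [TopologicalSpace E] : PaCx where
  X n := Chains E n
  d n := bd E n
  d_d _ x := bd_bd x

/-- The chain map induced by a continuous map. -/
def singHom {E E' : Type} [TopologicalSpace E] [TopologicalSpace E'] (f : C(E, E')) :
    PaCx.Hom (singCx E) (singCx E') where
  f n := chainMap f n
  comm _ x := bd_chainMap f x

theorem mem_cycles_singCx_succ {E : Type} [TopologicalSpace E] {n : ℕ} (c : Chains E (n + 1)) :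
    c ∈ (singCx E).cycles (n + 1) ↔ bd E n c = 0 := (singCx E).mem_cycles_succ c

theorem mem_boundaries_singCx {E : Type} [TopologicalSpace E] {n : ℕ} (c : Chains E n) :
    c ∈ (singCx E).boundaries n ↔ ∃ y, bd E n y = c := (singCx E).mem_boundaries c

/-- The space `E` has finitely generated singular homology, zero in large degrees, with Euler
characteristic `χ`. -/
def HasEulerSp (E : Type) [TopologicalSpace E] (χ : ℤ) : Prop := (singCx E).HasEuler χ

end

end Claimed.Open.R321
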