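import Claimed.Open.R321.PAAlg
import Claimed.Open.R321.SubPrism

/-!
# PropA, package E1: homotopy invariance of `HasEulerSp`

Owner: see table `subtask` (target `open321`, name `A-E1`).
The prism operator is `hPrism` of `SubPrism.lean`.
-/

set_option autoImplicit false

namespace Claimed.Open.R321

noncomputable section

variable {E E' : Type} [TopologicalSpace E] [TopologicalSpace E']

/-- The prism operator of a homotopy. -/
theorem exists_prism {f g : C(E, E')} (H : f.Homotopy g) :
    ∃ P : ∀ n, Chains E n →+ Chains E' (n + 1),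
      (∀ c : Chains E 0, bd E' 0 (P 0 c) = chainMap g 0 c - chainMap f 0 c) ∧
      ∀ n (c : Chains E (n + 1)), bd E' (n + 1) (P (n + 1) c) + P n (bd E n c) =
        chainMap g (n + 1) c - chainMap f (n + 1) c :=
  ⟨fun n => hPrism H.toContinuousMap n, fun c => bd_hPrism_homotopy_zero H c,
    fun _ c => bd_hPrism_homotopy_succ H c⟩

/-- Homotopic maps agree on cycles up to boundaries. -/
theorem exists_bd_eq_chainMap_sub {f g : C(E, E')} (H : f.Homotopic g) (n : ℕ)
    (z : Chains E n) (hz : z ∈ (singCx E).cycles n) :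
    ∃ w : Chains E' (n + 1), bd E' n w = chainMap g n z - chainMap f n z := by
  obtain ⟨H⟩ := H
  obtain ⟨P, h0, h1⟩ := exists_prism H
  cases n with
  | zero => exact ⟨P 0 z, h0 z⟩
  | succ n =>
    refine ⟨P (n + 1) z, ?_⟩
    have hz' : bd E n z = 0 := (PaCx.mem_cycles_succ (singCx E) z).1 hz
    have := h1 n z
    rw [hz', map_zero, add_zero] at this
    exact this

theorem chainMap_mem_cycles (f : C(E, E')) (n : ℕ) (z : Chains E n)
    (hz : z ∈ (singCx E).cycles n) : chainMap f n z ∈ (singCx E').cycles n := by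
  cases n with
  | zero => exact PaCx.mem_cycles_zero _ _
  | succ n =>
    have hz' : bd E n z = 0 := (PaCx.mem_cycles_succ (singCx E) z).1 hz
    refine (PaCx.mem_cycles_succ (singCx E') _).2 ?_
    change bd E' n (chainMap f (n + 1) z) = 0
    rw [bd_chainMap, hz', map_zero]

theorem homotopyEquiv_surj_aux (h : ContinuousMap.HomotopyEquiv E E') (n : ℕ) (z : Chains E' n)
    (hz : z ∈ (singCx E').cycles n) :
    ∃ w : Chains E' (n + 1), bd E' n w = chainMap h.toFun n (chainMap h.invFun n z) - z := by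
  obtain ⟨w, hw⟩ := exists_bd_eq_chainMap_sub h.right_inv n z hz
  refine ⟨-w, ?_⟩
  rw [map_neg, hw, chainMap_id, chainMap_comp, neg_sub]

theorem homotopyEquiv_inj_aux (h : ContinuousMap.HomotopyEquiv E E') (n : ℕ) (y : Chains E n)
    (hy : y ∈ (singCx E).cycles n) (v : Chains E' (n + 1))
    (hv : bd E' n v = chainMap h.toFun n y) : ∃ w : Chains E (n + 1), bd E n w = y := by
  obtain ⟨w, hw⟩ := exists_bd_eq_chainMap_sub h.left_inv n y hy
  refine ⟨w + chainMap h.invFun (n + 1) v, ?_⟩
  rw [map_add, hw, bd_chainMap, hv, chainMap_id, chainMap_comp, sub_add_cancel]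

/-- A homotopy equivalence induces a quasi-isomorphism of singular chain complexes. -/
theorem isQuasiIso_singHom_of_homotopyEquiv (h : ContinuousMap.HomotopyEquiv E E') :
    (singHom h.toFun).IsQuasiIso := by
  refine ⟨fun n z hz => ?_, fun n y hy hb => ?_⟩
  · exact ⟨chainMap h.invFun n z, chainMap_mem_cycles _ n z hz,
      (PaCx.mem_boundaries (singCx E') _).2 (homotopyEquiv_surj_aux h n z hz)⟩
  · obtain ⟨v, hv⟩ := (PaCx.mem_boundaries (singCx E') _).1 hb
    exact (PaCx.mem_boundaries (singCx E) _).2 (homotopyEquiv_inj_aux h n y hy v hv)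

/-- **E1.** Homotopy invariance. -/
theorem HasEulerSp.of_homotopyEquiv (h : ContinuousMap.HomotopyEquiv E E') {χ : ℤ}
    (hE : HasEulerSp E χ) : HasEulerSp E' χ :=
  ((isQuasiIso_singHom_of_homotopyEquiv h).hasEuler_iff χ).1 hE

/-- Invariance under homeomorphisms. -/
theorem HasEulerSp.of_homeomorph (h : E ≃ₜ E') {χ : ℤ} (hE : HasEulerSp E χ) : HasEulerSp E' χ :=
  hE.of_homotopyEquiv h.toHomotopyEquiv

end

end Claimed.Open.R321
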