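import Claimed.Open.R321.PACell
import Claimed.Open.R321.Top

/-!
# PropA, package W1: induction on the number of cells

Owner: see table `subtask` (target `open321`, name `A-W1`).

Instead of subcomplexes we induct over finite sets `S` of cells of the fixed complex `C` that are closed
under frontiers (`PainClosed`): the union `painU C S` of the open cells of `S` is closed and has Euler
characteristic `∑ x ∈ S, (-1)^dim x`.  Step: remove a cell of maximal dimension and apply
`hasEulerSp_attach`.
-/

set_option autoImplicit false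

namespace Claimed.Open.R321

open Topology Metric Set RelCWComplex

noncomputable section

section

variable {X : Type} [TopologicalSpace X] (C : Set X) [CWComplex C]

/-- the union of the open cells of a finite set of cells -/
def painU (S : Finset (Σ n, cell C n)) : Set X := ⋃ x ∈ S, openCell x.1 x.2

/-- `S` is closed under frontiers -/
def PainClosed (S : Finset (Σ n, cell C n)) : Prop :=
  ∀ x ∈ S, ∀ z ∈ cellFrontier x.1 x.2, ∃ y ∈ S, y.1 < x.1 ∧ z ∈ openCell y.1 y.2

variable {C}

theorem mem_painU {S : Finset (Σ n, cell C n)} {z : X} :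
    z ∈ painU C S ↔ ∃ x ∈ S, z ∈ openCell x.1 x.2 := by
  simp [painU]

theorem painU_eq_closed {S : Finset (Σ n, cell C n)} (hS : PainClosed C S) :
    painU C S = ⋃ x ∈ S, closedCell x.1 x.2 := by
  apply Subset.antisymm
  · intro z hz
    obtain ⟨x, hx, hzx⟩ := mem_painU.1 hz
    exact mem_biUnion hx (openCell_subset_closedCell _ _ hzx)
  · intro z hz
    simp only [mem_iUnion, exists_prop] at hz
    obtain ⟨x, hx, hzx⟩ := hz
    rw [← cellFrontier_union_openCell_eq_closedCell] at hzx
    rcases hzx with h | h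
    · obtain ⟨y, hy, -, hzy⟩ := hS x hx z h
      exact mem_painU.2 ⟨y, hy, hzy⟩
    · exact mem_painU.2 ⟨x, hx, h⟩

theorem isClosed_painU [T2Space X] {S : Finset (Σ n, cell C n)} (hS : PainClosed C S) :
    IsClosed (painU C S) := by
  rw [painU_eq_closed hS]
  exact isClosed_biUnion_finset fun x _ => isClosed_closedCell

theorem pain_main [T2Space X] (k : ℕ) : ∀ S : Finset (Σ n, cell C n), S.card = k → PainClosed C S →
    HasEulerSp ↥(painU C S) (∑ x ∈ S, (-1 : ℤ) ^ x.1) := by
  classical
  induction k with
  | zero =>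
    intro S hk _
    obtain rfl := Finset.card_eq_zero.1 hk
    have : IsEmpty ↥(painU C (∅ : Finset (Σ n, cell C n))) := by
      simp [painU]
    simpa using hasEulerSp_of_isEmpty (E := ↥(painU C (∅ : Finset (Σ n, cell C n))))
  | succ k ih =>
    intro S hk hS
    have hne : S.Nonempty := by
      rw [← Finset.card_pos]; omega
    obtain ⟨x0, hx0, hmax⟩ := Finset.exists_max_image S (fun x => x.1) hne
    have hS' : PainClosed C (S.erase x0) := by
      intro x hx z hz
      obtain ⟨y, hy, hlt, hzy⟩ := hS x (Finset.mem_of_mem_erase hx) z hz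
      refine ⟨y, Finset.mem_erase.2 ⟨?_, hy⟩, hlt, hzy⟩
      rintro rfl
      have := hmax x (Finset.mem_of_mem_erase hx)
      omega
    have hcard : (S.erase x0).card = k := by
      rw [Finset.card_erase_of_mem hx0]; omega
    have hU : painU C S = painU C (S.erase x0) ∪ (map x0.1 x0.2) '' ball 0 1 := by
      ext z
      simp only [mem_union, mem_painU]
      constructor
      · rintro ⟨x, hx, hzx⟩
        by_cases hxx : x = x0
        · subst hxx; exact Or.inr hzx
        · exact Or.inl ⟨x, Finset.mem_erase.2 ⟨hxx, hx⟩, hzx⟩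
      · rintro (⟨x, hx, hzx⟩ | h)
        · exact ⟨x, Finset.mem_of_mem_erase hx, hzx⟩
        · exact ⟨x0, hx0, h⟩
    have hdisj : Disjoint ((map x0.1 x0.2) '' ball 0 1) (painU C (S.erase x0)) := by
      rw [Set.disjoint_left]
      intro z hz hz'
      obtain ⟨x, hx, hzx⟩ := mem_painU.1 hz'
      have hne : (⟨x0.1, x0.2⟩ : Σ n, cell C n) ≠ ⟨x.1, x.2⟩ := fun h =>
        (Finset.mem_erase.1 hx).1 h.symm
      exact Set.disjoint_left.1 (disjoint_openCell_of_ne hne) hz hzx
    have hfr : MapsTo (map x0.1 x0.2) (sphere 0 1) (painU C (S.erase x0)) := by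
      intro y hy
      obtain ⟨x, hx, hlt, hzx⟩ := hS x0 hx0 (map x0.1 x0.2 y) ⟨y, hy, rfl⟩
      refine mem_painU.2 ⟨x, Finset.mem_erase.2 ⟨?_, hx⟩, hzx⟩
      rintro rfl
      omega
    have key := hasEulerSp_attach (painU C (S.erase x0)) (isClosed_painU hS') (map x0.1 x0.2)
      (source_eq x0.1 x0.2) (continuousOn x0.1 x0.2) (continuousOn_symm x0.1 x0.2) hdisj hfr
      (ih _ hcard hS')
    rw [hU, ← Finset.sum_erase_add S _ hx0]
    exact key

theorem pain_cellEuler [CWComplex.Finite C] [Fintype (Σ n, cell C n)] :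
    cellEuler C = ∑ x : Σ n, cell C n, (-1 : ℤ) ^ x.1 := by
  classical
  have hfin : ∀ n, _root_.Finite (cell C n) := fun n => FiniteType.finite_cell n
  have : ∀ n, Fintype (cell C n) := fun n => Fintype.ofFinite _
  let s : Finset ℕ := (Finset.univ : Finset (Σ n, cell C n)).image Sigma.fst
  have hsupp : Function.support (fun n : ℕ => (-1 : ℤ) ^ n * (Nat.card (cell C n) : ℤ)) ⊆ ↑s := by
    intro n hn
    have h1 : Nat.card (cell C n) ≠ 0 := by
      intro h
      apply hn
      show (-1 : ℤ) ^ n * (Nat.card (cell C n) : ℤ) = 0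
      rw [h]; simp
    have h2 : Nonempty (cell C n) := by
      by_contra h
      rw [not_nonempty_iff] at h
      exact h1 Nat.card_of_isEmpty
    obtain ⟨i⟩ := h2
    exact Finset.mem_coe.2 (Finset.mem_image.2 ⟨⟨n, i⟩, Finset.mem_univ _, rfl⟩)
  have huniv : (Finset.univ : Finset (Σ n, cell C n)) = s.sigma fun _ => Finset.univ := by
    ext x
    simp only [Finset.mem_univ, Finset.mem_sigma, and_true, true_iff]
    exact Finset.mem_image.2 ⟨x, Finset.mem_univ _, rfl⟩
  unfold cellEuler
  rw [finsum_eq_sum_of_support_subset _ hsupp, huniv, Finset.sum_sigma]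
  refine Finset.sum_congr rfl fun n _ => ?_
  show (-1 : ℤ) ^ n * (Nat.card (cell C n) : ℤ) = ∑ _i : cell C n, (-1 : ℤ) ^ n
  rw [Finset.sum_const, Finset.card_univ, Nat.card_eq_fintype_card, nsmul_eq_mul, mul_comm]

end

/-- **W1.** A finite CW complex has the Euler characteristic given by its cells. -/
theorem hasEulerSp_cwComplex {X : Type} [TopologicalSpace X] [T2Space X] (C : Set X)
    [CWComplex C] [CWComplex.Finite C] : HasEulerSp ↥C (cellEuler C) := by
  classical
  have : _root_.Finite (Σ n, cell C n) := finite_cells_of_finite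
  have : Fintype (Σ n, cell C n) := Fintype.ofFinite _
  have hcl : PainClosed C (Finset.univ : Finset (Σ n, cell C n)) := by
    intro x _ z hz
    obtain ⟨I, hI⟩ := CWComplex.cellFrontier_subset_finite_openCell x.1 x.2
    have := hI hz
    simp only [mem_iUnion, exists_prop] at this
    obtain ⟨m, hm, j, -, hzj⟩ := this
    exact ⟨⟨m, j⟩, Finset.mem_univ _, hm, hzj⟩
  have hU : painU C (Finset.univ : Finset (Σ n, cell C n)) = C := by
    refine Eq.trans ?_ (CWComplex.iUnion_openCell_eq_complex (C := C))
    ext z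
    simp only [mem_painU, Finset.mem_univ, true_and, mem_iUnion]
    constructor
    · rintro ⟨x, hx⟩; exact ⟨x.1, x.2, hx⟩
    · rintro ⟨n, j, hx⟩; exact ⟨⟨n, j⟩, hx⟩
  have key := pain_main (C := C) _ Finset.univ rfl hcl
  rw [hU, ← pain_cellEuler] at key
  exact key

end

end Claimed.Open.R321
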