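import Claimed.Open.R321.PAHtpy
import Claimed.Open.R321.SubSupport

/-!
# PropA, package E2: Mayer-Vietoris additivity of the Euler characteristic

Owner: see table `subtask` (target `open321`, name `A-E2`).
-/

set_option autoImplicit false

namespace Claimed.Open.R321

noncomputable section

section Small

variable {E : Type} [TopologicalSpace E]

/-- The complex of `𝒰`-small singular chains. -/
def smallCx (𝒰 : Set (Set E)) : PaCx :=
  (singCx E).sub (fun n => smallChains 𝒰 n) (fun _ _ hx => bd_mem_smallChains hx)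

/-- The inclusion of the small chains. -/
def smallHom (𝒰 : Set (Set E)) : PaCx.Hom (smallCx 𝒰) (singCx E) :=
  (singCx E).subHom (fun n => smallChains 𝒰 n) (fun _ _ hx => bd_mem_smallChains hx)

theorem iterate_Sd_zero (m : ℕ) (c : Chains E 0) : (Sd E 0)^[m] c = c := by
  induction m with
  | zero => rfl
  | succ m ih => rw [Function.iterate_succ_apply, Sd_zero, ih]

theorem small_surj_zero {𝒰 : Set (Set E)} (h𝒰 : ⋃ U ∈ 𝒰, interior U = Set.univ)
    (z : Chains E 0) : z ∈ smallChains 𝒰 0 := by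
  obtain ⟨m, hm⟩ := exists_iterate_Sd_mem h𝒰 z
  have := hm m le_rfl
  rwa [iterate_Sd_zero] at this

theorem small_surj_succ {𝒰 : Set (Set E)} (h𝒰 : ⋃ U ∈ 𝒰, interior U = Set.univ) {n : ℕ}
    (z : Chains E (n + 1)) (hz : bd E n z = 0) :
    ∃ y ∈ smallChains 𝒰 (n + 1), bd E n y = 0 ∧ ∃ w : Chains E (n + 2), bd E (n + 1) w = y - z := by
  obtain ⟨m, hm⟩ := exists_iterate_Sd_mem h𝒰 z
  refine ⟨(Sd E (n + 1))^[m] z, hm m le_rfl, ?_, -(Dsd E m (n + 1) z), ?_⟩
  · rw [bd_iterate_Sd, hz, iterate_map_zero]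
  · have h := bd_Dsd_succ m z
    rw [hz, map_zero, add_zero] at h
    rw [map_neg, h, neg_sub]

theorem small_inj {𝒰 : Set (Set E)} (h𝒰 : ⋃ U ∈ 𝒰, interior U = Set.univ) {n : ℕ}
    (y : Chains E n) (hy : y ∈ smallChains 𝒰 n) (w : Chains E (n + 1)) (hw : bd E n w = y) :
    ∃ w' ∈ smallChains 𝒰 (n + 1), bd E n w' = y := by
  obtain ⟨m, hm⟩ := exists_iterate_Sd_mem h𝒰 w
  refine ⟨(Sd E (n + 1))^[m] w + Dsd E m n y,
    AddSubgroup.add_mem _ (hm m le_rfl) (Dsd_mem_smallChains m hy), ?_⟩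
  have h := congrArg (bd E n) (bd_Dsd_succ m w)
  rw [map_add, bd_bd, zero_add, map_sub, hw] at h
  rw [map_add, h]
  abel

theorem bd_zero_eq_sub_self (z : Chains E 0) : bd E 0 0 = z - z := by
  rw [map_zero, sub_self]

/-- The inclusion of the small chains is a quasi-isomorphism. -/
theorem isQuasiIso_smallHom {𝒰 : Set (Set E)} (h𝒰 : ⋃ U ∈ 𝒰, interior U = Set.univ) :
    (smallHom 𝒰).IsQuasiIso := by
  refine ⟨fun n z hz => ?_, fun n y _ hb => ?_⟩
  · cases n with
    | zero =>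
      refine ⟨⟨z, small_surj_zero h𝒰 z⟩, PaCx.mem_cycles_zero _ _, ?_⟩
      exact (PaCx.mem_boundaries (singCx E) _).2 ⟨0, bd_zero_eq_sub_self z⟩
    | succ n =>
      obtain ⟨y, hy, hy0, w, hw⟩ :=
        small_surj_succ h𝒰 z ((PaCx.mem_cycles_succ (singCx E) z).1 hz)
      refine ⟨⟨y, hy⟩, (PaCx.mem_cycles_succ (smallCx 𝒰) _).2 (Subtype.ext hy0), ?_⟩
      exact (PaCx.mem_boundaries (singCx E) _).2 ⟨w, hw⟩
  · obtain ⟨w, hw⟩ := (PaCx.mem_boundaries (singCx E) _).1 hb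
    obtain ⟨w', hw', hw''⟩ := small_inj h𝒰 y.1 y.2 w hw
    exact (PaCx.mem_boundaries (smallCx 𝒰) _).2 ⟨⟨w', hw'⟩, Subtype.ext hw''⟩

end Small

section MV

variable {E : Type} [TopologicalSpace E] (U V : Set E)

theorem mvI_comm_aux {E' : Type} [TopologicalSpace E'] (f : C(E, E')) {n : ℕ}
    (x : Chains E (n + 1)) :
    bd E' n (-(chainMap f (n + 1) x)) = -(chainMap f n (bd E n x)) := by
  rw [map_neg, bd_chainMap]

/-- `S(U ∩ V) → S(U) × S(V)`, `c ↦ (c, -c)`. -/
def mvI : PaCx.Hom (singCx ↥(U ∩ V)) ((singCx ↥U).prod (singCx ↥V)) where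
  f n := (chainMap (inclSet₂ (Set.inter_subset_left : U ∩ V ⊆ U)) n).prod
    (-(chainMap (inclSet₂ (Set.inter_subset_right : U ∩ V ⊆ V)) n))
  comm _ x := Prod.ext (bd_chainMap _ x) (mvI_comm_aux _ x)

theorem mvP_mem (n : ℕ) (x : Chains ↥U n × Chains ↥V n) :
    ((chainMap (inclSet U) n).coprod (chainMap (inclSet V) n)) x ∈ smallChains {U, V} n := by
  rw [AddMonoidHom.coprod_apply, smallChains_pair]
  exact AddSubgroup.add_mem _ (AddSubgroup.mem_sup_left (chainMap_inclSet_mem U x.1))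
    (AddSubgroup.mem_sup_right (chainMap_inclSet_mem V x.2))

theorem mvP_comm_aux {n : ℕ} (x : Chains ↥U (n + 1)) (y : Chains ↥V (n + 1)) :
    bd E n (chainMap (inclSet U) (n + 1) x + chainMap (inclSet V) (n + 1) y) =
      chainMap (inclSet U) n (bd _ n x) + chainMap (inclSet V) n (bd _ n y) := by
  rw [map_add, bd_chainMap, bd_chainMap]

/-- `S(U) × S(V) → S^{U,V}(E)`, `(x, y) ↦ x + y`. -/
def mvP : PaCx.Hom ((singCx ↥U).prod (singCx ↥V)) (smallCx {U, V}) where
  f n := ((chainMap (inclSet U) n).coprod (chainMap (inclSet V) n)).codRestrict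
    (smallChains {U, V} n) (mvP_mem U V n)
  comm _ x := Subtype.ext (mvP_comm_aux U V x.1 x.2)

theorem mv_exact_aux {n : ℕ} (x : Chains ↥U n) (y : Chains ↥V n)
    (h : chainMap (inclSet U) n x + chainMap (inclSet V) n y = 0) :
    ∃ a : Chains ↥(U ∩ V) n,
      chainMap (inclSet₂ (Set.inter_subset_left : U ∩ V ⊆ U)) n a = x ∧
      -(chainMap (inclSet₂ (Set.inter_subset_right : U ∩ V ⊆ V)) n a) = y := by
  have hx : chainMap (inclSet U) n x = -(chainMap (inclSet V) n y) := eq_neg_of_add_eq_zero_left h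
  have hmem : chainMap (inclSet U) n x ∈ smallChains {U ∩ V} n := by
    rw [← smallChains_singleton_inf]
    refine ⟨chainMap_inclSet_mem U x, ?_⟩
    rw [hx]
    exact AddSubgroup.neg_mem _ (chainMap_inclSet_mem V y)
  obtain ⟨a, ha⟩ := mem_smallChains_singleton_iff_exists.1 hmem
  refine ⟨a, ?_, ?_⟩
  · apply chainMap_injective (inclSet U) (inclSet_injective U)
    rw [← chainMap_comp, inclSet_comp_inclSet₂, ha]
  · apply chainMap_injective (inclSet V) (inclSet_injective V)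
    rw [map_neg, ← chainMap_comp, inclSet_comp_inclSet₂, ha, hx, neg_neg]

theorem mv_surj_aux {n : ℕ} (c : Chains E n) (hc : c ∈ smallChains {U, V} n) :
    ∃ (x : Chains ↥U n) (y : Chains ↥V n),
      chainMap (inclSet U) n x + chainMap (inclSet V) n y = c := by
  rw [smallChains_pair, AddSubgroup.mem_sup] at hc
  obtain ⟨a, ha, b, hb, rfl⟩ := hc
  obtain ⟨x, rfl⟩ := mem_smallChains_singleton_iff_exists.1 ha
  obtain ⟨y, rfl⟩ := mem_smallChains_singleton_iff_exists.1 hb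
  exact ⟨x, y, rfl⟩

theorem mv_comp_aux {n : ℕ} (a : Chains ↥(U ∩ V) n) :
    chainMap (inclSet U) n (chainMap (inclSet₂ (Set.inter_subset_left : U ∩ V ⊆ U)) n a) +
      chainMap (inclSet V) n
        (-(chainMap (inclSet₂ (Set.inter_subset_right : U ∩ V ⊆ V)) n a)) = 0 := by
  rw [map_neg, ← chainMap_comp, ← chainMap_comp, inclSet_comp_inclSet₂, inclSet_comp_inclSet₂,
    add_neg_cancel]

/-- The Mayer-Vietoris short exact sequence. -/
theorem mv_shortExact : PaCx.ShortExact (mvI U V) (mvP U V) := by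
  refine ⟨fun n a a' h => ?_, fun n c => ?_, fun n b => ⟨fun h => ?_, ?_⟩⟩
  · exact chainMap_injective _ (inclSet₂_injective _) n (congrArg Prod.fst h)
  · obtain ⟨x, y, hxy⟩ := mv_surj_aux U V c.1 c.2
    exact ⟨(x, y), Subtype.ext hxy⟩
  · obtain ⟨a, ha1, ha2⟩ := mv_exact_aux U V b.1 b.2 (congrArg Subtype.val h)
    exact ⟨a, Prod.ext ha1 ha2⟩
  · rintro ⟨a, rfl⟩
    exact Subtype.ext (mv_comp_aux U V a)

end MV

/-- **E2.** Mayer-Vietoris: if the interiors of `U` and `V` cover `E`, then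
`χ(E) = χ(U) + χ(V) - χ(U ∩ V)`. -/
theorem hasEulerSp_of_cover {E : Type} [TopologicalSpace E] {U V : Set E}
    (hUV : interior U ∪ interior V = Set.univ) {a b c : ℤ}
    (ha : HasEulerSp ↥(U ∩ V) a) (hb : HasEulerSp ↥U b) (hc : HasEulerSp ↥V c) :
    HasEulerSp E (b + c - a) := by
  have h1 : (smallCx {U, V}).HasEuler (b + c - a) :=
    (mv_shortExact U V).hasEuler_right ha (PaCx.HasEuler.prod hb hc)
  have h𝒰 : ⋃ W ∈ ({U, V} : Set (Set E)), interior W = Set.univ := by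
    rw [Set.biUnion_pair, hUV]
  exact ((isQuasiIso_smallHom h𝒰).hasEuler_iff _).1 h1

/-- A subset `s ⊆ t`, seen as a subset of the subspace `t`, is homeomorphic to `s`. -/
def nestedHomeo {X : Type} [TopologicalSpace X] {s t : Set X} (h : s ⊆ t) :
    ↥s ≃ₜ ↥(Subtype.val ⁻¹' s : Set ↥t) where
  toFun x := ⟨⟨x.1, h x.2⟩, x.2⟩
  invFun y := ⟨y.1.1, y.2⟩
  left_inv _ := rfl
  right_inv _ := rfl
  continuous_toFun := (continuous_subtype_val.subtype_mk _).subtype_mk _
  continuous_invFun := (continuous_subtype_val.comp continuous_subtype_val).subtype_mk _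

/-- Mayer-Vietoris for two subsets of an ambient space which are relatively open in their union. -/
theorem hasEulerSp_union {X : Type} [TopologicalSpace X] {u v : Set X}
    (hu : ∃ O, IsOpen O ∧ O ∩ (u ∪ v) = u) (hv : ∃ O, IsOpen O ∧ O ∩ (u ∪ v) = v) {a b c : ℤ}
    (ha : HasEulerSp ↥(u ∩ v) a) (hb : HasEulerSp ↥u b) (hc : HasEulerSp ↥v c) :
    HasEulerSp ↥(u ∪ v) (b + c - a) := by
  have key : ∀ w : Set X, (∃ O, IsOpen O ∧ O ∩ (u ∪ v) = w) →
      IsOpen (Subtype.val ⁻¹' w : Set ↥(u ∪ v)) := by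
    rintro w ⟨O, hO, rfl⟩
    have : (Subtype.val ⁻¹' (O ∩ (u ∪ v)) : Set ↥(u ∪ v)) = Subtype.val ⁻¹' O := by
      ext x
      exact ⟨fun h => h.1, fun h => ⟨h, x.2⟩⟩
    rw [this]
    exact hO.preimage continuous_subtype_val
  refine hasEulerSp_of_cover (U := (Subtype.val ⁻¹' u : Set ↥(u ∪ v)))
    (V := (Subtype.val ⁻¹' v : Set ↥(u ∪ v))) ?_ ?_ ?_ ?_
  · rw [(key u hu).interior_eq, (key v hv).interior_eq]
    ext x
    exact ⟨fun _ => trivial, fun _ => x.2⟩
  · exact ha.of_homeomorph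
      (nestedHomeo (Set.inter_subset_left.trans Set.subset_union_left : u ∩ v ⊆ u ∪ v))
  · exact hb.of_homeomorph (nestedHomeo Set.subset_union_left)
  · exact hc.of_homeomorph (nestedHomeo Set.subset_union_right)

end

end Claimed.Open.R321
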