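import Claimed.Open.R321.PAHtpy

/-!
# PropA, package E3: the empty space and contractible spaces
-/

set_option autoImplicit false

namespace Claimed.Open.R321

noncomputable section

open Module

theorem PaCx.subsingleton_H_of_subsingleton (K : PaCx) (n : ℕ) [Subsingleton (K.X n)] :
    Subsingleton (K.H n) := by
  refine ⟨fun x y => ?_⟩
  obtain ⟨z, rfl⟩ := K.toH_surjective n x
  obtain ⟨w, rfl⟩ := K.toH_surjective n y
  rw [Subsingleton.elim z w]

theorem PaCx.subsingleton_H_iff (K : PaCx) (n : ℕ) :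
    Subsingleton (K.H n) ↔ ∀ z ∈ K.cycles n, z ∈ K.boundaries n := by
  constructor
  · intro h z hz
    exact (K.toH_eq_zero_iff ⟨z, hz⟩).1 (Subsingleton.elim _ _)
  · intro h
    refine ⟨fun x y => ?_⟩
    obtain ⟨z, rfl⟩ := K.toH_surjective n x
    obtain ⟨w, rfl⟩ := K.toH_surjective n y
    rw [K.toH_eq_iff]
    exact h _ ((K.cycles n).sub_mem z.2 w.2)

variable {E : Type} [TopologicalSpace E]

instance (n : ℕ) : Nonempty (stdSimplex ℝ (Fin (n + 1))) :=
  ⟨⟨Pi.single 0 1, single_mem_stdSimplex ℝ 0⟩⟩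

/-- The empty space has Euler characteristic `0`. -/
theorem hasEulerSp_of_isEmpty [IsEmpty E] : HasEulerSp E 0 := by
  have h1 : ∀ n, IsEmpty (Simplex n E) := fun n =>
    ⟨fun σ => isEmptyElim (σ (Classical.arbitrary _))⟩
  have h2 : ∀ n, Subsingleton ((singCx E).X n) := fun n => by
    have := h1 n
    exact (chainsEquiv E n).toEquiv.subsingleton
  have h3 : ∀ n, Subsingleton ((singCx E).H n) := fun n => by
    have := h2 n
    exact PaCx.subsingleton_H_of_subsingleton _ n
  refine ⟨fun n => ?_, 0, fun n _ => h3 n, by simp⟩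
  have := h3 n
  infer_instance


/-! ### The one-point space -/

instance (n : ℕ) : Unique (Simplex n Unit) where
  default := ContinuousMap.const _ ()
  uniq _ := ContinuousMap.ext fun _ => rfl

/-- The generator of the `n`-chains of the point. -/
def ptGen (n : ℕ) : Chains Unit n := gen (default : Simplex n Unit)

theorem exists_eq_zsmul_ptGen {n : ℕ} (c : Chains Unit n) : ∃ k : ℤ, c = k • ptGen n := by
  refine ⟨chainsEquiv Unit n c default, ?_⟩
  apply (chainsEquiv Unit n).injective
  rw [map_zsmul, ptGen, chainsEquiv_gen]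
  ext
  simp

theorem zsmul_ptGen_eq_zero {n : ℕ} {k : ℤ} (h : k • ptGen n = 0) : k = 0 := by
  have h1 := congrArg (fun c => chainsEquiv Unit n c default) h
  simpa [ptGen, chainsEquiv_gen, map_zsmul] using h1

theorem bd_ptGen (n : ℕ) :
    bd Unit n (ptGen (n + 1)) = (if Even n then (0 : ℤ) else 1) • ptGen n := by
  rw [ptGen, bd_gen]
  have h1 : ∀ i : Fin (n + 2), gen ((default : Simplex (n + 1) Unit).face i) = ptGen n := fun i => by
    rw [ptGen, Subsingleton.elim ((default : Simplex (n + 1) Unit).face i) default]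
  simp only [h1]
  have h2 : ∑ i : Fin (n + 2), (-1 : ℤ) ^ (i : ℕ) = if Even n then 0 else 1 := by
    rw [Fin.sum_univ_eq_sum_range (fun i => (-1 : ℤ) ^ i) (n + 2), neg_one_geom_sum]
    simp [Nat.even_add]
  rw [← h2]
  exact (map_sum ((zmultiplesHom (Chains Unit n)) (ptGen n))
    (fun i : Fin (n + 2) => (-1 : ℤ) ^ (i : ℕ)) Finset.univ).symm

/-- The one-point space has Euler characteristic `1`. -/
theorem hasEulerSp_unit : HasEulerSp Unit 1 := by
  have hpos : ∀ n, Subsingleton ((singCx Unit).H (n + 1)) := by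
    intro n
    rw [PaCx.subsingleton_H_iff]
    intro z hz
    obtain ⟨k, rfl⟩ := exists_eq_zsmul_ptGen (n := n + 1) z
    rw [PaCx.mem_cycles_succ] at hz
    by_cases hn : Even n
    · refine ⟨k • ptGen (n + 2), ?_⟩
      show bd Unit (n + 1) (k • ptGen (n + 2)) = k • ptGen (n + 1)
      rw [map_zsmul, bd_ptGen, if_neg (by simpa [Nat.even_add_one] using hn), one_smul]
    · have h1 : bd Unit n (k • ptGen (n + 1)) = 0 := hz
      rw [map_zsmul, bd_ptGen, if_neg hn, one_smul] at h1
      rw [zsmul_ptGen_eq_zero h1, zero_smul]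
      exact AddSubgroup.zero_mem _
  let φ : ℤ →+ (singCx Unit).H 0 :=
    ((singCx Unit).toH 0).comp
      (((zmultiplesHom (Chains Unit 0)) (ptGen 0)).codRestrict ((singCx Unit).cycles 0)
        fun _ => PaCx.mem_cycles_zero _ _)
  have hφ : Function.Bijective φ := by
    constructor
    · rw [injective_iff_map_eq_zero]
      intro k hk
      have h1 : k • ptGen 0 ∈ (singCx Unit).boundaries 0 :=
        ((singCx Unit).toH_eq_zero_iff _).1 hk
      obtain ⟨y, hy⟩ := h1
      obtain ⟨l, rfl⟩ := exists_eq_zsmul_ptGen (n := 1) y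
      have h2 : bd Unit 0 (l • ptGen 1) = k • ptGen 0 := hy
      rw [map_zsmul, bd_ptGen, if_pos (by simp), zero_smul] at h2
      exact zsmul_ptGen_eq_zero (h2.symm.trans (zsmul_zero l))
    · intro x
      obtain ⟨z, rfl⟩ := (singCx Unit).toH_surjective 0 x
      obtain ⟨k, hk⟩ := exists_eq_zsmul_ptGen (n := 0) z.1
      refine ⟨k, ?_⟩
      show (singCx Unit).toH 0 _ = _
      congr 1
      exact Subtype.ext hk.symm
  let e : ℤ ≃ₗ[ℤ] (singCx Unit).H 0 := (AddEquiv.ofBijective φ hφ).toIntLinearEquiv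
  refine ⟨fun n => ?_, 1, fun n hn => ?_, ?_⟩
  · cases n with
    | zero => exact Module.Finite.equiv e
    | succ n =>
      have := hpos n
      infer_instance
  · obtain ⟨m, rfl⟩ : ∃ m, n = m + 1 := ⟨n - 1, by omega⟩
    exact hpos m
  · simp only [Finset.range_one, Finset.sum_singleton, pow_zero, one_mul]
    rw [← e.finrank_eq, finrank_self]
    rfl

/-- A contractible space has Euler characteristic `1`. -/
theorem hasEulerSp_of_contractible [ContractibleSpace E] : HasEulerSp E 1 := by
  obtain ⟨h⟩ := ContractibleSpace.hequiv_unit E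
  exact hasEulerSp_unit.of_homotopyEquiv h.symm

end

end Claimed.Open.R321
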