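import Claimed.Open.R321.PAMV
import Claimed.Open.R321.PAPoint

/-!
# PropA, package S: the punctured space and the punctured ball

Owner: see table `subtask` (target `open321`, name `A-S`).

Induction on `n` with Mayer-Vietoris: in `Fin (n + 1) → ℝ` let `u` (resp. `v`) be the complement of the
closed ray `{x | tail x = 0 ∧ x 0 ≤ 0}` (resp. `≥ 0`).  Both are open and star-shaped, `u ∪ v` is the
punctured space, and `u ∩ v = {x | tail x ≠ 0}` is homotopy equivalent to the punctured `Fin n → ℝ`.
-/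

set_option autoImplicit false

namespace Claimed.Open.R321

noncomputable section

namespace PASph

variable {n : ℕ}

/-- the complement of the ray `{x | tail x = 0 ∧ sg * x 0 ≤ 0}` (`sg = ± 1`) -/
def slit (n : ℕ) (sg : ℝ) : Set (Fin (n + 1) → ℝ) := {x | Fin.tail x = 0 ∧ sg * x 0 ≤ 0}ᶜ

theorem continuous_tail : Continuous fun x : Fin (n + 1) → ℝ => (Fin.tail x : Fin n → ℝ) :=
  continuous_pi fun i => continuous_apply i.succ

theorem isOpen_slit (sg : ℝ) : IsOpen (slit n sg) := by
  rw [slit, isOpen_compl_iff]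
  exact (isClosed_eq continuous_tail continuous_const).inter
    (isClosed_le (continuous_const.mul (continuous_apply 0)) continuous_const)

theorem starConvex_slit (sg : ℝ) (hsg : sg * sg = 1) :
    StarConvex ℝ (Fin.cons sg 0 : Fin (n + 1) → ℝ) (slit n sg) := by
  intro y hy a b ha hb hab
  rintro ⟨h1, h2⟩
  have ht : b • (Fin.tail y : Fin n → ℝ) = 0 := by
    funext i
    have := congrFun h1 i
    simpa [Fin.tail] using this
  have h0 : sg * (a * sg + b * y 0) ≤ 0 := by
    simpa using h2
  rcases eq_or_lt_of_le hb with hb0 | hb0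
  · have ha1 : a = 1 := by linarith
    rw [← hb0, ha1] at h0
    nlinarith
  · have hty : (Fin.tail y : Fin n → ℝ) = 0 := by
      rcases smul_eq_zero.mp ht with h | h
      · exact absurd h hb0.ne'
      · exact h
    have hy0 : 0 < sg * y 0 := by
      by_contra hcon
      exact hy ⟨hty, not_lt.mp hcon⟩
    nlinarith

theorem slit_nonempty (sg : ℝ) (hsg : sg * sg = 1) : (slit n sg).Nonempty := by
  refine ⟨Fin.cons sg 0, ?_⟩
  rintro ⟨-, h2⟩
  simp only [Fin.cons_zero] at h2
  linarith

theorem slit_union : slit n 1 ∪ slit n (-1) = {0}ᶜ := by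
  ext x
  simp only [slit, Set.mem_union, Set.mem_compl_iff, Set.mem_ofPred_eq, Set.mem_singleton_iff]
  constructor
  · rintro h rfl
    rcases h with h | h <;> exact h ⟨rfl, by simp⟩
  · intro hx
    by_contra hcon
    push Not at hcon
    obtain ⟨⟨h1, h2⟩, -, h3⟩ := hcon
    apply hx
    have h0 : x 0 = 0 := by linarith
    funext i
    refine Fin.cases h0 (fun j => ?_) i
    exact congrFun h1 j

theorem slit_inter : slit n 1 ∩ slit n (-1) = {x | (Fin.tail x : Fin n → ℝ) ≠ 0} := by
  ext x
  simp only [slit, Set.mem_inter_iff, Set.mem_compl_iff, Set.mem_ofPred_eq]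
  constructor
  · rintro ⟨h1, h2⟩ ht
    rcases le_total (x 0) 0 with h | h
    · exact h1 ⟨ht, by linarith⟩
    · exact h2 ⟨ht, by linarith⟩
  · intro h
    exact ⟨fun h1 => h h1.1, fun h1 => h h1.1⟩

/-- forget the first coordinate -/
def tailMap (n : ℕ) :
    C(↥{x : Fin (n + 1) → ℝ | (Fin.tail x : Fin n → ℝ) ≠ 0}, ↥({0}ᶜ : Set (Fin n → ℝ))) :=
  ⟨fun x => ⟨Fin.tail x.1, x.2⟩, (continuous_tail.comp continuous_subtype_val).subtype_mk _⟩

theorem tail_cons_ne (t : ℝ) (y : Fin n → ℝ) (hy : y ≠ 0) :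
    (Fin.tail (Fin.cons t y : Fin (n + 1) → ℝ) : Fin n → ℝ) ≠ 0 := by
  rw [Fin.tail_cons]
  exact hy

theorem continuous_cons {X : Type} [TopologicalSpace X] {f : X → ℝ} {g : X → Fin n → ℝ}
    (hf : Continuous f) (hg : Continuous g) :
    Continuous fun x => (Fin.cons (f x) (g x) : Fin (n + 1) → ℝ) := by
  refine continuous_pi fun i => ?_
  refine Fin.cases ?_ (fun j => ?_) i
  · simpa using hf
  · have h : Continuous fun a => g a j := (continuous_apply j).comp hg
    simpa using h

/-- put `0` as first coordinate -/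
def consMap (n : ℕ) :
    C(↥({0}ᶜ : Set (Fin n → ℝ)), ↥{x : Fin (n + 1) → ℝ | (Fin.tail x : Fin n → ℝ) ≠ 0}) :=
  ⟨fun y => ⟨Fin.cons 0 y.1, tail_cons_ne 0 y.1 y.2⟩,
    (continuous_cons continuous_const continuous_subtype_val).subtype_mk _⟩

/-- `{x | tail x ≠ 0}` is homotopy equivalent to the punctured space of one dimension less. -/
def tailEquiv (n : ℕ) : ContinuousMap.HomotopyEquiv
    ↥{x : Fin (n + 1) → ℝ | (Fin.tail x : Fin n → ℝ) ≠ 0} ↥({0}ᶜ : Set (Fin n → ℝ)) where
  toFun := tailMap n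
  invFun := consMap n
  left_inv := ⟨
    { toFun := fun p => ⟨Fin.cons ((p.1 : ℝ) * p.2.1 0) (Fin.tail p.2.1),
        tail_cons_ne _ _ p.2.2⟩
      continuous_toFun := by
        refine Continuous.subtype_mk (continuous_cons ?_ ?_) _
        · exact (continuous_subtype_val.comp continuous_fst).mul
            ((continuous_apply 0).comp (continuous_subtype_val.comp continuous_snd))
        · exact continuous_tail.comp (continuous_subtype_val.comp continuous_snd)
      map_zero_left := fun x => by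
        apply Subtype.ext
        show (Fin.cons (((0 : unitInterval) : ℝ) * x.1 0) (Fin.tail x.1) : Fin (n + 1) → ℝ) =
          Fin.cons 0 (Fin.tail x.1)
        rw [Set.Icc.coe_zero, zero_mul]
      map_one_left := fun x => by
        apply Subtype.ext
        show (Fin.cons (((1 : unitInterval) : ℝ) * x.1 0) (Fin.tail x.1) : Fin (n + 1) → ℝ) = x.1
        rw [Set.Icc.coe_one, one_mul, Fin.cons_self_tail] }⟩
  right_inv := by
    have : (tailMap n).comp (consMap n) = ContinuousMap.id _ := by
      ext y : 2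
      show (Fin.tail (Fin.cons 0 y.1 : Fin (n + 1) → ℝ) : Fin n → ℝ) = y.1
      rw [Fin.tail_cons]
    rw [this]

end PASph

open PASph

/-- The punctured space `ℝⁿ ∖ {0}` has Euler characteristic `1 - (-1)ⁿ`. -/
theorem hasEulerSp_punctured (n : ℕ) :
    HasEulerSp ↥({0}ᶜ : Set (Fin n → ℝ)) (1 - (-1) ^ n) := by
  induction n with
  | zero =>
    have : IsEmpty ↥({0}ᶜ : Set (Fin 0 → ℝ)) := ⟨fun x => x.2 (Subsingleton.elim _ _)⟩
    simpa using hasEulerSp_of_isEmpty (E := ↥({0}ᶜ : Set (Fin 0 → ℝ)))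
  | succ n ih =>
    have hu : HasEulerSp ↥(slit n 1) 1 := by
      have := (starConvex_slit (n := n) 1 (by norm_num)).contractibleSpace
        (slit_nonempty 1 (by norm_num))
      exact hasEulerSp_of_contractible
    have hv : HasEulerSp ↥(slit n (-1)) 1 := by
      have := (starConvex_slit (n := n) (-1) (by norm_num)).contractibleSpace
        (slit_nonempty (-1) (by norm_num))
      exact hasEulerSp_of_contractible
    have hw : HasEulerSp ↥(slit n 1 ∩ slit n (-1)) (1 - (-1) ^ n) := by
      rw [slit_inter]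
      exact ih.of_homotopyEquiv (tailEquiv n).symm
    have h := hasEulerSp_union (u := slit n 1) (v := slit n (-1))
      ⟨slit n 1, isOpen_slit 1, Set.inter_eq_left.mpr Set.subset_union_left⟩
      ⟨slit n (-1), isOpen_slit (-1), Set.inter_eq_left.mpr Set.subset_union_right⟩ hw hu hv
    rw [slit_union] at h
    have e : (1 : ℤ) + 1 - (1 - (-1) ^ n) = 1 - (-1) ^ (n + 1) := by
      rw [pow_succ]
      ring
    rwa [e] at h

/-- The punctured open unit ball (for the sup norm) has Euler characteristic `1 - (-1)ⁿ`. -/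
theorem hasEulerSp_puncturedBall (n : ℕ) :
    HasEulerSp ↥(Metric.ball (0 : Fin n → ℝ) 1 \ {0}) (1 - (-1) ^ n) := by
  let h0 : (Fin n → ℝ) ≃ₜ Metric.ball (0 : Fin n → ℝ) 1 := Homeomorph.unitBall
  have hz : ∀ x : Fin n → ℝ, x ∈ ({0}ᶜ : Set (Fin n → ℝ)) ↔ ((h0 x : Fin n → ℝ) ≠ 0) := by
    intro x
    have h00 : (h0 0 : Fin n → ℝ) = 0 := Homeomorph.coe_unitBall_apply_zero
    constructor
    · intro hx h
      apply hx
      have : h0 x = h0 0 := Subtype.ext (h.trans h00.symm)
      exact h0.injective this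
    · rintro hx rfl
      exact hx h00
  let h1 : ↥({0}ᶜ : Set (Fin n → ℝ)) ≃ₜ
      {y : Metric.ball (0 : Fin n → ℝ) 1 // (y : Fin n → ℝ) ≠ 0} := h0.subtype hz
  let h2 : {y : Metric.ball (0 : Fin n → ℝ) 1 // (y : Fin n → ℝ) ≠ 0} ≃ₜ
      ↥(Metric.ball (0 : Fin n → ℝ) 1 \ {0}) :=
    { toFun := fun y => ⟨y.1.1, y.1.2, y.2⟩
      invFun := fun y => ⟨⟨y.1, y.2.1⟩, y.2.2⟩
      left_inv := fun _ => rfl
      right_inv := fun _ => rfl
      continuous_toFun :=
        (continuous_subtype_val.comp continuous_subtype_val).subtype_mk _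
      continuous_invFun := (continuous_subtype_val.subtype_mk _).subtype_mk _ }
  exact ((hasEulerSp_punctured n).of_homeomorph h1).of_homeomorph h2

end

end Claimed.Open.R321
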