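import Mathlib

/-!
# R321, PropB, leaf B6: the algebraic end game of `pb_abstract`
-/

set_option autoImplicit false

namespace Claimed.Open.R321

/-- A surjective anti-homomorphism `Ψ` from a presented group with a one-sided inverse on the generators
is bijective. -/
theorem pb_alg_iso {Pi1 E : Type} [Group Pi1] (rels : Set (FreeGroup E))
    (Ψ : PresentedGroup rels →* Pi1ᵐᵒᵖ) (Θ : Pi1 →* (PresentedGroup rels)ᵐᵒᵖ)
    (hsurj : Function.Surjective Ψ)
    (hgen : ∀ e : E, Θ (Ψ (PresentedGroup.of e)).unop = MulOpposite.op (PresentedGroup.of e)) :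
    Nonempty (Pi1 ≃* PresentedGroup rels) := by
  let T : PresentedGroup rels →* PresentedGroup rels :=
    { toFun := fun x => (Θ (Ψ x).unop).unop
      map_one' := by simp
      map_mul' := fun a b => by simp }
  have hT : T = MonoidHom.id _ := by
    apply PresentedGroup.ext
    intro e
    show (Θ (Ψ (PresentedGroup.of e)).unop).unop = PresentedGroup.of e
    rw [hgen e]
    rfl
  have hinj : Function.Injective Ψ := by
    intro a b hab
    have ha : T a = a := by rw [hT]; rfl
    have hb : T b = b := by rw [hT]; rfl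
    rw [← ha, ← hb]
    show (Θ (Ψ a).unop).unop = (Θ (Ψ b).unop).unop
    rw [hab]
  exact ⟨(MulEquiv.inv' Pi1).trans (MulEquiv.ofBijective Ψ ⟨hinj, hsurj⟩).symm⟩

/-- Reindexing of a finite presentation by `Fin`. -/
theorem pb_fin_presentation {E J : Type} [Finite E] [Finite J] (R : J → FreeGroup E) :
    ∃ rels : Fin (Nat.card J) → FreeGroup (Fin (Nat.card E)),
      Nonempty (PresentedGroup (Set.range R) ≃* PresentedGroup (Set.range rels)) := by
  let eE : E ≃ Fin (Nat.card E) := Finite.equivFin E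
  let eJ : J ≃ Fin (Nat.card J) := Finite.equivFin J
  refine ⟨fun j => FreeGroup.freeGroupCongr eE (R (eJ.symm j)), ?_⟩
  have h : Set.range (fun j => FreeGroup.freeGroupCongr eE (R (eJ.symm j))) =
      FreeGroup.freeGroupCongr eE '' Set.range R := by
    ext x
    constructor
    · rintro ⟨j, rfl⟩
      exact ⟨_, ⟨_, rfl⟩, rfl⟩
    · rintro ⟨_, ⟨j, rfl⟩, rfl⟩
      exact ⟨eJ j, by simp⟩
  rw [h]
  exact ⟨PresentedGroup.equivPresentedGroup _ eE⟩

/-- the number of relators -/
theorem pb_card_index {Z F : Type} [Finite F] {A : Set Z} (hA : A.Finite) {v0 : Z} (hv0 : v0 ∈ A) :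
    Nat.card (F ⊕ {a : Z // a ∈ A ∧ a ≠ v0}) + 1 = Nat.card F + Nat.card A := by
  have hfin : Finite {a : Z // a ∈ A ∧ a ≠ v0} :=
    (hA.subset (fun a (ha : a ∈ A ∧ a ≠ v0) => ha.1)).to_subtype
  have h1 : Nat.card {a : Z // a ∈ A ∧ a ≠ v0} = (A \ {v0}).ncard := rfl
  have h2 : Nat.card A = A.ncard := rfl
  rw [Nat.card_sum, h1, h2, add_assoc, Set.ncard_sdiff_singleton_add_one hv0 hA]

end Claimed.Open.R321
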