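import Claimed.Open.R321.PBCell

/-!
# R321, PropB, leaf B2: a free `Γ`-space in which loops of a `Γ`-invariant subspace can be coned off

For a (discrete) group `Γ` let `JSp Γ` be the space of all nonzero functions `y : Fin 3 → Γ → ℝ` such
that for each "colour" `i : Fin 3` at most one `y i g` is nonzero (a thickened three-fold join
`Γ * Γ * Γ`), with the topology of pointwise convergence.  `Γ` acts by left translation.  The action is
free and every point has a neighbourhood (`{y | y i g ≠ 0}`) which is disjoint from its translates, so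
`JSp Γ → KSp Γ = JSp Γ / Γ` is a covering map with group `Γ`, although `Γ` may have torsion.
The subspace `JSp.low` (colour `2` vanishes) contains a path from `base` to `g • base` for every `g`,
and it can be coned off inside `JSp Γ` (straight lines to a vertex of colour `2`).

This replaces the presentation complex and its Cayley complex in the proof that the relations of
`π₁(Y)` come from the 2-cells.
-/

set_option autoImplicit false

namespace Claimed.Open.R321

open Topology unitInterval

/-- nonzero functions `Fin 3 → Γ → ℝ` with at most one nonzero entry of each colour -/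
def JSp (Γ : Type) : Type :=
  {y : Fin 3 → Γ → ℝ // y ≠ 0 ∧ ∀ (i : Fin 3) (g h : Γ), y i g ≠ 0 → y i h ≠ 0 → g = h}

instance JSp.topologicalSpace (Γ : Type) : TopologicalSpace (JSp Γ) :=
  inferInstanceAs (TopologicalSpace {y : Fin 3 → Γ → ℝ // _})

/-- continuity of maps to `JSp Γ` is checked entry by entry -/
theorem JSp.continuous_iff {Γ X : Type} [TopologicalSpace X] {f : X → JSp Γ} :
    Continuous f ↔ ∀ (i : Fin 3) (g : Γ), Continuous fun x => (f x).1 i g := by
  constructor
  · intro h i g
    exact (continuous_apply g).comp ((continuous_apply i).comp (continuous_subtype_val.comp h))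
  · intro h
    exact continuous_induced_rng.2 (continuous_pi fun i => continuous_pi fun g => h i g)

variable {Γ : Type} [Group Γ]

/-- left translation -/
instance JSp.mulAction : MulAction Γ (JSp Γ) where
  smul g y := ⟨fun i h => y.1 i (g⁻¹ * h), by
    refine ⟨fun h0 => y.2.1 ?_, fun i a b ha hb => ?_⟩
    · funext i h
      have := congrFun (congrFun h0 i) (g * h)
      simpa using this
    · exact mul_left_cancel (y.2.2 i _ _ ha hb)⟩
  one_smul y := by
    apply Subtype.ext
    funext i h
    change y.1 i ((1 : Γ)⁻¹ * h) = y.1 i h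
    simp
  mul_smul a b y := by
    apply Subtype.ext
    funext i h
    change y.1 i ((a * b)⁻¹ * h) = y.1 i (b⁻¹ * (a⁻¹ * h))
    simp [mul_assoc]

theorem JSp.smul_apply (g : Γ) (y : JSp Γ) (i : Fin 3) (h : Γ) :
    (g • y).1 i h = y.1 i (g⁻¹ * h) := rfl

/-- the quotient `JSp Γ / Γ` -/
abbrev KSp (Γ : Type) [Group Γ] : Type := MulAction.orbitRel.Quotient Γ (JSp Γ)

/-- the projection -/
def JSp.proj : JSp Γ → KSp Γ := Quotient.mk _

/-- **The projection is a covering map with group `Γ`.** -/
theorem JSp.isQuotientCoveringMap : IsQuotientCoveringMap (JSp.proj (Γ := Γ)) Γ where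
  toIsQuotientMap := isQuotientMap_quotient_mk'
  continuous_const_smul g :=
    JSp.continuous_iff.2 fun i h => JSp.continuous_iff.1 continuous_id i (g⁻¹ * h)
  apply_eq_iff_mem_orbit {e₁ e₂} := by
    rw [JSp.proj, Quotient.eq]
    exact MulAction.orbitRel_apply
  disjoint e := by
    have hne : ∃ (i : Fin 3) (h : Γ), e.1 i h ≠ 0 := by
      by_contra hcon
      push Not at hcon
      exact e.2.1 (funext fun i => funext fun h => hcon i h)
    obtain ⟨i, h, hih⟩ := hne
    refine ⟨{y | y.1 i h ≠ 0}, ?_, ?_⟩
    · exact (isOpen_ne_fun (JSp.continuous_iff.1 continuous_id i h) continuous_const).mem_nhds hih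
    · rintro g ⟨_, ⟨y, hy, rfl⟩, hgy⟩
      have h1 : y.1 i (g⁻¹ * h) ≠ 0 := hgy
      have h2 := y.2.2 i _ _ h1 hy
      have h3 : g⁻¹ = 1 := mul_eq_right.1 h2
      exact inv_eq_one.1 h3

open Classical in
/-- the vertex `g` of colour `i` -/
noncomputable def JSp.vertex (i : Fin 3) (g : Γ) : JSp Γ :=
  ⟨fun j h => if j = i ∧ h = g then 1 else 0, by
    refine ⟨fun h0 => ?_, fun j a b ha hb => ?_⟩
    · have := congrFun (congrFun h0 i) g
      simp at this
    · have ha' : j = i ∧ a = g := by by_contra hc; exact ha (if_neg hc)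
      have hb' : j = i ∧ b = g := by by_contra hc; exact hb (if_neg hc)
      rw [ha'.2, hb'.2]⟩

/-- the base point: the vertex `1` of colour `0` -/
noncomputable def JSp.base : JSp Γ := JSp.vertex 0 1

/-- the points whose entries of colour `2` vanish -/
def JSp.low (Γ : Type) : Set (JSp Γ) := {y | ∀ g, y.1 2 g = 0}

omit [Group Γ] in
theorem JSp.vertex_apply (i : Fin 3) (g : Γ) (j : Fin 3) (h : Γ) :
    (JSp.vertex i g).1 j h = open Classical in if j = i ∧ h = g then 1 else 0 := rfl

theorem JSp.base_mem_low : (JSp.base : JSp Γ) ∈ JSp.low Γ := by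
  intro g
  rw [JSp.base, JSp.vertex_apply, if_neg]
  rintro ⟨h, -⟩
  exact absurd h (by decide)

theorem JSp.mem_low_of_proj_eq {y y' : JSp Γ} (h : JSp.proj y = JSp.proj y')
    (hy : y ∈ JSp.low Γ) : y' ∈ JSp.low Γ := by
  obtain ⟨g, rfl⟩ := JSp.isQuotientCoveringMap.apply_eq_iff_mem_orbit.1 h
  intro a
  have := hy (g * a)
  rw [JSp.smul_apply] at this
  simpa using this

/-- an "edge" from `base` to `g • base` inside `low` -/
theorem JSp.exists_edge (g : Γ) : ∃ η : C(Dsk 1, JSp Γ),
    η Dsk.left = JSp.base ∧ η Dsk.right = g • JSp.base ∧ ∀ x, η x ∈ JSp.low Γ := by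
  classical
  -- the entries of the edge at the parameter `s ∈ [-1, 1]`
  let F : ℝ → Fin 3 → Γ → ℝ := fun s => ![
    fun h => (if h = 1 then max (-s) 0 else 0) + (if h = g then max s 0 else 0),
    fun h => if h = 1 then 1 - |s| else 0,
    fun _ => 0]
  have hF0 : ∀ s h, F s 0 h = (if h = 1 then max (-s) 0 else 0) + (if h = g then max s 0 else 0) :=
    fun _ _ => rfl
  have hF1 : ∀ s h, F s 1 h = if h = 1 then 1 - |s| else 0 := fun _ _ => rfl
  have hF2 : ∀ s h, F s 2 h = 0 := fun _ _ => rfl
  have hFne : ∀ s, F s ≠ 0 := by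
    intro s h0
    have h1 : F s 1 1 = 0 := by rw [h0]; rfl
    rw [hF1, if_pos rfl] at h1
    have h2 : |s| = 1 := by linarith
    rcases (abs_eq zero_le_one).1 h2 with rfl | rfl
    · have h3 : F 1 0 g = 0 := by rw [h0]; rfl
      rw [hF0, if_pos rfl] at h3
      split_ifs at h3 <;> norm_num at h3
    · have h3 : F (-1) 0 1 = 0 := by rw [h0]; rfl
      rw [hF0, if_pos rfl] at h3
      split_ifs at h3 <;> norm_num at h3
  have hFuniq : ∀ s (i : Fin 3) (a b : Γ), F s i a ≠ 0 → F s i b ≠ 0 → a = b := by
    intro s i a b ha hb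
    fin_cases i
    · change F s 0 a ≠ 0 at ha
      change F s 0 b ≠ 0 at hb
      rw [hF0] at ha hb
      rcases le_total s 0 with hs | hs
      · rw [max_eq_right hs] at ha hb
        have ha' : a = 1 := by by_contra hc; simp [hc] at ha
        have hb' : b = 1 := by by_contra hc; simp [hc] at hb
        rw [ha', hb']
      · rw [max_eq_right (neg_nonpos.2 hs)] at ha hb
        have ha' : a = g := by by_contra hc; simp [hc] at ha
        have hb' : b = g := by by_contra hc; simp [hc] at hb
        rw [ha', hb']
    · change F s 1 a ≠ 0 at ha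
      change F s 1 b ≠ 0 at hb
      rw [hF1] at ha hb
      have ha' : a = 1 := by by_contra hc; simp [hc] at ha
      have hb' : b = 1 := by by_contra hc; simp [hc] at hb
      rw [ha', hb']
    · exact absurd (hF2 s a) ha
  have hFcont : ∀ (i : Fin 3) (h : Γ), Continuous fun s => F s i h := by
    intro i h
    fin_cases i
    · change Continuous fun s => F s 0 h
      simp only [hF0]
      split_ifs <;> fun_prop
    · change Continuous fun s => F s 1 h
      simp only [hF1]
      split_ifs <;> fun_prop
    · exact continuous_const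
  have hcoord : Continuous fun x : Dsk 1 => x.1 0 :=
    (continuous_apply 0).comp continuous_subtype_val
  refine ⟨⟨fun x => ⟨F (x.1 0), hFne _, hFuniq _⟩,
    JSp.continuous_iff.2 fun i h => (hFcont i h).comp hcoord⟩, ?_, ?_, ?_⟩
  · apply Subtype.ext
    funext i h
    change F (-1) i h = (JSp.vertex 0 1).1 i h
    rw [JSp.vertex_apply]
    fin_cases i
    · change F (-1) 0 h = _
      rw [hF0]
      by_cases h1 : h = 1 <;> simp [h1]
    · change F (-1) 1 h = _
      rw [hF1]
      simp
    · change F (-1) 2 h = _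
      rw [hF2]
      simp
  · apply Subtype.ext
    funext i h
    change F 1 i h = (JSp.vertex 0 1).1 i (g⁻¹ * h)
    rw [JSp.vertex_apply]
    have hg : g⁻¹ * h = 1 ↔ h = g := by
      rw [inv_mul_eq_one, eq_comm]
    fin_cases i
    · change F 1 0 h = _
      rw [hF0]
      by_cases h1 : h = g <;> simp [h1, hg]
    · change F 1 1 h = _
      rw [hF1]
      simp
    · change F 1 2 h = _
      rw [hF2]
      simp
  · intro x h
    exact hF2 (x.1 0) h

/-- `low` can be coned off in `JSp Γ`. -/
theorem JSp.exists_cone : ∃ (C : C(JSp.low Γ × I, JSp Γ)) (apex : JSp Γ),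
    (∀ j, C (j, 1) = j.1) ∧ ∀ j, C (j, 0) = apex := by
  classical
  let F : JSp.low Γ × I → Fin 3 → Γ → ℝ := fun x i h =>
    (x.2 : ℝ) * x.1.1.1 i h + (1 - (x.2 : ℝ)) * (JSp.vertex 2 (1 : Γ)).1 i h
  have hF : ∀ x i h, F x i h =
      (x.2 : ℝ) * x.1.1.1 i h + (1 - (x.2 : ℝ)) * (if i = 2 ∧ h = 1 then 1 else 0) :=
    fun _ _ _ => rfl
  have hFne : ∀ x, F x ≠ 0 := by
    intro x h0
    have h1 : F x 2 1 = 0 := by rw [h0]; rfl
    rw [hF, x.1.2 1] at h1
    simp only [mul_zero, and_self, if_true, mul_one, zero_add] at h1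
    have h2 : (x.2 : ℝ) = 1 := by linarith
    apply x.1.1.2.1
    funext i h
    have h3 : F x i h = 0 := by rw [h0]; rfl
    rw [hF, h2] at h3
    simpa using h3
  have hFuniq : ∀ x (i : Fin 3) (a b : Γ), F x i a ≠ 0 → F x i b ≠ 0 → a = b := by
    intro x i a b ha hb
    rw [hF] at ha hb
    by_cases hi : i = 2
    · subst hi
      rw [x.1.2] at ha hb
      have ha' : a = 1 := by by_contra hc; simp [hc] at ha
      have hb' : b = 1 := by by_contra hc; simp [hc] at hb
      rw [ha', hb']
    · simp only [hi, false_and, if_false, mul_zero, add_zero] at ha hb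
      exact x.1.1.2.2 i a b (right_ne_zero_of_mul ha) (right_ne_zero_of_mul hb)
  have hcont : Continuous fun x : JSp.low Γ × I => (⟨F x, hFne x, hFuniq x⟩ : JSp Γ) := by
    refine JSp.continuous_iff.2 fun i h => ?_
    change Continuous fun x : JSp.low Γ × I => F x i h
    have h1 : Continuous fun x : JSp.low Γ × I => x.1.1.1 i h :=
      (JSp.continuous_iff.1 continuous_id i h).comp (continuous_subtype_val.comp continuous_fst)
    have h2 : Continuous fun x : JSp.low Γ × I => (x.2 : ℝ) :=
      continuous_subtype_val.comp continuous_snd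
    exact (h2.mul h1).add ((continuous_const.sub h2).mul continuous_const)
  refine ⟨⟨_, hcont⟩, JSp.vertex 2 1, ?_, ?_⟩
  · intro j
    apply Subtype.ext
    funext i h
    change F (j, 1) i h = j.1.1 i h
    simp [F]
  · intro j
    apply Subtype.ext
    funext i h
    change F (j, 0) i h = (JSp.vertex 2 1).1 i h
    simp [F]

end Claimed.Open.R321
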