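import Claimed.Open.R321.PBReal

/-!
# R321, PropB, leaf B8: monodromy of edge paths in a covering with group `Γ`
-/

set_option autoImplicit false

namespace Claimed.Open.R321

open Topology unitInterval

variable {Z : Type} [TopologicalSpace Z] {A : Set Z} {E : Type}

/-- the monodromy of `q.symm` undoes the monodromy of `q` -/
theorem pb_monodromy_symm_apply {J K : Type} [TopologicalSpace J] [TopologicalSpace K] {p : J → K}
    (cov : IsCoveringMap p) {a b : K} (q : Path.Homotopic.Quotient a b) (x : p ⁻¹' {a}) :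
    cov.monodromy q.symm (cov.monodromy q x) = x := by
  rw [← cov.monodromy_trans_apply, Path.Homotopic.Quotient.trans_symm, cov.monodromy_refl]
  rfl

/-- the monodromy of `q` undoes the monodromy of `q.symm` -/
theorem pb_monodromy_apply_symm {J K : Type} [TopologicalSpace J] [TopologicalSpace K] {p : J → K}
    (cov : IsCoveringMap p) {a b : K} (q : Path.Homotopic.Quotient a b) (y : p ⁻¹' {b}) :
    cov.monodromy q (cov.monodromy q.symm y) = y := by
  rw [← cov.monodromy_trans_apply, Path.Homotopic.Quotient.symm_trans, cov.monodromy_refl]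
  rfl

/-- **Monodromy of an edge path.**  `p : J → K` a covering with group `Γ`, `o : J`; `φ1 : Z → K` maps all
vertices to `p o` and the edge `e` to the image of a path `η e` from `o` to `π (of e) • o`.  Then the lift of
`φ1 ∘ q`, `q` spelled by `w`, starting at `g • o` ends at `(g * π w) • o`. -/
theorem pb_mono_real {c : CellAttach Z A 1 E} {Γ J K : Type} [Group Γ] [TopologicalSpace J]
    [TopologicalSpace K] [MulAction Γ J] {p : J → K} (hp : IsQuotientCoveringMap p Γ) (o : J)
    (π : FreeGroup E →* Γ) (φ1 : C(Z, K)) (hφA : ∀ a ∈ A, φ1 a = p o)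
    (η : E → C(Dsk 1, J)) (hη0 : ∀ e, η e Dsk.left = o)
    (hη1 : ∀ e, η e Dsk.right = π (FreeGroup.of e) • o)
    (hη : ∀ e x, p (η e x) = φ1 (c.Φ e x))
    {a b : Z} {w : FreeGroup E} {q : Path.Homotopic.Quotient a b} (h : PBReal c w q)
    (g : Γ) (x : p ⁻¹' {φ1 a}) (hx : x.1 = g • o) :
    (hp.isCoveringMap.monodromy (q.map φ1) x).1 = (g * π w) • o := by
  induction h generalizing g with
  | refl a ha =>
    rw [pbq_map_refl, hp.isCoveringMap.monodromy_refl, map_one, mul_one]
    exact hx
  | edge e =>
    obtain ⟨x, hxm⟩ := x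
    obtain rfl : x = g • o := hx
    let sg : Path Dsk.left Dsk.right := PathConnectedSpace.somePath Dsk.left Dsk.right
    let gη : C(Dsk 1, J) :=
      ⟨fun y => g • η e y, (hp.toContinuousConstSMul.continuous_const_smul g).comp (η e).continuous⟩
    have h0 : g • o = gη Dsk.left := by
      show g • o = g • η e Dsk.left
      rw [hη0]
    have h1 : (g * π (FreeGroup.of e)) • o = gη Dsk.right := by
      show _ = g • η e Dsk.right
      rw [hη1, mul_smul]
    have hym : (g * π (FreeGroup.of e)) • o ∈ p ⁻¹' {φ1 (c.Φ e Dsk.right)} := by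
      show p _ = _
      rw [h1]
      show p (g • η e Dsk.right) = _
      rw [hp.map_smul, hη]
    have key := hp.isCoveringMap.monodromy_eq_of_map_eq (γ := (c.edge e).map φ1)
      (ex := ⟨g • o, hxm⟩) (ey := ⟨(g * π (FreeGroup.of e)) • o, hym⟩)
      (((Path.Homotopic.Quotient.mk sg).map gη).cast h0 h1) (by
        show _ = ((((Path.Homotopic.Quotient.mk sg).map (c.Φ e)).map φ1).cast _ _)
        simp only [← Path.Homotopic.Quotient.mk_map, ← Path.Homotopic.Quotient.mk_cast]
        congr 1
        ext t
        show p (g • η e (sg t)) = φ1 (c.Φ e (sg t))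
        rw [hp.map_smul, hη])
    rw [key]
  | @symm a b w q h ih =>
    have hy : (g * (π w)⁻¹) • o ∈ p ⁻¹' {φ1 a} := by
      show p _ = _
      rw [hp.map_smul, hφA a h.mem.1]
    have h1 := ih (g * (π w)⁻¹) ⟨_, hy⟩ rfl
    rw [inv_mul_cancel_right, ← hx] at h1
    have h2 : hp.isCoveringMap.monodromy (q.map φ1) ⟨_, hy⟩ = x := Subtype.ext h1
    rw [pbq_map_symm, ← h2, pb_monodromy_symm_apply, map_inv]
  | @trans a b d w w' q q' h h' ih ih' =>
    rw [pbq_map_trans, hp.isCoveringMap.monodromy_trans_apply, map_mul, ← mul_assoc]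
    exact ih' _ _ (ih g x hx)

/-- If the monodromy of a conjugate of a loop is trivial, so is the monodromy of the loop. -/
theorem pb_monodromy_conj {J K : Type} [TopologicalSpace J] [TopologicalSpace K] {p : J → K}
    (cov : IsCoveringMap p) {a b : K} (q0 : Path.Homotopic.Quotient a b)
    (l : Path.Homotopic.Quotient b b)
    (h : ∀ x, cov.monodromy (q0.trans (l.trans q0.symm)) x = x) (y : p ⁻¹' {b}) :
    cov.monodromy l y = y := by
  have h1 := h (cov.monodromy q0.symm y)
  rw [cov.monodromy_trans_apply, cov.monodromy_trans_apply, pb_monodromy_apply_symm] at h1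
  have h2 := congrArg (cov.monodromy q0) h1
  rwa [pb_monodromy_apply_symm, pb_monodromy_apply_symm] at h2

end Claimed.Open.R321
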