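import Claimed.Open.R321.PBDefs

/-!
# R321, PropB, leaf B3: the boundary loop of the square `Dsk 2 = [-1,1]²` and polar coordinates

`sqLoop` runs once around the boundary of the square, starting at the corner `(1,1)`:
`(1,1) → (-1,1) → (-1,-1) → (1,-1) → (1,1)`.  The map `(s, r) ↦ r • sqLoop s` from `I × I` onto the
square is a quotient map which identifies only `(0,r) ∼ (1,r)` and `(s,0) ∼ (s',0)`.
-/

set_option autoImplicit false

namespace Claimed.Open.R321

open Topology unitInterval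

/-- scaling in the disk -/
def Dsk.scale {n : ℕ} (r : I) (x : Dsk n) : Dsk n :=
  ⟨(r : ℝ) • x.1, by
    rw [mem_closedBall_zero_iff, norm_smul, Real.norm_eq_abs, abs_of_nonneg r.2.1]
    exact mul_le_one₀ r.2.2 (norm_nonneg _) (Dsk.norm_le_one x)⟩

/-- the piecewise linear parametrisation of the boundary of the square -/
def sqFun (s : ℝ) : Fin 2 → ℝ :=
  ![max (-1) (min 1 (|8 * s - 3| - 2)), max (-1) (min 1 (|8 * s - 5| - 2))]

theorem sqFun_apply_zero (s : ℝ) : sqFun s 0 = max (-1) (min 1 (|8 * s - 3| - 2)) := rfl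

theorem sqFun_apply_one (s : ℝ) : sqFun s 1 = max (-1) (min 1 (|8 * s - 5| - 2)) := rfl

/-- the top side, from `(1,1)` to `(-1,1)` -/
theorem sqFun_side1 {s : ℝ} (h1 : s ≤ 1 / 4) (h0 : 0 ≤ s) :
    sqFun s 0 = 1 - 8 * s ∧ sqFun s 1 = 1 := by
  constructor
  · rw [sqFun_apply_zero, abs_of_nonpos (by linarith), min_eq_right (by linarith),
      max_eq_right (by linarith)]
    ring
  · rw [sqFun_apply_one, abs_of_nonpos (by linarith), min_eq_left (by linarith),
      max_eq_right (by linarith)]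

/-- the left side, from `(-1,1)` to `(-1,-1)` -/
theorem sqFun_side2 {s : ℝ} (h0 : 1 / 4 ≤ s) (h1 : s ≤ 1 / 2) :
    sqFun s 0 = -1 ∧ sqFun s 1 = 3 - 8 * s := by
  constructor
  · have h : |8 * s - 3| ≤ 1 := abs_le.2 ⟨by linarith, by linarith⟩
    rw [sqFun_apply_zero, min_eq_right (by linarith), max_eq_left (by linarith)]
  · rw [sqFun_apply_one, abs_of_nonpos (by linarith), min_eq_right (by linarith),
      max_eq_right (by linarith)]
    ring

/-- the bottom side, from `(-1,-1)` to `(1,-1)` -/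
theorem sqFun_side3 {s : ℝ} (h0 : 1 / 2 ≤ s) (h1 : s ≤ 3 / 4) :
    sqFun s 0 = 8 * s - 5 ∧ sqFun s 1 = -1 := by
  constructor
  · rw [sqFun_apply_zero, abs_of_nonneg (by linarith), min_eq_right (by linarith),
      max_eq_right (by linarith)]
    ring
  · have h : |8 * s - 5| ≤ 1 := abs_le.2 ⟨by linarith, by linarith⟩
    rw [sqFun_apply_one, min_eq_right (by linarith), max_eq_left (by linarith)]

/-- the right side, from `(1,-1)` to `(1,1)` -/
theorem sqFun_side4 {s : ℝ} (h0 : 3 / 4 ≤ s) (h1 : s ≤ 1) :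
    sqFun s 0 = 1 ∧ sqFun s 1 = 8 * s - 7 := by
  constructor
  · rw [sqFun_apply_zero, abs_of_nonneg (by linarith), min_eq_left (by linarith),
      max_eq_right (by linarith)]
  · rw [sqFun_apply_one, abs_of_nonneg (by linarith), min_eq_right (by linarith),
      max_eq_right (by linarith)]
    ring

/-- the four sides -/
theorem sqFun_cases {s : ℝ} (h0 : 0 ≤ s) (h1 : s ≤ 1) :
    (s ≤ 1 / 4 ∧ sqFun s 0 = 1 - 8 * s ∧ sqFun s 1 = 1) ∨
    (1 / 4 ≤ s ∧ s ≤ 1 / 2 ∧ sqFun s 0 = -1 ∧ sqFun s 1 = 3 - 8 * s) ∨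
    (1 / 2 ≤ s ∧ s ≤ 3 / 4 ∧ sqFun s 0 = 8 * s - 5 ∧ sqFun s 1 = -1) ∨
    (3 / 4 ≤ s ∧ sqFun s 0 = 1 ∧ sqFun s 1 = 8 * s - 7) := by
  rcases le_total s (1 / 4) with h | h
  · exact Or.inl ⟨h, sqFun_side1 h h0⟩
  rcases le_total s (1 / 2) with h' | h'
  · exact Or.inr (Or.inl ⟨h, h', sqFun_side2 h h'⟩)
  rcases le_total s (3 / 4) with h'' | h''
  · exact Or.inr (Or.inr (Or.inl ⟨h', h'', sqFun_side3 h' h''⟩))
  · exact Or.inr (Or.inr (Or.inr ⟨h'', sqFun_side4 h'' h1⟩))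

theorem sq_norm_eq_one {u : Fin 2 → ℝ} (h0 : |u 0| ≤ 1) (h1 : |u 1| ≤ 1)
    (h : |u 0| = 1 ∨ |u 1| = 1) : ‖u‖ = 1 := by
  apply le_antisymm
  · rw [pi_norm_le_iff_of_nonneg zero_le_one]
    intro i
    fin_cases i
    · exact h0
    · exact h1
  · rcases h with h | h
    · rw [← h]; exact norm_le_pi_norm u 0
    · rw [← h]; exact norm_le_pi_norm u 1

theorem sqFun_norm {s : ℝ} (h0 : 0 ≤ s) (h1 : s ≤ 1) : ‖sqFun s‖ = 1 := by
  rcases sqFun_cases h0 h1 with ⟨h, e0, e1⟩ | ⟨h, h', e0, e1⟩ | ⟨h, h', e0, e1⟩ | ⟨h, e0, e1⟩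
  · exact sq_norm_eq_one (by rw [e0, abs_le]; constructor <;> linarith) (by rw [e1]; simp)
      (Or.inr (by rw [e1]; simp))
  · exact sq_norm_eq_one (by rw [e0]; simp) (by rw [e1, abs_le]; constructor <;> linarith)
      (Or.inl (by rw [e0]; simp))
  · exact sq_norm_eq_one (by rw [e0, abs_le]; constructor <;> linarith) (by rw [e1]; simp)
      (Or.inr (by rw [e1]; simp))
  · exact sq_norm_eq_one (by rw [e0]; simp) (by rw [e1, abs_le]; constructor <;> linarith)
      (Or.inl (by rw [e0]; simp))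

/-- `sqFun` is injective on `[0,1]` up to `0 ∼ 1`. -/
theorem sqFun_inj {s s' : ℝ} (h0 : 0 ≤ s) (h1 : s ≤ 1) (h0' : 0 ≤ s') (h1' : s' ≤ 1)
    (h : sqFun s = sqFun s') : s = s' ∨ (s = 0 ∧ s' = 1) ∨ (s = 1 ∧ s' = 0) := by
  have ha : sqFun s 0 = sqFun s' 0 := by rw [h]
  have hb : sqFun s 1 = sqFun s' 1 := by rw [h]
  rcases sqFun_cases h0 h1 with ⟨k, e0, e1⟩ | ⟨k, k', e0, e1⟩ | ⟨k, k', e0, e1⟩ | ⟨k, e0, e1⟩ <;>
  rcases sqFun_cases h0' h1' with ⟨l, f0, f1⟩ | ⟨l, l', f0, f1⟩ | ⟨l, l', f0, f1⟩ | ⟨l, f0, f1⟩ <;>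
  rw [e0, f0] at ha <;> rw [e1, f1] at hb <;>
  first
    | (left; linarith)
    | (right; left; constructor <;> linarith)
    | (right; right; constructor <;> linarith)

/-- `sqFun` maps `[0,1]` onto the unit sphere of the sup norm. -/
theorem sqFun_surj {u : Fin 2 → ℝ} (hu : ‖u‖ = 1) : ∃ s : ℝ, 0 ≤ s ∧ s ≤ 1 ∧ sqFun s = u := by
  have h0 : |u 0| ≤ 1 := by rw [← hu]; exact norm_le_pi_norm u 0
  have h1 : |u 1| ≤ 1 := by rw [← hu]; exact norm_le_pi_norm u 1
  rw [abs_le] at h0 h1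
  have hex : u 1 = 1 ∨ u 0 = -1 ∨ u 1 = -1 ∨ u 0 = 1 := by
    by_contra hcon
    push Not at hcon
    obtain ⟨c1, c2, c3, c4⟩ := hcon
    have hlt : ‖u‖ < 1 := by
      rw [pi_norm_lt_iff zero_lt_one]
      intro i
      fin_cases i
      · exact abs_lt.2 ⟨lt_of_le_of_ne h0.1 (Ne.symm c2), lt_of_le_of_ne h0.2 c4⟩
      · exact abs_lt.2 ⟨lt_of_le_of_ne h1.1 (Ne.symm c3), lt_of_le_of_ne h1.2 c1⟩
    rw [hu] at hlt
    exact lt_irrefl _ hlt
  have hext : ∀ s : ℝ, sqFun s 0 = u 0 → sqFun s 1 = u 1 → sqFun s = u := by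
    intro s e0 e1
    funext i
    fin_cases i
    · exact e0
    · exact e1
  rcases hex with h | h | h | h
  · obtain ⟨e0, e1⟩ := sqFun_side1 (s := (1 - u 0) / 8) (by linarith) (by linarith)
    exact ⟨(1 - u 0) / 8, by linarith, by linarith, hext _ (by rw [e0]; ring) (by rw [e1, h])⟩
  · obtain ⟨e0, e1⟩ := sqFun_side2 (s := (3 - u 1) / 8) (by linarith) (by linarith)
    exact ⟨(3 - u 1) / 8, by linarith, by linarith, hext _ (by rw [e0, h]) (by rw [e1]; ring)⟩
  · obtain ⟨e0, e1⟩ := sqFun_side3 (s := (5 + u 0) / 8) (by linarith) (by linarith)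
    exact ⟨(5 + u 0) / 8, by linarith, by linarith, hext _ (by rw [e0]; ring) (by rw [e1, h])⟩
  · obtain ⟨e0, e1⟩ := sqFun_side4 (s := (7 + u 1) / 8) (by linarith) (by linarith)
    exact ⟨(7 + u 1) / 8, by linarith, by linarith, hext _ (by rw [e0, h]) (by rw [e1]; ring)⟩

/-- the corner `(1,1)` -/
def sqBase : Dsk 2 := ⟨![1, 1], by
  rw [mem_closedBall_zero_iff, pi_norm_le_iff_of_nonneg zero_le_one]
  intro i; fin_cases i <;> simp⟩

/-- the boundary loop of the square -/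
def sqLoop : Path sqBase sqBase where
  toFun s := ⟨sqFun s, by rw [mem_closedBall_zero_iff, sqFun_norm s.2.1 s.2.2]⟩
  continuous_toFun := by
    apply Continuous.subtype_mk
    unfold sqFun
    apply continuous_pi
    intro i
    fin_cases i <;> simp <;> fun_prop
  source' := by
    apply Subtype.ext
    funext i
    fin_cases i <;> simp [sqFun, sqBase] <;> norm_num
  target' := by
    apply Subtype.ext
    funext i
    fin_cases i <;> simp [sqFun, sqBase] <;> norm_num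

theorem sqLoop_norm (s : I) : ‖(sqLoop s).1‖ = 1 := sqFun_norm s.2.1 s.2.2

/-- **Polar coordinates on the square.** -/
theorem sq_exists_desc {W : Type} [TopologicalSpace W] (g : C(I × I, W))
    (h0 : ∀ s s' : I, g (s, 0) = g (s', 0)) (h1 : ∀ r : I, g (0, r) = g (1, r)) :
    ∃ G : C(Dsk 2, W), ∀ s r : I, G (Dsk.scale r (sqLoop s)) = g (s, r) := by
  let q : C(I × I, Dsk 2) := ⟨fun x => Dsk.scale x.2 (sqLoop x.1), by
    apply Continuous.subtype_mk
    exact (continuous_subtype_val.comp continuous_snd).smul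
      (continuous_subtype_val.comp (sqLoop.continuous.comp continuous_fst))⟩
  have hqval : ∀ x : I × I, (q x).1 = (x.2 : ℝ) • sqFun x.1 := fun _ => rfl
  have hqnorm : ∀ x : I × I, ‖(q x).1‖ = x.2 := by
    intro x
    rw [hqval, norm_smul, sqFun_norm x.1.2.1 x.1.2.2, mul_one, Real.norm_eq_abs,
      abs_of_nonneg x.2.2.1]
  have hsurj : Function.Surjective q := by
    intro z
    by_cases hz : z.1 = 0
    · refine ⟨(0, 0), Subtype.ext ?_⟩
      rw [hqval, hz]
      simp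
    · have hpos : 0 < ‖z.1‖ := norm_pos_iff.2 hz
      obtain ⟨s, hs0, hs1, hs⟩ := sqFun_surj (u := ‖z.1‖⁻¹ • z.1) (by
        rw [norm_smul, norm_inv, norm_norm, inv_mul_cancel₀ hpos.ne'])
      refine ⟨(⟨s, hs0, hs1⟩, ⟨‖z.1‖, hpos.le, Dsk.norm_le_one z⟩), Subtype.ext ?_⟩
      rw [hqval]
      change ‖z.1‖ • sqFun s = z.1
      rw [hs, smul_smul, mul_inv_cancel₀ hpos.ne', one_smul]
  have hquot : IsQuotientMap q := (q.continuous.isClosedMap).isQuotientMap q.continuous hsurj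
  have hfac : Function.FactorsThrough g q := by
    rintro ⟨s, r⟩ ⟨s', r'⟩ hqq
    have hr : r = r' := by
      apply Subtype.ext
      rw [← hqnorm (s, r), ← hqnorm (s', r'), hqq]
    subst hr
    by_cases hr0 : r = 0
    · subst hr0
      exact h0 s s'
    · have hr0' : (r : ℝ) ≠ 0 := fun h => hr0 (Subtype.ext h)
      have h2 : (r : ℝ) • sqFun s = (r : ℝ) • sqFun s' := by
        rw [← hqval (s, r), ← hqval (s', r), hqq]
      have h3 : sqFun s = sqFun s' := smul_right_injective _ hr0' h2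
      rcases sqFun_inj s.2.1 s.2.2 s'.2.1 s'.2.2 h3 with h | ⟨h, h'⟩ | ⟨h, h'⟩
      · rw [Subtype.ext h]
      · have e : s = 0 := Subtype.ext h
        have e' : s' = 1 := Subtype.ext h'
        rw [e, e']
        exact h1 r
      · have e : s = 1 := Subtype.ext h
        have e' : s' = 0 := Subtype.ext h'
        rw [e, e']
        exact (h1 r).symm
  refine ⟨hquot.lift g hfac, fun s r => ?_⟩
  exact congrArg (fun f : C(I × I, W) => f (s, r)) (hquot.lift_comp g hfac)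

end Claimed.Open.R321
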