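import Claimed.Open.R321.PBJoin
import Claimed.Open.R321.PBSquare

/-!
# R321, PropB, leaf B9: the classifying map `Y → KSp Γ`
-/

set_option autoImplicit false

namespace Claimed.Open.R321

open Topology unitInterval

/-- the projection `JSp Γ → KSp Γ` as a continuous map -/
def JSp.projC (Γ : Type) [Group Γ] : C(JSp Γ, KSp Γ) :=
  ⟨JSp.proj, (JSp.isQuotientCoveringMap (Γ := Γ)).isCoveringMap.continuous⟩

theorem JSp.proj_smul {Γ : Type} [Group Γ] (g : Γ) (y : JSp Γ) :
    JSp.proj (g • y) = JSp.proj y :=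
  JSp.isQuotientCoveringMap.apply_eq_iff_mem_orbit.2 ⟨g, rfl⟩

/-- **The classifying map on the graph.** -/
theorem pb_exists_phi1 {Z : Type} [TopologicalSpace Z] [T2Space Z] {A : Set Z} {E : Type} [Finite E]
    (hA : A.Finite) (c : CellAttach Z A 1 E) {Γ : Type} [Group Γ] (γ : E → Γ) :
    ∃ (φ1 : C(Z, KSp Γ)) (η : E → C(Dsk 1, JSp Γ)),
      (∀ a ∈ A, φ1 a = JSp.proj JSp.base) ∧
      (∀ e, η e Dsk.left = JSp.base) ∧ (∀ e, η e Dsk.right = γ e • JSp.base) ∧
      (∀ e x, JSp.proj (η e x) = φ1 (c.Φ e x)) ∧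
      ∀ z, ∃ j ∈ JSp.low Γ, JSp.proj j = φ1 z := by
  choose η hl hr hlow using fun e => JSp.exists_edge (γ e)
  obtain ⟨φ1, h1, h2⟩ := c.exists_desc' hA.isClosed
    (ContinuousMap.const A (JSp.proj (JSp.base : JSp Γ)))
    (fun e => (JSp.projC Γ).comp (η e)) (by
      intro e x hx
      rcases Dsk.eq_left_or_right x hx with rfl | rfl
      · change JSp.proj (η e Dsk.left) = JSp.proj JSp.base
        rw [hl]
      · change JSp.proj (η e Dsk.right) = JSp.proj JSp.base
        rw [hr, JSp.proj_smul])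
  refine ⟨φ1, η, fun a ha => h1 ⟨a, ha⟩, hl, hr, fun e x => (h2 e x).symm, fun z => ?_⟩
  rcases c.cover z with hz | ⟨e, x, rfl⟩
  · exact ⟨JSp.base, JSp.base_mem_low, (h1 ⟨z, hz⟩).symm⟩
  · exact ⟨η e x, hlow e x, (h2 e x).symm⟩

variable {Y : Type} [TopologicalSpace Y] {A1 : Set Y} {F : Type}

/-- the base point of the attaching loop of a 2-cell -/
def CellAttach.bdBase (c2 : CellAttach Y A1 2 F) (f : F) : A1 :=
  ⟨c2.Φ f sqBase, c2.sphere_mem f _ (by simpa using sqLoop_norm 0)⟩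

/-- the attaching loop of a 2-cell, as a loop of `A1` -/
def CellAttach.bdLoop (c2 : CellAttach Y A1 2 F) (f : F) : Path (c2.bdBase f) (c2.bdBase f) where
  toFun s := ⟨c2.Φ f (sqLoop s), c2.sphere_mem f _ (sqLoop_norm s)⟩
  continuous_toFun := by fun_prop
  source' := by simp [CellAttach.bdBase]
  target' := by simp [CellAttach.bdBase]

/-- the attaching loops are null-homotopic in `Y` -/
theorem CellAttach.bdLoop_map (c2 : CellAttach Y A1 2 F) (f : F) :
    (Path.Homotopic.Quotient.mk (c2.bdLoop f)).map ⟨Subtype.val, continuous_subtype_val⟩ =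
      Path.Homotopic.Quotient.refl (c2.bdBase f).1 := by
  have h1 : (Path.Homotopic.Quotient.mk (c2.bdLoop f)).map ⟨Subtype.val, continuous_subtype_val⟩ =
      (Path.Homotopic.Quotient.mk sqLoop).map (c2.Φ f) := rfl
  rw [h1, Dsk.quotient_eq (Path.Homotopic.Quotient.mk sqLoop) (Path.Homotopic.Quotient.refl _),
    pbq_map_refl]
  rfl

/-- **Extension of the classifying map over the 2-cells**: possible as soon as the attaching loops have
trivial monodromy. -/
theorem pb_exists_phi [T2Space Y] [Finite F] (hA1 : IsClosed A1) (c2 : CellAttach Y A1 2 F)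
    {Γ : Type} [Group Γ] (φ1 : C(A1, KSp Γ)) (hlow : ∀ z, ∃ j ∈ JSp.low Γ, JSp.proj j = φ1 z)
    (hclosed : ∀ (f : F) (y : JSp.proj ⁻¹' {φ1 (c2.bdBase f)}),
      (JSp.isQuotientCoveringMap (Γ := Γ)).isCoveringMap.monodromy
        ((Path.Homotopic.Quotient.mk (c2.bdLoop f)).map φ1) y = y) :
    ∃ φ : C(Y, KSp Γ), ∀ a : A1, φ a.1 = φ1 a := by
  have cov := (JSp.isQuotientCoveringMap (Γ := Γ)).isCoveringMap
  obtain ⟨C, apex, hC1, hC0⟩ := JSp.exists_cone (Γ := Γ)
  -- the extension over one cell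
  have hcell : ∀ f : F, ∃ G : C(Dsk 2, JSp Γ), ∀ s : I,
      JSp.proj (G (sqLoop s)) = φ1 (c2.bdLoop f s) := by
    intro f
    obtain ⟨y0, hy0, hpy0⟩ := hlow (c2.bdBase f)
    let lam : Path (φ1 (c2.bdBase f)) (φ1 (c2.bdBase f)) := (c2.bdLoop f).map φ1.continuous
    have hlam0 : lam 0 = JSp.proj y0 := by rw [lam.source, hpy0]
    let L : C(I, JSp Γ) := cov.liftPath lam y0 hlam0
    have hL0 : L 0 = y0 := cov.liftPath_zero _ _ _
    have hLl : ∀ s, JSp.proj (L s) = φ1 (c2.bdLoop f s) := fun s =>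
      congr_fun (cov.liftPath_lifts lam y0 hlam0) s
    have hL1 : L 1 = y0 := by
      have := hclosed f ⟨y0, hpy0⟩
      exact congr_arg Subtype.val this
    have hLlow : ∀ s, L s ∈ JSp.low Γ := by
      intro s
      obtain ⟨j, hj, hpj⟩ := hlow (c2.bdLoop f s)
      exact JSp.mem_low_of_proj_eq (hpj.trans (hLl s).symm) hj
    let g : C(I × I, JSp Γ) := C.comp
      ⟨fun x => ((⟨L x.1, hLlow x.1⟩ : JSp.low Γ), x.2), by fun_prop⟩
    have hg : ∀ s r, g (s, r) = C (⟨L s, hLlow s⟩, r) := fun _ _ => rfl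
    obtain ⟨G, hG⟩ := sq_exists_desc g (by
      intro s s'
      rw [hg, hg, hC0, hC0]) (by
      intro r
      rw [hg, hg]
      congr 2
      exact Subtype.ext (hL0.trans hL1.symm))
    refine ⟨G, fun s => ?_⟩
    have h1 : Dsk.scale 1 (sqLoop s) = sqLoop s := Subtype.ext (by simp [Dsk.scale])
    rw [← h1, hG, hg, hC1]
    exact hLl s
  choose G hG using hcell
  obtain ⟨φ, h1, -⟩ := c2.exists_desc' hA1 φ1 (fun f => (JSp.projC Γ).comp (G f)) (by
    intro f x hx
    obtain ⟨s, hs0, hs1, hs⟩ := sqFun_surj hx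
    have hx' : x = sqLoop ⟨s, hs0, hs1⟩ := Subtype.ext hs.symm
    subst hx'
    exact hG f _)
  exact ⟨φ, h1⟩

end Claimed.Open.R321
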