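import Claimed.Open.R321.PBAlg
import Claimed.Open.R321.PBMono
import Claimed.Open.R321.PBPhi

/-!
# R321, PropB: presentation of `π₁` of a 2-complex given by two `CellAttach` structures
-/

set_option autoImplicit false

namespace Claimed.Open.R321

open Topology unitInterval MulOpposite

/-- homomorphisms out of a presented group -/
theorem pb_exists_lift {E G : Type} [Group G] (rels : Set (FreeGroup E)) (Φ : FreeGroup E →* G)
    (h : ∀ r ∈ rels, Φ r = 1) :
    ∃ Ψ : PresentedGroup rels →* G, ∀ w, Ψ (PresentedGroup.mk rels w) = Φ w :=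
  ⟨QuotientGroup.lift (Subgroup.normalClosure rels) Φ
    (fun _ hx => MonoidHom.mem_ker.1
      ((Subgroup.normalClosure_le_normal fun r hr => MonoidHom.mem_ker.2 (h r hr)) hx)),
    fun _ => rfl⟩

section

variable {Y : Type} [TopologicalSpace Y] [T2Space Y] [PathConnectedSpace Y]
    {A1 : Set Y} {F E : Type} [Finite F] [Finite E]

/-- the inclusion of the 1-skeleton -/
def pbIncl (A1 : Set Y) : C(A1, Y) := ⟨Subtype.val, continuous_subtype_val⟩

omit [PathConnectedSpace Y] [Finite F] [T2Space Y] in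
theorem pb_nonempty_A1 [Nonempty Y] (c2 : CellAttach Y A1 2 F) : Nonempty A1 := by
  obtain ⟨y⟩ := (inferInstance : Nonempty Y)
  rcases c2.cover y with hy | ⟨f, x, -⟩
  · exact ⟨⟨y, hy⟩⟩
  · obtain ⟨x0, hx0⟩ := Dsk.exists_norm_eq_one (n := 2) (by norm_num)
    exact ⟨⟨_, c2.sphere_mem f x0 hx0⟩⟩

theorem pb_pathConnected_A1 (hA1 : IsClosed A1) (c2 : CellAttach Y A1 2 F) :
    PathConnectedSpace A1 := by
  have := pb_nonempty_A1 c2
  refine ⟨this, fun a b => ?_⟩
  obtain ⟨q', -⟩ := c2.exists_path_in hA1 le_rfl (a := a) (b := b)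
    (Path.Homotopic.Quotient.mk (PathConnectedSpace.somePath a.1 b.1))
  obtain ⟨γ, -⟩ := Path.Homotopic.Quotient.mk_surjective q'
  exact ⟨γ⟩

/-- **Presentation of the fundamental group at a vertex.** -/
theorem pb_abstract_vertex (hA1 : IsClosed A1) (c2 : CellAttach Y A1 2 F) {A0 : Set A1}
    (hA0 : A0.Finite) (c1 : CellAttach A1 A0 1 E) {v0 : A1} (hv0 : v0 ∈ A0) :
    ∃ R : F ⊕ {a : A1 // a ∈ A0 ∧ a ≠ v0} → FreeGroup E,
      Nonempty (FundamentalGroup Y (pbIncl A1 v0) ≃* PresentedGroup (Set.range R)) := by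
  classical
  have := pb_pathConnected_A1 hA1 c2
  obtain ⟨t⟩ := pbTails_exists hA0 c1 hv0
  -- the relators
  have hw : ∀ f : F, ∃ w, PBReal c1 w ((t.tp (c2.bdBase f)).trans
      ((Path.Homotopic.Quotient.mk (c2.bdLoop f)).trans (t.tp (c2.bdBase f)).symm)) :=
    fun f => pbReal_exists hA0 c1 hv0 hv0 _
  choose w hw using hw
  let R : F ⊕ {a : A1 // a ∈ A0 ∧ a ≠ v0} → FreeGroup E := Sum.elim w (fun a => t.u a.1)
  refine ⟨R, ?_⟩
  let π : FreeGroup E →* PresentedGroup (Set.range R) := PresentedGroup.mk (Set.range R)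
  have hπw : ∀ f, π (w f) = 1 := fun f => PresentedGroup.one_of_mem ⟨Sum.inl f, rfl⟩
  have hπu : ∀ a ∈ A0, π (t.u a) = 1 := by
    intro a ha
    by_cases h : a = v0
    · rw [h, t.u_base, map_one]
    · exact PresentedGroup.one_of_mem ⟨Sum.inr ⟨a, ha, h⟩, rfl⟩
  -- the classifying map on the graph
  obtain ⟨φ1, η, hφA, hη0, hη1, hη, hlow⟩ :=
    pb_exists_phi1 hA0 c1 (fun e => π (FreeGroup.of e))
  have hp := JSp.isQuotientCoveringMap (Γ := PresentedGroup (Set.range R))
  have hmono : ∀ {a b : A1} {w' : FreeGroup E} {q : Path.Homotopic.Quotient a b},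
      PBReal c1 w' q → ∀ (g : PresentedGroup (Set.range R)) (x : JSp.proj ⁻¹' {φ1 a}),
      x.1 = g • JSp.base → (hp.isCoveringMap.monodromy (q.map φ1) x).1 = (g * π w') • JSp.base :=
    fun h g x hx => pb_mono_real hp JSp.base π φ1 hφA η hη0 hη1 hη h g x hx
  -- the attaching loops have trivial monodromy
  have hclosed : ∀ (f : F) (y : JSp.proj ⁻¹' {φ1 (c2.bdBase f)}),
      hp.isCoveringMap.monodromy ((Path.Homotopic.Quotient.mk (c2.bdLoop f)).map φ1) y = y := by
    intro f y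
    refine pb_monodromy_conj hp.isCoveringMap ((t.tp (c2.bdBase f)).map φ1) _ ?_ y
    intro x
    obtain ⟨g, hg⟩ := hp.apply_eq_iff_mem_orbit.mp (x.2.trans (hφA v0 hv0))
    have h1 := hmono (hw f) g x hg.symm
    rw [hπw, mul_one, pbq_map_trans, pbq_map_trans, pbq_map_symm] at h1
    exact Subtype.ext (h1.trans hg)
  -- the classifying map
  obtain ⟨φ, hφ⟩ := pb_exists_phi hA1 c2 φ1 hlow hclosed
  have hφ1 : φ.comp (pbIncl A1) = φ1 := ContinuousMap.ext hφ
  subst hφ1
  -- the two homomorphisms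
  let e0 : JSp.proj ⁻¹' {φ (pbIncl A1 v0)} := ⟨JSp.base, (hφA v0 hv0).symm⟩
  let Θ : FundamentalGroup Y (pbIncl A1 v0) →* (PresentedGroup (Set.range R))ᵐᵒᵖ :=
    (hp.fundamentalGroupToMulOpposite e0).comp (FundamentalGroup.map φ (pbIncl A1 v0))
  let ΨF : FreeGroup E →* (FundamentalGroup Y (pbIncl A1 v0))ᵐᵒᵖ :=
    (MonoidHom.op (FundamentalGroup.map (pbIncl A1) v0)).comp t.Psi
  have hΨreal : ∀ {w' : FreeGroup E} {q : Path.Homotopic.Quotient v0 v0}, PBReal c1 w' q →
      ΨF w' = op (FundamentalGroup.fromPath (q.map (pbIncl A1))) := by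
    intro w' q h
    change MonoidHom.op (FundamentalGroup.map (pbIncl A1) v0) (t.Psi w') = _
    rw [t.Psi_real h, t.conj_loop]
    rfl
  have hΨrel : ∀ r ∈ Set.range R, ΨF r = 1 := by
    rintro _ ⟨(f | a), rfl⟩
    · change ΨF (w f) = 1
      rw [hΨreal (hw f), pbq_map_trans, pbq_map_trans, pbq_map_symm]
      have : (Path.Homotopic.Quotient.mk (c2.bdLoop f)).map (pbIncl A1) =
          Path.Homotopic.Quotient.refl (pbIncl A1 (c2.bdBase f)) := c2.bdLoop_map f
      rw [this, Path.Homotopic.Quotient.refl_trans, Path.Homotopic.Quotient.trans_symm]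
      rfl
    · change (MonoidHom.op (FundamentalGroup.map (pbIncl A1) v0)) (t.Psi (t.u a.1)) = 1
      rw [t.Psi_u a.2.1, map_one]
  obtain ⟨Ψ, hΨ⟩ := pb_exists_lift (Set.range R) ΨF hΨrel
  refine pb_alg_iso (Set.range R) Ψ Θ ?_ ?_
  · -- surjectivity
    intro x
    obtain ⟨q', hq'⟩ := c2.exists_path_in hA1 le_rfl (a := v0) (b := v0)
      (FundamentalGroup.toPath x.unop)
    obtain ⟨w', hw'⟩ := pbReal_exists hA0 c1 hv0 hv0 q'
    refine ⟨PresentedGroup.mk _ w', ?_⟩
    rw [hΨ, hΨreal hw']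
    apply MulOpposite.unop_injective
    exact hq'
  · -- `Θ ∘ Ψ` is the identity on the generators
    intro e
    have hreal : PBReal c1 (t.u _ * (FreeGroup.of e * (t.u _)⁻¹))
        ((t.tp _).trans ((c1.edge e).trans (t.tp _).symm)) :=
      (t.real _ (PBReal.edge (c := c1) e).mem.1).trans
        ((PBReal.edge e).trans (t.real _ (PBReal.edge (c := c1) e).mem.2).symm)
    have h1 : Ψ (PresentedGroup.of e) = ΨF (FreeGroup.of e) := hΨ _
    have h2 : ΨF (FreeGroup.of e) = op (FundamentalGroup.fromPath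
        (((t.tp _).trans ((c1.edge e).trans (t.tp _).symm)).map (pbIncl A1))) := by
      change MonoidHom.op (FundamentalGroup.map (pbIncl A1) v0) (t.Psi (FreeGroup.of e)) = _
      rw [t.Psi_real (PBReal.edge e)]
      rfl
    rw [h1, h2]
    change hp.fundamentalGroupToMulOpposite e0 _ = _
    rw [hp.fundamentalGroupToMulOpposite_apply_eq_Iff]
    have h3 := hmono hreal 1 e0 (one_smul _ _).symm
    rw [one_mul, map_mul, map_mul, map_inv, hπu _ (PBReal.edge (c := c1) e).mem.1,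
      hπu _ (PBReal.edge (c := c1) e).mem.2, one_mul, inv_one, mul_one] at h3
    rw [Path.Homotopic.Quotient.map_comp] at h3
    exact h3.symm

end

/-- **Presentation of the fundamental group.**  `Y = A1 ∪ 2-cells (F)`, `A1 = A0 ∪ 1-cells (E)`, `A0`
finite: `π₁(Y)` has a presentation with `#E` generators and `#F + #A0 - 1` relators. -/
theorem pb_abstract {Y : Type} [TopologicalSpace Y] [T2Space Y] [PathConnectedSpace Y]
    {A1 : Set Y} (hA1 : IsClosed A1) {F E : Type} [Finite F] [Finite E]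
    (c2 : CellAttach Y A1 2 F) {A0 : Set A1} (hA0 : A0.Finite) (c1 : CellAttach A1 A0 1 E) (y : Y) :
    ∃ (n m : ℕ) (rels : Fin m → FreeGroup (Fin n)),
      Nonempty (FundamentalGroup Y y ≃* PresentedGroup (Set.range rels)) ∧
      n = Nat.card E ∧ m + 1 = Nat.card F + Nat.card A0 := by
  obtain ⟨z⟩ := pb_nonempty_A1 c2
  obtain ⟨v0, hv0⟩ : ∃ v0 : A1, v0 ∈ A0 := by
    rcases c1.cover z with hz | ⟨e, x, -⟩
    · exact ⟨z, hz⟩
    · exact ⟨_, (PBReal.edge (c := c1) e).mem.1⟩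
  obtain ⟨R, ⟨e1⟩⟩ := pb_abstract_vertex hA1 c2 hA0 c1 hv0
  have : Finite {a : A1 // a ∈ A0 ∧ a ≠ v0} :=
    (hA0.subset (fun a (ha : a ∈ A0 ∧ a ≠ v0) => ha.1)).to_subtype
  obtain ⟨rels, ⟨e2⟩⟩ := pb_fin_presentation R
  exact ⟨_, _, rels,
    ⟨((FundamentalGroup.fundamentalGroupMulEquivOfPathConnected y (pbIncl A1 v0)).trans e1).trans e2⟩,
    rfl, pb_card_index hA0 hv0⟩

end Claimed.Open.R321
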