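import Claimed.Open.R321.PBDefs

/-!
# R321, PropB, leaf B0: induction on paths, tracks of homotopies
-/

set_option autoImplicit false

namespace Claimed.Open.R321

open Topology unitInterval

/-- transport of a property of path classes along equalities of the end points -/
theorem pb_of_cast {Z : Type} [TopologicalSpace Z]
    (P : ∀ {a b : Z}, Path.Homotopic.Quotient a b → Prop) {a b a' b' : Z} (ha : a' = a)
    (hb : b' = b) (q : Path.Homotopic.Quotient a b) (h : P (q.cast ha hb)) : P q := by
  subst ha hb
  simpa using h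

/-- **Induction on paths.**  A property of homotopy classes of paths which is stable under
concatenation and holds for all paths contained in a member of an open cover holds for all paths. -/
theorem pb_path_induction {Z : Type} [TopologicalSpace Z] {κ : Type} (U : κ → Set Z)
    (hU : ∀ k, IsOpen (U k)) (hcov : ∀ z, ∃ k, z ∈ U k)
    (P : ∀ {a b : Z}, Path.Homotopic.Quotient a b → Prop)
    (htrans : ∀ {a b c : Z} (q : Path.Homotopic.Quotient a b) (q' : Path.Homotopic.Quotient b c),
      P q → P q' → P (q.trans q'))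
    (hsmall : ∀ {a b : Z} (γ : Path a b) (k : κ), Set.range γ ⊆ U k →
      P (Path.Homotopic.Quotient.mk γ))
    {a b : Z} (q : Path.Homotopic.Quotient a b) : P q := by
  obtain ⟨γ, rfl⟩ := Path.Homotopic.Quotient.mk_surjective q
  obtain ⟨t, ht0, hmono, ⟨N, hN⟩, hsub⟩ :=
    exists_monotone_Icc_subset_open_cover_unitInterval (c := fun k => γ ⁻¹' (U k))
      (fun k => (hU k).preimage γ.continuous)
      (fun s _ => by
        obtain ⟨k, hk⟩ := hcov (γ s)
        exact Set.mem_iUnion.2 ⟨k, hk⟩)
  have key : ∀ m : ℕ, P (Path.Homotopic.Quotient.mk (γ.subpath 0 (t m))) := by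
    intro m
    induction m with
    | zero =>
      obtain ⟨k, hk⟩ := hcov (γ 0)
      refine hsmall _ k ?_
      rw [Path.range_subpath, ht0]
      simpa using hk
    | succ m ih =>
      obtain ⟨k, hk⟩ := hsub m
      have h2 : P (Path.Homotopic.Quotient.mk (γ.subpath (t m) (t (m + 1)))) := by
        refine hsmall _ k ?_
        rw [Path.range_subpath_of_le _ _ _ (hmono (Nat.le_succ m))]
        rintro _ ⟨s, hs, rfl⟩
        exact hk hs
      have h3 := htrans _ _ ih h2
      rw [← Path.Homotopic.Quotient.mk_trans] at h3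
      rwa [Path.Homotopic.Quotient.eq.2 ⟨Path.Homotopy.subpathTransSubpath γ 0 (t m) (t (m + 1))⟩]
        at h3
  have h1 := key N
  rw [hN N le_rfl, Path.subpath_zero_one, Path.Homotopic.Quotient.mk_cast] at h1
  exact pb_of_cast P _ _ _ h1

/-- **Tracks.**  A homotopy `H : f ∼ g` conjugates `f ∘ γ` into `g ∘ γ` by its tracks. -/
theorem pb_homotopy_track {X Y : Type} [TopologicalSpace X] [TopologicalSpace Y] {f g : C(X, Y)}
    (H : f.Homotopy g) {x₀ x₁ : X} (q : Path.Homotopic.Quotient x₀ x₁) :
    (q.map f).trans (Path.Homotopic.Quotient.mk (H.evalAt x₁)) =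
      (Path.Homotopic.Quotient.mk (H.evalAt x₀)).trans (q.map g) := by
  obtain ⟨γ, rfl⟩ := Path.Homotopic.Quotient.mk_surjective q
  rw [← Path.Homotopic.Quotient.mk_map, ← Path.Homotopic.Quotient.mk_map,
    ← Path.Homotopic.Quotient.mk_trans, ← Path.Homotopic.Quotient.mk_trans,
    Path.Homotopic.Quotient.eq]
  exact Path.Homotopic.map_trans_evalAt H γ

/-! ### Calculus of homotopy classes of paths -/

section calculus

variable {X Y : Type} [TopologicalSpace X] [TopologicalSpace Y] {a b c : X}

theorem pbq_map_trans (q : Path.Homotopic.Quotient a b) (q' : Path.Homotopic.Quotient b c)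
    (f : C(X, Y)) : (q.trans q').map f = (q.map f).trans (q'.map f) := by
  obtain ⟨γ, rfl⟩ := Path.Homotopic.Quotient.mk_surjective q
  obtain ⟨γ', rfl⟩ := Path.Homotopic.Quotient.mk_surjective q'
  simp only [← Path.Homotopic.Quotient.mk_map, ← Path.Homotopic.Quotient.mk_trans, Path.map_trans]

theorem pbq_map_symm (q : Path.Homotopic.Quotient a b) (f : C(X, Y)) :
    q.symm.map f = (q.map f).symm := by
  obtain ⟨γ, rfl⟩ := Path.Homotopic.Quotient.mk_surjective q
  simp only [← Path.Homotopic.Quotient.mk_map, ← Path.Homotopic.Quotient.mk_symm, Path.map_symm]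

theorem pbq_map_refl (x : X) (f : C(X, Y)) :
    (Path.Homotopic.Quotient.refl x).map f = Path.Homotopic.Quotient.refl (f x) := by
  rw [← Path.Homotopic.Quotient.mk_refl, ← Path.Homotopic.Quotient.mk_map,
    ← Path.Homotopic.Quotient.mk_refl]
  congr 1

theorem pbq_map_id (q : Path.Homotopic.Quotient a b) : q.map (ContinuousMap.id X) = q := by
  obtain ⟨γ, rfl⟩ := Path.Homotopic.Quotient.mk_surjective q
  rw [← Path.Homotopic.Quotient.mk_map]
  congr 1

theorem pbq_symm_refl (x : X) :
    (Path.Homotopic.Quotient.refl x).symm = Path.Homotopic.Quotient.refl x := by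
  rw [← Path.Homotopic.Quotient.mk_refl, ← Path.Homotopic.Quotient.mk_symm, Path.refl_symm]

theorem pbq_symm_symm (q : Path.Homotopic.Quotient a b) : q.symm.symm = q := by
  obtain ⟨γ, rfl⟩ := Path.Homotopic.Quotient.mk_surjective q
  simp only [← Path.Homotopic.Quotient.mk_symm, Path.symm_symm]

theorem pbq_symm_trans (q : Path.Homotopic.Quotient a b) (q' : Path.Homotopic.Quotient b c) :
    (q.trans q').symm = q'.symm.trans q.symm := by
  obtain ⟨γ, rfl⟩ := Path.Homotopic.Quotient.mk_surjective q
  obtain ⟨γ', rfl⟩ := Path.Homotopic.Quotient.mk_surjective q'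
  simp only [← Path.Homotopic.Quotient.mk_symm, ← Path.Homotopic.Quotient.mk_trans,
    Path.trans_symm]

end calculus

/-- the track of a point under a homotopy starting at the identity -/
def pbTrack {Z : Type} [TopologicalSpace Z] {R1 : C(Z, Z)} (H : (ContinuousMap.id Z).Homotopy R1)
    (z : Z) : Path z (R1 z) where
  toFun t := H (t, z)
  continuous_toFun := by fun_prop
  source' := H.apply_zero z
  target' := H.apply_one z

theorem pb_track_id {Z : Type} [TopologicalSpace Z] {R1 : C(Z, Z)}
    (H : (ContinuousMap.id Z).Homotopy R1) {a b : Z} (q : Path.Homotopic.Quotient a b) :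
    q.trans (Path.Homotopic.Quotient.mk (pbTrack H b)) =
      (Path.Homotopic.Quotient.mk (pbTrack H a)).trans (q.map R1) := by
  have h := pb_homotopy_track H q
  have h2 : q.map (ContinuousMap.id Z) = q := pbq_map_id q
  rw [h2] at h
  exact h

end Claimed.Open.R321
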