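import Claimed.Open.R321.PBCell

/-!
# R321, PropB, leaf B7: words and the path classes which they realise in a graph

`Z = A ∪ 1-cells (E)`.  `PBReal c w q`: the path class `q` (between two points of `A`) is the edge path
spelled by the element `w` of the free group on `E`.
-/

set_option autoImplicit false

namespace Claimed.Open.R321

open Topology unitInterval MulOpposite

variable {Z : Type} [TopologicalSpace Z] {A : Set Z} {E : Type}

/-- `q` is the edge path spelled by `w`. -/
inductive PBReal (c : CellAttach Z A 1 E) :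
    ∀ {a b : Z}, FreeGroup E → Path.Homotopic.Quotient a b → Prop
  | refl (a : Z) (ha : a ∈ A) : PBReal c 1 (Path.Homotopic.Quotient.refl a)
  | edge (e : E) : PBReal c (FreeGroup.of e) (c.edge e)
  | symm {a b : Z} {w : FreeGroup E} {q : Path.Homotopic.Quotient a b} :
      PBReal c w q → PBReal c w⁻¹ q.symm
  | trans {a b d : Z} {w w' : FreeGroup E} {q : Path.Homotopic.Quotient a b}
      {q' : Path.Homotopic.Quotient b d} :
      PBReal c w q → PBReal c w' q' → PBReal c (w * w') (q.trans q')

theorem Dsk.norm_left : ‖(Dsk.left).1‖ = 1 := by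
  change ‖(fun _ : Fin 1 => (-1 : ℝ))‖ = 1
  rw [pi_norm_const]; simp

theorem Dsk.norm_right : ‖(Dsk.right).1‖ = 1 := by
  change ‖(fun _ : Fin 1 => (1 : ℝ))‖ = 1
  rw [pi_norm_const]; simp

theorem PBReal.mem {c : CellAttach Z A 1 E} {a b : Z} {w : FreeGroup E}
    {q : Path.Homotopic.Quotient a b} (h : PBReal c w q) : a ∈ A ∧ b ∈ A := by
  induction h with
  | refl a ha => exact ⟨ha, ha⟩
  | edge e => exact ⟨c.sphere_mem e _ Dsk.norm_left, c.sphere_mem e _ Dsk.norm_right⟩
  | symm _ ih => exact ⟨ih.2, ih.1⟩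
  | trans _ _ ih1 ih2 => exact ⟨ih1.1, ih2.2⟩

/-- Every path class between two vertices is spelled by a word. -/
theorem pbReal_exists [T2Space Z] [Finite E] (hA : A.Finite) (c : CellAttach Z A 1 E) {a b : Z}
    (ha : a ∈ A) (hb : b ∈ A) (q : Path.Homotopic.Quotient a b) : ∃ w, PBReal c w q :=
  c.generation_one hA (fun {_ _} q => ∃ w, PBReal c w q)
    (fun _ _ ⟨w, h⟩ ⟨w', h'⟩ => ⟨w * w', h.trans h'⟩)
    (fun _ ⟨w, h⟩ => ⟨w⁻¹, h.symm⟩)
    (fun a ha => ⟨1, PBReal.refl a ha⟩)
    (fun e => ⟨_, PBReal.edge e⟩) ha hb q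

/-- A system of tails: a path class `tp a` from the base vertex `v0` to every point `a`, spelled by the
word `u a` if `a` is a vertex; trivial at `v0`. -/
structure PBTails (c : CellAttach Z A 1 E) (v0 : Z) where
  /-- the tails -/
  tp : ∀ a : Z, Path.Homotopic.Quotient v0 a
  /-- their words -/
  u : Z → FreeGroup E
  tp_base : tp v0 = Path.Homotopic.Quotient.refl v0
  u_base : u v0 = 1
  real : ∀ a ∈ A, PBReal c (u a) (tp a)

theorem pbTails_exists [T2Space Z] [Finite E] [PathConnectedSpace Z] (hA : A.Finite)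
    (c : CellAttach Z A 1 E) {v0 : Z} (hv0 : v0 ∈ A) : Nonempty (PBTails c v0) := by
  classical
  have hex : ∀ a : Z, ∃ p : Path.Homotopic.Quotient v0 a × FreeGroup E,
      (a ∈ A → PBReal c p.2 p.1) ∧ (∀ h : a = v0, p.2 = 1 ∧
        p.1 = (Path.Homotopic.Quotient.refl v0).cast rfl h) := by
    intro a
    by_cases h : a = v0
    · subst h
      exact ⟨(Path.Homotopic.Quotient.refl a, 1), fun ha => PBReal.refl a ha,
        fun _ => ⟨rfl, by simp⟩⟩
    · by_cases ha : a ∈ A
      · obtain ⟨w, hw⟩ := pbReal_exists hA c hv0 ha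
          (Path.Homotopic.Quotient.mk (PathConnectedSpace.somePath v0 a))
        exact ⟨(_, w), fun _ => hw, fun h' => absurd h' h⟩
      · exact ⟨(Path.Homotopic.Quotient.mk (PathConnectedSpace.somePath v0 a), 1),
          fun h' => absurd h' ha, fun h' => absurd h' h⟩
  choose p hp using hex
  exact ⟨⟨fun a => (p a).1, fun a => (p a).2, by simpa using ((hp v0).2 rfl).2,
    ((hp v0).2 rfl).1, fun a ha => (hp a).1 ha⟩⟩

/-- conjugation of a path class by the tails: a loop at `v0` -/
noncomputable def PBTails.conj {c : CellAttach Z A 1 E} {v0 : Z} (t : PBTails c v0) {a b : Z}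
    (q : Path.Homotopic.Quotient a b) : FundamentalGroup Z v0 :=
  FundamentalGroup.fromPath ((t.tp a).trans (q.trans (t.tp b).symm))

/-- the anti-homomorphism from the free group on the edges to `π₁(Z, v0)` -/
noncomputable def PBTails.Psi {c : CellAttach Z A 1 E} {v0 : Z} (t : PBTails c v0) :
    FreeGroup E →* (FundamentalGroup Z v0)ᵐᵒᵖ :=
  FreeGroup.lift fun e => op (t.conj (c.edge e))

theorem PBTails.conj_refl {c : CellAttach Z A 1 E} {v0 : Z} (t : PBTails c v0) (a : Z) :
    t.conj (Path.Homotopic.Quotient.refl a) = 1 := by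
  unfold PBTails.conj
  rw [Path.Homotopic.Quotient.refl_trans, Path.Homotopic.Quotient.trans_symm]
  rfl

theorem PBTails.conj_symm {c : CellAttach Z A 1 E} {v0 : Z} (t : PBTails c v0) {a b : Z}
    (q : Path.Homotopic.Quotient a b) : t.conj q.symm = (t.conj q)⁻¹ := by
  rw [FundamentalGroup.inv_def]
  unfold PBTails.conj
  change _ = ((t.tp a).trans (q.trans (t.tp b).symm)).symm
  rw [pbq_symm_trans, pbq_symm_trans, pbq_symm_symm, Path.Homotopic.Quotient.trans_assoc]

theorem PBTails.conj_trans {c : CellAttach Z A 1 E} {v0 : Z} (t : PBTails c v0) {a b d : Z}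
    (q : Path.Homotopic.Quotient a b) (q' : Path.Homotopic.Quotient b d) :
    t.conj (q.trans q') = t.conj q' * t.conj q := by
  rw [FundamentalGroup.mul_def]
  unfold PBTails.conj
  change _ = ((t.tp a).trans (q.trans (t.tp b).symm)).trans ((t.tp b).trans (q'.trans (t.tp d).symm))
  rw [Path.Homotopic.Quotient.trans_assoc, Path.Homotopic.Quotient.trans_assoc,
    Path.Homotopic.Quotient.trans_assoc,
    ← Path.Homotopic.Quotient.trans_assoc (t.tp b).symm, Path.Homotopic.Quotient.symm_trans,
    Path.Homotopic.Quotient.refl_trans]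

theorem PBTails.Psi_real {c : CellAttach Z A 1 E} {v0 : Z} (t : PBTails c v0) {a b : Z}
    {w : FreeGroup E} {q : Path.Homotopic.Quotient a b} (h : PBReal c w q) :
    t.Psi w = op (t.conj q) := by
  induction h with
  | refl a ha => rw [map_one, t.conj_refl]; rfl
  | edge e => exact FreeGroup.lift_apply_of
  | symm _ ih => rw [map_inv, ih, t.conj_symm]; rfl
  | trans _ _ ih1 ih2 => rw [map_mul, ih1, ih2, t.conj_trans]; rfl

/-- on loops at `v0` the conjugation is trivial -/
theorem PBTails.conj_loop {c : CellAttach Z A 1 E} {v0 : Z} (t : PBTails c v0)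
    (q : Path.Homotopic.Quotient v0 v0) : t.conj q = FundamentalGroup.fromPath q := by
  unfold PBTails.conj
  rw [t.tp_base, pbq_symm_refl, Path.Homotopic.Quotient.trans_refl,
    Path.Homotopic.Quotient.refl_trans]

/-- the words of the tails are killed -/
theorem PBTails.Psi_u {c : CellAttach Z A 1 E} {v0 : Z} (t : PBTails c v0) {a : Z} (ha : a ∈ A) :
    t.Psi (t.u a) = 1 := by
  rw [t.Psi_real (t.real a ha)]
  unfold PBTails.conj
  rw [Path.Homotopic.Quotient.trans_symm, t.tp_base, Path.Homotopic.Quotient.trans_refl]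
  rfl

end Claimed.Open.R321
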