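import Claimed.Open.R321.PSGlue
import Claimed.Open.R321.AttachMap
import Claimed.Open.R321.PBReal

/-!
# R321, PD-CAYLEY (concrete part), downstairs: the presentation complex

Owner: helper94.

* `wordPath ℓ l`: the concatenation of the loops `ℓ s`, `s : S`, along a word `l : List (S × Bool)`;
* `PCX1 S`: the rose with petals `S` (`Attach` of `S` one-cells to a point), `pcLoop1 s`;
* `PCX2 ρ`, `ρ : Q → List (S × Bool)`: the presentation complex of `⟨S | ρ q, q : Q⟩` (`Attach` of
  the two-cells along `loopSph (wordPath pcLoop1 (ρ q))`), `pcLoop2 ρ s`;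
* `pc_relator_null` (T2): the relator loops are null-homotopic in `PCX2 ρ`;
* `pc_x1_word`, `pc_x2_word` (T3): every loop of `PCX1 S`, `PCX2 ρ` at the base point is homotopic to a
  word path.
-/

set_option autoImplicit false

namespace Claimed.Open.R321

open Topology unitInterval Set Metric

noncomputable section

/-! ### Word paths -/

section WordPath

variable {S Y Y' : Type} [TopologicalSpace Y] [TopologicalSpace Y']

/-- The loop of a letter. -/
def letterPath {y : Y} (ℓ : S → Path y y) (a : S × Bool) : Path y y :=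
  if a.2 then ℓ a.1 else (ℓ a.1).symm

/-- The concatenation of the loops `ℓ s` along a word. -/
def wordPath {y : Y} (ℓ : S → Path y y) : List (S × Bool) → Path y y
  | [] => Path.refl y
  | a :: l => (letterPath ℓ a).trans (wordPath ℓ l)

@[simp] theorem wordPath_nil {y : Y} (ℓ : S → Path y y) : wordPath ℓ [] = Path.refl y := rfl

@[simp] theorem wordPath_cons {y : Y} (ℓ : S → Path y y) (a : S × Bool) (l : List (S × Bool)) :
    wordPath ℓ (a :: l) = (letterPath ℓ a).trans (wordPath ℓ l) := rfl

theorem letterPath_map {y : Y} (ℓ : S → Path y y) (f : C(Y, Y')) (a : S × Bool) :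
    (letterPath ℓ a).map f.continuous = letterPath (fun s => (ℓ s).map f.continuous) a := by
  obtain ⟨s, b⟩ := a
  cases b
  · simp only [letterPath, Bool.false_eq_true, if_false]
    exact Path.map_symm _ f.continuous
  · simp only [letterPath, if_true]

theorem wordPath_map {y : Y} (ℓ : S → Path y y) (f : C(Y, Y')) (l : List (S × Bool)) :
    (wordPath ℓ l).map f.continuous = wordPath (fun s => (ℓ s).map f.continuous) l := by
  induction l with
  | nil => ext t; rfl
  | cons a l ih => rw [wordPath_cons, wordPath_cons, Path.map_trans, ih, letterPath_map]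

theorem letterPath_not {y : Y} (ℓ : S → Path y y) (a : S × Bool) :
    letterPath ℓ (a.1, !a.2) = (letterPath ℓ a).symm := by
  obtain ⟨s, b⟩ := a
  cases b
  · simp [letterPath]
  · simp [letterPath]

theorem mk_wordPath_append {y : Y} (ℓ : S → Path y y) (l l' : List (S × Bool)) :
    Path.Homotopic.Quotient.mk (wordPath ℓ (l ++ l')) =
      (Path.Homotopic.Quotient.mk (wordPath ℓ l)).trans
        (Path.Homotopic.Quotient.mk (wordPath ℓ l')) := by
  induction l with
  | nil =>
    rw [List.nil_append, wordPath_nil, Path.Homotopic.Quotient.mk_refl,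
      Path.Homotopic.Quotient.refl_trans]
  | cons a l ih =>
    rw [List.cons_append, wordPath_cons, wordPath_cons, Path.Homotopic.Quotient.mk_trans, ih,
      Path.Homotopic.Quotient.mk_trans, Path.Homotopic.Quotient.trans_assoc]

theorem mk_wordPath_invRev {y : Y} (ℓ : S → Path y y) (l : List (S × Bool)) :
    Path.Homotopic.Quotient.mk (wordPath ℓ (FreeGroup.invRev l)) =
      (Path.Homotopic.Quotient.mk (wordPath ℓ l)).symm := by
  induction l with
  | nil =>
    rw [FreeGroup.invRev_empty, wordPath_nil, Path.Homotopic.Quotient.mk_refl, pbq_symm_refl]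
  | cons a l ih =>
    rw [FreeGroup.invRev_cons, mk_wordPath_append, ih, wordPath_cons,
      Path.Homotopic.Quotient.mk_trans, pbq_symm_trans]
    congr 1
    have : FreeGroup.invRev [a] = [(a.1, !a.2)] := by simp [FreeGroup.invRev]
    rw [this, wordPath_cons, wordPath_nil, Path.Homotopic.Quotient.mk_trans,
      Path.Homotopic.Quotient.mk_refl, Path.Homotopic.Quotient.trans_refl, letterPath_not,
      Path.Homotopic.Quotient.mk_symm]

/-- A path in the range of an embedding comes from the source. -/
theorem exists_path_map_eq {f : C(Y, Y')} (hf : IsEmbedding f) {x x' : Y}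
    (γ : Path (f x) (f x')) (h : range γ ⊆ range f) :
    ∃ δ : Path x x', δ.map f.continuous = γ := by
  choose g hg using fun t : I => h ⟨t, rfl⟩
  have hc : Continuous g := by
    rw [hf.continuous_iff]
    have : f ∘ g = γ := funext hg
    rw [this]
    exact γ.continuous
  refine ⟨⟨⟨g, hc⟩, hf.injective ?_, hf.injective ?_⟩, ?_⟩
  · exact (hg 0).trans γ.source
  · exact (hg 1).trans γ.target
  · ext t
    exact hg t

end WordPath

/-! ### The segment -/

/-- The straight path from `-1` to `1` in `Dsk 1 = [-1, 1]`. -/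
def Dsk.seg : Path Dsk.left Dsk.right where
  toFun t := ⟨fun _ => 2 * (t : ℝ) - 1, by
    rw [mem_closedBall_zero_iff, pi_norm_le_iff_of_nonneg zero_le_one]
    intro _
    rw [Real.norm_eq_abs, abs_le]
    constructor <;> linarith [t.2.1, t.2.2]⟩
  continuous_toFun := by
    refine Continuous.subtype_mk ?_ _
    refine continuous_pi fun _ => ?_
    exact (continuous_const.mul continuous_subtype_val).sub continuous_const
  source' := by
    apply Subtype.ext
    funext _
    simp [Dsk.left]
  target' := by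
    apply Subtype.ext
    funext _
    simp [Dsk.right]
    norm_num

/-! ### The rose -/

section Rose

variable (S : Type)

/-- The attaching maps of the petals. -/
def pcφ1 : S → C(Sph 1, Unit) := fun _ => ContinuousMap.const _ ()

/-- The rose with petals `S`. -/
abbrev PCX1 : Type := Attach (pcφ1 S)

/-- The vertex of the rose. -/
def pcx1 : PCX1 S := Attach.base ()

variable {S}

theorem pc_char1_of_norm (s : S) (x : Dsk 1) (hx : ‖x.1‖ = 1) :
    Attach.charMap (pcφ1 S) s x = pcx1 S :=
  Attach.char_of_not_lt s x (by rw [hx]; exact lt_irrefl _)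

/-- The petal `s`, as a loop. -/
def pcLoop1 (s : S) : Path (pcx1 S) (pcx1 S) :=
  (Dsk.seg.map (Attach.charMap (pcφ1 S) s).continuous).cast
    (pc_char1_of_norm s _ Dsk.norm_left).symm (pc_char1_of_norm s _ Dsk.norm_right).symm

theorem range_base_pcX1 : range (Attach.base : Unit → PCX1 S) = {pcx1 S} := by
  ext z
  constructor
  · rintro ⟨u, rfl⟩
    rfl
  · rintro rfl
    exact ⟨(), rfl⟩

/-- **T3, first half.**  Every loop of the rose is homotopic to a word path. -/
theorem pc_x1_word [Finite S] (γ : Path.Homotopic.Quotient (pcx1 S) (pcx1 S)) :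
    ∃ l : List (S × Bool), γ = Path.Homotopic.Quotient.mk (wordPath pcLoop1 l) := by
  have hfin : (range (Attach.base : Unit → PCX1 S)).Finite := finite_range _
  obtain ⟨_, _, l, hl⟩ := (Attach.cellAttach (pcφ1 S)).generation_one hfin
    (fun {a b} q => ∃ (ha : pcx1 S = a) (hb : pcx1 S = b) (l : List (S × Bool)),
      q.cast ha hb = Path.Homotopic.Quotient.mk (wordPath pcLoop1 l))
    (by
      rintro a b c q q' ⟨rfl, rfl, l, hl⟩ ⟨_, rfl, l', hl'⟩
      refine ⟨rfl, rfl, l ++ l', ?_⟩
      rw [Path.Homotopic.Quotient.cast_rfl_rfl] at hl hl' ⊢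
      rw [mk_wordPath_append, hl, hl'])
    (by
      rintro a b q ⟨rfl, rfl, l, hl⟩
      refine ⟨rfl, rfl, FreeGroup.invRev l, ?_⟩
      rw [Path.Homotopic.Quotient.cast_rfl_rfl] at hl ⊢
      rw [mk_wordPath_invRev, hl])
    (by
      intro a ha
      rw [range_base_pcX1] at ha
      obtain rfl : a = pcx1 S := ha
      exact ⟨rfl, rfl, [], by rw [Path.Homotopic.Quotient.cast_rfl_rfl]; rfl⟩)
    (by
      intro s
      refine ⟨(pc_char1_of_norm s _ Dsk.norm_left).symm, (pc_char1_of_norm s _ Dsk.norm_right).symm,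
        [(s, true)], ?_⟩
      rw [wordPath_cons, wordPath_nil, Path.Homotopic.Quotient.mk_trans,
        Path.Homotopic.Quotient.mk_refl, Path.Homotopic.Quotient.trans_refl]
      rw [CellAttach.edge, Dsk.quotient_eq (Path.Homotopic.Quotient.mk
        (PathConnectedSpace.somePath Dsk.left Dsk.right)) (Path.Homotopic.Quotient.mk Dsk.seg)]
      rfl)
    (a := pcx1 S) (b := pcx1 S) ⟨(), rfl⟩ ⟨(), rfl⟩ γ
  rw [Path.Homotopic.Quotient.cast_rfl_rfl] at hl
  exact ⟨l, hl⟩

end Rose

/-! ### The presentation complex -/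

section Pres

variable {S Q : Type} (ρ : Q → List (S × Bool))

/-- The attaching maps of the two-cells: the relator loops. -/
def pcφ2 : Q → C(Sph 2, PCX1 S) := fun q => loopSph (wordPath pcLoop1 (ρ q))

/-- The presentation complex of `⟨S | ρ q, q : Q⟩`. -/
abbrev PCX2 : Type := Attach (pcφ2 ρ)

/-- The vertex of the presentation complex. -/
abbrev pcx2 : PCX2 ρ := Attach.baseMap (pcφ2 ρ) (pcx1 S)

/-- The generating loops of the presentation complex. -/
def pcLoop2 (s : S) : Path (pcx2 ρ) (pcx2 ρ) := (pcLoop1 s).map (Attach.baseMap (pcφ2 ρ)).continuous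

theorem wordPath_pcLoop2 (l : List (S × Bool)) :
    wordPath (pcLoop2 ρ) l = (wordPath pcLoop1 l).map (Attach.baseMap (pcφ2 ρ)).continuous :=
  (wordPath_map pcLoop1 (Attach.baseMap (pcφ2 ρ)) l).symm

theorem pc_charMap2_comp (q : Q) :
    (Attach.charMap (pcφ2 ρ) q).comp (sphToDsk 2) =
      loopSph (wordPath (pcLoop2 ρ) (ρ q)) := by
  rw [wordPath_pcLoop2, ← comp_loopSph]
  ext x
  exact Attach.char_sphToDsk q x

/-- The two-cell `q`, as a null-homotopy of the relator loop. -/
def pcRelHomotopy (q : Q) :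
    Path.Homotopy (wordPath (pcLoop2 ρ) (ρ q)) (Path.refl (pcx2 ρ)) :=
  sqHomotopy (Attach.charMap (pcφ2 ρ) q) (pc_charMap2_comp ρ q)

/-- **T2.**  The relator loops are null-homotopic in the presentation complex. -/
theorem pc_relator_null (q : Q) :
    (wordPath (pcLoop2 ρ) (ρ q)).Homotopic (Path.refl (pcx2 ρ)) :=
  ⟨pcRelHomotopy ρ q⟩

/-- **T3.**  Every loop of the presentation complex is homotopic to a word path. -/
theorem pc_x2_word [Finite S] [Finite Q] (γ : Path.Homotopic.Quotient (pcx2 ρ) (pcx2 ρ)) :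
    ∃ l : List (S × Bool), γ = Path.Homotopic.Quotient.mk (wordPath (pcLoop2 ρ) l) := by
  have hmem : pcx2 ρ ∈ range (Attach.base : PCX1 S → PCX2 ρ) := ⟨pcx1 S, rfl⟩
  obtain ⟨q', hq'⟩ := (Attach.cellAttach (pcφ2 ρ)).exists_path_in Attach.isClosed_range_base le_rfl
    (a := ⟨pcx2 ρ, hmem⟩) (b := ⟨pcx2 ρ, hmem⟩) γ
  obtain ⟨γ', rfl⟩ := Path.Homotopic.Quotient.mk_surjective q'
  obtain ⟨δ, hδ⟩ := exists_path_map_eq (f := Attach.baseMap (pcφ2 ρ))
    Attach.isClosedEmbedding_base.isEmbedding (x := pcx1 S) (x' := pcx1 S)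
    (γ'.map continuous_subtype_val) (by
      rintro _ ⟨t, rfl⟩
      exact (γ' t).2)
  obtain ⟨l, hl⟩ := pc_x1_word (Path.Homotopic.Quotient.mk δ)
  refine ⟨l, ?_⟩
  have h1 : γ = Path.Homotopic.Quotient.mk (δ.map (Attach.baseMap (pcφ2 ρ)).continuous) := by
    rw [hδ, ← hq']
    rfl
  rw [h1, wordPath_pcLoop2, Path.Homotopic.Quotient.mk_map, hl, ← Path.Homotopic.Quotient.mk_map]

end Pres

end

end Claimed.Open.R321
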