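import Claimed.Open.R321.QuotCover

/-!
# R321, PD-CAYLEY: abstract definitions (no cell attachments)

Owner: helper67.  FROZEN once landed.

`EdgeData Γ S E`: a `Γ`-space `E` with an equivariant family of vertices `vt g` and of edges
`edge g s : vt g ⟶ vt (g * gen s)` (a copy of the Cayley graph of `(Γ, gen)` in `E`).

* `D.up l g g' h : Path (vt g) (vt g')`: the edge path spelled by the word `l`, starting at `vt g`;
* `D.map f hf`: push-forward of the data along an equivariant map;
* for a quotient covering map `p : E → X` with group `Γ`: `D.dn hp l g g' h`, the image loop at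
  `p (vt 1)`, `D.cls hp l : π₁(X, p (vt 1))` its class, `D.mu hp : π₁(X, p (vt 1)) →* Γᵐᵒᵖ` the
  monodromy.
-/

set_option autoImplicit false

namespace Claimed.Open.R321.PC

open Topology unitInterval

noncomputable section

/-! ### Words -/

section val

variable {Γ S : Type} [Group Γ]

/-- the value of a word in `Γ` -/
def val (gen : S → Γ) (l : List (S × Bool)) : Γ :=
  (l.map fun x => cond x.2 (gen x.1) (gen x.1)⁻¹).prod

@[simp] theorem val_nil (gen : S → Γ) : val gen [] = 1 := rfl

@[simp] theorem val_cons (gen : S → Γ) (x : S × Bool) (l : List (S × Bool)) :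
    val gen (x :: l) = cond x.2 (gen x.1) (gen x.1)⁻¹ * val gen l := by
  simp [val]

theorem val_append (gen : S → Γ) (l l' : List (S × Bool)) :
    val gen (l ++ l') = val gen l * val gen l' := by
  simp [val]

theorem val_eq_lift (gen : S → Γ) (l : List (S × Bool)) :
    val gen l = FreeGroup.lift gen (FreeGroup.mk l) := by
  simp [val, FreeGroup.lift_mk]

theorem val_toWord [DecidableEq S] (gen : S → Γ) (w : FreeGroup S) :
    val gen w.toWord = FreeGroup.lift gen w := by
  rw [val_eq_lift, FreeGroup.mk_toWord]

end val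

/-! ### Edge data -/

/-- An equivariant copy of the Cayley graph of `(Γ, gen)` in the `Γ`-space `E`. -/
structure EdgeData (Γ S E : Type) [Group Γ] [TopologicalSpace E] [MulAction Γ E] where
  /-- the generators -/
  gen : S → Γ
  /-- the vertices -/
  vt : Γ → E
  smul_vt : ∀ a g : Γ, a • vt g = vt (a * g)
  /-- the edges -/
  edge : ∀ (g : Γ) (s : S), Path (vt g) (vt (g * gen s))
  smul_edge : ∀ (a g : Γ) (s : S) (t : I), a • edge g s t = edge (a * g) s t

namespace EdgeData

variable {Γ S E : Type} [Group Γ] [TopologicalSpace E] [MulAction Γ E] (D : EdgeData Γ S E)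

/-- the edge `edge (g * (gen s)⁻¹) s`, run backwards -/
def edgeInv (g : Γ) (s : S) : Path (D.vt g) (D.vt (g * (D.gen s)⁻¹)) :=
  (D.edge (g * (D.gen s)⁻¹) s).symm.cast (by rw [inv_mul_cancel_right]) rfl

/-- the edge path spelled by the word `l`, starting at `vt g` (and ending at `vt g'`,
`g' = g * val l`) -/
def up : (l : List (S × Bool)) → (g g' : Γ) → g * val D.gen l = g' → Path (D.vt g) (D.vt g')
  | [], g, g', h => (Path.refl (D.vt g)).cast rfl (by rw [← h]; simp)
  | (s, true) :: l, g, g', h =>
      (D.edge g s).trans (up l (g * D.gen s) g' (by rw [← h]; simp [mul_assoc]))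
  | (s, false) :: l, g, g', h =>
      (D.edgeInv g s).trans (up l (g * (D.gen s)⁻¹) g' (by rw [← h]; simp [mul_assoc]))

/-- the closed edge path at `vt 1` spelled by an element of the free group which dies in `Γ` -/
def loopUp [DecidableEq S] (w : FreeGroup S) (h : FreeGroup.lift D.gen w = 1) :
    Path (D.vt 1) (D.vt 1) :=
  D.up w.toWord 1 1 (by rw [val_toWord, h, mul_one])

/-- push-forward of edge data along an equivariant map -/
def map {E' : Type} [TopologicalSpace E'] [MulAction Γ E'] (f : C(E, E'))
    (hf : ∀ (a : Γ) (e : E), f (a • e) = a • f e) : EdgeData Γ S E' where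
  gen := D.gen
  vt g := f (D.vt g)
  smul_vt a g := by rw [← hf, D.smul_vt]
  edge g s := (D.edge g s).map f.continuous
  smul_edge a g s t := by
    rw [Path.map_coe, Path.map_coe, Function.comp_apply, Function.comp_apply, ← hf, D.smul_edge]

section cover

variable {X : Type} [TopologicalSpace X] {p : E → X} (hp : IsQuotientCoveringMap p Γ)
include hp

theorem p_vt (g : Γ) : p (D.vt g) = p (D.vt 1) := by
  rw [← mul_one g, ← D.smul_vt, hp.map_smul]

/-- the image downstairs of `up`, as a loop at `p (vt 1)` -/
def dn (l : List (S × Bool)) (g g' : Γ) (h : g * val D.gen l = g') :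
    Path (p (D.vt 1)) (p (D.vt 1)) :=
  ((D.up l g g' h).map hp.continuous).cast (D.p_vt hp g).symm (D.p_vt hp g').symm

/-- the class in `π₁(X, p (vt 1))` of the word `l` -/
def cls (l : List (S × Bool)) : FundamentalGroup X (p (D.vt 1)) :=
  FundamentalGroup.fromPath
    (Path.Homotopic.Quotient.mk (D.dn hp l 1 (val D.gen l) (one_mul _)))

/-- the monodromy homomorphism at the base point `vt 1` -/
def mu : FundamentalGroup X (p (D.vt 1)) →* Γᵐᵒᵖ :=
  hp.fundamentalGroupToMulOpposite (x := p (D.vt 1)) ⟨D.vt 1, rfl⟩

/-- the homomorphism `FreeGroup S → π₁(X)ᵐᵒᵖ`, `s ↦ class of the loop s` (Mathlib multiplies loop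
classes by `a * b = b.trans a`, hence the opposite group) -/
def r : FreeGroup S →* (FundamentalGroup X (p (D.vt 1)))ᵐᵒᵖ :=
  FreeGroup.lift fun s => MulOpposite.op (D.cls hp [(s, true)])

end cover

end EdgeData

end

end Claimed.Open.R321.PC
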