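import Claimed.Open.R321.PCUp

/-!
# R321, PD-CAYLEY, leaves PC-2 (monodromy, T4) and PC-3 (path connectedness, T6)
-/

set_option autoImplicit false

namespace Claimed.Open.R321.PC.EdgeData

open Topology unitInterval

noncomputable section

variable {Γ S E X : Type} [Group Γ] [TopologicalSpace E] [MulAction Γ E] [TopologicalSpace X]
  {p : E → X} (D : EdgeData Γ S E) (hp : IsQuotientCoveringMap p Γ)

/-- **T4.**  The monodromy of the class of a word is its value in `Γ`
(`IsQuotientCoveringMap.fundamentalGroupToMulOpposite_apply_eq_Iff`,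
`IsCoveringMap.monodromy_eq_of_map_eq` with the explicit lift `D.up l 1 (val l)`). -/
theorem mu_cls (l : List (S × Bool)) :
    D.mu hp (D.cls hp l) = MulOpposite.op (val D.gen l) := by
  unfold mu
  rw [IsQuotientCoveringMap.fundamentalGroupToMulOpposite_apply_eq_Iff]
  have h := hp.isCoveringMap.monodromy_eq_of_map_eq
    (γ := Path.Homotopic.Quotient.mk (D.dn hp l 1 (val D.gen l) (one_mul _)))
    (ex := ⟨D.vt 1, rfl⟩) (ey := ⟨D.vt (val D.gen l), D.p_vt hp _⟩)
    (Path.Homotopic.Quotient.mk (D.up l 1 (val D.gen l) (one_mul _))) rfl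
  have h2 : hp.isCoveringMap.monodromy (D.cls hp l) ⟨D.vt 1, rfl⟩ =
      ⟨D.vt (val D.gen l), D.p_vt hp _⟩ := h
  rw [h2]
  simp [D.smul_vt]

theorem mu_r (w : FreeGroup S) :
    D.mu hp (D.r hp w).unop = MulOpposite.op (FreeGroup.lift D.gen w) := by
  induction w using Quot.inductionOn with
  | h l =>
    change D.mu hp (D.r hp (FreeGroup.mk l)).unop = MulOpposite.op (FreeGroup.lift D.gen (FreeGroup.mk l))
    rw [r_mk, MulOpposite.unop_op, mu_cls, val_eq_lift]

/-- every element of the group generated by `gen` is the value of a word -/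
theorem exists_val_eq (hgen : Subgroup.closure (Set.range D.gen) = ⊤) (g : Γ) :
    ∃ l, val D.gen l = g := by
  obtain ⟨w, hw⟩ := FreeGroup.lift_surjective_iff_closure_range_eq_top.2 hgen g
  induction w using Quot.inductionOn with
  | h l => exact ⟨l, by rw [val_eq_lift]; exact hw⟩

include hp in
/-- **T6.**  If `X` is path connected and `gen` generates `Γ`, then `E` is path connected: lift a
path from `p e` to `p (vt 1)`; it ends at some `vt g`; `g = val l`, and `D.up l 1 g` joins `vt 1` to
`vt g`. -/
theorem pathConnectedSpace_of_closure [PathConnectedSpace X]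
    (hgen : Subgroup.closure (Set.range D.gen) = ⊤) : PathConnectedSpace E := by
  refine ⟨⟨D.vt 1⟩, ?_⟩
  have key : ∀ e : E, Joined e (D.vt 1) := by
    intro e
    let γ : Path (p e) (p (D.vt 1)) := PathConnectedSpace.somePath _ _
    let γ' := hp.isCoveringMap.liftPath γ e γ.source
    have h0 : γ' 0 = e := hp.isCoveringMap.liftPath_zero _ _ _
    have h1 : p (γ' 1) = p (D.vt 1) := by
      have := congrFun (hp.isCoveringMap.liftPath_lifts γ e γ.source) 1
      simpa using this
    obtain ⟨g, hg⟩ := hp.apply_eq_iff_mem_orbit.1 h1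
    have hg' : D.vt g = γ' 1 := by
      have : g • D.vt 1 = γ' 1 := hg
      rw [← this, D.smul_vt, mul_one]
    obtain ⟨l, hl⟩ := D.exists_val_eq hgen g
    have j1 : Joined e (γ' 1) := ⟨⟨γ', h0, rfl⟩⟩
    have j2 : Joined (D.vt 1) (D.vt g) := ⟨D.up l 1 g (by rw [one_mul, hl])⟩
    rw [← hg'] at j1
    exact j1.trans j2.symm
  exact fun x y => (key x).trans (key y).symm

end

end Claimed.Open.R321.PC.EdgeData
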