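import Claimed.Open.R321.RelEmbed

/-!
# R321, package PD-ALG: attaching a family of cells in two steps

`RelCells.of_subfamily`: let `W' ⊆ V ⊆ W`, let `H_*(W, W')` be free on the `k`-cells `z j`, `j : J`, and let `H_*(V, W')` be
free on the sub-family `z (f₁ j)`, `j : J₁`.  If `f₂ : J₂ → J` enumerates the complementary sub-family then
`H_*(W, V)` is free on the cells `z (f₂ j)`, `j : J₂`.
-/

set_option autoImplicit false

namespace Claimed.Open.R321

noncomputable section

variable {E : Type} [TopologicalSpace E]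

theorem chainComb_mapDomain {J J' : Type} {d : ℕ} (c : J → Chains E d) (f : J' → J)
    (m : J' →₀ ℤ) : chainComb c (Finsupp.mapDomain f m) = chainComb (fun j => c (f j)) m := by
  induction m using Finsupp.induction_linear with
  | zero => simp
  | add a b ha hb => rw [Finsupp.mapDomain_add, map_add, map_add, ha, hb]
  | single j k => rw [Finsupp.mapDomain_single, chainComb_single, chainComb_single]

/-- Splitting a combination according to a decomposition of the index set. -/
theorem exists_chainComb_split {J J₁ J₂ : Type} {d : ℕ} (c : J → Chains E d) (f₁ : J₁ → J)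
    (f₂ : J₂ → J) (hcov : ∀ j, (∃ a, f₁ a = j) ∨ ∃ b, f₂ b = j) (m : J →₀ ℤ) :
    ∃ (m₁ : J₁ →₀ ℤ) (m₂ : J₂ →₀ ℤ),
      chainComb c m = chainComb (fun j => c (f₁ j)) m₁ + chainComb (fun j => c (f₂ j)) m₂ := by
  induction m using Finsupp.induction_linear with
  | zero => exact ⟨0, 0, by simp⟩
  | add a b ha hb =>
    obtain ⟨a₁, a₂, h⟩ := ha
    obtain ⟨b₁, b₂, h'⟩ := hb
    exact ⟨a₁ + b₁, a₂ + b₂, by rw [map_add, map_add, map_add, h, h']; abel⟩
  | single j k =>
    rcases hcov j with ⟨a, rfl⟩ | ⟨b, rfl⟩
    · exact ⟨Finsupp.single a k, 0, by simp⟩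
    · exact ⟨0, Finsupp.single b k, by simp⟩

/-- The boundary of a relative cycle of `(W, V)` is a relative cycle of `(V, W')`. -/
theorem IsRelCycle.bd_isRelCycle {W V W' : Set E} {n : ℕ} {x : Chains E (n + 1)}
    (h : IsRelCycle W V (n + 1) x) : IsRelCycle V W' n (bd E n x) := by
  cases n with
  | zero => exact h.2
  | succ n => exact ⟨h.2, by rw [bd_bd]; exact AddSubgroup.zero_mem _⟩

/-- If the boundary of a relative cycle `x` of `(W, V)` bounds in `(V, W')` then `x` can be corrected
by a chain carried by `V` to a relative cycle of `(W, W')`. -/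
theorem IsRelCycle.exists_correction {W V W' : Set E} (hVW : V ⊆ W) {n : ℕ}
    {x : Chains E (n + 1)} (h : IsRelCycle W V (n + 1) x)
    (hb : IsRelBoundary V W' n (bd E n x)) :
    ∃ y ∈ chainsIn V (n + 1), IsRelCycle W W' (n + 1) (x - y) := by
  obtain ⟨y, hy, a, ha, h1⟩ := hb
  refine ⟨y, hy, AddSubgroup.sub_mem _ h.1 (chainsIn_mono hVW _ hy), ?_⟩
  rw [map_sub, h1]
  simpa using ha

/-- A relative boundary of `(W, W')` plus a chain carried by `V ⊇ W'` is a relative boundary of
`(W, V)`. -/
theorem IsRelBoundary.add_mem {W V W' : Set E} (hW'V : W' ⊆ V) {n : ℕ} {x y : Chains E n}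
    (h : IsRelBoundary W W' n x) (hy : y ∈ chainsIn V n) : IsRelBoundary W V n (x + y) :=
  (h.mono subset_rfl hW'V).add (isRelBoundary_of_mem hy)

/-- **Attaching a family of cells in two steps.** -/
theorem RelCells.of_subfamily {W V W' : Set E} (hW'V : W' ⊆ V) (hVW : V ⊆ W) {k : ℕ}
    {J J₁ J₂ : Type} {z : J → Chains E k} (f₁ : J₁ → J) (f₂ : J₂ → J)
    (hf₂ : Function.Injective f₂) (hdisj : ∀ a b, f₁ a ≠ f₂ b)
    (hcov : ∀ j, (∃ a, f₁ a = j) ∨ ∃ b, f₂ b = j)
    (hW : RelCells W W' k z) (hV : RelCells V W' k (fun j => z (f₁ j))) :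
    RelCells W V k (fun j => z (f₂ j)) where
  isRelCycle j := (hW.isRelCycle (f₂ j)).mono subset_rfl hW'V
  vanish n hn := by
    intro x hx
    cases n with
    | zero => exact (hW.vanish 0 hn x hx).mono subset_rfl hW'V
    | succ n =>
      have hb : IsRelBoundary V W' n (bd E n x) := by
        by_cases hk : n = k
        · subst hk
          obtain ⟨m, y, hy, a, ha, h1⟩ := hV.span _ (hx.bd_isRelCycle (W' := W'))
          have hm : Finsupp.mapDomain f₁ m = 0 := by
            apply hW.indep
            rw [chainComb_mapDomain]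
            refine ⟨x - y, AddSubgroup.sub_mem _ hx.1 (chainsIn_mono hVW _ hy), -a,
              AddSubgroup.neg_mem _ ha, ?_⟩
            rw [sub_eq_iff_eq_add] at h1
            rw [map_sub, h1]
            abel
          have h2 : chainComb (fun j => z (f₁ j)) m = 0 := by
            rw [← chainComb_mapDomain, hm, map_zero]
          rw [h2, sub_zero] at h1
          exact ⟨y, hy, a, ha, h1⟩
        · exact hV.vanish n hk _ hx.bd_isRelCycle
      obtain ⟨y, hy, hc⟩ := hx.exists_correction hVW hb
      have := (hW.vanish (n + 1) hn _ hc).add_mem hW'V hy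
      rwa [sub_add_cancel] at this
  span x hx := by
    -- correct `x` to a relative cycle of `(W, W')`
    have hcorr : ∃ y ∈ chainsIn V k, IsRelCycle W W' k (x - y) := by
      cases k with
      | zero => exact ⟨0, AddSubgroup.zero_mem _, by rw [sub_zero]; exact hx⟩
      | succ k => exact hx.exists_correction hVW (hV.vanish k (by omega) _ hx.bd_isRelCycle)
    obtain ⟨y, hy, hc⟩ := hcorr
    obtain ⟨M, hM⟩ := hW.span _ hc
    obtain ⟨m₁, m₂, hsplit⟩ := exists_chainComb_split z f₁ f₂ hcov M
    refine ⟨m₂, ?_⟩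
    have h1 : chainComb (fun j => z (f₁ j)) m₁ ∈ chainsIn V k :=
      chainComb_mem (fun j => (hV.isRelCycle j).mem) m₁
    have := hM.add_mem hW'V (AddSubgroup.add_mem _ hy h1)
    rw [hsplit] at this
    have h2 : x - y - (chainComb (fun j => z (f₁ j)) m₁ + chainComb (fun j => z (f₂ j)) m₂) +
        (y + chainComb (fun j => z (f₁ j)) m₁) = x - chainComb (fun j => z (f₂ j)) m₂ := by abel
    rwa [h2] at this
  indep m hm := by
    obtain ⟨y, hy, v, hv, h1⟩ := hm
    -- `v` is a relative cycle of `(V, W')`
    have hvc : IsRelCycle V W' k v := by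
      have hcyc : IsRelCycle W W' k (chainComb (fun j => z (f₂ j)) m) :=
        isRelCycle_chainComb (fun j => hW.isRelCycle (f₂ j)) m
      cases k with
      | zero => exact hv
      | succ k =>
        refine ⟨hv, ?_⟩
        have := hcyc.2
        rwa [h1, map_add, bd_bd, zero_add] at this
    obtain ⟨m', y', hy', a, ha, h2⟩ := hV.span v hvc
    have h3 : Finsupp.mapDomain f₂ m - Finsupp.mapDomain f₁ m' = 0 := by
      apply hW.indep
      rw [map_sub, chainComb_mapDomain, chainComb_mapDomain]
      refine ⟨y + y', AddSubgroup.add_mem _ hy (chainsIn_mono hVW _ hy'), a, ha, ?_⟩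
      rw [sub_eq_iff_eq_add] at h2
      rw [h1, h2, map_add]
      abel
    ext j
    have h4 := congrArg (fun q => q (f₂ j)) h3
    simp only [Finsupp.coe_sub, Pi.sub_apply, Finsupp.coe_zero, Pi.zero_apply] at h4
    rw [Finsupp.mapDomain_apply hf₂, Finsupp.mapDomain_of_notMem_range, sub_zero] at h4
    · exact h4
    · rintro ⟨a, ha⟩
      exact hdisj a j ha

/-- Reindexing the cells. -/
theorem RelCells.reindex {Z A : Set E} {d : ℕ} {J J' : Type} {c : J → Chains E d}
    (h : RelCells Z A d c) (e : J' ≃ J) : RelCells Z A d (fun j => c (e j)) where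
  isRelCycle j := h.isRelCycle (e j)
  vanish := h.vanish
  span z hz := by
    obtain ⟨m, hm⟩ := h.span z hz
    refine ⟨Finsupp.mapDomain e.symm m, ?_⟩
    rw [← chainComb_mapDomain, ← Finsupp.mapDomain_comp]
    simpa using hm
  indep m hm := by
    rw [← chainComb_mapDomain] at hm
    exact Finsupp.mapDomain_injective e.injective (by rw [h.indep _ hm, Finsupp.mapDomain_zero])

/-- Transport along an embedding, for the pair `(Y, range b)`. -/
theorem RelCells.image_univ {Y A : Type} [TopologicalSpace Y] [TopologicalSpace A] {ι : C(Y, E)}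
    (hι : Topology.IsEmbedding ι) (b : A → Y) {d : ℕ} {J : Type} {c : J → Chains Y d}
    (h : RelCells (Set.univ : Set Y) (Set.range b) d c) :
    RelCells (Set.range ι) (Set.range (ι ∘ b)) d (fun j => chainMap ι d (c j)) := by
  have := h.image hι
  rwa [Set.image_univ, ← Set.range_comp] at this

end

end Claimed.Open.R321
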