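import Claimed.Open.R321.RelKappa
import Claimed.Open.R321.RelSub

/-!
# R321, package PD-ALG: the final theorem

`d2_clauses_of_tower`: both clauses of `SatisfiesD2` for a universal cover `U` whose total space carries a
deck-invariant filtration `W0 ⊆ W1 ⊆ WB ⊆ W2 ⊆ X̃` such that

* `(W0, ∅)`, `(W1, W0)`, `(W2, W1)`, `(X̃, W2)` have relative homology free on cells of dimension `0, 1, 2, 3`;
* `(WB, W1)` has relative homology free on the sub-family `f₁` of the 2-cells;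
* the 3-cells are indexed by the complementary family `f₂` of 2-cells and `∂ c3 j = ± c2 (f₂ j)` in
  `H_2(W2, WB)`;
* the deck group permutes the cells of `W0`, `W1`, `WB`.
-/

set_option autoImplicit false

namespace Claimed.Open.R321

open CategoryTheory AlgebraicTopology Topology

noncomputable section

variable {X : Type} [TopologicalSpace X]

/-- **PD-ALG, final theorem.** -/
theorem d2_clauses_of_tower (U : UniversalCover X) {W0 W1 WB W2 : Set U.E}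
    (h01 : W0 ⊆ W1) (h1B : W1 ⊆ WB) (hB2 : WB ⊆ W2)
    (i0 : InvariantSet (deckGroup U.p) W0) (i1 : InvariantSet (deckGroup U.p) W1)
    (iB : InvariantSet (deckGroup U.p) WB)
    {J0 J1 J2 JB J3 : Type} {c0 : J0 → Chains U.E 0} {c1 : J1 → Chains U.E 1}
    {c2 : J2 → Chains U.E 2} {c3 : J3 → Chains U.E 3}
    (f₁ : JB → J2) (f₂ : J3 → J2) (hf₂ : Function.Injective f₂) (hdisj : ∀ a b, f₁ a ≠ f₂ b)
    (hcov : ∀ j, (∃ a, f₁ a = j) ∨ ∃ b, f₂ b = j)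
    (e0 : ∀ (g : deckGroup U.p) j, ∃ j', chainAct (deckGroup U.p) g 0 (c0 j) = c0 j')
    (e1 : ∀ (g : deckGroup U.p) j, ∃ j', chainAct (deckGroup U.p) g 1 (c1 j) = c1 j')
    (eB : ∀ (g : deckGroup U.p) j, ∃ j', chainAct (deckGroup U.p) g 2 (c2 (f₁ j)) = c2 (f₁ j'))
    (r0 : RelCells W0 ∅ 0 c0) (r1 : RelCells W1 W0 1 c1) (r2 : RelCells W2 W1 2 c2)
    (rB : RelCells WB W1 2 (fun j => c2 (f₁ j)))
    (r3 : RelCells (Set.univ : Set U.E) W2 3 c3) (ε : J3 → ℤˣ)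
    (hb : ∀ j, IsRelBoundary W2 WB 2 (bd U.E 2 (c3 j) - (ε j : ℤ) • c2 (f₂ j))) :
    (∀ i : ℕ, 2 < i → Limits.IsZero (singularHomology i U.E)) ∧
    ∀ (e₀ : U.E) (M : Type) [AddCommGroup M]
      [Module (MonoidAlgebra ℤ (FundamentalGroup X (U.p e₀))) M],
      Subsingleton (localCohomology U e₀ M 3) :=
  d2_clauses_of_filtration U h01 h1B i0 i1 iB e0 e1 eB r0 r1 rB
    (relVanish_of_cancel_sign hB2 (Set.subset_univ _)
      (RelCells.of_subfamily h1B hB2 f₁ f₂ hf₂ hdisj hcov r2 rB) r3 ε hb)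

/-- `SatisfiesD2` in the situation of `d2_clauses_of_tower`. -/
theorem satisfiesD2_of_tower (U : UniversalCover X) {W0 W1 WB W2 : Set U.E}
    (h01 : W0 ⊆ W1) (h1B : W1 ⊆ WB) (hB2 : WB ⊆ W2)
    (i0 : InvariantSet (deckGroup U.p) W0) (i1 : InvariantSet (deckGroup U.p) W1)
    (iB : InvariantSet (deckGroup U.p) WB)
    {J0 J1 J2 JB J3 : Type} {c0 : J0 → Chains U.E 0} {c1 : J1 → Chains U.E 1}
    {c2 : J2 → Chains U.E 2} {c3 : J3 → Chains U.E 3}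
    (f₁ : JB → J2) (f₂ : J3 → J2) (hf₂ : Function.Injective f₂) (hdisj : ∀ a b, f₁ a ≠ f₂ b)
    (hcov : ∀ j, (∃ a, f₁ a = j) ∨ ∃ b, f₂ b = j)
    (e0 : ∀ (g : deckGroup U.p) j, ∃ j', chainAct (deckGroup U.p) g 0 (c0 j) = c0 j')
    (e1 : ∀ (g : deckGroup U.p) j, ∃ j', chainAct (deckGroup U.p) g 1 (c1 j) = c1 j')
    (eB : ∀ (g : deckGroup U.p) j, ∃ j', chainAct (deckGroup U.p) g 2 (c2 (f₁ j)) = c2 (f₁ j'))
    (r0 : RelCells W0 ∅ 0 c0) (r1 : RelCells W1 W0 1 c1) (r2 : RelCells W2 W1 2 c2)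
    (rB : RelCells WB W1 2 (fun j => c2 (f₁ j)))
    (r3 : RelCells (Set.univ : Set U.E) W2 3 c3) (ε : J3 → ℤˣ)
    (hb : ∀ j, IsRelBoundary W2 WB 2 (bd U.E 2 (c3 j) - (ε j : ℤ) • c2 (f₂ j))) :
    SatisfiesD2 X :=
  ⟨U, d2_clauses_of_tower U h01 h1B hB2 i0 i1 iB f₁ f₂ hf₂ hdisj hcov e0 e1 eB r0 r1 r2 rB r3 ε hb⟩

end

end Claimed.Open.R321
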