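import Claimed.Open.R321.Top
import Claimed.Open.R321.QuotCover
import Claimed.Open.R321.RelFinal

/-!
# R321, PD-MAIN, part 1: `PropD` from a quotient covering with an equivariant cellular filtration

Owner: helper290.

`propD_of_cover`: let `X` be a finite CW complex of dimension three with `χ(X) = 0`, and let
`p : E → X` be a quotient covering map with group `Wall.G` and simply connected total space.  If `E`
carries a `G`-invariant filtration `W0 ⊆ W1 ⊆ WB ⊆ W2 ⊆ E` as in `satisfiesD2_of_tower` (with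
equivariance stated for `G` instead of the deck group), then `PropD` holds.
-/

set_option autoImplicit false

namespace Claimed.Open.R321

open Topology CategoryTheory

noncomputable section

variable {X E G : Type} [TopologicalSpace X] [TopologicalSpace E] [Group G] [MulAction G E]
  {p : E → X}

/-- A `G`-invariant set is invariant under the deck group. -/
theorem invariantSet_deck_of_smul (hp : IsQuotientCoveringMap p G) [PreconnectedSpace E]
    [Nonempty E] {W : Set E} (h : ∀ (g : G) (e : E), e ∈ W → g • e ∈ W) :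
    InvariantSet (deckGroup p) W := by
  intro d e he
  rw [← smulDeck_symm_smul hp d e]
  exact h _ e he

/-- A family of chains permuted by `G` is permuted by the deck group. -/
theorem chainAct_deck_perm (hp : IsQuotientCoveringMap p G) [PreconnectedSpace E] [Nonempty E]
    {n : ℕ} {J : Type} {c : J → Chains E n}
    (h : ∀ (g : G) j, ∃ j', chainMap (smulMap hp g) n (c j) = c j') (d : deckGroup p) (j : J) :
    ∃ j', chainAct (deckGroup p) d n (c j) = c j' := by
  rw [chainAct_deck_eq hp d n]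
  exact h _ j

/-- The base of a quotient covering map with path connected total space is path connected. -/
theorem pathConnectedSpace_of_quotientCovering (hp : IsQuotientCoveringMap p G)
    [PathConnectedSpace E] : PathConnectedSpace X :=
  hp.surjective.pathConnectedSpace hp.continuous

/-- **PD-MAIN, part 1.** -/
theorem propD_of_cover [MulAction Wall.G E] [T2Space X] [CWComplex (Set.univ : Set X)]
    (hfin : CWComplex.Finite (Set.univ : Set X))
    (hdim : ∀ m : ℕ, 3 < m → IsEmpty (RelCWComplex.cell (Set.univ : Set X) m))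
    (hcell : Nonempty (RelCWComplex.cell (Set.univ : Set X) 3))
    (heuler : cellEuler (Set.univ : Set X) = 0)
    (hp : IsQuotientCoveringMap p Wall.G) [SimplyConnectedSpace E]
    {W0 W1 WB W2 : Set E} (h01 : W0 ⊆ W1) (h1B : W1 ⊆ WB) (hB2 : WB ⊆ W2)
    (i0 : ∀ (g : Wall.G) (e : E), e ∈ W0 → g • e ∈ W0)
    (i1 : ∀ (g : Wall.G) (e : E), e ∈ W1 → g • e ∈ W1)
    (iB : ∀ (g : Wall.G) (e : E), e ∈ WB → g • e ∈ WB)
    {J0 J1 J2 JB J3 : Type} {c0 : J0 → Chains E 0} {c1 : J1 → Chains E 1}
    {c2 : J2 → Chains E 2} {c3 : J3 → Chains E 3}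
    (f₁ : JB → J2) (f₂ : J3 → J2) (hf₂ : Function.Injective f₂) (hdisj : ∀ a b, f₁ a ≠ f₂ b)
    (hcov : ∀ j, (∃ a, f₁ a = j) ∨ ∃ b, f₂ b = j)
    (e0 : ∀ (g : Wall.G) j, ∃ j', chainMap (smulMap hp g) 0 (c0 j) = c0 j')
    (e1 : ∀ (g : Wall.G) j, ∃ j', chainMap (smulMap hp g) 1 (c1 j) = c1 j')
    (eB : ∀ (g : Wall.G) j, ∃ j', chainMap (smulMap hp g) 2 (c2 (f₁ j)) = c2 (f₁ j'))
    (r0 : RelCells W0 ∅ 0 c0) (r1 : RelCells W1 W0 1 c1) (r2 : RelCells W2 W1 2 c2)
    (rB : RelCells WB W1 2 (fun j => c2 (f₁ j)))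
    (r3 : RelCells (Set.univ : Set E) W2 3 c3) (ε : J3 → ℤˣ)
    (hb : ∀ j, IsRelBoundary W2 WB 2 (bd E 2 (c3 j) - (ε j : ℤ) • c2 (f₂ j))) : PropD := by
  obtain ⟨e₀⟩ := (inferInstance : Nonempty E)
  refine ⟨X, inferInstance, inferInstance, inferInstance, hfin, hdim, hcell, heuler,
    pathConnectedSpace_of_quotientCovering hp,
    ⟨p e₀, ⟨fundamentalGroupMulEquivOfQuotient hp ⟨e₀, rfl⟩⟩⟩, ?_⟩
  exact satisfiesD2_of_tower (UniversalCover.ofQuotient hp) (W0 := W0) (W1 := W1) (WB := WB)
    (W2 := W2) h01 h1B hB2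
    (invariantSet_deck_of_smul hp i0) (invariantSet_deck_of_smul hp i1)
    (invariantSet_deck_of_smul hp iB) f₁ f₂ hf₂ hdisj hcov
    (chainAct_deck_perm hp e0) (chainAct_deck_perm hp e1)
    (chainAct_deck_perm hp (c := fun j => c2 (f₁ j)) eB) r0 r1 r2 rB r3 ε hb

end

end Claimed.Open.R321
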