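import Claimed.Open.R321.PSGlue

/-!
# PD-SPHERE, part 4: the sphere made of two cubes with the same boundary

Owner: helper51.

* `faceSph i e : C(Dsk d, Sph (d + 1))`, `sphCycle d : Chains (Sph (d + 1)) d`: the fundamental cycle of
  the boundary of the cube, as a chain of the sphere; `bd_chainMap_cubeChain`;
* `sphereOf i Ψ N h : C(Sph (d + 1), Z)`: `Ψ` on the face `x_i = 1`, `N` on the face `x_i = -1`, constant in
  the direction `i` on the other faces;
* `exists_sphere`, `isRelBoundary_of_sphere`: the output of PD-SPHERE.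
-/

set_option autoImplicit false

namespace Claimed.Open.R321

open Topology unitInterval Set Metric

noncomputable section

/-! ### The fundamental cycle of the boundary of the cube -/

theorem abs_faceMap_same {d : ℕ} (i : Fin (d + 1)) (e : Bool) (x : Dsk d) :
    |(faceMap i e x).1 i| = 1 := by
  rw [faceMap_coe, Fin.insertNth_apply_same, abs_sgnR]

/-- The face `x_i = ±1`, as a map to the boundary of the cube. -/
def faceSph {d : ℕ} (i : Fin (d + 1)) (e : Bool) : C(Dsk d, Sph (d + 1)) where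
  toFun x := (faceMap i e x).toSphOfAbs i (abs_faceMap_same i e x)
  continuous_toFun :=
    Continuous.subtype_mk (continuous_subtype_val.comp (faceMap i e).continuous) _

theorem faceSph_coe {d : ℕ} (i : Fin (d + 1)) (e : Bool) (x : Dsk d) :
    (faceSph i e x : Fin (d + 1) → ℝ) = i.insertNth (sgnR e) x.1 := rfl

theorem sphToDsk_comp_faceSph {d : ℕ} (i : Fin (d + 1)) (e : Bool) :
    (sphToDsk (d + 1)).comp (faceSph i e) = faceMap i e := rfl

/-- The fundamental cycle of the boundary of the cube `Dsk (d + 1)`. -/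
def sphCycle (d : ℕ) : Chains (Sph (d + 1)) d :=
  ∑ p : Fin (d + 1) × Bool,
    ((-1 : ℤ) ^ (p.1 : ℕ) * sgnZ p.2) • chainMap (faceSph p.1 p.2) d (cubeChain d)

theorem chainMap_sphToDsk_sphCycle (d : ℕ) :
    chainMap (sphToDsk (d + 1)) d (sphCycle d) = sphChain d := by
  rw [sphCycle, map_sum, sphChain]
  refine Finset.sum_congr rfl fun p _ => ?_
  rw [map_zsmul, ← chainMap_comp, sphToDsk_comp_faceSph]

/-- The boundary of a `(d+1)`-cell is the image of the fundamental cycle of the sphere under the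
attaching map. -/
theorem bd_chainMap_cubeChain {Z : Type} [TopologicalSpace Z] {d : ℕ} (Θ : C(Dsk (d + 1), Z)) :
    bd Z d (chainMap Θ (d + 1) (cubeChain (d + 1))) =
      chainMap (Θ.comp (sphToDsk (d + 1))) d (sphCycle d) := by
  rw [bd_chainMap, bd_cubeChain, ← chainMap_sphToDsk_sphCycle, ← chainMap_comp]

/-! ### Forgetting a coordinate -/

/-- Forget the coordinate `i`. -/
def dropMap {d : ℕ} (i : Fin (d + 1)) : C(Dsk (d + 1), Dsk d) where
  toFun y := ⟨i.removeNth y.1, by
    rw [mem_dsk_iff]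
    intro j
    exact Dsk.abs_le_one y _⟩
  continuous_toFun := by
    refine Continuous.subtype_mk ?_ _
    exact continuous_pi fun j => (continuous_apply (i.succAbove j)).comp continuous_subtype_val

theorem dropMap_apply {d : ℕ} (i : Fin (d + 1)) (y : Dsk (d + 1)) (j : Fin d) :
    (dropMap i y).1 j = y.1 (i.succAbove j) := rfl

theorem dropMap_faceMap {d : ℕ} (i : Fin (d + 1)) (e : Bool) (x : Dsk d) :
    dropMap i (faceMap i e x) = x := by
  apply Subtype.ext
  funext j
  rw [dropMap_apply, faceMap_coe, Fin.insertNth_apply_succAbove]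

theorem norm_eq_one_of_abs {d : ℕ} (x : Dsk d) (k : Fin d) (hk : |x.1 k| = 1) : ‖x.1‖ = 1 :=
  le_antisymm (Dsk.norm_le_one x) (hk.symm.le.trans (norm_le_pi_norm x.1 k))

theorem Sph.norm_dropMap_or {d : ℕ} (i : Fin (d + 1)) (x : Sph (d + 1)) :
    ‖(dropMap i (sphToDsk _ x)).1‖ = 1 ∨ |x.1 i| = 1 := by
  obtain ⟨k, hk⟩ := Sph.exists_abs_eq_one x
  induction k using Fin.succAboveCases i with
  | x => exact Or.inr hk
  | p m => exact Or.inl (norm_eq_one_of_abs _ m hk)

/-! ### The sphere -/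

section Sphere

variable {Z : Type} [TopologicalSpace Z] {d : ℕ}

theorem eq_of_norm_eq_one {Ψ N : C(Dsk d, Z)} (h : Ψ.comp (sphToDsk d) = N.comp (sphToDsk d))
    (x : Dsk d) (hx : ‖x.1‖ = 1) : Ψ x = N x :=
  DFunLike.congr_fun h ⟨x.1, mem_sphere_zero_iff_norm.2 hx⟩

/-- The sphere made of two cubes `Ψ` (face `x_i = 1`) and `N` (face `x_i = -1`) with the same boundary;
on the other faces the map does not depend on `x_i`. -/
def sphereOf (i : Fin (d + 1)) (Ψ N : C(Dsk d, Z)) (h : Ψ.comp (sphToDsk d) = N.comp (sphToDsk d)) :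
    C(Sph (d + 1), Z) where
  toFun x := if ‖(dropMap i (sphToDsk _ x)).1‖ + x.1 i ≤ 0 then N (dropMap i (sphToDsk _ x))
    else Ψ (dropMap i (sphToDsk _ x))
  continuous_toFun := by
    have cπ : Continuous fun x : Sph (d + 1) => dropMap i (sphToDsk _ x) :=
      (dropMap i).continuous.comp (sphToDsk _).continuous
    have ci : Continuous fun x : Sph (d + 1) => x.1 i :=
      (continuous_apply i).comp continuous_subtype_val
    refine Continuous.if_le (N.continuous.comp cπ) (Ψ.continuous.comp cπ)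
      ((continuous_norm.comp (continuous_subtype_val.comp cπ)).add ci) continuous_const ?_
    intro x hx
    refine (eq_of_norm_eq_one h _ ?_).symm
    rcases Sph.norm_dropMap_or i x with h1 | h1
    · exact h1
    · have hneg : x.1 i ≤ 0 := by linarith [norm_nonneg (dropMap i (sphToDsk _ x)).1]
      rw [abs_of_nonpos hneg] at h1
      linarith

theorem sphereOf_apply (i : Fin (d + 1)) (Ψ N : C(Dsk d, Z))
    (h : Ψ.comp (sphToDsk d) = N.comp (sphToDsk d)) (x : Sph (d + 1)) :
    sphereOf i Ψ N h x = if ‖(dropMap i (sphToDsk _ x)).1‖ + x.1 i ≤ 0 then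
      N (dropMap i (sphToDsk _ x)) else Ψ (dropMap i (sphToDsk _ x)) := rfl

theorem sphereOf_comp_faceSph_true (i : Fin (d + 1)) (Ψ N : C(Dsk d, Z))
    (h : Ψ.comp (sphToDsk d) = N.comp (sphToDsk d)) :
    (sphereOf i Ψ N h).comp (faceSph i true) = Ψ := by
  ext x
  have h1 : dropMap i (sphToDsk _ (faceSph i true x)) = x := dropMap_faceMap i true x
  have h2 : (faceSph i true x).1 i = 1 := by
    rw [faceSph_coe, Fin.insertNth_apply_same]; simp [sgnR]
  rw [ContinuousMap.comp_apply, sphereOf_apply, h1, h2, if_neg]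
  have := norm_nonneg x.1
  linarith

theorem sphereOf_comp_faceSph_false (i : Fin (d + 1)) (Ψ N : C(Dsk d, Z))
    (h : Ψ.comp (sphToDsk d) = N.comp (sphToDsk d)) :
    (sphereOf i Ψ N h).comp (faceSph i false) = N := by
  ext x
  have h1 : dropMap i (sphToDsk _ (faceSph i false x)) = x := dropMap_faceMap i false x
  have h2 : (faceSph i false x).1 i = -1 := by
    rw [faceSph_coe, Fin.insertNth_apply_same]; simp [sgnR]
  rw [ContinuousMap.comp_apply, sphereOf_apply, h1, h2, if_pos]
  have := Dsk.norm_le_one x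
  linarith

/-- The projection of a side face to the boundary of the cube of one dimension less. -/
def sideMap (i : Fin (d + 1)) (m : Fin d) (e : Bool) : C(Dsk d, Sph d) where
  toFun x := (dropMap i (faceMap (i.succAbove m) e x)).toSphOfAbs m (by
    rw [dropMap_apply]; exact abs_faceMap_same _ e x)
  continuous_toFun := Continuous.subtype_mk (continuous_subtype_val.comp
    ((dropMap i).continuous.comp (faceMap (i.succAbove m) e).continuous)) _

theorem sphereOf_comp_faceSph_side (i : Fin (d + 1)) (Ψ N : C(Dsk d, Z))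
    (h : Ψ.comp (sphToDsk d) = N.comp (sphToDsk d)) (m : Fin d) (e : Bool) :
    (sphereOf i Ψ N h).comp (faceSph (i.succAbove m) e) =
      (Ψ.comp (sphToDsk d)).comp (sideMap i m e) := by
  ext x
  rw [ContinuousMap.comp_apply, sphereOf_apply]
  have h1 : dropMap i (sphToDsk _ (faceSph (i.succAbove m) e x)) = sphToDsk d (sideMap i m e x) := rfl
  rw [h1]
  split_ifs
  · exact (DFunLike.congr_fun h (sideMap i m e x)).symm
  · rfl

/-- **The image of the fundamental cycle under `sphereOf`.** -/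
theorem chainMap_sphereOf_sub_mem {B : Type} [TopologicalSpace B] (i : Fin (d + 1))
    (Ψ N : C(Dsk d, Z)) (h : Ψ.comp (sphToDsk d) = N.comp (sphToDsk d)) (iB : C(B, Z))
    (lam : C(Sph d, B)) (hΨ : Ψ.comp (sphToDsk d) = iB.comp lam) :
    chainMap (sphereOf i Ψ N h) d (sphCycle d) -
      (-1 : ℤ) ^ (i : ℕ) • (chainMap Ψ d (cubeChain d) - chainMap N d (cubeChain d)) ∈
        (chainMap iB d).range := by
  rw [sphCycle, map_sum]
  simp only [map_zsmul, ← chainMap_comp]
  rw [Fintype.sum_prod_type, Fin.sum_univ_succAbove _ i, Fintype.sum_bool,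
    sphereOf_comp_faceSph_true, sphereOf_comp_faceSph_false]
  have h0 : ((-1 : ℤ) ^ (i : ℕ) * sgnZ true) • chainMap Ψ d (cubeChain d) +
      ((-1 : ℤ) ^ (i : ℕ) * sgnZ false) • chainMap N d (cubeChain d) =
      (-1 : ℤ) ^ (i : ℕ) • (chainMap Ψ d (cubeChain d) - chainMap N d (cubeChain d)) := by
    have e1 : sgnZ true = 1 := rfl
    have e2 : sgnZ false = -1 := rfl
    rw [e1, e2, mul_one, mul_neg, mul_one, neg_zsmul, zsmul_sub, sub_eq_add_neg]
  rw [h0, add_sub_cancel_left]
  refine AddSubgroup.sum_mem _ fun m _ => AddSubgroup.sum_mem _ fun e _ => ?_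
  refine AddSubgroup.zsmul_mem _ ?_ _
  rw [sphereOf_comp_faceSph_side, hΨ, ContinuousMap.comp_assoc, chainMap_comp]
  exact ⟨_, rfl⟩

end Sphere

/-! ### The output of PD-SPHERE -/

section Output

variable {B Z Z' : Type} [TopologicalSpace B] [TopologicalSpace Z] [TopologicalSpace Z']

/-- **Existence of the attaching sphere.**  `i : B → Z`, every loop of `B` at `b` dies in `Z`, `g` is a
loop of `B` whose class is in the commutator subgroup of `π₁(B, b)`, and `Ψ` is a 2-cell of `Z` attached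
along `g`.  Then there is a sphere `α` in `Z` whose fundamental cycle is `Ψ_# ι₂` modulo chains of `B` and
boundaries. -/
theorem exists_sphere (i : C(B, Z)) {b : B}
    (hdie : ∀ g : Path b b, (g.map i.continuous).Homotopic (Path.refl (i b)))
    (g : Path b b)
    (hg : FundamentalGroup.fromPath (Path.Homotopic.Quotient.mk g) ∈
      commutator (FundamentalGroup B b))
    (Ψ : C(Dsk 2, Z)) (hΨ : Ψ.comp (sphToDsk 2) = i.comp (loopSph g)) :
    ∃ α : C(Sph 3, Z), chainMap α 2 (sphCycle 2) - chainMap Ψ 2 (cubeChain 2) ∈ sqT i := by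
  obtain ⟨F, hF⟩ := sweeps_zero_of_mem_commutator i sqIds_cubeChain hdie g hg
  have h : Ψ.comp (sphToDsk 2) = (sqOf F).comp (sphToDsk 2) := by
    rw [hΨ, sqOf_comp_sphToDsk, comp_loopSph]
  refine ⟨sphereOf 2 Ψ (sqOf F) h, ?_⟩
  have h1 := chainMap_sphereOf_sub_mem 2 Ψ (sqOf F) h i (loopSph g) hΨ
  have h2 : ((-1 : ℤ) ^ (((2 : Fin 3) : ℕ))) = 1 := by norm_num
  rw [h2, one_smul] at h1
  have h3 : chainMap (sphereOf 2 Ψ (sqOf F) h) 2 (sphCycle 2) - chainMap Ψ 2 (cubeChain 2) =
      (chainMap (sphereOf 2 Ψ (sqOf F) h) 2 (sphCycle 2) -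
        (chainMap Ψ 2 (cubeChain 2) - chainMap (sqOf F) 2 (cubeChain 2))) -
          chainMap (sqOf F) 2 (cubeChain 2) := by abel
  rw [h3]
  exact AddSubgroup.sub_mem _ (AddSubgroup.mem_sup_left h1) hF

theorem chainMap_mem_chainsIn_range {E E' : Type} [TopologicalSpace E] [TopologicalSpace E']
    (f : C(E, E')) {n : ℕ} (c : Chains E n) : chainMap f n c ∈ chainsIn (Set.range f) n :=
  chainMap_mem_chainsIn f (A := Set.univ) (B := Set.range f) (fun x _ => ⟨x, rfl⟩)
    (mem_chainsIn_univ c)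

/-- **The boundary of the 3-cell.**  If `α` is as in `exists_sphere`, `j : Z → Z'`, and `Θ` is a 3-cell of
`Z'` attached along `j ∘ α`, then `∂ (Θ_# ι₃) - (j ∘ Ψ)_# ι₂` is a relative boundary of the pair
`(j Z, j i B)`. -/
theorem isRelBoundary_of_sphere (i : C(B, Z)) (Ψ : C(Dsk 2, Z)) (α : C(Sph 3, Z))
    (hα : chainMap α 2 (sphCycle 2) - chainMap Ψ 2 (cubeChain 2) ∈ sqT i) (j : C(Z, Z'))
    (Θ : C(Dsk 3, Z')) (hΘ : Θ.comp (sphToDsk 3) = j.comp α) :
    IsRelBoundary (Set.range j) (Set.range (j.comp i)) 2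
      (bd Z' 2 (chainMap Θ 3 (cubeChain 3)) - chainMap (j.comp Ψ) 2 (cubeChain 2)) := by
  obtain ⟨_, ⟨a, rfl⟩, _, ⟨y, rfl⟩, hay⟩ := AddSubgroup.mem_sup.1 hα
  refine ⟨chainMap j 3 y, chainMap_mem_chainsIn_range j y, chainMap (j.comp i) 2 a,
    chainMap_mem_chainsIn_range _ a, ?_⟩
  rw [bd_chainMap_cubeChain, hΘ, chainMap_comp, chainMap_comp, ← map_sub, ← hay, map_add,
    bd_chainMap, chainMap_comp]
  abel

end Output

end

end Claimed.Open.R321
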