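import Claimed.Open.R321.PDStage
import Claimed.Open.R321.AttachCov
import Claimed.Open.R321.AttachCW
import Claimed.Open.R321.AttachSC
import Claimed.Open.R321.PSSphere

/-!
# R321, PD-MAIN, part 3: attaching the 3-cells

Owner: helper290.

* `EqAttach.ofLiftFam`: the equivariant attachment `Attach (liftFam Γ ψ)` as an `EqAttach`;
* `propD_of_cayley`: `PropD` from the output of package PD-CAYLEY (the `G`-covering `E2 → X2` of the
  presentation complex, simply connected, and the loops `t̃_j` in the commutator subgroup of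
  `π₁(B)`).
-/

set_option autoImplicit false

namespace Claimed.Open.R321

open Topology CategoryTheory

noncomputable section

/-- The equivariant attachment `Attach (liftFam Γ ψ)` as an `EqAttach`. -/
def EqAttach.ofLiftFam {Γ : Type} [Group Γ] {A' : Type} [TopologicalSpace A'] [MulAction Γ A']
    [ContinuousConstSMul Γ A'] {J : Type} {d : ℕ} (ψ : J → C(Sph d, A')) :
    EqAttach Γ A' (Attach (Attach.liftFam Γ ψ)) d J where
  b := Attach.baseMap _
  emb := Attach.isClosedEmbedding_base.isEmbedding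
  b_smul g a := (Attach.smul_base g a).symm
  ca :=
    { Φ := fun x => Attach.charMap (Attach.liftFam Γ ψ) (CovIdx.mk x.1 x.2)
      sphere_mem := fun i x hx => (Attach.cellAttach (Attach.liftFam Γ ψ)).sphere_mem _ x hx
      ball_not_mem := fun i x hx => (Attach.cellAttach (Attach.liftFam Γ ψ)).ball_not_mem _ x hx
      inj := fun i j x y hx hy h => by
        obtain ⟨h1, h2⟩ := (Attach.cellAttach (Attach.liftFam Γ ψ)).inj _ _ x y hx hy h
        obtain ⟨h3, h4⟩ := CovIdx.mk_eq_mk_iff.1 h1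
        exact ⟨Prod.ext h3 h4, h2⟩
      cover := fun z => by
        rcases (Attach.cellAttach (Attach.liftFam Γ ψ)).cover z with h | ⟨i, x, h⟩
        · exact Or.inl h
        · exact Or.inr ⟨(i.fst, i.snd), x, h⟩ }
  weak := by
    obtain ⟨h1, h2⟩ := Attach.cellAttach_isWeak (Attach.liftFam Γ ψ)
    exact ⟨h1, fun C hC hj => h2 C hC fun j => hj (j.fst, j.snd)⟩
  smul_Φ g g' j x := Attach.smul_char_liftFam ψ g (CovIdx.mk g' j) x

/-- **PD-MAIN, part 3.** -/
theorem propD_of_cayley (RC : IfaceRC)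
    {E0 E1 X2 : Type} [TopologicalSpace E0] [TopologicalSpace E1] [TopologicalSpace X2]
    [MulAction Wall.G E0] [MulAction Wall.G E1] [ContinuousConstSMul Wall.G E1] [T2Space X2]
    -- the finite complex `X2`
    {c : ℕ → ℕ} (hX2 : HasCW X2 c) (hc0 : c 0 = 1) (hc1 : c 1 = 5) (hc2 : c 2 = 6)
    (hc : ∀ m, 3 ≤ m → c m = 0)
    -- the 1-skeleton upstairs
    {J0 S : Type} (ca0 : CellAttach E0 ∅ 0 J0) (w0 : ca0.IsWeak)
    (eq0 : ∀ (g : Wall.G) (j : J0), ∃ j', ∀ x, g • ca0.Φ j x = ca0.Φ j' x)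
    (s1 : EqAttach Wall.G E0 E1 1 S)
    -- the 2-cells upstairs and the covering
    (ψ2 : Fin 6 → C(Sph 2, E1))
    (p2 : C(Attach (Attach.liftFam Wall.G ψ2), X2)) (hp2 : IsQuotientCoveringMap p2 Wall.G)
    [SimplyConnectedSpace (Attach (Attach.liftFam Wall.G ψ2))]
    -- the sub-family of the relators of `P`
    (inc : Fin 4 → Fin 6) (incT : Fin 2 → Fin 6) (hinc : Function.Injective inc)
    (hincT : Function.Injective incT)
    (hdisj : ∀ a b, inc a ≠ incT b) (hcov : ∀ q, (∃ a, inc a = q) ∨ ∃ b, incT b = q)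
    -- the loops `t̃_j`
    (b : Attach (Attach.liftFam Wall.G (ψ2 ∘ inc))) (g : Fin 2 → Path b b)
    (hg : ∀ t, FundamentalGroup.fromPath (Path.Homotopic.Quotient.mk (g t)) ∈
      commutator (FundamentalGroup (Attach (Attach.liftFam Wall.G (ψ2 ∘ inc))) b))
    (hΨ : ∀ t, (Attach.charMap (Attach.liftFam Wall.G ψ2) (CovIdx.mk 1 (incT t))).comp
      (sphToDsk 2) = (Attach.subMap Wall.G ψ2 inc).comp (loopSph (g t))) :
    PropD := by
  -- the spheres
  have hdie : ∀ γ : Path b b, (γ.map (Attach.subMap Wall.G ψ2 inc).continuous).Homotopic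
      (Path.refl (Attach.subMap Wall.G ψ2 inc b)) :=
    fun γ => SimplyConnectedSpace.paths_homotopic _ _
  choose α hα using fun t => exists_sphere (Attach.subMap Wall.G ψ2 inc) hdie (g t) (hg t)
    (Attach.charMap (Attach.liftFam Wall.G ψ2) (CovIdx.mk 1 (incT t))) (hΨ t)
  -- the 3-cells
  let φ3 : Fin 2 → C(Sph 3, X2) := fun t => p2.comp (α t)
  have hψ3 : ∀ j w, p2 (α j w) = φ3 j w := fun _ _ => rfl
  have hp3 := Attach.isQuotientCoveringMap_covMap hp2 hψ3
  have : SimplyConnectedSpace (Attach (Attach.liftFam Wall.G α)) :=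
    Attach.simplyConnectedSpace_liftFam (by norm_num) hp2 hψ3
  -- the CW structure
  have hX3 := hX2.attach hc φ3
  obtain ⟨cw, fin, hdim, hcell', heuler⟩ := hX3.summary 3
    (fun m hm => by
      show c m + (if m = 3 then Nat.card (Fin 2) else 0) = 0
      rw [hc m (by omega), if_neg (by omega)])
  have hcell := hcell' (by
    show c 3 + (if 3 = 3 then Nat.card (Fin 2) else 0) ≠ 0
    simp)
  have heuler0 : cellEuler (Set.univ : Set (Attach φ3)) = 0 := by
    rw [heuler]
    simp [Finset.sum_range_succ, hc0, hc1, hc2, hc 3 le_rfl]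
  refine propD_of_tower RC fin hdim hcell heuler0 hp3 ca0 w0 eq0 s1 (EqAttach.ofLiftFam ψ2)
    (EqAttach.ofLiftFam (ψ2 ∘ inc)) (EqAttach.ofLiftFam α) inc incT hincT hdisj hcov
    (Attach.subMap Wall.G ψ2 inc) (Attach.isClosedEmbedding_subMap ψ2 hinc).isEmbedding
    (Attach.subMap_smul ψ2 inc) (fun a => rfl) (fun γ q x => ?_) (fun _ => 1) (fun t => ?_)
  · exact Attach.subMap_char ψ2 inc (CovIdx.mk γ q) x
  · have hΘ : (Attach.charMap (Attach.liftFam Wall.G α) (CovIdx.mk 1 t)).comp (sphToDsk 3) =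
        (Attach.baseMap (Attach.liftFam Wall.G α)).comp (α t) := by
      ext w
      show Attach.char _ _ (sphToDsk 3 w) = Attach.base (α t w)
      rw [Attach.char_sphToDsk, Attach.liftFam_mk, one_smul]
    have h := isRelBoundary_of_sphere (Attach.subMap Wall.G ψ2 inc) _ (α t) (hα t)
      (Attach.baseMap (Attach.liftFam Wall.G α)) _ hΘ
    rw [chainMap_comp] at h
    rw [Units.val_one, one_smul]
    exact h

end

end Claimed.Open.R321
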