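import Claimed.Open.R321.SubMesh

/-!
# Barycentric subdivision of singular chains

* `Sd E n : Chains E n →+ Chains E n`, the barycentric subdivision operator, a natural chain map;
* `Tsd E n : Chains E n →+ Chains E (n + 1)`, a natural chain homotopy from `Sd` to the identity;
* `Dsd E m n`, the chain homotopy from the `m`-fold subdivision to the identity;
* `smallChains 𝒰 n`, the chains which are sums of simplices contained in a member of `𝒰`;
* `exists_iterate_Sd_mem`: if the interiors of the members of `𝒰` cover `E`, then every chain becomes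
  `𝒰`-small after finitely many subdivisions.
-/

set_option autoImplicit false

namespace Claimed.Open.R321

open Topology FreeAbelianGroup

noncomputable section

variable {E E' : Type} [TopologicalSpace E] [TopologicalSpace E'] {n : ℕ}

/-- Barycentric subdivision of singular chains. -/
def Sd (E : Type) [TopologicalSpace E] (n : ℕ) : Chains E n →+ Chains E n :=
  chainsLift fun σ => chainMap σ n
    (lreal (hΔ (n + 1)) n (lsd (bary (hΔ (n + 1))) (n + 1) (of (vert (n + 1)))))

/-- The chain homotopy between barycentric subdivision and the identity. -/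
def Tsd (E : Type) [TopologicalSpace E] (n : ℕ) : Chains E n →+ Chains E (n + 1) :=
  chainsLift fun σ => chainMap σ (n + 1)
    (lreal (hΔ (n + 1)) (n + 1) (lT (bary (hΔ (n + 1))) (n + 1) (of (vert (n + 1)))))

theorem Sd_gen (σ : Simplex n E) : Sd E n (gen σ) = chainMap σ n
    (lreal (hΔ (n + 1)) n (lsd (bary (hΔ (n + 1))) (n + 1) (of (vert (n + 1))))) :=
  chainsLift_gen _ σ

theorem Tsd_gen (σ : Simplex n E) : Tsd E n (gen σ) = chainMap σ (n + 1)
    (lreal (hΔ (n + 1)) (n + 1) (lT (bary (hΔ (n + 1))) (n + 1) (of (vert (n + 1))))) :=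
  chainsLift_gen _ σ

theorem chainMap_Sd (f : C(E, E')) (c : Chains E n) :
    chainMap f n (Sd E n c) = Sd E' n (chainMap f n c) := by
  have h : (chainMap f n).comp (Sd E n) = (Sd E' n).comp (chainMap f n) := by
    apply chains_hom_ext
    intro σ
    simp only [AddMonoidHom.comp_apply, Sd_gen, chainMap_gen, chainMap_comp]
  exact congrArg (fun k => k c) h

theorem chainMap_Tsd (f : C(E, E')) (c : Chains E n) :
    chainMap f (n + 1) (Tsd E n c) = Tsd E' n (chainMap f n c) := by
  have h : (chainMap f (n + 1)).comp (Tsd E n) = (Tsd E' n).comp (chainMap f n) := by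
    apply chains_hom_ext
    intro σ
    simp only [AddMonoidHom.comp_apply, Tsd_gen, chainMap_gen, chainMap_comp]
  exact congrArg (fun k => k c) h

section Linear

variable {V : Type} [AddCommGroup V] [Module ℝ V] [TopologicalSpace V] [ContinuousAdd V]
  [ContinuousSMul ℝ V] {K : Set V}

/-- Subdivision of the realisation of a formal linear chain. -/
theorem Sd_lreal (hK : Convex ℝ K) (x : LC K (n + 1)) :
    Sd K n (lreal hK n x) = lreal hK n (lsd (bary hK) (n + 1) x) := by
  have h : (Sd K n).comp (lreal hK n) = (lreal hK n).comp (lsd (bary hK) (n + 1)) := by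
    ext v
    simp only [AddMonoidHom.comp_apply]
    rw [lreal_of, Sd_gen, chainMap_lreal,
      lmap_lsd (bary (hΔ (n + 1))) (bary hK) (aff hK v) (fun k w => aff_bary hK v k w),
      lmap_of, aff_comp_vert]
  exact congrArg (fun f => f x) h

theorem Tsd_lreal (hK : Convex ℝ K) (x : LC K (n + 1)) :
    Tsd K n (lreal hK n x) = lreal hK (n + 1) (lT (bary hK) (n + 1) x) := by
  have h : (Tsd K n).comp (lreal hK n) = (lreal hK (n + 1)).comp (lT (bary hK) (n + 1)) := by
    ext v
    simp only [AddMonoidHom.comp_apply]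
    rw [lreal_of, Tsd_gen, chainMap_lreal,
      lmap_lT (bary (hΔ (n + 1))) (bary hK) (aff hK v) (fun k w => aff_bary hK v k w),
      lmap_of, aff_comp_vert]
  exact congrArg (fun f => f x) h

end Linear

/-- Every singular simplex is the image of the identity simplex. -/
theorem gen_eq_chainMap (σ : Simplex n E) :
    gen σ = chainMap σ n (lreal (hΔ (n + 1)) n (of (vert (n + 1)))) := by
  rw [lreal_vert, chainMap_gen]
  rfl

theorem bd_Sd (c : Chains E (n + 1)) : bd E n (Sd E (n + 1) c) = Sd E n (bd E n c) := by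
  have h : (bd E n).comp (Sd E (n + 1)) = (Sd E n).comp (bd E n) := by
    apply chains_hom_ext
    intro σ
    simp only [AddMonoidHom.comp_apply]
    rw [gen_eq_chainMap σ, ← chainMap_Sd, bd_chainMap, bd_chainMap, ← chainMap_Sd, Sd_lreal,
      bd_lreal, bd_lreal, Sd_lreal, lbd_lsd]
  exact congrArg (fun k => k c) h

theorem Sd_zero (c : Chains E 0) : Sd E 0 c = c := by
  have h : Sd E 0 = AddMonoidHom.id _ := by
    apply chains_hom_ext
    intro σ
    simp only [AddMonoidHom.id_apply]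
    rw [gen_eq_chainMap σ, ← chainMap_Sd, Sd_lreal, lsd_one _ (bary_zero _)]
  exact congrArg (fun k => k c) h

theorem bd_Tsd_zero (c : Chains E 0) : bd E 0 (Tsd E 0 c) = 0 := by
  have h : (bd E 0).comp (Tsd E 0) = 0 := by
    apply chains_hom_ext
    intro σ
    simp only [AddMonoidHom.comp_apply, AddMonoidHom.zero_apply]
    rw [gen_eq_chainMap σ, ← chainMap_Tsd, bd_chainMap, Tsd_lreal, bd_lreal,
      lbd_lT_one _ (bary_zero _), map_zero, map_zero]
  exact congrArg (fun k => k c) h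

theorem bd_Tsd_succ (c : Chains E (n + 1)) :
    bd E (n + 1) (Tsd E (n + 1) c) + Tsd E n (bd E n c) = c - Sd E (n + 1) c := by
  have h : (bd E (n + 1)).comp (Tsd E (n + 1)) + (Tsd E n).comp (bd E n) =
      AddMonoidHom.id _ - Sd E (n + 1) := by
    apply chains_hom_ext
    intro σ
    simp only [AddMonoidHom.comp_apply, AddMonoidHom.add_apply, AddMonoidHom.sub_apply,
      AddMonoidHom.id_apply]
    rw [gen_eq_chainMap σ, ← chainMap_Sd, ← chainMap_Tsd, bd_chainMap, bd_chainMap, ← chainMap_Tsd,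
      Sd_lreal, Tsd_lreal, bd_lreal, bd_lreal, Tsd_lreal, ← map_add, ← map_add, lbd_lT_succ,
      map_sub, map_sub]
  exact congrArg (fun k => k c) h

/-! ### Small chains -/

/-- The chains which are combinations of singular simplices whose image lies in a member of `𝒰`. -/
def smallChains (𝒰 : Set (Set E)) (n : ℕ) : AddSubgroup (Chains E n) :=
  AddSubgroup.closure {c | ∃ σ : Simplex n E, (∃ U ∈ 𝒰, Set.range σ ⊆ U) ∧ c = gen σ}

theorem gen_mem_smallChains {𝒰 : Set (Set E)} {σ : Simplex n E} {U : Set E} (hU : U ∈ 𝒰)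
    (hσ : Set.range σ ⊆ U) : gen σ ∈ smallChains 𝒰 n :=
  AddSubgroup.subset_closure ⟨σ, ⟨U, hU, hσ⟩, rfl⟩

theorem smallChains_mono {𝒰 𝒱 : Set (Set E)} (h : ∀ U ∈ 𝒰, ∃ V ∈ 𝒱, U ⊆ V) (n : ℕ) :
    smallChains 𝒰 n ≤ smallChains 𝒱 n := by
  refine (AddSubgroup.closure_le _).2 ?_
  rintro _ ⟨σ, ⟨U, hU, hσ⟩, rfl⟩
  obtain ⟨V, hV, hUV⟩ := h U hU
  exact gen_mem_smallChains hV (hσ.trans hUV)

/-- To show that an additive map sends small chains into a subgroup, check it on small simplices. -/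
theorem map_mem_of_smallChains {M : Type} [AddCommGroup M] {𝒰 : Set (Set E)} (S : AddSubgroup M)
    (φ : Chains E n →+ M) (h : ∀ (σ : Simplex n E) (U : Set E), U ∈ 𝒰 → Set.range σ ⊆ U →
      φ (gen σ) ∈ S) {c : Chains E n} (hc : c ∈ smallChains 𝒰 n) : φ c ∈ S := by
  have : smallChains 𝒰 n ≤ S.comap φ := by
    refine (AddSubgroup.closure_le _).2 ?_
    rintro _ ⟨σ, ⟨U, hU, hσ⟩, rfl⟩
    exact h σ U hU hσ
  exact this hc

/-- Every chain is small with respect to a family containing the whole space. -/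
theorem mem_smallChains_of_univ_mem {𝒰 : Set (Set E)} (h : Set.univ ∈ 𝒰) (c : Chains E n) :
    c ∈ smallChains 𝒰 n :=
  chains_induction c (AddSubgroup.zero_mem _) (fun _ _ => AddSubgroup.add_mem _)
    (fun _ => AddSubgroup.neg_mem _) (fun _ => gen_mem_smallChains h (Set.subset_univ _))

theorem bd_mem_smallChains {𝒰 : Set (Set E)} {c : Chains E (n + 1)}
    (hc : c ∈ smallChains 𝒰 (n + 1)) : bd E n c ∈ smallChains 𝒰 n := by
  refine map_mem_of_smallChains _ _ (fun σ U hU hσ => ?_) hc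
  rw [bd_gen]
  refine AddSubgroup.sum_mem _ fun i _ => AddSubgroup.zsmul_mem _ ?_ _
  refine gen_mem_smallChains hU (Set.Subset.trans ?_ hσ)
  rintro _ ⟨t, rfl⟩
  exact ⟨coface n i t, rfl⟩

theorem chainMap_mem_smallChains (f : C(E, E')) {𝒰 : Set (Set E)} {𝒱 : Set (Set E')}
    (h : ∀ U ∈ 𝒰, ∃ V ∈ 𝒱, Set.MapsTo f U V) {c : Chains E n} (hc : c ∈ smallChains 𝒰 n) :
    chainMap f n c ∈ smallChains 𝒱 n := by
  refine map_mem_of_smallChains _ _ (fun σ U hU hσ => ?_) hc
  obtain ⟨V, hV, hUV⟩ := h U hU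
  rw [chainMap_gen]
  refine gen_mem_smallChains hV ?_
  rintro _ ⟨t, rfl⟩
  exact hUV (hσ ⟨t, rfl⟩)

/-- The image of any chain under a simplex contained in a member of `𝒰` is small. -/
theorem chainMap_simplex_mem_smallChains {𝒰 : Set (Set E)} {m : ℕ} (σ : Simplex n E) {U : Set E}
    (hU : U ∈ 𝒰) (hσ : Set.range σ ⊆ U) (c : Chains (stdSimplex ℝ (Fin (n + 1))) m) :
    chainMap σ m c ∈ smallChains 𝒰 m :=
  chainMap_mem_smallChains σ (𝒰 := {Set.univ})
    (fun _ _ => ⟨U, hU, fun t _ => hσ ⟨t, rfl⟩⟩) (mem_smallChains_of_univ_mem (Set.mem_singleton _) c)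

theorem Sd_mem_smallChains {𝒰 : Set (Set E)} {c : Chains E n}
    (hc : c ∈ smallChains 𝒰 n) : Sd E n c ∈ smallChains 𝒰 n := by
  refine map_mem_of_smallChains _ _ (fun σ U hU hσ => ?_) hc
  rw [Sd_gen]
  exact chainMap_simplex_mem_smallChains σ hU hσ _

theorem Tsd_mem_smallChains {𝒰 : Set (Set E)} {c : Chains E n}
    (hc : c ∈ smallChains 𝒰 n) : Tsd E n c ∈ smallChains 𝒰 (n + 1) := by
  refine map_mem_of_smallChains _ _ (fun σ U hU hσ => ?_) hc
  rw [Tsd_gen]
  exact chainMap_simplex_mem_smallChains σ hU hσ _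

theorem iterate_Sd_gen (σ : Simplex n E) (m : ℕ) :
    (Sd E n)^[m] (gen σ) = chainMap σ n (lreal (hΔ (n + 1)) n
      ((lsd (bary (hΔ (n + 1))) (n + 1))^[m] (of (vert (n + 1))))) := by
  induction m with
  | zero => exact gen_eq_chainMap σ
  | succ m ih =>
    rw [Function.iterate_succ_apply', ih, ← chainMap_Sd, Sd_lreal, Function.iterate_succ_apply']

theorem div_succ_le_div_succ {j n : ℕ} (h : j ≤ n) :
    (j : ℝ) / ((j : ℝ) + 1) ≤ (n : ℝ) / ((n : ℝ) + 1) := by
  have h' : (j : ℝ) ≤ n := by exact_mod_cast h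
  rw [div_le_div_iff₀ (by positivity) (by positivity)]
  nlinarith

theorem exists_iterate_Sd_gen_mem {𝒰 : Set (Set E)} (h𝒰 : ⋃ U ∈ 𝒰, interior U = Set.univ)
    (σ : Simplex n E) : ∃ m : ℕ, ∀ k, m ≤ k → (Sd E n)^[k] (gen σ) ∈ smallChains 𝒰 n := by
  obtain ⟨δ, hδ, hL⟩ := lebesgue_number_lemma_of_metric
    (s := (Set.univ : Set (stdSimplex ℝ (Fin (n + 1))))) (ι := 𝒰)
    (c := fun U => σ ⁻¹' interior (U : Set E)) isCompact_univ
    (fun U => isOpen_interior.preimage σ.continuous) (by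
      intro t _
      have ht : σ t ∈ ⋃ U ∈ 𝒰, interior U := by rw [h𝒰]; trivial
      simp only [Set.mem_iUnion] at ht
      obtain ⟨U, hU, hUt⟩ := ht
      exact Set.mem_iUnion.2 ⟨⟨U, hU⟩, hUt⟩)
  set c : ℝ := (n : ℝ) / ((n : ℝ) + 1) with hc
  have hc0 : 0 ≤ c := by positivity
  have hc1 : c < 1 := by
    rw [hc, div_lt_one (by positivity)]
    linarith
  obtain ⟨m, hm⟩ := exists_pow_lt_of_lt_one hδ hc1
  refine ⟨m, fun k hk => ?_⟩
  have hck : c ^ k < δ := lt_of_le_of_lt (pow_le_pow_of_le_one hc0 hc1.le hk) hm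
  rw [iterate_Sd_gen]
  have hfine := iterate_lsd_mem_fine (hΔ (n + 1)) (n + 1) c
    (fun j hj => div_succ_le_div_succ (Nat.lt_succ_iff.1 hj)) hc0 (vert (n + 1)) 1 zero_le_one
    (fun i j => by
      rw [← dist_eq_norm]
      exact (Metric.dist_le_diam_of_mem (bounded_stdSimplex _) (vert (n + 1) i).2
        (vert (n + 1) j).2).trans diam_stdSimplex_le) k
  rw [mul_one] at hfine
  refine map_mem_of_lsupp (smallChains 𝒰 n) ((chainMap σ n).comp (lreal (hΔ (n + 1)) n))
    (fun w hw => ?_) hfine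
  rw [AddMonoidHom.comp_apply, lreal_of, chainMap_gen]
  obtain ⟨U, hU⟩ := hL (w 0) (Set.mem_univ _)
  refine gen_mem_smallChains U.2 ?_
  rintro _ ⟨t, rfl⟩
  refine interior_subset (hU (?_ : aff (hΔ (n + 1)) w t ∈ Metric.ball (w 0) δ))
  exact Metric.mem_ball.2 (lt_of_le_of_lt (dist_aff_le _ w hw.2 t) hck)

/-- **Small simplices.**  If the interiors of the members of `𝒰` cover `E`, every chain becomes
`𝒰`-small after sufficiently many barycentric subdivisions. -/
theorem exists_iterate_Sd_mem {𝒰 : Set (Set E)} (h𝒰 : ⋃ U ∈ 𝒰, interior U = Set.univ)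
    (c : Chains E n) : ∃ m : ℕ, ∀ k, m ≤ k → (Sd E n)^[k] c ∈ smallChains 𝒰 n := by
  refine chains_induction (P := fun c => ∃ m : ℕ, ∀ k, m ≤ k → (Sd E n)^[k] c ∈ smallChains 𝒰 n)
    c ⟨0, fun k _ => ?_⟩ ?_ ?_ (exists_iterate_Sd_gen_mem h𝒰)
  · rw [iterate_map_zero]
    exact AddSubgroup.zero_mem _
  · rintro a b ⟨m₁, h₁⟩ ⟨m₂, h₂⟩
    refine ⟨max m₁ m₂, fun k hk => ?_⟩
    rw [iterate_map_add]
    exact AddSubgroup.add_mem _ (h₁ k ((le_max_left _ _).trans hk))
      (h₂ k ((le_max_right _ _).trans hk))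
  · rintro a ⟨m, h⟩
    refine ⟨m, fun k hk => ?_⟩
    rw [iterate_map_neg]
    exact AddSubgroup.neg_mem _ (h k hk)

/-! ### Iterated subdivision -/

/-- The chain homotopy `∑_{i < m} T S^i` between the `m`-fold subdivision and the identity. -/
def Dsd (E : Type) [TopologicalSpace E] : ℕ → (n : ℕ) → (Chains E n →+ Chains E (n + 1))
  | 0, _ => 0
  | m + 1, n => Tsd E n + (Dsd E m n).comp (Sd E n)

@[simp] theorem Dsd_zero (c : Chains E n) : Dsd E 0 n c = 0 := rfl

theorem Dsd_succ (m : ℕ) (c : Chains E n) :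
    Dsd E (m + 1) n c = Tsd E n c + Dsd E m n (Sd E n c) := rfl

theorem chainMap_Dsd (f : C(E, E')) (m : ℕ) (c : Chains E n) :
    chainMap f (n + 1) (Dsd E m n c) = Dsd E' m n (chainMap f n c) := by
  induction m generalizing c with
  | zero => simp
  | succ m ih => rw [Dsd_succ, Dsd_succ, map_add, chainMap_Tsd, ih, chainMap_Sd]

theorem bd_Dsd_zero (m : ℕ) (c : Chains E 0) : bd E 0 (Dsd E m 0 c) = 0 := by
  induction m generalizing c with
  | zero => simp
  | succ m ih => rw [Dsd_succ, map_add, bd_Tsd_zero, ih, add_zero]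

theorem bd_Dsd_succ (m : ℕ) (c : Chains E (n + 1)) :
    bd E (n + 1) (Dsd E m (n + 1) c) + Dsd E m n (bd E n c) = c - (Sd E (n + 1))^[m] c := by
  induction m generalizing c with
  | zero => simp
  | succ m ih =>
    have h1 := ih (Sd E (n + 1) c)
    have h2 := bd_Tsd_succ c
    rw [bd_Sd] at h1
    rw [Dsd_succ, Dsd_succ, map_add, Function.iterate_succ_apply]
    calc bd E (n + 1) (Tsd E (n + 1) c) + bd E (n + 1) (Dsd E m (n + 1) (Sd E (n + 1) c)) +
          (Tsd E n (bd E n c) + Dsd E m n (Sd E n (bd E n c)))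
        = (bd E (n + 1) (Tsd E (n + 1) c) + Tsd E n (bd E n c)) +
          (bd E (n + 1) (Dsd E m (n + 1) (Sd E (n + 1) c)) + Dsd E m n (Sd E n (bd E n c))) := by
          abel
      _ = c - (Sd E (n + 1))^[m] (Sd E (n + 1) c) := by rw [h1, h2]; abel

theorem Dsd_mem_smallChains {𝒰 : Set (Set E)} (m : ℕ) {c : Chains E n}
    (hc : c ∈ smallChains 𝒰 n) : Dsd E m n c ∈ smallChains 𝒰 (n + 1) := by
  induction m generalizing c with
  | zero => simp
  | succ m ih =>
    rw [Dsd_succ]
    exact AddSubgroup.add_mem _ (Tsd_mem_smallChains hc) (ih (Sd_mem_smallChains hc))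

theorem bd_iterate_Sd (m : ℕ) (c : Chains E (n + 1)) :
    bd E n ((Sd E (n + 1))^[m] c) = (Sd E n)^[m] (bd E n c) := by
  induction m generalizing c with
  | zero => rfl
  | succ m ih => rw [Function.iterate_succ_apply, ih, bd_Sd, Function.iterate_succ_apply]

theorem iterate_Sd_mem_smallChains {𝒰 : Set (Set E)} (m : ℕ) {c : Chains E n}
    (hc : c ∈ smallChains 𝒰 n) : (Sd E n)^[m] c ∈ smallChains 𝒰 n := by
  induction m generalizing c with
  | zero => exact hc
  | succ m ih =>
    rw [Function.iterate_succ_apply]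
    exact ih (Sd_mem_smallChains hc)

theorem chainMap_iterate_Sd (f : C(E, E')) (m : ℕ) (c : Chains E n) :
    chainMap f n ((Sd E n)^[m] c) = (Sd E' n)^[m] (chainMap f n c) := by
  induction m generalizing c with
  | zero => rfl
  | succ m ih => rw [Function.iterate_succ_apply, ih, chainMap_Sd, Function.iterate_succ_apply]

end

end Claimed.Open.R321
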