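import Claimed.Open.R321.PBDefs
import Claimed.Open.R321.Subdivision

/-!
# R321, PD-SPHERE, part 2: the sweep calculus for squares

Owner: helper94.

`i : C(B, Z)`.  A path homotopy `F` in `Z` between the images of two paths `p q` of `B` is a map of
the square `Dsk 2 = [-1,1]^2` to `Z` (`sqOf F`), all of whose four edges factor through `i`.  We push
a fixed chain `ι : Chains (Dsk 2) 2` ("the fundamental chain of the square") forward and consider the
result modulo `sqT i = range (chainMap i 2) + range (bd Z 2)`.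

The only properties of `ι` which are used are the three identities of `SqIds ι` (cutting the square
in two halves, horizontally and vertically, and the mirror image), all modulo boundaries and chains
carried by one of the four edges.

Main results:
* `SwRel.trans`, `SwRel.hcomp`, `SwRel.symm₂`, `SwRel.of_homotopy`: the calculus;
* `sweeps_zero_of_mem_commutator`: if every loop of `B` at `b` dies in `Z`, then every loop `g` of `B`
  whose class is in the commutator subgroup of `π₁(B, b)` has a null-homotopy in `Z` sweeping a chain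
  of `sqT i`.
-/

set_option autoImplicit false

namespace Claimed.Open.R321

open Topology unitInterval Set

noncomputable section

/-! ### The square -/

theorem Dsk.abs_le_one {n : ℕ} (x : Dsk n) (k : Fin n) : |x.1 k| ≤ 1 := by
  have h := (pi_norm_le_iff_of_nonneg zero_le_one).1 (Dsk.norm_le_one x) k
  simpa using h

/-- The coordinates of the square. -/
def sqCoord (k : Fin 2) : C(Dsk 2, ℝ) :=
  ⟨fun x => x.1 k, (continuous_apply k).comp continuous_subtype_val⟩

@[simp] theorem sqCoord_apply (k : Fin 2) (x : Dsk 2) : sqCoord k x = x.1 k := rfl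

/-- the affine bijection `[-1,1] → [0,1]` -/
def toI (a : ℝ) (ha : |a| ≤ 1) : I :=
  ⟨(a + 1) / 2, by
    have := abs_le.1 ha
    constructor <;> linarith [this.1, this.2]⟩

@[simp] theorem toI_coe (a : ℝ) (ha : |a| ≤ 1) : (toI a ha : ℝ) = (a + 1) / 2 := rfl

/-- The parametrisation of `I × I` by the square: `x ↦ ((x₁+1)/2, (x₀+1)/2)`; the horizontal
coordinate `x₀` is the parameter of the paths and the vertical coordinate `x₁` is the time of the
homotopy. -/
def sqParam : C(Dsk 2, I × I) where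
  toFun x := (toI (x.1 1) (Dsk.abs_le_one x 1), toI (x.1 0) (Dsk.abs_le_one x 0))
  continuous_toFun := by
    refine Continuous.prodMk ?_ ?_
    · exact Continuous.subtype_mk (((sqCoord 1).continuous.add continuous_const).div_const 2) _
    · exact Continuous.subtype_mk (((sqCoord 0).continuous.add continuous_const).div_const 2) _

theorem sqParam_fst (x : Dsk 2) : ((sqParam x).1 : ℝ) = (x.1 1 + 1) / 2 := rfl

theorem sqParam_snd (x : Dsk 2) : ((sqParam x).2 : ℝ) = (x.1 0 + 1) / 2 := rfl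

/-- The affine self-map `x ↦ (a₀ x₀ + b₀, a₁ x₁ + b₁)` of the square. -/
def sqAff (a₀ b₀ a₁ b₁ : ℝ) (h₀ : |a₀| + |b₀| ≤ 1) (h₁ : |a₁| + |b₁| ≤ 1) : C(Dsk 2, Dsk 2) where
  toFun x := ⟨![a₀ * x.1 0 + b₀, a₁ * x.1 1 + b₁], by
    have key : ∀ a b t : ℝ, |a| + |b| ≤ 1 → |t| ≤ 1 → |a * t + b| ≤ 1 := by
      intro a b t h ht
      calc |a * t + b| ≤ |a * t| + |b| := abs_add_le _ _
        _ = |a| * |t| + |b| := by rw [abs_mul]
        _ ≤ |a| * 1 + |b| := by gcongr
        _ ≤ 1 := by linarith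
    rw [mem_closedBall_zero_iff, pi_norm_le_iff_of_nonneg zero_le_one]
    intro k
    fin_cases k
    · simpa using key _ _ _ h₀ (Dsk.abs_le_one x 0)
    · simpa using key _ _ _ h₁ (Dsk.abs_le_one x 1)⟩
  continuous_toFun := by
    refine Continuous.subtype_mk ?_ _
    refine continuous_pi fun k => ?_
    fin_cases k
    · exact (continuous_const.mul (sqCoord 0).continuous).add continuous_const
    · exact (continuous_const.mul (sqCoord 1).continuous).add continuous_const

@[simp] theorem sqAff_zero (a₀ b₀ a₁ b₁ : ℝ) (h₀ : |a₀| + |b₀| ≤ 1) (h₁ : |a₁| + |b₁| ≤ 1)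
    (x : Dsk 2) : (sqAff a₀ b₀ a₁ b₁ h₀ h₁ x).1 0 = a₀ * x.1 0 + b₀ := rfl

@[simp] theorem sqAff_one (a₀ b₀ a₁ b₁ : ℝ) (h₀ : |a₀| + |b₀| ≤ 1) (h₁ : |a₁| + |b₁| ≤ 1)
    (x : Dsk 2) : (sqAff a₀ b₀ a₁ b₁ h₀ h₁ x).1 1 = a₁ * x.1 1 + b₁ := rfl

/-- The left half of the square: `x ↦ ((x₀ - 1)/2, x₁)`. -/
def sqL : C(Dsk 2, Dsk 2) := sqAff (1 / 2) (-(1 / 2)) 1 0 (by norm_num [abs_of_pos]) (by norm_num)

/-- The right half of the square: `x ↦ ((x₀ + 1)/2, x₁)`. -/
def sqR : C(Dsk 2, Dsk 2) := sqAff (1 / 2) (1 / 2) 1 0 (by norm_num [abs_of_pos]) (by norm_num)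

/-- The lower half of the square: `x ↦ (x₀, (x₁ - 1)/2)`. -/
def sqD : C(Dsk 2, Dsk 2) := sqAff 1 0 (1 / 2) (-(1 / 2)) (by norm_num) (by norm_num [abs_of_pos])

/-- The upper half of the square: `x ↦ (x₀, (x₁ + 1)/2)`. -/
def sqU : C(Dsk 2, Dsk 2) := sqAff 1 0 (1 / 2) (1 / 2) (by norm_num) (by norm_num [abs_of_pos])

/-- The mirror image: `x ↦ (-x₀, x₁)`. -/
def sqM : C(Dsk 2, Dsk 2) := sqAff (-1) 0 1 0 (by norm_num) (by norm_num)

/-- The edge `x_k = e` of the square (`e = ±1`). -/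
def sqEdge (k : Fin 2) (e : ℝ) : Set (Dsk 2) := {x | x.1 k = e}

/-- The four edges of the square. -/
def sqEdges : Set (Set (Dsk 2)) := {sqEdge 0 (-1), sqEdge 0 1, sqEdge 1 (-1), sqEdge 1 1}

/-- The negligible 2-chains of the square: boundaries, and chains all of whose simplices lie in one
of the four edges. -/
def sqErr : AddSubgroup (Chains (Dsk 2) 2) := (bd (Dsk 2) 2).range ⊔ smallChains sqEdges 2

/-- The three identities for the fundamental chain of the square. -/
structure SqIds (ι : Chains (Dsk 2) 2) : Prop where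
  hsplit : ι - chainMap sqL 2 ι - chainMap sqR 2 ι ∈ sqErr
  vsplit : ι - chainMap sqD 2 ι - chainMap sqU 2 ι ∈ sqErr
  mirror : ι + chainMap sqM 2 ι ∈ sqErr

/-! ### Squares in `Z` whose edges come from `B` -/

variable {B Z : Type} [TopologicalSpace B] [TopologicalSpace Z]

/-- The negligible 2-chains of `Z`: chains coming from `B`, and boundaries. -/
def sqT (i : C(B, Z)) : AddSubgroup (Chains Z 2) := (chainMap i 2).range ⊔ (bd Z 2).range

/-- A square in `Z` each of whose four edges factors through `i : B → Z`. -/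
def SqAdm (i : C(B, Z)) (f : C(Dsk 2, Z)) : Prop :=
  ∀ W ∈ sqEdges, ∃ h : C(Dsk 2, B), ∀ x ∈ W, f x = i (h x)

theorem chainMap_mem_sqT {i : C(B, Z)} {f : C(Dsk 2, Z)} (hf : SqAdm i f)
    {c : Chains (Dsk 2) 2} (hc : c ∈ sqErr) : chainMap f 2 c ∈ sqT i := by
  obtain ⟨y, ⟨e, rfl⟩, z, hz, rfl⟩ := AddSubgroup.mem_sup.1 hc
  rw [map_add]
  refine AddSubgroup.add_mem _ ?_ ?_
  · rw [← bd_chainMap]
    exact AddSubgroup.mem_sup_right ⟨_, rfl⟩
  · refine map_mem_of_smallChains _ _ (fun s W hW hs => ?_) hz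
    obtain ⟨h, hh⟩ := hf W hW
    refine AddSubgroup.mem_sup_left ⟨gen (h.comp s), ?_⟩
    rw [chainMap_gen, chainMap_gen]
    congr 1
    ext t
    exact (hh (s t) (hs ⟨t, rfl⟩)).symm

/-- The square of a path homotopy. -/
def sqOf {x₀ x₁ : Z} {p q : Path x₀ x₁} (F : Path.Homotopy p q) : C(Dsk 2, Z) :=
  ⟨fun x => F (sqParam x), (map_continuous F).comp sqParam.continuous⟩

theorem sqOf_apply {x₀ x₁ : Z} {p q : Path x₀ x₁} (F : Path.Homotopy p q) (x : Dsk 2) :
    sqOf F x = F (sqParam x) := rfl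

theorem sqOf_adm (i : C(B, Z)) {b b' : B} {p q : Path b b'}
    (F : Path.Homotopy (p.map i.continuous) (q.map i.continuous)) : SqAdm i (sqOf F) := by
  intro W hW
  simp only [sqEdges, mem_insert_iff, mem_singleton_iff] at hW
  rcases hW with rfl | rfl | rfl | rfl
  · refine ⟨ContinuousMap.const _ b, fun x hx => ?_⟩
    have h0 : (sqParam x).2 = 0 := by
      apply Subtype.ext
      rw [sqParam_snd, show x.1 0 = -1 from hx]
      simp
    rw [sqOf_apply, ← Prod.mk.eta (p := sqParam x), h0, Path.Homotopy.source]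
    rfl
  · refine ⟨ContinuousMap.const _ b', fun x hx => ?_⟩
    have h0 : (sqParam x).2 = 1 := by
      apply Subtype.ext
      rw [sqParam_snd, show x.1 0 = 1 from hx]
      norm_num
    rw [sqOf_apply, ← Prod.mk.eta (p := sqParam x), h0, Path.Homotopy.target]
    rfl
  · refine ⟨p.toContinuousMap.comp (ContinuousMap.snd.comp sqParam), fun x hx => ?_⟩
    have h0 : (sqParam x).1 = 0 := by
      apply Subtype.ext
      rw [sqParam_fst, show x.1 1 = -1 from hx]
      simp
    rw [sqOf_apply, ← Prod.mk.eta (p := sqParam x), h0, ContinuousMap.HomotopyWith.apply_zero]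
    rfl
  · refine ⟨q.toContinuousMap.comp (ContinuousMap.snd.comp sqParam), fun x hx => ?_⟩
    have h0 : (sqParam x).1 = 1 := by
      apply Subtype.ext
      rw [sqParam_fst, show x.1 1 = 1 from hx]
      norm_num
    rw [sqOf_apply, ← Prod.mk.eta (p := sqParam x), h0, ContinuousMap.HomotopyWith.apply_one]
    rfl

theorem sqOf_map (i : C(B, Z)) {b b' : B} {p q : Path b b'} (G : Path.Homotopy p q) :
    sqOf (G.map i) = i.comp (sqOf G) := rfl

theorem sqOf_cast {x₀ x₁ : Z} {p q p' q' : Path x₀ x₁} (F : Path.Homotopy p q) (h₀ : p = p')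
    (h₁ : q = q') : sqOf (F.cast h₀ h₁) = sqOf F := rfl

theorem sqOf_trans_comp_sqD {x₀ x₁ : Z} {p q r : Path x₀ x₁} (F : Path.Homotopy p q)
    (G : Path.Homotopy q r) : (sqOf (F.trans G)).comp sqD = sqOf F := by
  ext x
  have hx := abs_le.1 (Dsk.abs_le_one x 1)
  have h1 : ((sqParam (sqD x)).1 : ℝ) = (x.1 1 + 1) / 4 := by
    rw [sqParam_fst, sqD, sqAff_one]; ring
  have h2 : (sqParam (sqD x)).2 = (sqParam x).2 := by
    apply Subtype.ext
    rw [sqParam_snd, sqParam_snd, sqD, sqAff_zero]; ring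
  rw [ContinuousMap.comp_apply, sqOf_apply, sqOf_apply, Path.Homotopy.trans_apply,
    dif_pos (by rw [h1]; linarith [hx.2])]
  congr 1
  refine Prod.ext (Subtype.ext ?_) h2
  change 2 * ((sqParam (sqD x)).1 : ℝ) = ((sqParam x).1 : ℝ)
  rw [h1, sqParam_fst]; ring

theorem sqOf_trans_comp_sqU {x₀ x₁ : Z} {p q r : Path x₀ x₁} (F : Path.Homotopy p q)
    (G : Path.Homotopy q r) : (sqOf (F.trans G)).comp sqU = sqOf G := by
  ext x
  have hx := abs_le.1 (Dsk.abs_le_one x 1)
  have h1 : ((sqParam (sqU x)).1 : ℝ) = (x.1 1 + 3) / 4 := by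
    rw [sqParam_fst, sqU, sqAff_one]; ring
  have h2 : (sqParam (sqU x)).2 = (sqParam x).2 := by
    apply Subtype.ext
    rw [sqParam_snd, sqParam_snd, sqU, sqAff_zero]; ring
  rw [ContinuousMap.comp_apply, sqOf_apply, sqOf_apply, Path.Homotopy.trans_apply]
  split_ifs with h
  · rw [h1] at h
    have hx1 : x.1 1 = -1 := by linarith [hx.1]
    have e1 : (⟨2 * ((sqParam (sqU x)).1 : ℝ), (unitInterval.mul_pos_mem_iff zero_lt_two).2
        ⟨(sqParam (sqU x)).1.2.1, by rw [h1]; exact h⟩⟩ : I) = 1 := by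
      apply Subtype.ext
      change 2 * ((sqParam (sqU x)).1 : ℝ) = 1
      rw [h1, hx1]; norm_num
    have e2 : (sqParam x).1 = 0 := by
      apply Subtype.ext
      rw [sqParam_fst, hx1]; simp
    rw [e1, ContinuousMap.HomotopyWith.apply_one, ← Prod.mk.eta (p := sqParam x), e2,
      ContinuousMap.HomotopyWith.apply_zero, h2]
  · congr 1
    refine Prod.ext (Subtype.ext ?_) h2
    change 2 * ((sqParam (sqU x)).1 : ℝ) - 1 = ((sqParam x).1 : ℝ)
    rw [h1, sqParam_fst]; ring

theorem sqOf_hcomp_comp_sqL {x₀ x₁ x₂ : Z} {p q : Path x₀ x₁} {p' q' : Path x₁ x₂}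
    (F : Path.Homotopy p q) (G : Path.Homotopy p' q') : (sqOf (F.hcomp G)).comp sqL = sqOf F := by
  ext x
  have hx := abs_le.1 (Dsk.abs_le_one x 0)
  have h1 : ((sqParam (sqL x)).2 : ℝ) = (x.1 0 + 1) / 4 := by
    rw [sqParam_snd, sqL, sqAff_zero]; ring
  have h2 : (sqParam (sqL x)).1 = (sqParam x).1 := by
    apply Subtype.ext
    rw [sqParam_fst, sqParam_fst, sqL, sqAff_one]; ring
  rw [ContinuousMap.comp_apply, sqOf_apply, sqOf_apply, Path.Homotopy.hcomp_apply,
    dif_pos (by rw [h1]; linarith [hx.2])]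
  change F (_, _) = _
  congr 1
  refine Prod.ext h2 (Subtype.ext ?_)
  change 2 * ((sqParam (sqL x)).2 : ℝ) = ((sqParam x).2 : ℝ)
  rw [h1, sqParam_snd]; ring

theorem sqOf_hcomp_comp_sqR {x₀ x₁ x₂ : Z} {p q : Path x₀ x₁} {p' q' : Path x₁ x₂}
    (F : Path.Homotopy p q) (G : Path.Homotopy p' q') : (sqOf (F.hcomp G)).comp sqR = sqOf G := by
  ext x
  have hx := abs_le.1 (Dsk.abs_le_one x 0)
  have h1 : ((sqParam (sqR x)).2 : ℝ) = (x.1 0 + 3) / 4 := by
    rw [sqParam_snd, sqR, sqAff_zero]; ring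
  have h2 : (sqParam (sqR x)).1 = (sqParam x).1 := by
    apply Subtype.ext
    rw [sqParam_fst, sqParam_fst, sqR, sqAff_one]; ring
  rw [ContinuousMap.comp_apply, sqOf_apply, sqOf_apply, Path.Homotopy.hcomp_apply]
  split_ifs with h
  · rw [h1] at h
    have hx1 : x.1 0 = -1 := by linarith [hx.1]
    have e1 : (⟨2 * ((sqParam (sqR x)).2 : ℝ), (unitInterval.mul_pos_mem_iff zero_lt_two).2
        ⟨(sqParam (sqR x)).2.2.1, by rw [h1]; exact h⟩⟩ : I) = 1 := by
      apply Subtype.ext
      change 2 * ((sqParam (sqR x)).2 : ℝ) = 1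
      rw [h1, hx1]; norm_num
    have e2 : (sqParam x).2 = 0 := by
      apply Subtype.ext
      rw [sqParam_snd, hx1]; simp
    rw [e1, Path.target, ← Prod.mk.eta (p := sqParam x), e2, Path.Homotopy.source]
  · change G (_, _) = _
    congr 1
    refine Prod.ext h2 (Subtype.ext ?_)
    change 2 * ((sqParam (sqR x)).2 : ℝ) - 1 = ((sqParam x).2 : ℝ)
    rw [h1, sqParam_snd]; ring

theorem sqOf_symm₂ {x₀ x₁ : Z} {p q : Path x₀ x₁} (F : Path.Homotopy p q) :
    sqOf F.symm₂ = (sqOf F).comp sqM := by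
  ext x
  rw [ContinuousMap.comp_apply, sqOf_apply, sqOf_apply]
  change F (_, _) = _
  congr 1
  refine Prod.ext (Subtype.ext ?_) (Subtype.ext ?_)
  · change ((sqParam x).1 : ℝ) = ((sqParam (sqM x)).1 : ℝ)
    rw [sqParam_fst, sqParam_fst, sqM, sqAff_one]; ring
  · change 1 - ((sqParam x).2 : ℝ) = ((sqParam (sqM x)).2 : ℝ)
    rw [sqParam_snd, sqParam_snd, sqM, sqAff_zero]; ring

/-! ### The sweep relation -/

/-- `SwRel i ι p q c`: the paths `p`, `q` of `B` become homotopic in `Z`, by a homotopy which sweeps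
the chain `c`, modulo chains of `B` and boundaries. -/
def SwRel (i : C(B, Z)) (ι : Chains (Dsk 2) 2) {b b' : B} (p q : Path b b') (c : Chains Z 2) :
    Prop :=
  ∃ F : Path.Homotopy (p.map i.continuous) (q.map i.continuous),
    chainMap (sqOf F) 2 ι - c ∈ sqT i

namespace SwRel

variable {i : C(B, Z)} {ι : Chains (Dsk 2) 2} {b b' b'' : B}

theorem congr {p q : Path b b'} {c c' : Chains Z 2} (h : SwRel i ι p q c) (hc : c - c' ∈ sqT i) :
    SwRel i ι p q c' := by
  obtain ⟨F, hF⟩ := h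
  refine ⟨F, ?_⟩
  have := AddSubgroup.add_mem _ hF hc
  rwa [sub_add_sub_cancel] at this

/-- Every homotopy in `Z` sweeps some chain. -/
theorem of_homotopic {p q : Path b b'}
    (h : (p.map i.continuous).Homotopic (q.map i.continuous)) : ∃ c, SwRel i ι p q c := by
  obtain ⟨F⟩ := h
  exact ⟨chainMap (sqOf F) 2 ι, F, by rw [sub_self]; exact AddSubgroup.zero_mem _⟩

/-- A homotopy in `B` sweeps `0`. -/
theorem of_homotopy {p q : Path b b'} (G : Path.Homotopy p q) : SwRel i ι p q 0 := by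
  refine ⟨G.map i, ?_⟩
  rw [sub_zero, sqOf_map, chainMap_comp]
  exact AddSubgroup.mem_sup_left ⟨_, rfl⟩

theorem of_homotopic_in {p q : Path b b'} (h : p.Homotopic q) : SwRel i ι p q 0 := by
  obtain ⟨G⟩ := h
  exact of_homotopy G

theorem refl (p : Path b b') : SwRel i ι p p 0 := of_homotopy (Path.Homotopy.refl p)

theorem trans (hι : SqIds ι) {p q r : Path b b'} {c c' : Chains Z 2} (h : SwRel i ι p q c)
    (h' : SwRel i ι q r c') : SwRel i ι p r (c + c') := by
  obtain ⟨F, hF⟩ := h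
  obtain ⟨G, hG⟩ := h'
  refine ⟨F.trans G, ?_⟩
  have h1 := chainMap_mem_sqT (sqOf_adm i (F.trans G)) hι.vsplit
  rw [map_sub, map_sub, ← chainMap_comp, ← chainMap_comp, sqOf_trans_comp_sqD,
    sqOf_trans_comp_sqU] at h1
  have h2 := AddSubgroup.add_mem _ h1 (AddSubgroup.add_mem _ hF hG)
  convert h2 using 1
  abel

theorem hcomp (hι : SqIds ι) {p q : Path b b'} {p' q' : Path b' b''} {c c' : Chains Z 2}
    (h : SwRel i ι p q c) (h' : SwRel i ι p' q' c') :
    SwRel i ι (p.trans p') (q.trans q') (c + c') := by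
  obtain ⟨F, hF⟩ := h
  obtain ⟨G, hG⟩ := h'
  refine ⟨(F.hcomp G).cast (Path.map_trans p p' i.continuous).symm
    (Path.map_trans q q' i.continuous).symm, ?_⟩
  have h1 := chainMap_mem_sqT (sqOf_adm i ((F.hcomp G).cast
    (Path.map_trans p p' i.continuous).symm (Path.map_trans q q' i.continuous).symm)) hι.hsplit
  rw [map_sub, map_sub, ← chainMap_comp, ← chainMap_comp, sqOf_cast, sqOf_hcomp_comp_sqL,
    sqOf_hcomp_comp_sqR] at h1
  rw [sqOf_cast]
  have h2 := AddSubgroup.add_mem _ h1 (AddSubgroup.add_mem _ hF hG)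
  convert h2 using 1
  abel

theorem symm₂ (hι : SqIds ι) {p q : Path b b'} {c : Chains Z 2} (h : SwRel i ι p q c) :
    SwRel i ι p.symm q.symm (-c) := by
  obtain ⟨F, hF⟩ := h
  refine ⟨F.symm₂.cast (Path.map_symm p i.continuous) (Path.map_symm q i.continuous), ?_⟩
  have h1 := chainMap_mem_sqT (sqOf_adm i F) hι.mirror
  rw [map_add, ← chainMap_comp, ← sqOf_symm₂] at h1
  rw [sqOf_cast]
  have h2 := AddSubgroup.sub_mem _ h1 hF
  convert h2 using 1
  abel

end SwRel

/-! ### Loops -/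

/-- The loop `g` of `B` has a null-homotopy in `Z` sweeping `c`. -/
def Sweeps (i : C(B, Z)) (ι : Chains (Dsk 2) 2) {b : B} (g : Path b b) (c : Chains Z 2) : Prop :=
  SwRel i ι g (Path.refl b) c

namespace Sweeps

variable {i : C(B, Z)} {ι : Chains (Dsk 2) 2} {b : B}

theorem refl : Sweeps i ι (Path.refl b) 0 := SwRel.refl _

theorem of_homotopic (hι : SqIds ι) {g g' : Path b b} {c : Chains Z 2} (h : g.Homotopic g')
    (h' : Sweeps i ι g' c) : Sweeps i ι g c := by
  have := (SwRel.of_homotopic_in (i := i) (ι := ι) h).trans hι h'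
  rwa [zero_add] at this

theorem trans (hι : SqIds ι) {g g' : Path b b} {c c' : Chains Z 2} (h : Sweeps i ι g c)
    (h' : Sweeps i ι g' c') : Sweeps i ι (g.trans g') (c + c') := by
  have := SwRel.hcomp hι h h'
  rwa [Path.refl_trans_refl] at this

theorem symm (hι : SqIds ι) {g : Path b b} {c : Chains Z 2} (h : Sweeps i ι g c) :
    Sweeps i ι g.symm (-c) := by
  have := SwRel.symm₂ hι h
  rwa [Path.refl_symm] at this

end Sweeps

/-- The relation `Sweeps` on the fundamental group. -/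
def SweepsQ (i : C(B, Z)) (ι : Chains (Dsk 2) 2) {b : B} (γ : FundamentalGroup B b)
    (c : Chains Z 2) : Prop :=
  ∃ g : Path b b, FundamentalGroup.fromPath (Path.Homotopic.Quotient.mk g) = γ ∧ Sweeps i ι g c

namespace SweepsQ

variable {i : C(B, Z)} {ι : Chains (Dsk 2) 2} {b : B}

theorem one : SweepsQ i ι (1 : FundamentalGroup B b) 0 := ⟨Path.refl b, rfl, Sweeps.refl⟩

theorem mul (hι : SqIds ι) {γ γ' : FundamentalGroup B b} {c c' : Chains Z 2}
    (h : SweepsQ i ι γ c) (h' : SweepsQ i ι γ' c') : SweepsQ i ι (γ * γ') (c + c') := by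
  obtain ⟨g, rfl, hg⟩ := h
  obtain ⟨g', rfl, hg'⟩ := h'
  refine ⟨g'.trans g, rfl, ?_⟩
  rw [add_comm]
  exact hg'.trans hι hg

theorem inv (hι : SqIds ι) {γ : FundamentalGroup B b} {c : Chains Z 2} (h : SweepsQ i ι γ c) :
    SweepsQ i ι γ⁻¹ (-c) := by
  obtain ⟨g, rfl, hg⟩ := h
  exact ⟨g.symm, rfl, hg.symm hι⟩

theorem sweeps (hι : SqIds ι) {g : Path b b} {c : Chains Z 2}
    (h : SweepsQ i ι (FundamentalGroup.fromPath (Path.Homotopic.Quotient.mk g)) c) :
    Sweeps i ι g c := by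
  obtain ⟨g', hg', h'⟩ := h
  exact Sweeps.of_homotopic hι (Path.Homotopic.Quotient.exact hg').symm h'

end SweepsQ

/-- The classes of the loops of `B` with a null-homotopy in `Z` sweeping a negligible chain. -/
def sweepZero (i : C(B, Z)) {ι : Chains (Dsk 2) 2} (hι : SqIds ι) (b : B) :
    Subgroup (FundamentalGroup B b) where
  carrier := {γ | SweepsQ i ι γ 0}
  mul_mem' := fun {a a'} h h' => by
    have := SweepsQ.mul hι h h'
    rwa [add_zero] at this
  one_mem' := SweepsQ.one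
  inv_mem' := fun {a} h => by
    have := SweepsQ.inv hι h
    rwa [neg_zero] at this

/-- **Commutators sweep zero.**  If every loop of `B` at `b` dies in `Z`, then every loop `g` of `B`
whose class lies in the commutator subgroup of `π₁(B, b)` has a null-homotopy `F` in `Z` such that
the swept chain `(sqOf F)_# ι` is the sum of a chain of `B` and of a boundary. -/
theorem sweeps_zero_of_mem_commutator (i : C(B, Z)) {ι : Chains (Dsk 2) 2} (hι : SqIds ι) {b : B}
    (hdie : ∀ g : Path b b, (g.map i.continuous).Homotopic (Path.refl (i b)))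
    (g : Path b b)
    (hg : FundamentalGroup.fromPath (Path.Homotopic.Quotient.mk g) ∈
      commutator (FundamentalGroup B b)) :
    ∃ F : Path.Homotopy (g.map i.continuous) (Path.refl (i b)),
      chainMap (sqOf F) 2 ι ∈ sqT i := by
  have hex : ∀ γ : FundamentalGroup B b, ∃ c, SweepsQ i ι γ c := by
    intro γ
    obtain ⟨u, rfl⟩ := Path.Homotopic.Quotient.mk_surjective γ
    obtain ⟨c, hc⟩ := SwRel.of_homotopic (i := i) (ι := ι) (p := u) (q := Path.refl b) (hdie u)
    exact ⟨c, u, rfl, hc⟩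
  have hle : commutator (FundamentalGroup B b) ≤ sweepZero i hι b := by
    rw [commutator_eq_closure, Subgroup.closure_le]
    rintro _ ⟨α, β, rfl⟩
    obtain ⟨c, hc⟩ := hex α
    obtain ⟨c', hc'⟩ := hex β
    have := ((hc.mul hι hc').mul hι (hc.inv hι)).mul hι (hc'.inv hι)
    have h0 : c + c' + -c + -c' = 0 := by abel
    rw [h0] at this
    exact this
  obtain ⟨F, hF⟩ := SweepsQ.sweeps hι (hle hg)
  exact ⟨F, by rwa [sub_zero] at hF⟩

end

end Claimed.Open.R321
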