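import Claimed.Open.R321.Subdivision

/-!
# R321, package PD-ALG: relative cycles and boundaries by elements; the interface `RelCells`

For subsets `A`, `Z` of a space `E`:

* `chainsIn A n`: the singular `n`-chains of `E` carried by `A` (`= smallChains {A} n`);
* `IsRelCycle Z A n z`: `z` is carried by `Z` and `∂ z` is carried by `A`;
* `IsRelBoundary Z A n z`: `z = ∂ y + a` with `y` carried by `Z` and `a` carried by `A`;
* `RelVanish Z A n`: `H_n(Z, A) = 0`;
* `RelCells Z A d c`: `H_n(Z, A) = 0` for `n ≠ d` and `H_d(Z, A)` is free abelian on the classes of the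
  relative cycles `c j` (this is the conclusion of the relative cells theorem, in the form in which
  PD-ALG consumes it).

Owner: helper122.
-/

set_option autoImplicit false

namespace Claimed.Open.R321

noncomputable section

variable {E E' : Type} [TopologicalSpace E] [TopologicalSpace E']

/-- The singular `n`-chains of `E` carried by the subset `A`. -/
def chainsIn (A : Set E) (n : ℕ) : AddSubgroup (Chains E n) := smallChains {A} n

theorem gen_mem_chainsIn {A : Set E} {n : ℕ} {σ : Simplex n E} (h : Set.range σ ⊆ A) :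
    gen σ ∈ chainsIn A n :=
  gen_mem_smallChains (Set.mem_singleton A) h

theorem chainsIn_mono {A B : Set E} (h : A ⊆ B) (n : ℕ) : chainsIn A n ≤ chainsIn B n :=
  smallChains_mono (fun U hU => ⟨B, Set.mem_singleton B, by rw [Set.mem_singleton_iff.1 hU]; exact h⟩) n

theorem mem_chainsIn_univ {n : ℕ} (c : Chains E n) : c ∈ chainsIn (Set.univ : Set E) n :=
  mem_smallChains_of_univ_mem (Set.mem_singleton _) c

theorem bd_mem_chainsIn {A : Set E} {n : ℕ} {c : Chains E (n + 1)} (hc : c ∈ chainsIn A (n + 1)) :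
    bd E n c ∈ chainsIn A n :=
  bd_mem_smallChains hc

/-- To show that an additive map sends the chains carried by `A` into a subgroup, check it on the
simplices contained in `A`. -/
theorem map_mem_of_chainsIn {M : Type} [AddCommGroup M] {A : Set E} {n : ℕ} (S : AddSubgroup M)
    (φ : Chains E n →+ M) (h : ∀ σ : Simplex n E, Set.range σ ⊆ A → φ (gen σ) ∈ S)
    {c : Chains E n} (hc : c ∈ chainsIn A n) : φ c ∈ S :=
  map_mem_of_smallChains S φ (fun σ U hU hσ => h σ (by rwa [Set.mem_singleton_iff.1 hU] at hσ)) hc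

theorem chainMap_mem_chainsIn (f : C(E, E')) {A : Set E} {B : Set E'} (h : Set.MapsTo f A B) {n : ℕ}
    {c : Chains E n} (hc : c ∈ chainsIn A n) : chainMap f n c ∈ chainsIn B n :=
  chainMap_mem_smallChains f
    (fun U hU => ⟨B, Set.mem_singleton B, by rw [Set.mem_singleton_iff.1 hU]; exact h⟩) hc

theorem chainsIn_empty (n : ℕ) : chainsIn (∅ : Set E) n = ⊥ := by
  rw [eq_bot_iff]
  intro c hc
  have : (AddMonoidHom.id (Chains E n)) c ∈ (⊥ : AddSubgroup (Chains E n)) := by
    refine map_mem_of_chainsIn ⊥ _ (fun σ hσ => ?_) hc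
    exact absurd (hσ ⟨⟨Pi.single 0 1, single_mem_stdSimplex ℝ 0⟩, rfl⟩) (Set.notMem_empty _)
  exact this

/-- `z` is a relative `n`-cycle of the pair `(Z, A)`. -/
def IsRelCycle (Z A : Set E) : (n : ℕ) → Chains E n → Prop
  | 0, z => z ∈ chainsIn Z 0
  | n + 1, z => z ∈ chainsIn Z (n + 1) ∧ bd E n z ∈ chainsIn A n

/-- `z` is a relative `n`-boundary of the pair `(Z, A)`. -/
def IsRelBoundary (Z A : Set E) (n : ℕ) (z : Chains E n) : Prop :=
  ∃ y ∈ chainsIn Z (n + 1), ∃ a ∈ chainsIn A n, z = bd E n y + a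

/-- `H_n(Z, A) = 0`. -/
def RelVanish (Z A : Set E) (n : ℕ) : Prop :=
  ∀ z, IsRelCycle Z A n z → IsRelBoundary Z A n z

/-- The linear combination of a family of chains. -/
def chainComb {J : Type} {d : ℕ} (c : J → Chains E d) : (J →₀ ℤ) →+ Chains E d :=
  Finsupp.liftAddHom fun j => (zmultiplesHom (Chains E d)) (c j)

@[simp] theorem chainComb_single {J : Type} {d : ℕ} (c : J → Chains E d) (j : J) (k : ℤ) :
    chainComb c (Finsupp.single j k) = k • c j := by
  simp [chainComb]

theorem chainComb_apply {J : Type} {d : ℕ} (c : J → Chains E d) (m : J →₀ ℤ) :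
    chainComb c m = m.sum fun j k => k • c j := by
  simp only [chainComb, Finsupp.liftAddHom_apply]
  rfl

/-- **Interface of the relative cells theorem.**  The relative homology of `(Z, A)` vanishes in
degrees `≠ d`, and in degree `d` it is the free abelian group on the classes of the `c j`. -/
structure RelCells (Z A : Set E) (d : ℕ) {J : Type} (c : J → Chains E d) : Prop where
  isRelCycle : ∀ j, IsRelCycle Z A d (c j)
  vanish : ∀ n, n ≠ d → RelVanish Z A n
  span : ∀ z, IsRelCycle Z A d z → ∃ m : J →₀ ℤ, IsRelBoundary Z A d (z - chainComb c m)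
  indep : ∀ m : J →₀ ℤ, IsRelBoundary Z A d (chainComb c m) → m = 0

theorem IsRelCycle.mem {Z A : Set E} {n : ℕ} {z : Chains E n} (h : IsRelCycle Z A n z) :
    z ∈ chainsIn Z n := by
  cases n with
  | zero => exact h
  | succ n => exact h.1

theorem isRelCycle_succ {Z A : Set E} {n : ℕ} {z : Chains E (n + 1)} :
    IsRelCycle Z A (n + 1) z ↔ z ∈ chainsIn Z (n + 1) ∧ bd E n z ∈ chainsIn A n :=
  Iff.rfl

theorem isRelCycle_zero {Z A : Set E} {z : Chains E 0} :
    IsRelCycle Z A 0 z ↔ z ∈ chainsIn Z 0 :=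
  Iff.rfl

theorem IsRelCycle.add {Z A : Set E} {n : ℕ} {z z' : Chains E n} (h : IsRelCycle Z A n z)
    (h' : IsRelCycle Z A n z') : IsRelCycle Z A n (z + z') := by
  cases n with
  | zero => exact AddSubgroup.add_mem _ h h'
  | succ n =>
    exact ⟨AddSubgroup.add_mem _ h.1 h'.1, by rw [map_add]; exact AddSubgroup.add_mem _ h.2 h'.2⟩

theorem IsRelCycle.neg {Z A : Set E} {n : ℕ} {z : Chains E n} (h : IsRelCycle Z A n z) :
    IsRelCycle Z A n (-z) := by
  cases n with
  | zero => exact AddSubgroup.neg_mem _ h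
  | succ n => exact ⟨AddSubgroup.neg_mem _ h.1, by rw [map_neg]; exact AddSubgroup.neg_mem _ h.2⟩

theorem IsRelCycle.sub {Z A : Set E} {n : ℕ} {z z' : Chains E n} (h : IsRelCycle Z A n z)
    (h' : IsRelCycle Z A n z') : IsRelCycle Z A n (z - z') := by
  rw [sub_eq_add_neg]
  exact h.add h'.neg

theorem isRelCycle_zero_chain (Z A : Set E) (n : ℕ) : IsRelCycle Z A n 0 := by
  cases n with
  | zero => exact AddSubgroup.zero_mem _
  | succ n => exact ⟨AddSubgroup.zero_mem _, by rw [map_zero]; exact AddSubgroup.zero_mem _⟩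

theorem IsRelCycle.zsmul {Z A : Set E} {n : ℕ} {z : Chains E n} (h : IsRelCycle Z A n z) (k : ℤ) :
    IsRelCycle Z A n (k • z) := by
  cases n with
  | zero => exact AddSubgroup.zsmul_mem _ h k
  | succ n =>
    exact ⟨AddSubgroup.zsmul_mem _ h.1 k, by rw [map_zsmul]; exact AddSubgroup.zsmul_mem _ h.2 k⟩

theorem isRelCycle_chainComb {Z A : Set E} {d : ℕ} {J : Type} {c : J → Chains E d}
    (h : ∀ j, IsRelCycle Z A d (c j)) (m : J →₀ ℤ) : IsRelCycle Z A d (chainComb c m) := by
  induction m using Finsupp.induction_linear with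
  | zero => rw [map_zero]; exact isRelCycle_zero_chain Z A d
  | add f g hf hg => rw [map_add]; exact hf.add hg
  | single j k => rw [chainComb_single]; exact (h j).zsmul k

theorem IsRelBoundary.add {Z A : Set E} {n : ℕ} {z z' : Chains E n} (h : IsRelBoundary Z A n z)
    (h' : IsRelBoundary Z A n z') : IsRelBoundary Z A n (z + z') := by
  obtain ⟨y, hy, a, ha, rfl⟩ := h
  obtain ⟨y', hy', a', ha', rfl⟩ := h'
  exact ⟨y + y', AddSubgroup.add_mem _ hy hy', a + a', AddSubgroup.add_mem _ ha ha', by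
    rw [map_add]; abel⟩

theorem IsRelBoundary.neg {Z A : Set E} {n : ℕ} {z : Chains E n} (h : IsRelBoundary Z A n z) :
    IsRelBoundary Z A n (-z) := by
  obtain ⟨y, hy, a, ha, rfl⟩ := h
  exact ⟨-y, AddSubgroup.neg_mem _ hy, -a, AddSubgroup.neg_mem _ ha, by rw [map_neg]; abel⟩

theorem IsRelBoundary.sub {Z A : Set E} {n : ℕ} {z z' : Chains E n} (h : IsRelBoundary Z A n z)
    (h' : IsRelBoundary Z A n z') : IsRelBoundary Z A n (z - z') := by
  rw [sub_eq_add_neg]
  exact h.add h'.neg

theorem isRelBoundary_zero_chain (Z A : Set E) (n : ℕ) : IsRelBoundary Z A n 0 :=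
  ⟨0, AddSubgroup.zero_mem _, 0, AddSubgroup.zero_mem _, by simp⟩

theorem IsRelBoundary.zsmul {Z A : Set E} {n : ℕ} {z : Chains E n} (h : IsRelBoundary Z A n z)
    (k : ℤ) : IsRelBoundary Z A n (k • z) := by
  obtain ⟨y, hy, a, ha, rfl⟩ := h
  exact ⟨k • y, AddSubgroup.zsmul_mem _ hy k, k • a, AddSubgroup.zsmul_mem _ ha k, by
    rw [map_zsmul, zsmul_add]⟩

theorem isRelBoundary_of_mem {Z A : Set E} {n : ℕ} {a : Chains E n} (ha : a ∈ chainsIn A n) :
    IsRelBoundary Z A n a :=
  ⟨0, AddSubgroup.zero_mem _, a, ha, by simp⟩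

theorem isRelBoundary_bd {Z A : Set E} {n : ℕ} {y : Chains E (n + 1)}
    (hy : y ∈ chainsIn Z (n + 1)) : IsRelBoundary Z A n (bd E n y) :=
  ⟨y, hy, 0, AddSubgroup.zero_mem _, by simp⟩

theorem IsRelBoundary.mono {Z Z' A A' : Set E} (hZ : Z ⊆ Z') (hA : A ⊆ A') {n : ℕ} {z : Chains E n}
    (h : IsRelBoundary Z A n z) : IsRelBoundary Z' A' n z := by
  obtain ⟨y, hy, a, ha, rfl⟩ := h
  exact ⟨y, chainsIn_mono hZ _ hy, a, chainsIn_mono hA _ ha, rfl⟩

theorem IsRelCycle.mono {Z Z' A A' : Set E} (hZ : Z ⊆ Z') (hA : A ⊆ A') {n : ℕ} {z : Chains E n}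
    (h : IsRelCycle Z A n z) : IsRelCycle Z' A' n z := by
  cases n with
  | zero => exact chainsIn_mono hZ _ h
  | succ n => exact ⟨chainsIn_mono hZ _ h.1, chainsIn_mono hA _ h.2⟩

theorem isRelBoundary_chainComb {Z A : Set E} {d : ℕ} {J : Type} {c : J → Chains E d}
    (h : ∀ j, IsRelBoundary Z A d (c j)) (m : J →₀ ℤ) : IsRelBoundary Z A d (chainComb c m) := by
  induction m using Finsupp.induction_linear with
  | zero => rw [map_zero]; exact isRelBoundary_zero_chain Z A d
  | add f g hf hg => rw [map_add]; exact hf.add hg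
  | single j k => rw [chainComb_single]; exact (h j).zsmul k

end

end Claimed.Open.R321
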