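import Claimed.Open.R321.PSIdent
import Claimed.Open.R321.PSSquare
import Claimed.Open.R321.RelDefs

/-!
# PD-SPHERE, part 3: attaching loops, spheres, and the boundary of the 3-cell

Owner: helper51.

* `sqIds_cubeChain : SqIds (cubeChain 2)`;
* `loopSph g : C(Sph 2, A)`: the attaching map of a 2-cell along the loop `g` (bottom edge of the
  square = the loop, the other three edges = the base point);
* `sqHomotopy Ψ h : Path.Homotopy g (Path.refl b)` for a square `Ψ` with boundary `loopSph g`;
* `sphereOf Ψ N h : C(Sph 3, Z)`: the sphere made of two squares with the same boundary;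
* `exists_sphere`, `isRelBoundary_of_sphere`: the output of PD-SPHERE.
-/

set_option autoImplicit false

namespace Claimed.Open.R321

open Topology unitInterval Set Metric

noncomputable section

/-! ### `SqIds (cubeChain 2)` -/

theorem sqL_eq : sqL = halfMap (0 : Fin 2) false := by
  ext x k
  rw [halfMap_coe]
  fin_cases k
  · simp [sqL, sgnR]; ring
  · simp [sqL]

theorem sqR_eq : sqR = halfMap (0 : Fin 2) true := by
  ext x k
  rw [halfMap_coe]
  fin_cases k
  · simp [sqR, sgnR]; ring
  · simp [sqR]

theorem sqD_eq : sqD = halfMap (1 : Fin 2) false := by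
  ext x k
  rw [halfMap_coe]
  fin_cases k
  · simp [sqD]
  · simp [sqD, sgnR]; ring

theorem sqU_eq : sqU = halfMap (1 : Fin 2) true := by
  ext x k
  rw [halfMap_coe]
  fin_cases k
  · simp [sqU]
  · simp [sqU, sgnR]; ring

theorem sqM_eq : sqM = mirrorMap (0 : Fin 2) := by
  ext x k
  rw [mirrorMap_coe]
  fin_cases k
  · simp [sqM]
  · simp [sqM]

theorem sqEdge_mem_sqEdges (p : Fin 2 × Bool) : sqEdge p.1 (sgnR p.2) ∈ sqEdges := by
  obtain ⟨k, e⟩ := p
  fin_cases k <;> cases e <;> simp [sqEdges, sgnR]

theorem faces_mem_sqErr (y : Chains (Dsk 2) 3) (c : Fin 2 × Bool → Chains (Dsk 1) 2) :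
    bd _ 2 y + ∑ p, chainMap (faceMap p.1 p.2) 2 (c p) ∈ sqErr := by
  refine AddSubgroup.add_mem _ (AddSubgroup.mem_sup_left ⟨y, rfl⟩) (AddSubgroup.mem_sup_right ?_)
  refine AddSubgroup.sum_mem _ fun p _ => ?_
  refine chainMap_mem_smallChains (𝒰 := {Set.univ}) _ ?_
    (mem_smallChains_of_univ_mem (Set.mem_singleton _) _)
  intro U _
  refine ⟨_, sqEdge_mem_sqEdges p, fun x _ => ?_⟩
  change (faceMap p.1 p.2 x).1 p.1 = sgnR p.2
  rw [faceMap_coe, Fin.insertNth_apply_same]

/-- The explicit fundamental chain of the square satisfies the three identities. -/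
theorem sqIds_cubeChain : SqIds (cubeChain 2) where
  hsplit := by
    obtain ⟨y, c, h⟩ := cubeChain_two_halves 0
    have : cubeChain 2 - chainMap sqL 2 (cubeChain 2) - chainMap sqR 2 (cubeChain 2) =
        bd _ 2 y + ∑ p, chainMap (faceMap p.1 p.2) 2 (c p) := by
      rw [sqL_eq, sqR_eq]
      nth_rewrite 1 [h]
      abel
    rw [this]
    exact faces_mem_sqErr y c
  vsplit := by
    obtain ⟨y, c, h⟩ := cubeChain_two_halves 1
    have : cubeChain 2 - chainMap sqD 2 (cubeChain 2) - chainMap sqU 2 (cubeChain 2) =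
        bd _ 2 y + ∑ p, chainMap (faceMap p.1 p.2) 2 (c p) := by
      rw [sqD_eq, sqU_eq]
      nth_rewrite 1 [h]
      abel
    rw [this]
    exact faces_mem_sqErr y c
  mirror := by
    obtain ⟨y, c, h⟩ := cubeChain_two_mirror 0
    have : cubeChain 2 + chainMap sqM 2 (cubeChain 2) =
        bd _ 2 y + ∑ p, chainMap (faceMap p.1 p.2) 2 (c p) := by
      rw [sqM_eq, h]
      abel
    rw [this]
    exact faces_mem_sqErr y c

/-! ### The attaching map of a 2-cell along a loop -/

section LoopSph

variable {A A' : Type} [TopologicalSpace A] [TopologicalSpace A']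

theorem Sph.abs_le_one {d : ℕ} (x : Sph d) (k : Fin d) : |x.1 k| ≤ 1 :=
  Dsk.abs_le_one (sphToDsk d x) k

/-- A point of the boundary of the cube has a coordinate `±1`. -/
theorem Sph.exists_abs_eq_one {d : ℕ} (x : Sph d) : ∃ k, |x.1 k| = 1 := by
  by_contra hcon
  rw [not_exists] at hcon
  have hx : ‖x.1‖ = 1 := mem_sphere_zero_iff_norm.1 x.2
  have hlt : ‖x.1‖ < 1 := by
    rw [pi_norm_lt_iff zero_lt_one]
    intro k
    exact lt_of_le_of_ne (Sph.abs_le_one x k) (hcon k)
  exact absurd hx hlt.ne

/-- The attaching map of a 2-cell along the loop `g`: the bottom edge `x₁ = -1` of the square is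
mapped by `g` (parameter `(x₀ + 1) / 2`), the other three edges go to the base point. -/
def loopSph {b : A} (g : Path b b) : C(Sph 2, A) where
  toFun x := if |x.1 0| + x.1 1 ≤ 0 then g.extend ((x.1 0 + 1) / 2) else b
  continuous_toFun := by
    have c0 : Continuous fun x : Sph 2 => x.1 0 := (continuous_apply 0).comp continuous_subtype_val
    have c1 : Continuous fun x : Sph 2 => x.1 1 := (continuous_apply 1).comp continuous_subtype_val
    refine Continuous.if_le (g.continuous_extend.comp ((c0.add continuous_const).div_const 2))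
      continuous_const (c0.abs.add c1) continuous_const ?_
    intro x hx
    have h1 := abs_le.1 (Sph.abs_le_one x 1)
    have h0 : |x.1 0| = 1 := by
      obtain ⟨k, hk⟩ := Sph.exists_abs_eq_one x
      fin_cases k
      · exact hk
      · have hk' : |x.1 1| = 1 := hk
        have hneg : x.1 1 ≤ 0 := by linarith [abs_nonneg (x.1 0)]
        rw [abs_of_nonpos hneg] at hk'
        linarith
    rcases abs_eq zero_le_one |>.1 h0 with h | h
    · rw [h]; norm_num
    · rw [h]; norm_num

theorem loopSph_apply {b : A} (g : Path b b) (x : Sph 2) :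
    loopSph g x = if |x.1 0| + x.1 1 ≤ 0 then g.extend ((x.1 0 + 1) / 2) else b := rfl

/-- On the bottom edge, `loopSph g` is the loop `g`. -/
theorem loopSph_bottom {b : A} (g : Path b b) (x : Sph 2) (hx : x.1 1 = -1) :
    loopSph g x = g (toI (x.1 0) (Sph.abs_le_one x 0)) := by
  rw [loopSph_apply, if_pos (by rw [hx]; linarith [Sph.abs_le_one x 0])]
  exact g.extend_apply (toI (x.1 0) (Sph.abs_le_one x 0)).2

/-- Outside of the bottom edge, `loopSph g` is constant. -/
theorem loopSph_of_ne {b : A} (g : Path b b) (x : Sph 2) (hx : x.1 1 ≠ -1) : loopSph g x = b := by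
  rw [loopSph_apply]
  have h1 := abs_le.1 (Sph.abs_le_one x 1)
  have hgt : -1 < x.1 1 := lt_of_le_of_ne h1.1 (Ne.symm hx)
  split_ifs with h
  · exfalso
    obtain ⟨k, hk⟩ := Sph.exists_abs_eq_one x
    fin_cases k
    · have hk' : |x.1 0| = 1 := hk
      linarith
    · have hk' : |x.1 1| = 1 := hk
      have hneg : x.1 1 ≤ 0 := by linarith [abs_nonneg (x.1 0)]
      rw [abs_of_nonpos hneg] at hk'
      linarith
  · rfl

/-- On the vertical edges, `loopSph g` is the base point. -/
theorem loopSph_of_abs_eq {b : A} (g : Path b b) (x : Sph 2) (hx : |x.1 0| = 1) :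
    loopSph g x = b := by
  by_cases h : x.1 1 = -1
  · rw [loopSph_bottom g x h]
    rcases abs_eq zero_le_one |>.1 hx with h0 | h0
    · have : toI (x.1 0) (Sph.abs_le_one x 0) = 1 := by
        apply Subtype.ext
        rw [toI_coe, h0]; norm_num
      rw [this, g.target]
    · have : toI (x.1 0) (Sph.abs_le_one x 0) = 0 := by
        apply Subtype.ext
        rw [toI_coe, h0]; norm_num
      rw [this, g.source]
  · exact loopSph_of_ne g x h

/-- Naturality of `loopSph`. -/
theorem comp_loopSph (f : C(A, A')) {b : A} (g : Path b b) :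
    f.comp (loopSph g) = loopSph (g.map f.continuous) := by
  ext x
  by_cases h : x.1 1 = -1
  · rw [ContinuousMap.comp_apply, loopSph_bottom g x h, loopSph_bottom _ x h]
    rfl
  · rw [ContinuousMap.comp_apply, loopSph_of_ne g x h, loopSph_of_ne _ x h]

/-- The boundary of the square of a null-homotopy of `g` is `loopSph g`. -/
theorem sqOf_comp_sphToDsk {b : A} {g : Path b b} (F : Path.Homotopy g (Path.refl b)) :
    (sqOf F).comp (sphToDsk 2) = loopSph g := by
  ext x
  rw [ContinuousMap.comp_apply, sqOf_apply, ← Prod.mk.eta (p := sqParam (sphToDsk 2 x))]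
  by_cases h : x.1 1 = -1
  · have h0 : (sqParam (sphToDsk 2 x)).1 = 0 := by
      apply Subtype.ext
      rw [sqParam_fst]
      change (x.1 1 + 1) / 2 = 0
      rw [h]; norm_num
    rw [h0, ContinuousMap.HomotopyWith.apply_zero, loopSph_bottom g x h]
    rfl
  · rw [loopSph_of_ne g x h]
    obtain ⟨k, hk⟩ := Sph.exists_abs_eq_one x
    fin_cases k
    · have hk' : |x.1 0| = 1 := hk
      rcases abs_eq zero_le_one |>.1 hk' with h0 | h0
      · have : (sqParam (sphToDsk 2 x)).2 = 1 := by
          apply Subtype.ext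
          rw [sqParam_snd]
          change (x.1 0 + 1) / 2 = 1
          rw [h0]; norm_num
        rw [this, Path.Homotopy.target]
      · have : (sqParam (sphToDsk 2 x)).2 = 0 := by
          apply Subtype.ext
          rw [sqParam_snd]
          change (x.1 0 + 1) / 2 = 0
          rw [h0]; norm_num
        rw [this, Path.Homotopy.source]
    · have hk' : |x.1 1| = 1 := hk
      rcases abs_eq zero_le_one |>.1 hk' with h0 | h0
      · have : (sqParam (sphToDsk 2 x)).1 = 1 := by
          apply Subtype.ext
          rw [sqParam_fst]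
          change (x.1 1 + 1) / 2 = 1
          rw [h0]; norm_num
        rw [this, ContinuousMap.HomotopyWith.apply_one]
        rfl
      · exact absurd h0 h

/-- The inverse of `sqParam`: `(t, s) ↦ (2 s - 1, 2 t - 1)`. -/
def sqParamInv : C(I × I, Dsk 2) where
  toFun z := ⟨![2 * (z.2 : ℝ) - 1, 2 * (z.1 : ℝ) - 1], by
    rw [mem_dsk_iff]
    intro k
    have h1 := z.1.2
    have h2 := z.2.2
    fin_cases k
    · simp only [Fin.zero_eta, Matrix.cons_val_zero, abs_le]
      constructor <;> linarith [h2.1, h2.2]
    · simp only [Fin.mk_one, Matrix.cons_val_one, Matrix.cons_val_zero, abs_le]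
      constructor <;> linarith [h1.1, h1.2]⟩
  continuous_toFun := by
    refine Continuous.subtype_mk ?_ _
    refine continuous_pi fun k => ?_
    fin_cases k
    · exact (continuous_const.mul (continuous_subtype_val.comp continuous_snd)).sub continuous_const
    · exact (continuous_const.mul (continuous_subtype_val.comp continuous_fst)).sub continuous_const

theorem sqParamInv_zero (z : I × I) : (sqParamInv z).1 0 = 2 * (z.2 : ℝ) - 1 := rfl

theorem sqParamInv_one (z : I × I) : (sqParamInv z).1 1 = 2 * (z.1 : ℝ) - 1 := rfl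

theorem sqParamInv_sqParam (x : Dsk 2) : sqParamInv (sqParam x) = x := by
  apply Subtype.ext
  funext k
  fin_cases k
  · change 2 * ((sqParam x).2 : ℝ) - 1 = x.1 0
    rw [sqParam_snd]; ring
  · change 2 * ((sqParam x).1 : ℝ) - 1 = x.1 1
    rw [sqParam_fst]; ring

theorem sqParam_sqParamInv (z : I × I) : sqParam (sqParamInv z) = z := by
  apply Prod.ext
  · apply Subtype.ext
    rw [sqParam_fst, sqParamInv_one]; ring
  · apply Subtype.ext
    rw [sqParam_snd, sqParamInv_zero]; ring

/-- A point of the square with a coordinate `±1`, as a point of the boundary. -/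
def Dsk.toSphOfAbs {d : ℕ} (x : Dsk d) (k : Fin d) (hk : |x.1 k| = 1) : Sph d :=
  ⟨x.1, by
    rw [mem_sphere_zero_iff_norm]
    refine le_antisymm (Dsk.norm_le_one x) ?_
    exact hk.symm.le.trans (norm_le_pi_norm x.1 k)⟩

/-- **A 2-cell is a null-homotopy.**  A square whose boundary is `loopSph g` is a homotopy from `g` to
the constant path. -/
def sqHomotopy {b : A} {g : Path b b} (Ψ : C(Dsk 2, A)) (h : Ψ.comp (sphToDsk 2) = loopSph g) :
    Path.Homotopy g (Path.refl b) where
  toFun z := Ψ (sqParamInv z)
  continuous_toFun := Ψ.continuous.comp sqParamInv.continuous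
  map_zero_left s := by
    have hk : |(sqParamInv (0, s)).1 1| = 1 := by rw [sqParamInv_one]; norm_num
    have := DFunLike.congr_fun h ((sqParamInv (0, s)).toSphOfAbs 1 hk)
    rw [loopSph_bottom _ _ (by change (sqParamInv (0, s)).1 1 = -1; rw [sqParamInv_one]; norm_num)]
      at this
    refine Eq.trans this ?_
    change g _ = g s
    congr 1
    apply Subtype.ext
    rw [toI_coe]
    change ((sqParamInv (0, s)).1 0 + 1) / 2 = s
    rw [sqParamInv_zero]; ring
  map_one_left s := by
    have hk : |(sqParamInv (1, s)).1 1| = 1 := by rw [sqParamInv_one]; norm_num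
    have := DFunLike.congr_fun h ((sqParamInv (1, s)).toSphOfAbs 1 hk)
    rw [loopSph_of_ne _ _ (by change (sqParamInv (1, s)).1 1 ≠ -1; rw [sqParamInv_one]; norm_num)]
      at this
    exact this
  prop' t s hs := by
    have hk : |(sqParamInv (t, s)).1 0| = 1 := by
      rw [sqParamInv_zero]
      rcases hs with rfl | hs
      · norm_num
      · rw [Set.mem_singleton_iff.1 hs]; norm_num
    have := DFunLike.congr_fun h ((sqParamInv (t, s)).toSphOfAbs 0 hk)
    rw [loopSph_of_abs_eq _ _ hk] at this
    refine Eq.trans this ?_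
    rcases hs with rfl | hs
    · exact g.source.symm
    · rw [Set.mem_singleton_iff.1 hs]; exact g.target.symm

theorem sqOf_sqHomotopy {b : A} {g : Path b b} (Ψ : C(Dsk 2, A))
    (h : Ψ.comp (sphToDsk 2) = loopSph g) : sqOf (sqHomotopy Ψ h) = Ψ := by
  ext x
  rw [sqOf_apply]
  change Ψ (sqParamInv (sqParam x)) = Ψ x
  rw [sqParamInv_sqParam]

end LoopSph

end

end Claimed.Open.R321
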