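import Claimed.Open.R321.PSCube

/-!
# PD-SPHERE, part 1b: halving and mirror identities for the fundamental chain of the square

Owner: helper51.

`coordAff i α β` is the affine self-map `x_i ↦ α x_i + β` of the cube.  The main result
`square_identity` says that a combination `∑ n_s (coordAff i α_s β_s)_# ι_2` is a boundary plus chains
in the four edges as soon as `∑ n_s ([α_s + β_s] - [-α_s + β_s]) = 0`.
-/

set_option autoImplicit false

namespace Claimed.Open.R321

open FreeAbelianGroup Metric Set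

noncomputable section

/-! ### Affine maps in one coordinate -/

theorem abs_affine_le {α β a : ℝ} (h : |α| + |β| ≤ 1) (ha : |a| ≤ 1) : |α * a + β| ≤ 1 := by
  calc |α * a + β| ≤ |α * a| + |β| := abs_add_le _ _
    _ = |α| * |a| + |β| := by rw [abs_mul]
    _ ≤ |α| * 1 + |β| := by gcongr
    _ ≤ 1 := by simpa using h

/-- The affine self-map `x_i ↦ α x_i + β` of the cube. -/
def coordAff {d : ℕ} (i : Fin d) (α β : ℝ) (h : |α| + |β| ≤ 1) : C(Dsk d, Dsk d) where
  toFun x := ⟨Function.update x.1 i (α * x.1 i + β), by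
    rw [mem_dsk_iff]
    intro j
    have hx := (mem_dsk_iff x.1).1 x.2
    by_cases hj : j = i
    · subst hj
      simpa using abs_affine_le h (hx j)
    · simpa [Function.update_of_ne hj] using hx j⟩
  continuous_toFun := by
    refine Continuous.subtype_mk ?_ _
    refine continuous_subtype_val.update i ?_
    exact (continuous_const.mul ((continuous_apply i).comp continuous_subtype_val)).add
      continuous_const

theorem coordAff_coe {d : ℕ} (i : Fin d) (α β : ℝ) (h : |α| + |β| ≤ 1) (x : Dsk d) :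
    (coordAff i α β h x : Fin d → ℝ) = Function.update x.1 i (α * x.1 i + β) := rfl

theorem isAffMap_coordAff {d : ℕ} (i : Fin d) (α β : ℝ) (h : |α| + |β| ≤ 1) :
    IsAffMap (coordAff i α β h) := by
  intro k v t hm _ h1
  simp only [coordAff_coe]
  funext j
  rw [Finset.sum_apply]
  by_cases hj : j = i
  · subst hj
    simp only [Function.update_self, Pi.smul_apply, smul_eq_mul, Finset.sum_apply, mul_add,
      Finset.sum_add_distrib, ← Finset.sum_mul, h1, one_mul, Finset.mul_sum]
    congr 1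
    exact Finset.sum_congr rfl fun l _ => by ring
  · simp [Function.update_of_ne hj, Finset.sum_apply]

theorem sliceMap_congr {d : ℕ} (i : Fin (d + 1)) {a a' : ℝ} (h : a = a') (ha : |a| ≤ 1)
    (ha' : |a'| ≤ 1) : sliceMap i a ha = sliceMap i a' ha' := by
  subst h; rfl

theorem coordAff_comp_sliceMap_same {d : ℕ} (i : Fin (d + 1)) (α β : ℝ) (h : |α| + |β| ≤ 1) (a : ℝ)
    (ha : |a| ≤ 1) :
    (coordAff i α β h : Dsk (d + 1) → Dsk (d + 1)) ∘ (sliceMap i a ha) =
      sliceMap i (α * a + β) (abs_affine_le h ha) := by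
  funext x
  apply Subtype.ext
  change Function.update (i.insertNth a x.1 : Fin (d + 1) → ℝ) i
    (α * (i.insertNth a x.1 : Fin (d + 1) → ℝ) i + β) = i.insertNth (α * a + β) x.1
  funext l
  refine Fin.succAboveCases i ?_ (fun m => ?_) l
  · simp
  · simp

theorem coordAff_comp_sliceMap_succAbove {d : ℕ} (i : Fin (d + 1)) (j : Fin d) (α β : ℝ)
    (h : |α| + |β| ≤ 1) (a : ℝ) (ha : |a| ≤ 1) :
    (coordAff (i.succAbove j) α β h : Dsk (d + 1) → Dsk (d + 1)) ∘ (sliceMap i a ha) =
      (sliceMap i a ha) ∘ (coordAff j α β h) := by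
  funext x
  apply Subtype.ext
  change Function.update (i.insertNth a x.1 : Fin (d + 1) → ℝ) (i.succAbove j)
    (α * (i.insertNth a x.1 : Fin (d + 1) → ℝ) (i.succAbove j) + β) =
      i.insertNth a (Function.update x.1 j (α * x.1 j + β))
  funext l
  refine Fin.succAboveCases i ?_ (fun m => ?_) l
  · simp
  · by_cases hm : m = j
    · subst hm; simp
    · have : i.succAbove m ≠ i.succAbove j := fun hh => hm (Fin.succAbove_right_injective hh)
      simp [Function.update_of_ne this, Function.update_of_ne hm]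

/-! ### Relative boundaries -/

/-- A formal chain of the cube whose boundary is a sum of cycles of the faces is a boundary plus a
sum of chains of the faces. -/
theorem lrel_boundary (d k : ℕ) (z : LC (Dsk (d + 1)) (k + 2))
    (w : Fin (d + 1) × Bool → LC (Dsk d) (k + 1)) (hw : ∀ p, lbd _ k (w p) = 0)
    (hz : lbd _ (k + 1) z = ∑ p, lmap (faceMap p.1 p.2) (k + 1) (w p)) :
    ∃ (y : LC (Dsk (d + 1)) (k + 3)) (c : Fin (d + 1) × Bool → LC (Dsk d) (k + 2)),
      z = lbd _ (k + 2) y + ∑ p, lmap (faceMap p.1 p.2) (k + 2) (c p) := by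
  set c : Fin (d + 1) × Bool → LC (Dsk d) (k + 2) := fun p => lcone (dskZero d) (k + 1) (w p) with hc
  have hbc : ∀ p, lbd _ (k + 1) (c p) = w p := by
    intro p
    rw [hc]
    simp only
    rw [lbd_lcone_succ, hw p, map_zero, sub_zero]
  set z' := z - ∑ p, lmap (faceMap p.1 p.2) (k + 2) (c p) with hz'
  have hbz' : lbd _ (k + 1) z' = 0 := by
    rw [hz', map_sub, hz, map_sum, sub_eq_zero]
    refine Finset.sum_congr rfl fun p _ => ?_
    rw [← lmap_lbd, hbc]
  refine ⟨lcone (dskZero (d + 1)) (k + 2) z', c, ?_⟩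
  rw [lbd_lcone_succ, hbz', map_zero, sub_zero, hz']
  abel

theorem lbd_lmap_lcube {K : Type} (d : ℕ) (g : Dsk (d + 1) → K) :
    lbd K (d + 1) (lmap g (d + 2) (lcube (d + 1))) =
      ∑ p : Fin (d + 1) × Bool, ((-1 : ℤ) ^ (p.1 : ℕ) * sgnZ p.2) •
        lmap (g ∘ faceMap p.1 p.2) (d + 1) (lcube d) := by
  rw [← lmap_lbd, lbd_lcube, lsph, lfaces_apply, map_sum]
  refine Finset.sum_congr rfl fun p _ => ?_
  rw [map_zsmul, lmap_lmap]

/-! ### The identity -/

theorem lsph_zero :
    lsph 0 = ∑ e : Bool, sgnZ e • (of fun _ => faceMap (0 : Fin 1) e (dskZero 0) : LC (Dsk 1) 1) := by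
  rw [lsph, lfaces_apply, Fintype.sum_prod_type, Fin.sum_univ_one]
  refine Finset.sum_congr rfl fun e _ => ?_
  rw [lcube, lmap_of]
  simp
  rfl

theorem abs_coord_le {d : ℕ} (x : Dsk d) (i : Fin d) : |x.1 i| ≤ 1 := (mem_dsk_iff x.1).1 x.2 i

/-- The additive map sending a point `a` of the interval to the slice `x_i = a` of the square. -/
def sliceHom (i : Fin 2) : LC (Dsk 1) 1 →+ LC (Dsk 2) 2 :=
  lift fun v => lmap (sliceMap i ((v 0).1 0) (abs_coord_le _ _)) 2 (lcube 1)

theorem sliceHom_of (i : Fin 2) (v : Fin 1 → Dsk 1) :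
    sliceHom i (of v) = lmap (sliceMap i ((v 0).1 0) (abs_coord_le _ _)) 2 (lcube 1) :=
  lift_apply_of _ _

theorem sliceHom_coordAff (i : Fin 2) (α β : ℝ) (h : |α| + |β| ≤ 1) :
    sliceHom i (lmap (coordAff (0 : Fin 1) α β h) 1 (lsph 0)) =
      ∑ e : Bool, sgnZ e • lmap ((coordAff i α β h : Dsk 2 → Dsk 2) ∘ faceMap i e) 2 (lcube 1) := by
  rw [lsph_zero, map_sum, map_sum]
  refine Finset.sum_congr rfl fun e _ => ?_
  rw [map_zsmul, map_zsmul, lmap_of, sliceHom_of]
  have h1 : (coordAff i α β h : Dsk 2 → Dsk 2) ∘ faceMap i e =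
      sliceMap i (α * sgnR e + β) (abs_affine_le h (abs_sgnR e).le) :=
    coordAff_comp_sliceMap_same i α β h _ _
  rw [h1]
  congr 3

/-- **The formal identity.** -/
theorem lsquare_identity (i' : Fin 2) {ι : Type} [Fintype ι] (n : ι → ℤ) (α β : ι → ℝ)
    (hαβ : ∀ s, |α s| + |β s| ≤ 1)
    (h : ∑ s, n s • lmap (coordAff (0 : Fin 1) (α s) (β s) (hαβ s)) 1 (lsph 0) = 0) :
    ∃ (y : LC (Dsk 2) 4) (c : Fin 2 × Bool → LC (Dsk 1) 3),
      ∑ s, n s • lmap (coordAff (i'.succAbove 0) (α s) (β s) (hαβ s)) 3 (lcube 2) =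
        lbd _ 3 y + ∑ p, lmap (faceMap p.1 p.2) 3 (c p) := by
  set i : Fin 2 := i'.succAbove 0 with hi
  set W : LC (Dsk 1) 2 := ∑ s, n s • lmap (coordAff (0 : Fin 1) (α s) (β s) (hαβ s)) 2 (lcube 1)
    with hW
  have hbW : lbd _ 1 W = 0 := by
    rw [hW, map_sum, ← h]
    refine Finset.sum_congr rfl fun s _ => ?_
    rw [map_zsmul, ← lmap_lbd, lbd_lcube]
  refine lrel_boundary 1 1 _
    (fun p => if p.1 = i then 0 else ((-1 : ℤ) ^ (p.1 : ℕ) * sgnZ p.2) • W) ?_ ?_
  · intro p
    by_cases hp : p.1 = i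
    · simp only [if_pos hp, map_zero]
    · simp only [if_neg hp, map_zsmul, hbW, smul_zero]
  · rw [map_sum]
    simp only [map_zsmul, lbd_lmap_lcube, Finset.smul_sum]
    rw [Finset.sum_comm]
    rw [Fintype.sum_prod_type, Fintype.sum_prod_type, Fin.sum_univ_succAbove _ i',
      Fin.sum_univ_succAbove _ i', Fin.sum_univ_one, Fin.sum_univ_one, ← hi]
    have hne : i' ≠ i := (Fin.succAbove_ne i' 0).symm
    congr 1
    · refine Finset.sum_congr rfl fun e _ => ?_
      simp only [hne, if_false, map_zsmul, hW, map_sum, Finset.smul_sum]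
      refine Finset.sum_congr rfl fun s _ => ?_
      rw [lmap_lmap, hi, faceMap, coordAff_comp_sliceMap_succAbove, smul_comm]
    · simp only [if_true, map_zero, Finset.sum_const_zero]
      have h2 := congrArg (sliceHom i) h
      rw [map_sum, map_zero] at h2
      simp only [map_zsmul, sliceHom_coordAff, Finset.smul_sum] at h2
      rw [Finset.sum_comm] at h2
      have h3 := congrArg (fun x => ((-1 : ℤ) ^ (i : ℕ)) • x) h2
      simp only [smul_zero, Finset.smul_sum] at h3
      rw [← h3]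
      refine Finset.sum_congr rfl fun e _ => Finset.sum_congr rfl fun s _ => ?_
      simp only [smul_smul]
      congr 1
      ring

/-- **The identity for singular chains.**  A combination `∑ n_s (x_i ↦ α_s x_i + β_s)_# ι_2` with
`∑ n_s ([α_s + β_s] - [-α_s + β_s]) = 0` is a boundary plus chains in the four edges. -/
theorem square_identity (i' : Fin 2) {ι : Type} [Fintype ι] (n : ι → ℤ) (α β : ι → ℝ)
    (hαβ : ∀ s, |α s| + |β s| ≤ 1)
    (h : ∑ s, n s • lmap (coordAff (0 : Fin 1) (α s) (β s) (hαβ s)) 1 (lsph 0) = 0) :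
    ∃ (y : Chains (Dsk 2) 3) (c : Fin 2 × Bool → Chains (Dsk 1) 2),
      ∑ s, n s • chainMap (coordAff (i'.succAbove 0) (α s) (β s) (hαβ s)) 2 (cubeChain 2) =
        bd _ 2 y + ∑ p, chainMap (faceMap p.1 p.2) 2 (c p) := by
  obtain ⟨y, c, hyc⟩ := lsquare_identity i' n α β hαβ h
  refine ⟨lreal (hDsk 2) 3 y, fun p => lreal (hDsk 1) 2 (c p), ?_⟩
  have := congrArg (lreal (hDsk 2) 2) hyc
  rw [map_add, map_sum, map_sum, ← bd_lreal] at this
  simp only [map_zsmul] at this
  simp only [cubeChain, chainMap_lreal_of_isAffMap (hDsk 2) (hDsk 2) _ (isAffMap_coordAff _ _ _ _),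
    chainMap_lreal_of_isAffMap (hDsk 1) (hDsk 2) _ (isAffMap_faceMap _ _)]
  exact this

/-! ### Halves and mirrors -/

open Classical in
/-- The point `a` of the interval as a formal `0`-chain (junk value `0` outside of `[-1, 1]`). -/
def ptC (a : ℝ) : LC (Dsk 1) 1 :=
  if h : |a| ≤ 1 then of fun _ => sliceMap (0 : Fin 1) a h (dskZero 0) else 0

theorem lmap_coordAff_lsph_zero (α β : ℝ) (h : |α| + |β| ≤ 1) :
    lmap (coordAff (0 : Fin 1) α β h) 1 (lsph 0) = ptC (α + β) - ptC (-α + β) := by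
  have key : ∀ e : Bool, lmap (coordAff (0 : Fin 1) α β h) 1
      (of fun _ => faceMap (0 : Fin 1) e (dskZero 0)) = ptC (α * sgnR e + β) := by
    intro e
    rw [lmap_of, ptC, dif_pos (abs_affine_le h (abs_sgnR e).le)]
    congr 1
    funext _
    exact congrFun (coordAff_comp_sliceMap_same (0 : Fin 1) α β h _ (abs_sgnR e).le) (dskZero 0)
  rw [lsph_zero, map_sum, Fintype.sum_bool, map_zsmul, map_zsmul, key, key]
  simp [sgnZ, sgnR, sub_eq_add_neg]

theorem exists_succAbove_zero_eq (i : Fin 2) : ∃ i' : Fin 2, i'.succAbove 0 = i := by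
  fin_cases i
  · exact ⟨1, rfl⟩
  · exact ⟨0, rfl⟩

theorem half_le (e : Bool) : |(1 / 2 : ℝ)| + |sgnR e / 2| ≤ 1 := by
  rw [abs_div (sgnR e), abs_sgnR]; norm_num

/-- The affine map of the cube onto its half `±x_i ≥ 0`. -/
def halfMap {d : ℕ} (i : Fin d) (e : Bool) : C(Dsk d, Dsk d) := coordAff i (1 / 2) (sgnR e / 2) (half_le e)

/-- The reflection `x_i ↦ -x_i`. -/
def mirrorMap {d : ℕ} (i : Fin d) : C(Dsk d, Dsk d) := coordAff i (-1) 0 (by norm_num)

theorem halfMap_coe {d : ℕ} (i : Fin d) (e : Bool) (x : Dsk d) :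
    (halfMap i e x : Fin d → ℝ) = Function.update x.1 i ((x.1 i + sgnR e) / 2) := by
  rw [halfMap, coordAff_coe]
  congr 1
  ring

theorem mirrorMap_coe {d : ℕ} (i : Fin d) (x : Dsk d) :
    (mirrorMap i x : Fin d → ℝ) = Function.update x.1 i (-x.1 i) := by
  rw [mirrorMap, coordAff_coe]
  congr 1
  ring

theorem coordAff_one_zero {d : ℕ} (i : Fin d) (h : |(1 : ℝ)| + |(0 : ℝ)| ≤ 1) :
    coordAff i 1 0 h = ContinuousMap.id _ := by
  ext x j
  simp [coordAff_coe]

/-- **Halving.**  The fundamental chain of the square is the sum of the fundamental chains of its two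
halves, up to a boundary and chains in the four edges. -/
theorem cubeChain_two_halves (i : Fin 2) :
    ∃ (y : Chains (Dsk 2) 3) (c : Fin 2 × Bool → Chains (Dsk 1) 2),
      cubeChain 2 = chainMap (halfMap i false) 2 (cubeChain 2) +
        chainMap (halfMap i true) 2 (cubeChain 2) + bd _ 2 y +
          ∑ p, chainMap (faceMap p.1 p.2) 2 (c p) := by
  obtain ⟨i', rfl⟩ := exists_succAbove_zero_eq i
  obtain ⟨y, c, h⟩ := square_identity i' (![1, -1, -1] : Fin 3 → ℤ)
    (![1, 1 / 2, 1 / 2] : Fin 3 → ℝ) (![0, sgnR false / 2, sgnR true / 2] : Fin 3 → ℝ)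
    (by
      intro s
      fin_cases s
      · norm_num
      · exact half_le false
      · exact half_le true)
    (by
      simp only [lmap_coordAff_lsph_zero, Fin.sum_univ_three]
      simp only [Matrix.cons_val_zero, Matrix.cons_val_one, Matrix.cons_val, sgnR]
      norm_num)
  refine ⟨y, c, ?_⟩
  rw [Fin.sum_univ_three] at h
  simp only [Matrix.cons_val_zero, Matrix.cons_val_one, Matrix.cons_val, one_smul,
    coordAff_one_zero, chainMap_id] at h
  rw [halfMap, halfMap, add_assoc _ (bd _ 2 y), ← h]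
  abel

/-- **Mirror.**  A reflection of the square changes the sign of the fundamental chain, up to a
boundary and chains in the four edges. -/
theorem cubeChain_two_mirror (i : Fin 2) :
    ∃ (y : Chains (Dsk 2) 3) (c : Fin 2 × Bool → Chains (Dsk 1) 2),
      chainMap (mirrorMap i) 2 (cubeChain 2) = - cubeChain 2 + bd _ 2 y +
          ∑ p, chainMap (faceMap p.1 p.2) 2 (c p) := by
  obtain ⟨i', rfl⟩ := exists_succAbove_zero_eq i
  obtain ⟨y, c, h⟩ := square_identity i' (![1, 1] : Fin 2 → ℤ)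
    (![1, -1] : Fin 2 → ℝ) (![0, 0] : Fin 2 → ℝ)
    (by
      intro s
      fin_cases s <;> norm_num)
    (by
      simp only [lmap_coordAff_lsph_zero, Fin.sum_univ_two]
      simp only [Matrix.cons_val_zero, Matrix.cons_val_one]
      norm_num)
  refine ⟨y, c, ?_⟩
  rw [Fin.sum_univ_two] at h
  simp only [Matrix.cons_val_zero, Matrix.cons_val_one, one_smul,
    coordAff_one_zero, chainMap_id] at h
  rw [mirrorMap, add_assoc, ← h]
  abel

end

end Claimed.Open.R321
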