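import Claimed.Open.R321.Top
import Claimed.Open.R321.FoxRank

/-!
# R321, package C: `PropC` from the torsion form of the tower theorem

`TorsionThm` is the statement delivered by the tower package (`Tw*.lean`): if the rows of the Fox
matrix of a finite presentation at a character `ρ` are linearly independent, then `ρ` kills all
elements of finite order.  Together with `fox_linearIndependent` (`FoxRank.lean`) and the facts on
`G` (`GroupG.lean`, `GroupDer.lean`) it gives `PropC`.
-/

set_option autoImplicit false

namespace Claimed.Open.R321.Tw

/-- the torsion form of the tower theorem, for finite presentations -/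
def TorsionThm : Prop :=
  ∀ (k : Type) [Field k] (n m : ℕ) (rels : Fin m → FreeGroup (Fin n))
    (ρ : PresentedGroup (Set.range rels) →* kˣ),
    LinearIndependent k (fun j => fox (fun s => ρ (PresentedGroup.of s)) (rels j).toWord) →
    ∀ g : PresentedGroup (Set.range rels), IsOfFinOrder g → ρ g = 1

instance fact_prime_seven' : Fact (Nat.Prime 7) := ⟨by norm_num⟩

/-- **`PropC`** from the torsion form of the tower theorem. -/
theorem propC_of_torsionThm (hT : TorsionThm) : PropC := by
  rintro n m rels ⟨e⟩
  by_contra hlt
  rw [not_le] at hlt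
  set ρ : PresentedGroup (Set.range rels) →* (ZMod 7)ˣ :=
    Wall.rho.comp e.symm.toMonoidHom with hρ
  have hder : ∀ δ : PresentedGroup (Set.range rels) → ZMod 7, IsTwistedDer ρ δ →
      ∃ c : ZMod 7, ∀ g, δ g = (1 - (ρ g : ZMod 7)) * c := by
    intro δ hδ
    obtain ⟨c, hc⟩ := Wall.der_inner (δ := fun g => δ (e g)) (by
      intro g g'
      have := hδ (e g) (e g')
      simpa [hρ] using this)
    refine ⟨c, fun g => ?_⟩
    have := hc (e.symm g)
    simpa [hρ] using this
  have hli := fox_linearIndependent rels ρ hder hlt
  have h1 := hT (ZMod 7) n m rels ρ hli (e (Wall.mkG Wall.x1))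
    (e.toMonoidHom.isOfFinOrder Wall.isOfFinOrder_x1)
  apply Wall.rho_x1_ne_one
  simpa [hρ] using h1

end Claimed.Open.R321.Tw
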