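import Claimed.Open.R321.RCIso

/-!
# R321, package RC: additivity of relative homology over disjoint open pieces

`RelCells.of_disjoint_open`: if the `W j` are pairwise disjoint open sets, `A j ⊆ W j`, and
`H_*(W j, A j)` is free on one class `c j` in degree `d`, then `H_*(⋃ W j, ⋃ A j)` is free on the
classes `c j`.

Owner: helper149.
-/

set_option autoImplicit false

namespace Claimed.Open.R321

open Topology

noncomputable section

variable {E : Type} [TopologicalSpace E] {J : Type}

instance stdSimplex_preconnectedSpace (n : ℕ) : PreconnectedSpace (stdSimplex ℝ (Fin (n + 1))) :=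
  Subtype.preconnectedSpace (convex_stdSimplex ℝ (Fin (n + 1))).isPreconnected

/-- A simplex contained in a union of pairwise disjoint open sets is contained in one of them. -/
theorem exists_range_subset_of_disjoint_open {W : J → Set E} (hopen : ∀ j, IsOpen (W j))
    (hdisj : Pairwise (Function.onFun Disjoint W)) {n : ℕ} (σ : Simplex n E)
    (hσ : Set.range σ ⊆ ⋃ j, W j) : ∃ j, Set.range σ ⊆ W j := by
  have t₀ : stdSimplex ℝ (Fin (n + 1)) := stdSimplex.vertex 0
  obtain ⟨j, hj⟩ := Set.mem_iUnion.1 (hσ ⟨t₀, rfl⟩)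
  refine ⟨j, ?_⟩
  have hpre : IsPreconnected (Set.range σ) := isPreconnected_range σ.continuous
  refine hpre.subset_left_of_subset_union (hopen j)
    (isOpen_iUnion fun i => isOpen_iUnion fun (_ : i ≠ j) => hopen i) ?_ ?_ ⟨σ t₀, ⟨t₀, rfl⟩, hj⟩
  · rw [Set.disjoint_iUnion_right]
    intro i
    rw [Set.disjoint_iUnion_right]
    intro hij
    exact hdisj (Ne.symm hij)
  · intro x hx
    obtain ⟨i, hi⟩ := Set.mem_iUnion.1 (hσ hx)
    by_cases hij : i = j
    · exact Or.inl (hij ▸ hi)
    · exact Or.inr (Set.mem_iUnion.2 ⟨i, Set.mem_iUnion.2 ⟨hij, hi⟩⟩)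

open Classical in
/-- The part of a chain carried by `W`. -/
def chainPart (W : Set E) (n : ℕ) : Chains E n →+ Chains E n :=
  chainsLift fun σ => if Set.range σ ⊆ W then gen σ else 0

theorem chainPart_gen_of_subset {W : Set E} {n : ℕ} {σ : Simplex n E} (h : Set.range σ ⊆ W) :
    chainPart W n (gen σ) = gen σ := by
  rw [chainPart, chainsLift_gen, if_pos h]

theorem chainPart_gen_of_not_subset {W : Set E} {n : ℕ} {σ : Simplex n E}
    (h : ¬ Set.range σ ⊆ W) : chainPart W n (gen σ) = 0 := by
  rw [chainPart, chainsLift_gen, if_neg h]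

theorem chainPart_mem (W : Set E) {n : ℕ} (c : Chains E n) : chainPart W n c ∈ chainsIn W n := by
  refine chains_induction (P := fun c => chainPart W n c ∈ chainsIn W n) c ?_ ?_ ?_ ?_
  · rw [map_zero]; exact AddSubgroup.zero_mem _
  · intro a b ha hb; rw [map_add]; exact AddSubgroup.add_mem _ ha hb
  · intro a ha; rw [map_neg]; exact AddSubgroup.neg_mem _ ha
  · intro σ
    by_cases h : Set.range σ ⊆ W
    · rw [chainPart_gen_of_subset h]; exact gen_mem_chainsIn h
    · rw [chainPart_gen_of_not_subset h]; exact AddSubgroup.zero_mem _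

theorem chainPart_eq_self {W : Set E} {n : ℕ} {c : Chains E n} (hc : c ∈ chainsIn W n) :
    chainPart W n c = c := by
  have h : (chainPart W n - AddMonoidHom.id (Chains E n)) c ∈ (⊥ : AddSubgroup (Chains E n)) := by
    refine map_mem_of_chainsIn _ _ (fun σ hσ => ?_) hc
    rw [AddSubgroup.mem_bot, AddMonoidHom.sub_apply, chainPart_gen_of_subset hσ,
      AddMonoidHom.id_apply, sub_self]
  rw [AddSubgroup.mem_bot, AddMonoidHom.sub_apply, AddMonoidHom.id_apply, sub_eq_zero] at h
  exact h

theorem not_range_subset_of_disjoint {W W' : Set E} (hd : Disjoint W W') {n : ℕ}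
    {σ : Simplex n E} (hσ : Set.range σ ⊆ W') : ¬ Set.range σ ⊆ W := by
  intro h
  have t₀ : stdSimplex ℝ (Fin (n + 1)) := stdSimplex.vertex 0
  exact Set.disjoint_left.1 hd (h ⟨t₀, rfl⟩) (hσ ⟨t₀, rfl⟩)

theorem chainPart_eq_zero {W W' : Set E} (hd : Disjoint W W') {n : ℕ} {c : Chains E n}
    (hc : c ∈ chainsIn W' n) : chainPart W n c = 0 := by
  have h : (chainPart W n) c ∈ (⊥ : AddSubgroup (Chains E n)) := by
    refine map_mem_of_chainsIn _ _ (fun σ hσ => ?_) hc
    rw [AddSubgroup.mem_bot, chainPart_gen_of_not_subset (not_range_subset_of_disjoint hd hσ)]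
  exact (AddSubgroup.mem_bot).1 h

section Family

variable {W : J → Set E} (hopen : ∀ j, IsOpen (W j)) (hdisj : Pairwise (Function.onFun Disjoint W))

include hopen hdisj

/-- The parts commute with the boundary on chains carried by the union. -/
theorem bd_chainPart (j : J) {n : ℕ} {c : Chains E (n + 1)} (hc : c ∈ chainsIn (⋃ i, W i) (n + 1)) :
    bd E n (chainPart (W j) (n + 1) c) = chainPart (W j) n (bd E n c) := by
  have h : ((bd E n).comp (chainPart (W j) (n + 1)) - (chainPart (W j) n).comp (bd E n)) c ∈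
      (⊥ : AddSubgroup (Chains E n)) := by
    refine map_mem_of_chainsIn _ _ (fun σ hσ => ?_) hc
    rw [AddSubgroup.mem_bot, AddMonoidHom.sub_apply, AddMonoidHom.comp_apply,
      AddMonoidHom.comp_apply, sub_eq_zero]
    obtain ⟨i, hi⟩ := exists_range_subset_of_disjoint_open hopen hdisj σ hσ
    by_cases hij : i = j
    · subst hij
      rw [chainPart_gen_of_subset hi, chainPart_eq_self (bd_mem_chainsIn (gen_mem_chainsIn hi))]
    · have hd : Disjoint (W j) (W i) := hdisj (Ne.symm hij)
      rw [chainPart_gen_of_not_subset (not_range_subset_of_disjoint hd hi), map_zero,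
        chainPart_eq_zero hd (bd_mem_chainsIn (gen_mem_chainsIn hi))]
  rw [AddSubgroup.mem_bot, AddMonoidHom.sub_apply, AddMonoidHom.comp_apply,
    AddMonoidHom.comp_apply, sub_eq_zero] at h
  exact h

/-- A chain carried by the union is the sum of its parts. -/
theorem exists_eq_sum_chainPart {n : ℕ} {c : Chains E n} (hc : c ∈ chainsIn (⋃ i, W i) n) :
    ∃ s : Finset J, ∀ s' : Finset J, s ⊆ s' → c = ∑ j ∈ s', chainPart (W j) n c := by
  classical
  let T : AddSubgroup (Chains E n) :=
    { carrier := {c | ∃ s : Finset J, ∀ s' : Finset J, s ⊆ s' → c = ∑ j ∈ s', chainPart (W j) n c}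
      zero_mem' := ⟨∅, fun s' _ => by simp⟩
      add_mem' := by
        rintro a b ⟨s, hs⟩ ⟨t, ht⟩
        refine ⟨s ∪ t, fun s' hs' => ?_⟩
        simp only [map_add, Finset.sum_add_distrib]
        rw [← hs s' (Finset.union_subset_left hs'), ← ht s' (Finset.union_subset_right hs')]
      neg_mem' := by
        rintro a ⟨s, hs⟩
        refine ⟨s, fun s' hs' => ?_⟩
        simp only [map_neg, Finset.sum_neg_distrib]
        rw [← hs s' hs'] }
  have h : (AddMonoidHom.id _) c ∈ T := by
    refine map_mem_of_chainsIn _ _ (fun σ hσ => ?_) hc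
    obtain ⟨i, hi⟩ := exists_range_subset_of_disjoint_open hopen hdisj σ hσ
    refine ⟨{i}, fun s' hs' => ?_⟩
    rw [AddMonoidHom.id_apply, Finset.sum_eq_single i, chainPart_gen_of_subset hi]
    · intro j _ hji
      exact chainPart_gen_of_not_subset (not_range_subset_of_disjoint (hdisj hji) hi)
    · intro hi'
      exact absurd (hs' (Finset.mem_singleton_self i)) hi'
  exact h

omit hopen in
/-- The part in `W j` of a chain carried by `⋃ A i`, `A i ⊆ W i`, is carried by `A j`. -/
theorem chainPart_mem_of_iUnion {A : J → Set E} (hAW : ∀ j, A j ⊆ W j) (j : J) {n : ℕ}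
    {c : Chains E n} (hc : c ∈ chainsIn (⋃ i, A i) n) : chainPart (W j) n c ∈ chainsIn (A j) n := by
  refine map_mem_of_chainsIn _ _ (fun σ hσ => ?_) hc
  by_cases h : Set.range σ ⊆ W j
  · rw [chainPart_gen_of_subset h]
    refine gen_mem_chainsIn fun x hx => ?_
    obtain ⟨i, hi⟩ := Set.mem_iUnion.1 (hσ hx)
    by_cases hij : i = j
    · exact hij ▸ hi
    · exact absurd (hAW i hi) (Set.disjoint_left.1 (hdisj (Ne.symm hij)) (h hx))
  · rw [chainPart_gen_of_not_subset h]
    exact AddSubgroup.zero_mem _

theorem IsRelCycle.chainPart {A : J → Set E} (hAW : ∀ j, A j ⊆ W j) (j : J) {n : ℕ}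
    {z : Chains E n} (hz : IsRelCycle (⋃ i, W i) (⋃ i, A i) n z) :
    IsRelCycle (W j) (A j) n (chainPart (W j) n z) := by
  cases n with
  | zero => exact chainPart_mem _ _
  | succ n =>
    refine ⟨chainPart_mem _ _, ?_⟩
    rw [bd_chainPart hopen hdisj j hz.1]
    exact chainPart_mem_of_iUnion hdisj hAW j hz.2

theorem IsRelBoundary.chainPart {A : J → Set E} (hAW : ∀ j, A j ⊆ W j) (j : J) {n : ℕ}
    {z : Chains E n} (hz : IsRelBoundary (⋃ i, W i) (⋃ i, A i) n z) :
    IsRelBoundary (W j) (A j) n (chainPart (W j) n z) := by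
  obtain ⟨y, hy, a, ha, rfl⟩ := hz
  refine ⟨_, chainPart_mem (W j) y, _, chainPart_mem_of_iUnion hdisj hAW j ha, ?_⟩
  rw [map_add, bd_chainPart hopen hdisj j hy]

end Family

theorem isRelBoundary_sum {Z A : Set E} {n : ℕ} {ι : Type} (s : Finset ι) (f : ι → Chains E n)
    (h : ∀ i ∈ s, IsRelBoundary Z A n (f i)) : IsRelBoundary Z A n (∑ i ∈ s, f i) := by
  classical
  induction s using Finset.induction_on with
  | empty => simpa using isRelBoundary_zero_chain Z A n
  | insert i s hi ih =>
    rw [Finset.sum_insert hi]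
    exact (h i (Finset.mem_insert_self i s)).add
      (ih fun k hk => h k (Finset.mem_insert_of_mem hk))

theorem chainPart_chainComb {W : J → Set E} (hdisj : Pairwise (Function.onFun Disjoint W)) {d : ℕ}
    {c : J → Chains E d} (hc : ∀ j, c j ∈ chainsIn (W j) d) (j : J) (m : J →₀ ℤ) :
    chainPart (W j) d (chainComb c m) = m j • c j := by
  classical
  induction m using Finsupp.induction_linear with
  | zero => simp
  | add a b ha hb => rw [map_add, map_add, ha, hb, Finsupp.add_apply, add_zsmul]
  | single i k =>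
    rw [chainComb_single, map_zsmul]
    by_cases hij : i = j
    · subst hij
      rw [chainPart_eq_self (hc i), Finsupp.single_eq_same]
    · rw [chainPart_eq_zero (hdisj (Ne.symm hij)) (hc i), Finsupp.single_eq_of_ne (Ne.symm hij),
        zsmul_zero, zero_zsmul]

/-- **Additivity.** -/
theorem RelCells.of_disjoint_open (W A : J → Set E) {d : ℕ} (c : J → Chains E d)
    (hAW : ∀ j, A j ⊆ W j) (hopen : ∀ j, IsOpen (W j))
    (hdisj : Pairwise (Function.onFun Disjoint W))
    (h : ∀ j, RelCells (W j) (A j) d (fun _ : Unit => c j)) :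
    RelCells (⋃ j, W j) (⋃ j, A j) d c := by
  classical
  have hmono : ∀ j {n : ℕ} {z : Chains E n}, IsRelBoundary (W j) (A j) n z →
      IsRelBoundary (⋃ j, W j) (⋃ j, A j) n z := fun j _ _ hz =>
    hz.mono (Set.subset_iUnion W j) (Set.subset_iUnion A j)
  refine ⟨fun j => ((h j).isRelCycle ()).mono (Set.subset_iUnion W j) (Set.subset_iUnion A j),
    fun n hn z hz => ?_, fun z hz => ?_, fun m hm => ?_⟩
  · obtain ⟨s, hs⟩ := exists_eq_sum_chainPart hopen hdisj hz.mem
    rw [hs s subset_rfl]
    exact isRelBoundary_sum s _ fun j _ =>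
      hmono j ((h j).vanish n hn _ (hz.chainPart hopen hdisj hAW j))
  · obtain ⟨s, hs⟩ := exists_eq_sum_chainPart hopen hdisj hz.mem
    choose m hm using fun j => (h j).span _ (hz.chainPart hopen hdisj hAW j)
    refine ⟨∑ j ∈ s, Finsupp.single j (m j ()), ?_⟩
    have e : z - chainComb c (∑ j ∈ s, Finsupp.single j (m j ())) =
        ∑ j ∈ s, (chainPart (W j) d z - chainComb (fun _ : Unit => c j) (m j)) := by
      rw [Finset.sum_sub_distrib, ← hs s subset_rfl, map_sum]
      congr 1
      refine Finset.sum_congr rfl fun j _ => ?_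
      rw [chainComb_single]
      have : m j = Finsupp.single () (m j ()) := by
        ext
        simp
      conv_rhs => rw [this, chainComb_single]
    rw [e]
    exact isRelBoundary_sum s _ fun j _ => hmono j (hm j)
  · ext j
    have h1 := hm.chainPart hopen hdisj hAW j
    rw [chainPart_chainComb hdisj (fun j => ((h j).isRelCycle ()).mem) j m] at h1
    have h2 := (h j).indep (Finsupp.single () (m j)) (by rwa [chainComb_single])
    have h3 := DFunLike.congr_fun h2 ()
    simpa using h3

end

end Claimed.Open.R321
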