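import Claimed.Open.R321.RCDefs
import Claimed.Open.R321.RCDeform
import Claimed.Open.R321.PSSphere

/-!
# R321, package RC (local part): the geometry of the box

In the cube `Dsk (d + 1)` the coordinate `0` is "vertical".

* `boxD d`: the box = the union of the bottom face `x_0 = -1` and the side faces, as a subset of the cube;
* `boxRet`: the retraction of the cube onto the box by projection from the point `(2, 0, …, 0)`;
* `relVanish_box`: `H_*(cube, box) = 0`;
* `boxS d`: the box as a subset of the sphere `Sph (d + 1)`;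
* `topCell d`: the sphere is obtained from the box by attaching one `d`-cell (the top face `x_0 = 1`).
-/

set_option autoImplicit false

namespace Claimed.Open.R321

open Topology unitInterval Set Metric

noncomputable section

variable {d : ℕ}

/-- The box: bottom face and side faces of the cube. -/
def boxD (d : ℕ) : Set (Dsk (d + 1)) := {x | x.1 0 = -1 ∨ ‖(dropMap 0 x).1‖ = 1}

theorem dropMap_zero_apply (x : Dsk (d + 1)) (j : Fin d) : (dropMap 0 x).1 j = x.1 j.succ := by
  rw [dropMap_apply, Fin.succAbove_zero]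

theorem boxD_subset_dskBdry (d : ℕ) : boxD d ⊆ dskBdry (d + 1) := by
  rintro x (h | h)
  · exact norm_eq_one_of_abs x 0 (by rw [h]; simp)
  · refine le_antisymm (Dsk.norm_le_one x) (h.symm.le.trans ?_)
    rw [pi_norm_le_iff_of_nonneg (norm_nonneg _)]
    intro j
    rw [dropMap_zero_apply]
    exact norm_le_pi_norm x.1 j.succ

/-! ### The retraction -/

/-- The scaling factor of the projection from `(2, 0, …, 0)`. -/
def boxMu (x : Dsk (d + 1)) : ℝ := max ((2 - x.1 0) / 3) ‖(dropMap 0 x).1‖

theorem continuous_boxMu : Continuous (boxMu : Dsk (d + 1) → ℝ) := by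
  unfold boxMu
  refine Continuous.max ?_ ?_
  · exact ((continuous_const.sub ((continuous_apply 0).comp continuous_subtype_val)).div_const 3)
  · exact (continuous_subtype_val.comp (dropMap 0).continuous).norm

theorem Dsk.coord_mem (x : Dsk (d + 1)) (i : Fin (d + 1)) : -1 ≤ x.1 i ∧ x.1 i ≤ 1 :=
  abs_le.1 (Dsk.abs_le_one x i)

theorem boxMu_pos (x : Dsk (d + 1)) : 0 < boxMu x := by
  have := (Dsk.coord_mem x 0).2
  exact lt_of_lt_of_le (by linarith) (le_max_left _ _)

theorem boxMu_le_one (x : Dsk (d + 1)) : boxMu x ≤ 1 := by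
  have := (Dsk.coord_mem x 0).1
  exact max_le (by linarith) (Dsk.norm_le_one _)

theorem boxMu_eq_one_of_mem {x : Dsk (d + 1)} (hx : x ∈ boxD d) : boxMu x = 1 := by
  refine le_antisymm (boxMu_le_one x) ?_
  rcases hx with h | h
  · exact le_trans (by rw [h]; norm_num) (le_max_left _ _)
  · exact h.symm.le.trans (le_max_right _ _)

/-- The centre of projection. -/
def boxP (d : ℕ) : Fin (d + 1) → ℝ := Pi.single 0 2

/-- The projection from `(2, 0, …, 0)` onto the box, as a function. -/
def boxRetFun (x : Dsk (d + 1)) : Fin (d + 1) → ℝ := fun i => boxP d i + (x.1 i - boxP d i) / boxMu x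

theorem boxRetFun_zero (x : Dsk (d + 1)) : boxRetFun x 0 = 2 - (2 - x.1 0) / boxMu x := by
  simp only [boxRetFun, boxP, Pi.single_eq_same]
  ring

theorem boxRetFun_succ (x : Dsk (d + 1)) (j : Fin d) : boxRetFun x j.succ = x.1 j.succ / boxMu x := by
  simp [boxRetFun, boxP]

theorem boxRetFun_mem (x : Dsk (d + 1)) : boxRetFun x ∈ closedBall (0 : Fin (d + 1) → ℝ) 1 := by
  rw [mem_dsk_iff]
  have hμ := boxMu_pos x
  intro i
  refine Fin.cases ?_ (fun j => ?_) i
  · rw [boxRetFun_zero, abs_le]
    have h1 : (2 - x.1 0) / boxMu x ≤ 3 := by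
      rw [div_le_iff₀ hμ]
      have : (2 - x.1 0) / 3 ≤ boxMu x := le_max_left _ _
      linarith
    have h2 : 1 ≤ (2 - x.1 0) / boxMu x := by
      rw [one_le_div hμ]
      have := boxMu_le_one x
      have := (Dsk.coord_mem x 0).2
      linarith
    constructor <;> linarith
  · rw [boxRetFun_succ, abs_div, abs_of_pos hμ, div_le_one hμ]
    have h1 : |x.1 j.succ| ≤ ‖(dropMap 0 x).1‖ := by
      rw [← dropMap_zero_apply]
      exact norm_le_pi_norm (dropMap 0 x).1 j
    exact h1.trans (le_max_right _ _)

/-- The projection from `(2, 0, …, 0)` onto the box. -/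
def boxRet (d : ℕ) : C(Dsk (d + 1), Dsk (d + 1)) where
  toFun x := ⟨boxRetFun x, boxRetFun_mem x⟩
  continuous_toFun := by
    refine Continuous.subtype_mk (continuous_pi fun i => ?_) _
    exact continuous_const.add
      ((((continuous_apply i).comp continuous_subtype_val).sub continuous_const).div
        continuous_boxMu fun x => (boxMu_pos x).ne')

theorem boxRet_mem (x : Dsk (d + 1)) : boxRet d x ∈ boxD d := by
  have hμ := boxMu_pos x
  rcases le_total ‖(dropMap 0 x).1‖ ((2 - x.1 0) / 3) with h | h
  · left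
    change boxRetFun x 0 = -1
    have h1 : boxMu x = (2 - x.1 0) / 3 := max_eq_left h
    have h2 : (2 - x.1 0) / boxMu x = 3 := by
      rw [div_eq_iff hμ.ne', h1]
      ring
    rw [boxRetFun_zero, h2]
    norm_num
  · right
    have h1 : boxMu x = ‖(dropMap 0 x).1‖ := max_eq_right h
    have h2 : (dropMap 0 (boxRet d x)).1 = (boxMu x)⁻¹ • (dropMap 0 x).1 := by
      funext j
      rw [dropMap_zero_apply, Pi.smul_apply, dropMap_zero_apply, smul_eq_mul]
      change boxRetFun x j.succ = _
      rw [boxRetFun_succ, div_eq_inv_mul]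
    rw [h2, norm_smul, norm_inv, Real.norm_of_nonneg hμ.le, ← h1, inv_mul_cancel₀ hμ.ne']

theorem boxRet_eq_self {x : Dsk (d + 1)} (hx : x ∈ boxD d) : boxRet d x = x := by
  apply Subtype.ext
  funext i
  change boxRetFun x i = x.1 i
  simp [boxRetFun, boxMu_eq_one_of_mem hx]

/-- The straight-line homotopy from the identity to the retraction onto the box. -/
def boxHtpy (d : ℕ) : C(unitInterval × Dsk (d + 1), Dsk (d + 1)) where
  toFun p := ⟨(1 - (p.1 : ℝ)) • p.2.1 + (p.1 : ℝ) • (boxRet d p.2).1,
    (hDsk (d + 1)) p.2.2 (boxRet d p.2).2 (by linarith [p.1.2.2]) p.1.2.1 (by ring)⟩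
  continuous_toFun := by
    refine Continuous.subtype_mk ?_ _
    have h1 : Continuous fun p : unitInterval × Dsk (d + 1) => (p.1 : ℝ) :=
      continuous_subtype_val.comp continuous_fst
    have h2 : Continuous fun p : unitInterval × Dsk (d + 1) => p.2.1 :=
      continuous_subtype_val.comp continuous_snd
    have h3 : Continuous fun p : unitInterval × Dsk (d + 1) => (boxRet d p.2).1 :=
      continuous_subtype_val.comp ((boxRet d).continuous.comp continuous_snd)
    exact ((continuous_const.sub h1).smul h2).add (h1.smul h3)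

/-- `H_*(cube, box) = 0`. -/
theorem relVanish_box (d n : ℕ) : RelVanish (Set.univ : Set (Dsk (d + 1))) (boxD d) n := by
  refine relVanish_of_deform (boxHtpy d) (fun x => ?_) (Z := Set.univ) (A := boxD d)
    (fun _ _ _ => Set.mem_univ _) (fun s x hx => ?_) (fun x _ => ?_) n
  · apply Subtype.ext
    simp [boxHtpy]
  · have : boxHtpy d (s, x) = x := by
      apply Subtype.ext
      change (1 - (s : ℝ)) • x.1 + (s : ℝ) • (boxRet d x).1 = x.1
      rw [boxRet_eq_self hx, ← add_smul]
      simp
    rw [this]
    exact hx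
  · have : boxHtpy d (1, x) = boxRet d x := by
      apply Subtype.ext
      simp [boxHtpy]
    rw [this]
    exact boxRet_mem x

/-! ### The sphere is the box with one cell attached -/

/-- The box, as a subset of the sphere. -/
def boxS (d : ℕ) : Set (Sph (d + 1)) := sphToDsk (d + 1) ⁻¹' boxD d

theorem image_sphToDsk_univ (d : ℕ) : sphToDsk d '' Set.univ = dskBdry d := by
  ext x
  constructor
  · rintro ⟨y, -, rfl⟩
    exact mem_sphere_zero_iff_norm.1 y.2
  · intro hx
    exact ⟨⟨x.1, mem_sphere_zero_iff_norm.2 hx⟩, trivial, rfl⟩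

theorem image_sphToDsk_boxS (d : ℕ) : sphToDsk (d + 1) '' boxS d = boxD d := by
  rw [boxS, Set.image_preimage_eq_inter_range, Set.inter_eq_left, ← Set.image_univ,
    image_sphToDsk_univ]
  exact boxD_subset_dskBdry d

theorem isEmbedding_sphToDsk (d : ℕ) : IsEmbedding (sphToDsk d) :=
  IsEmbedding.of_comp (sphToDsk d).continuous continuous_subtype_val IsEmbedding.subtypeVal

theorem isClosed_boxD (d : ℕ) : IsClosed (boxD d) := by
  refine IsClosed.union ?_ ?_
  · exact isClosed_eq ((continuous_apply 0).comp continuous_subtype_val) continuous_const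
  · exact isClosed_eq (continuous_subtype_val.comp (dropMap 0).continuous).norm continuous_const

theorem dropMap_faceSph (x : Dsk d) : dropMap 0 (sphToDsk (d + 1) (faceSph 0 true x)) = x :=
  dropMap_faceMap 0 true x

theorem faceSph_zero_coord (x : Dsk d) : (faceSph 0 true x).1 0 = 1 := by
  rw [faceSph_coe, Fin.insertNth_apply_same]
  rfl

/-- The sphere is obtained from the box by attaching the top face. -/
def topCell (d : ℕ) : CellAttach (Sph (d + 1)) (boxS d) d Unit where
  Φ _ := faceSph 0 true
  sphere_mem _ x hx := Or.inr (by rw [dropMap_faceSph]; exact hx)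
  ball_not_mem _ x hx := by
    rintro (h | h)
    · have h1 : (faceSph 0 true x).1 0 = -1 := h
      rw [faceSph_zero_coord] at h1
      norm_num at h1
    · rw [dropMap_faceSph] at h
      exact hx.ne h
  inj _ _ x y _ _ h := by
    refine ⟨rfl, ?_⟩
    rw [← dropMap_faceSph x, ← dropMap_faceSph y, h]
  cover z := by
    by_cases hz : z ∈ boxS d
    · exact Or.inl hz
    · right
      refine ⟨(), dropMap 0 (sphToDsk _ z), ?_⟩
      have h1 : ¬ (z.1 0 = -1) := fun h => hz (Or.inl h)
      have h2 : ¬ ‖(dropMap 0 (sphToDsk _ z)).1‖ = 1 := fun h => hz (Or.inr h)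
      have h3 : |z.1 0| = 1 := (Sph.norm_dropMap_or 0 z).resolve_left h2
      have h4 : z.1 0 = 1 := by
        rcases abs_eq (zero_le_one' ℝ) |>.1 h3 with h | h
        · exact h
        · exact absurd h h1
      apply Subtype.ext
      rw [faceSph_coe]
      funext i
      refine Fin.cases ?_ (fun j => ?_) i
      · rw [Fin.insertNth_apply_same, h4]
        rfl
      · have := Fin.insertNth_apply_succAbove (α := fun _ => ℝ) 0 (sgnR true)
          (dropMap 0 (sphToDsk _ z)).1 j
        rw [Fin.succAbove_zero] at this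
        rw [this, dropMap_zero_apply]
        rfl

theorem topCell_isWeak (d : ℕ) : (topCell d).IsWeak := by
  refine ⟨(isClosed_boxD d).preimage (sphToDsk (d + 1)).continuous, fun C h1 h2 => ?_⟩
  have h3 : C = (C ∩ boxS d) ∪ (faceSph 0 true) '' ((faceSph 0 true) ⁻¹' C) := by
    ext z
    constructor
    · intro hz
      rcases (topCell d).cover z with h | ⟨_, x, rfl⟩
      · exact Or.inl ⟨hz, h⟩
      · exact Or.inr ⟨x, hz, rfl⟩
    · rintro (h | ⟨x, hx, rfl⟩)
      · exact h.1
      · exact hx
  rw [h3]
  exact h1.union ((faceSph 0 true).continuous.isClosedMap _ (h2 ()))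

end

end Claimed.Open.R321
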