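import Claimed.Open.R321.RelDefs
import Claimed.Open.R321.PSCube

/-!
# R321, package RC: the two halves of the relative cells theorem

* `RCLocal d`: the relative homology of `(Dsk d, boundary)` is free of rank one, concentrated in degree `d`,
  generated by the fundamental chain `cubeChain d`;
* `RCGlobal d`: the relative cells theorem for `d`-cells.

The induction is `RCLocal 0`, `RCLocal d → RCGlobal d` (global part), `RCGlobal d → RCLocal (d + 1)`
(local part).
-/

set_option autoImplicit false

namespace Claimed.Open.R321

noncomputable section

/-- The boundary of the cube, as a subset of the cube. -/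
def dskBdry (d : ℕ) : Set (Dsk d) := {x | ‖x.1‖ = 1}

/-- The local computation in dimension `d`. -/
def RCLocal (d : ℕ) : Prop :=
  RelCells (Set.univ : Set (Dsk d)) (dskBdry d) d (fun _ : Unit => cubeChain d)

/-- The relative cells theorem in dimension `d`. -/
def RCGlobal (d : ℕ) : Prop :=
  ∀ (Z : Type) [TopologicalSpace Z] (A : Set Z) (J : Type) (h : CellAttach Z A d J), h.IsWeak →
    RelCells (Set.univ : Set Z) A d (fun j => chainMap (h.Φ j) d (cubeChain d))

end

end Claimed.Open.R321
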