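import Claimed.Open.R321.RCStretch
import Claimed.Open.R321.RCDefs
import Claimed.Open.R321.RCDeform
import Claimed.Open.R321.RCAdd

/-!
# R321, package RC: the global step `RCLocal d → RCGlobal d`

Owner: helper278.
-/

set_option autoImplicit false

namespace Claimed.Open.R321

open Topology Metric Set unitInterval

noncomputable section

/-- The outer half of the disk. -/
def dskAnn (d : ℕ) : Set (Dsk d) := {x | 1 / 2 ≤ ‖x.1‖}

/-- The open ball, as a subset of the disk. -/
def dskBall (d : ℕ) : Set (Dsk d) := {x | ‖x.1‖ < 1}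

theorem RelCells.id_iff {E : Type} [TopologicalSpace E] {Z A : Set E} {d : ℕ} {J : Type}
    {c : J → Chains E d} :
    RelCells Z A d (fun j => chainMap (ContinuousMap.id E) d (c j)) ↔ RelCells Z A d c := by
  have : (fun j => chainMap (ContinuousMap.id E) d (c j)) = c := funext fun j => chainMap_id _
  rw [this]

/-- The model: a generator of `H_d(D, annulus)` supported in the open ball. -/
theorem exists_relCells_dskBall {d : ℕ} (hloc : RCLocal d) :
    ∃ c : Chains (Dsk d) d, RelCells (dskBall d) (dskAnn d ∩ dskBall d) d (fun _ : Unit => c) ∧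
      IsRelBoundary (univ : Set (Dsk d)) (dskAnn d) d (cubeChain d - c) := by
  -- deformation
  have h1 : RelIso (ContinuousMap.id (Dsk d)) univ (dskBdry d) univ (dskAnn d) := by
    refine RelIso.of_deform ((dskStretch d).comp ⟨Prod.swap, continuous_swap⟩)
      (fun x => dskStretch_zero x) ?_ (fun _ _ _ => mem_univ _) ?_ ?_ ?_
    · intro x hx
      show 1 / 2 ≤ ‖x.1‖
      rw [show ‖x.1‖ = 1 from hx]; norm_num
    · intro s x hx
      show ‖(dskStretch d (x, s)).1‖ = 1
      rw [dskStretch_of_norm_eq_one hx]; exact hx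
    · intro s x hx
      exact le_norm_dskStretch hx s
    · intro x hx
      exact norm_dskStretch_one hx
  have h2 : RelCells (univ : Set (Dsk d)) (dskAnn d) d (fun _ : Unit => cubeChain d) :=
    RelCells.id_iff.1 (h1.relCells hloc)
  -- excision
  have h3 : RelIso (ContinuousMap.id (Dsk d)) (dskBall d) (dskAnn d ∩ dskBall d) univ (dskAnn d) := by
    refine RelIso.of_excision (subset_univ _) (subset_univ _) fun x _ => ?_
    rw [nhdsWithin_univ]
    by_cases hx : ‖x.1‖ < 1
    · right
      exact (isOpen_lt (by fun_prop) continuous_const).mem_nhds hx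
    · left
      have hO : IsOpen {y : Dsk d | 1 / 2 < ‖y.1‖} := isOpen_lt continuous_const (by fun_prop)
      refine Filter.mem_of_superset (hO.mem_nhds ?_) fun y (hy : 1 / 2 < ‖y.1‖) => (le_of_lt hy : 1 / 2 ≤ ‖y.1‖)
      show 1 / 2 < ‖x.1‖
      linarith [not_lt.1 hx]
  obtain ⟨c, hc, hcc⟩ := h3.exists_relCells (subset_univ _) h2
  refine ⟨c (), ?_, ?_⟩
  · exact hc
  · have := hcc ()
    rwa [chainMap_id] at this


namespace CellAttach

variable {Z : Type} [TopologicalSpace Z] {A : Set Z} {d : ℕ} {J : Type} {h : CellAttach Z A d J}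

theorem image_dskBall (h : CellAttach Z A d J) (j : J) :
    h.Φ j '' dskBall d = range (h.openCellMap j) := by
  ext z
  constructor
  · rintro ⟨x, hx, rfl⟩
    exact ⟨⟨x.1, mem_ball_zero_iff.2 hx⟩, rfl⟩
  · rintro ⟨x, rfl⟩
    exact ⟨balToDsk d x, norm_balToDsk_lt x, rfl⟩

theorem isEmbedding_domRestrict (hw : h.IsWeak) (j : J) :
    IsEmbedding ((dskBall d).domRestrict (h.Φ j)) := by
  let e : ↥(dskBall d) → Bal d := fun x => ⟨x.1.1, mem_ball_zero_iff.2 x.2⟩
  have he : IsEmbedding e := by
    refine IsEmbedding.of_comp (g := Subtype.val) ?_ continuous_subtype_val ?_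
    · exact (continuous_subtype_val.comp continuous_subtype_val).subtype_mk _
    · have : (Subtype.val ∘ e : ↥(dskBall d) → (Fin d → ℝ)) =
          (Subtype.val : Dsk d → (Fin d → ℝ)) ∘ (Subtype.val : ↥(dskBall d) → Dsk d) := rfl
      rw [this]
      exact IsEmbedding.subtypeVal.comp IsEmbedding.subtypeVal
  exact (isOpenEmbedding_openCellMap hw j).isEmbedding.comp he

theorem iUnion_image_dskBall (h : CellAttach Z A d J) : ⋃ j, h.Φ j '' dskBall d = Aᶜ := by
  rw [h.compl_eq_iUnion_range]
  exact iUnion_congr fun j => h.image_dskBall j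

theorem iUnion_image_ann (h : CellAttach Z A d J) :
    ⋃ j, h.Φ j '' (dskAnn d ∩ dskBall d) = h.collar ∩ Aᶜ := by
  ext z
  simp only [mem_iUnion, mem_inter_iff, mem_compl_iff]
  constructor
  · rintro ⟨j, x, ⟨hx1, hx2⟩, rfl⟩
    exact ⟨h.cell_mem_collar hx1, h.ball_not_mem j x hx2⟩
  · rintro ⟨hz, hzA⟩
    rcases h.cover z with hzA' | ⟨j, x, rfl⟩
    · exact absurd hzA' hzA
    · exact ⟨j, x, ⟨h.cell_mem_collar_iff.1 hz, h.norm_lt_one_of_not_mem hzA⟩, rfl⟩

end CellAttach

/-- **The global step of the relative cells theorem.** -/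
theorem rcGlobal_of_rcLocal {d : ℕ} (hloc : RCLocal d) : RCGlobal d := by
  intro Z _ A J h hw
  obtain ⟨c, hc, hcc⟩ := exists_relCells_dskBall hloc
  -- each open cell
  have h1 : ∀ j, RelCells (h.Φ j '' dskBall d) (h.Φ j '' (dskAnn d ∩ dskBall d)) d
      (fun _ : Unit => chainMap (h.Φ j) d c) := fun j =>
    (RelIso.of_embedding (h.Φ j) (CellAttach.isEmbedding_domRestrict hw j) inter_subset_right).relCells hc
  -- additivity
  have h2 : RelCells (⋃ j, h.Φ j '' dskBall d) (⋃ j, h.Φ j '' (dskAnn d ∩ dskBall d)) d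
      (fun j => chainMap (h.Φ j) d c) := by
    refine RelCells.of_disjoint_open _ _ _ (fun j => image_mono inter_subset_right) (fun j => ?_)
      (fun i j hij => ?_) h1
    · rw [h.image_dskBall]
      exact (CellAttach.isOpenEmbedding_openCellMap hw j).isOpen_range
    · show Disjoint (h.Φ i '' dskBall d) (h.Φ j '' dskBall d)
      rw [h.image_dskBall, h.image_dskBall]
      exact h.disjoint_range_openCellMap hij
  rw [h.iUnion_image_dskBall, h.iUnion_image_ann] at h2
  -- excision
  have h3 : RelIso (ContinuousMap.id Z) Aᶜ (h.collar ∩ Aᶜ) univ h.collar := by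
    refine RelIso.of_excision (subset_univ _) (subset_univ _) fun x _ => ?_
    rw [nhdsWithin_univ]
    by_cases hx : x ∈ A
    · left
      exact mem_interior_iff_mem_nhds.1 (CellAttach.subset_interior_collar hw hx)
    · right
      exact hw.1.isOpen_compl.mem_nhds hx
  have h4 : RelCells (univ : Set Z) h.collar d (fun j => chainMap (h.Φ j) d c) :=
    RelCells.id_iff.1 (h3.relCells h2)
  -- change of generators
  have h5 : RelCells (univ : Set Z) h.collar d (fun j => chainMap (h.Φ j) d (cubeChain d)) := by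
    refine h4.congr (subset_univ _) fun j => ?_
    rw [← map_sub, ← neg_sub, map_neg]
    exact (hcc.map (h.Φ j) (mapsTo_univ _ _) fun x hx => h.cell_mem_collar hx).neg
  -- deformation
  have h6 : RelIso (ContinuousMap.id Z) univ A univ h.collar := by
    refine RelIso.of_deform ((CellAttach.stretch hw).comp ⟨Prod.swap, continuous_swap⟩)
      (fun x => CellAttach.stretch_zero hw x) h.subset_collar (fun _ _ _ => mem_univ _) ?_ ?_ ?_
    · intro s x hx
      show CellAttach.stretch hw (x, s) ∈ A
      rw [CellAttach.stretch_of_mem hw hx]; exact hx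
    · intro s x hx
      exact CellAttach.stretch_mem_collar hw hx s
    · intro x hx
      exact CellAttach.stretch_one_mem hw hx
  refine h6.relCells_of (fun j => ?_) (RelCells.id_iff.2 h5)
  exact (hloc.isRelCycle ()).map (h.Φ j) (mapsTo_univ _ _) fun x hx => h.sphere_mem j x hx

end

end Claimed.Open.R321
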