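import Claimed.Open.R321.RelDefs
import Claimed.Open.R321.SubSupport

/-!
# R321, package RC: maps of pairs inducing isomorphisms on relative homology, by elements

* `RelIso f Z A Z' A'`: the continuous map `f` maps the pair `(Z, A)` to `(Z', A')` and induces a
  bijection on relative homology classes (stated by elements);
* composition, two-out-of-three;
* transport of `RelCells` and `RelVanish` along a `RelIso`, in both directions.

Owner: helper149.
-/

set_option autoImplicit false

namespace Claimed.Open.R321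

noncomputable section

variable {E E' E'' : Type} [TopologicalSpace E] [TopologicalSpace E'] [TopologicalSpace E'']

theorem IsRelCycle.map (f : C(E, E')) {Z A : Set E} {Z' A' : Set E'} (hZ : Set.MapsTo f Z Z')
    (hA : Set.MapsTo f A A') {n : ℕ} {z : Chains E n} (h : IsRelCycle Z A n z) :
    IsRelCycle Z' A' n (chainMap f n z) := by
  cases n with
  | zero => exact chainMap_mem_chainsIn f hZ h
  | succ n =>
    refine ⟨chainMap_mem_chainsIn f hZ h.1, ?_⟩
    rw [bd_chainMap]
    exact chainMap_mem_chainsIn f hA h.2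

theorem IsRelBoundary.map (f : C(E, E')) {Z A : Set E} {Z' A' : Set E'} (hZ : Set.MapsTo f Z Z')
    (hA : Set.MapsTo f A A') {n : ℕ} {z : Chains E n} (h : IsRelBoundary Z A n z) :
    IsRelBoundary Z' A' n (chainMap f n z) := by
  obtain ⟨y, hy, a, ha, rfl⟩ := h
  exact ⟨chainMap f (n + 1) y, chainMap_mem_chainsIn f hZ hy, chainMap f n a,
    chainMap_mem_chainsIn f hA ha, by rw [map_add, bd_chainMap]⟩

theorem IsRelBoundary.isRelCycle {Z A : Set E} (hAZ : A ⊆ Z) {n : ℕ} {z : Chains E n}
    (h : IsRelBoundary Z A n z) : IsRelCycle Z A n z := by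
  obtain ⟨y, hy, a, ha, rfl⟩ := h
  have hmem : bd E n y + a ∈ chainsIn Z n :=
    AddSubgroup.add_mem _ (bd_mem_chainsIn hy) (chainsIn_mono hAZ n ha)
  cases n with
  | zero => exact hmem
  | succ n =>
    refine ⟨hmem, ?_⟩
    rw [map_add, bd_bd, zero_add]
    exact bd_mem_chainsIn ha

theorem isRelCycle_of_mem {Z A : Set E} (hAZ : A ⊆ Z) {n : ℕ} {a : Chains E n}
    (ha : a ∈ chainsIn A n) : IsRelCycle Z A n a :=
  (isRelBoundary_of_mem (Z := Z) ha).isRelCycle hAZ

theorem chainMap_chainComb (f : C(E, E')) {J : Type} {d : ℕ} (c : J → Chains E d) (m : J →₀ ℤ) :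
    chainMap f d (chainComb c m) = chainComb (fun j => chainMap f d (c j)) m := by
  induction m using Finsupp.induction_linear with
  | zero => simp
  | add a b ha hb => rw [map_add, map_add, map_add, ha, hb]
  | single j k => rw [chainComb_single, chainComb_single, map_zsmul]

/-- The map of pairs `f : (Z, A) → (Z', A')` induces a bijection on relative homology. -/
structure RelIso (f : C(E, E')) (Z A : Set E) (Z' A' : Set E') : Prop where
  mapsZ : Set.MapsTo f Z Z'
  mapsA : Set.MapsTo f A A'
  surj : ∀ (n : ℕ) (z' : Chains E' n), IsRelCycle Z' A' n z' →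
    ∃ z, IsRelCycle Z A n z ∧ IsRelBoundary Z' A' n (z' - chainMap f n z)
  inj : ∀ (n : ℕ) (z : Chains E n), IsRelCycle Z A n z → IsRelBoundary Z' A' n (chainMap f n z) →
    IsRelBoundary Z A n z

namespace RelIso

variable {f : C(E, E')} {g : C(E', E'')} {Z A : Set E} {Z' A' : Set E'} {Z'' A'' : Set E''}

theorem refl (Z A : Set E) : RelIso (ContinuousMap.id E) Z A Z A where
  mapsZ := fun _ h => h
  mapsA := fun _ h => h
  surj n z' hz' := ⟨z', hz', by rw [chainMap_id, sub_self]; exact isRelBoundary_zero_chain Z A n⟩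
  inj n z _ h := by rwa [chainMap_id] at h

theorem comp (hg : RelIso g Z' A' Z'' A'') (hf : RelIso f Z A Z' A') :
    RelIso (g.comp f) Z A Z'' A'' where
  mapsZ := hg.mapsZ.comp hf.mapsZ
  mapsA := hg.mapsA.comp hf.mapsA
  surj n z'' hz'' := by
    obtain ⟨z', hz', h1⟩ := hg.surj n z'' hz''
    obtain ⟨z, hz, h2⟩ := hf.surj n z' hz'
    refine ⟨z, hz, ?_⟩
    have e : z'' - chainMap (g.comp f) n z =
        (z'' - chainMap g n z') + chainMap g n (z' - chainMap f n z) := by
      rw [chainMap_comp, map_sub]; abel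
    rw [e]
    exact h1.add (h2.map g hg.mapsZ hg.mapsA)
  inj n z hz h := by
    rw [chainMap_comp] at h
    exact hf.inj n z hz (hg.inj n _ (hz.map f hf.mapsZ hf.mapsA) h)

/-- Two out of three: `g ∘ f` and `g` are isomorphisms, hence so is `f`. -/
theorem of_comp_left (hgf : RelIso (g.comp f) Z A Z'' A'') (hg : RelIso g Z' A' Z'' A'')
    (hZ : Set.MapsTo f Z Z') (hA : Set.MapsTo f A A') : RelIso f Z A Z' A' where
  mapsZ := hZ
  mapsA := hA
  surj n z' hz' := by
    obtain ⟨z, hz, h1⟩ := hgf.surj n _ (hz'.map g hg.mapsZ hg.mapsA)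
    refine ⟨z, hz, hg.inj n _ (hz'.sub (hz.map f hZ hA)) ?_⟩
    rwa [map_sub, ← chainMap_comp]
  inj n z hz h := hgf.inj n z hz (by
    rw [chainMap_comp]
    exact h.map g hg.mapsZ hg.mapsA)

/-- Two out of three: `g ∘ f` and `f` are isomorphisms, hence so is `g`. -/
theorem of_comp_right (hgf : RelIso (g.comp f) Z A Z'' A'') (hf : RelIso f Z A Z' A')
    (hZ : Set.MapsTo g Z' Z'') (hA : Set.MapsTo g A' A'') : RelIso g Z' A' Z'' A'' where
  mapsZ := hZ
  mapsA := hA
  surj n z'' hz'' := by
    obtain ⟨z, hz, h1⟩ := hgf.surj n z'' hz''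
    refine ⟨chainMap f n z, hz.map f hf.mapsZ hf.mapsA, ?_⟩
    rwa [← chainMap_comp]
  inj n z' hz' h := by
    obtain ⟨z, hz, h1⟩ := hf.surj n z' hz'
    have h2 : IsRelBoundary Z'' A'' n (chainMap (g.comp f) n z) := by
      have e : chainMap (g.comp f) n z = chainMap g n z' - chainMap g n (z' - chainMap f n z) := by
        rw [chainMap_comp, map_sub]; abel
      rw [e]
      exact h.sub (h1.map g hZ hA)
    have h3 := (hgf.inj n z hz h2).map f hf.mapsZ hf.mapsA
    have e : z' = (z' - chainMap f n z) + chainMap f n z := by abel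
    rw [e]
    exact h1.add h3

theorem relVanish (hf : RelIso f Z A Z' A') {n : ℕ} (h : RelVanish Z A n) : RelVanish Z' A' n := by
  intro z' hz'
  obtain ⟨z, hz, h1⟩ := hf.surj n z' hz'
  have e : z' = (z' - chainMap f n z) + chainMap f n z := by abel
  rw [e]
  exact h1.add ((h z hz).map f hf.mapsZ hf.mapsA)

theorem relVanish_of (hf : RelIso f Z A Z' A') {n : ℕ} (h : RelVanish Z' A' n) :
    RelVanish Z A n :=
  fun z hz => hf.inj n z hz (h _ (hz.map f hf.mapsZ hf.mapsA))

/-- Transport of `RelCells` along an isomorphism. -/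
theorem relCells (hf : RelIso f Z A Z' A') {d : ℕ} {J : Type} {c : J → Chains E d}
    (h : RelCells Z A d c) : RelCells Z' A' d (fun j => chainMap f d (c j)) where
  isRelCycle j := (h.isRelCycle j).map f hf.mapsZ hf.mapsA
  vanish n hn := hf.relVanish (h.vanish n hn)
  span z' hz' := by
    obtain ⟨z, hz, h1⟩ := hf.surj d z' hz'
    obtain ⟨m, hm⟩ := h.span z hz
    refine ⟨m, ?_⟩
    have e : z' - chainComb (fun j => chainMap f d (c j)) m =
        (z' - chainMap f d z) + chainMap f d (z - chainComb c m) := by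
      rw [map_sub, chainMap_chainComb]; abel
    rw [e]
    exact h1.add (hm.map f hf.mapsZ hf.mapsA)
  indep m hm := by
    rw [← chainMap_chainComb] at hm
    exact h.indep m (hf.inj d _ (isRelCycle_chainComb h.isRelCycle m) hm)

/-- Transport of `RelCells` backwards along an isomorphism. -/
theorem relCells_of (hf : RelIso f Z A Z' A') {d : ℕ} {J : Type} {c : J → Chains E d}
    (hc : ∀ j, IsRelCycle Z A d (c j)) (h : RelCells Z' A' d (fun j => chainMap f d (c j))) :
    RelCells Z A d c where
  isRelCycle := hc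
  vanish n hn := hf.relVanish_of (h.vanish n hn)
  span z hz := by
    obtain ⟨m, hm⟩ := h.span _ (hz.map f hf.mapsZ hf.mapsA)
    refine ⟨m, hf.inj d _ (hz.sub (isRelCycle_chainComb hc m)) ?_⟩
    rwa [map_sub, chainMap_chainComb]
  indep m hm := h.indep m (by
    rw [← chainMap_chainComb]
    exact hm.map f hf.mapsZ hf.mapsA)

end RelIso

/-- The generators of `RelCells` may be changed by relative boundaries. -/
theorem RelCells.congr {Z A : Set E} (hAZ : A ⊆ Z) {d : ℕ} {J : Type} {c c' : J → Chains E d}
    (h : RelCells Z A d c) (hcc' : ∀ j, IsRelBoundary Z A d (c j - c' j)) : RelCells Z A d c' := by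
  have key : ∀ m : J →₀ ℤ, IsRelBoundary Z A d (chainComb c m - chainComb c' m) := by
    intro m
    induction m using Finsupp.induction_linear with
    | zero => simpa using isRelBoundary_zero_chain Z A d
    | add a b ha hb =>
      have e : chainComb c (a + b) - chainComb c' (a + b) =
          (chainComb c a - chainComb c' a) + (chainComb c b - chainComb c' b) := by
        rw [map_add, map_add]; abel
      rw [e]
      exact ha.add hb
    | single j k =>
      rw [chainComb_single, chainComb_single, ← zsmul_sub]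
      exact (hcc' j).zsmul k
  refine ⟨fun j => ?_, h.vanish, fun z hz => ?_, fun m hm => ?_⟩
  · have e : c' j = c j - (c j - c' j) := by abel
    rw [e]
    exact (h.isRelCycle j).sub ((hcc' j).isRelCycle hAZ)
  · obtain ⟨m, hm⟩ := h.span z hz
    refine ⟨m, ?_⟩
    have e : z - chainComb c' m = (z - chainComb c m) + (chainComb c m - chainComb c' m) := by abel
    rw [e]
    exact hm.add (key m)
  · apply h.indep m
    have e : chainComb c m = (chainComb c m - chainComb c' m) + chainComb c' m := by abel
    rw [e]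
    exact (key m).add hm

/-- Pulling `RelCells` back along an isomorphism, when the generators are not in the image. -/
theorem RelIso.exists_relCells {f : C(E, E')} {Z A : Set E} {Z' A' : Set E'}
    (hf : RelIso f Z A Z' A') (hAZ' : A' ⊆ Z') {d : ℕ} {J : Type} {c' : J → Chains E' d}
    (h : RelCells Z' A' d c') :
    ∃ c : J → Chains E d, RelCells Z A d c ∧
      ∀ j, IsRelBoundary Z' A' d (c' j - chainMap f d (c j)) := by
  choose c hc hcc' using fun j => hf.surj d (c' j) (h.isRelCycle j)
  exact ⟨c, hf.relCells_of hc (h.congr hAZ' hcc'), hcc'⟩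

end

end Claimed.Open.R321
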