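import Claimed.Open.R321.AttachDef
import Claimed.Open.R321.AttachBasic
import Claimed.Open.R321.PBCell

/-!
# R321, package RC (global step): point-set topology of a cell attachment

For `h : CellAttach Z A d J` with the weak topology (`hw : h.IsWeak`), `J` arbitrary:

* `h.quot : A ⊕ Σ_J Dsk d → Z` is a quotient map;
* `dskStretch : C(Dsk d × I, Dsk d)`, `(x, t) ↦ ((1 - t) + t / max ‖x‖ (1/2)) • x`;
* `h.stretch hw : C(Z × I, Z)`, the homotopy which is the identity on `A` and `dskStretch` on each cell;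
* `h.collar = A ∪ ⋃ j, Φ j '' {1/2 ≤ ‖x‖}` is a neighbourhood of `A` which is pushed into `A`;
* the open cells are open embeddings of the open ball.

Owner: helper278.
-/

set_option autoImplicit false

namespace Claimed.Open.R321

open Topology Metric Set unitInterval

noncomputable section

/-! ### The stretch of the disk -/

/-- The scalar `(1 - t) + t / max r (1/2)`. -/
def stretchCoef (r t : ℝ) : ℝ := (1 - t) + t / max r (1 / 2)

theorem stretchCoef_nonneg {r t : ℝ} (h0 : 0 ≤ t) (h1 : t ≤ 1) : 0 ≤ stretchCoef r t := by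
  unfold stretchCoef
  have : 0 < max r (1 / 2) := lt_max_of_lt_right (by norm_num)
  positivity

theorem stretchCoef_mul_of_le {r t : ℝ} (hr : 1 / 2 ≤ r) : stretchCoef r t * r = (1 - t) * r + t := by
  unfold stretchCoef
  rw [max_eq_left hr]
  have : r ≠ 0 := by linarith
  field_simp

theorem stretchCoef_of_le {r t : ℝ} (hr : r ≤ 1 / 2) : stretchCoef r t = 1 + t := by
  unfold stretchCoef
  rw [max_eq_right hr]
  ring

theorem stretchCoef_mul_le {r t : ℝ} (hr0 : 0 ≤ r) (hr : r ≤ 1) (_h0 : 0 ≤ t) (h1 : t ≤ 1) :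
    stretchCoef r t * r ≤ 1 := by
  rcases le_total (1 / 2) r with h | h
  · rw [stretchCoef_mul_of_le h]
    nlinarith
  · rw [stretchCoef_of_le h]
    nlinarith

theorem continuous_stretchCoef : Continuous fun p : ℝ × ℝ => stretchCoef p.1 p.2 := by
  unfold stretchCoef
  refine Continuous.add (by fun_prop) (Continuous.div (by fun_prop) (by fun_prop) fun p => ?_)
  exact (lt_max_of_lt_right (by norm_num)).ne'

/-- The radial stretch of the disk: at time `1` the ball of radius `1/2` is blown up to the whole disk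
and the rest is pushed to the sphere. -/
def dskStretch (d : ℕ) : C(Dsk d × I, Dsk d) where
  toFun p := ⟨stretchCoef ‖p.1.1‖ p.2 • p.1.1, by
    rw [mem_closedBall_zero_iff, norm_smul, Real.norm_eq_abs,
      abs_of_nonneg (stretchCoef_nonneg p.2.2.1 p.2.2.2)]
    exact stretchCoef_mul_le (norm_nonneg _) (Dsk.norm_le_one p.1) p.2.2.1 p.2.2.2⟩
  continuous_toFun := by
    refine Continuous.subtype_mk ?_ _
    have h1 : Continuous fun p : Dsk d × I => (‖p.1.1‖, (p.2 : ℝ)) := by fun_prop
    have h2 : Continuous fun p : Dsk d × I => p.1.1 := by fun_prop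
    exact (continuous_stretchCoef.comp h1).smul h2

theorem dskStretch_coe {d : ℕ} (x : Dsk d) (t : I) :
    (dskStretch d (x, t)).1 = stretchCoef ‖x.1‖ t • x.1 := rfl

theorem norm_dskStretch {d : ℕ} (x : Dsk d) (t : I) :
    ‖(dskStretch d (x, t)).1‖ = stretchCoef ‖x.1‖ t * ‖x.1‖ := by
  rw [dskStretch_coe, norm_smul, Real.norm_eq_abs, abs_of_nonneg (stretchCoef_nonneg t.2.1 t.2.2)]

@[simp] theorem dskStretch_zero {d : ℕ} (x : Dsk d) : dskStretch d (x, 0) = x := by
  apply Subtype.ext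
  rw [dskStretch_coe]
  simp [stretchCoef]

theorem dskStretch_of_norm_eq_one {d : ℕ} {x : Dsk d} (hx : ‖x.1‖ = 1) (t : I) :
    dskStretch d (x, t) = x := by
  apply Subtype.ext
  rw [dskStretch_coe, hx]
  have : stretchCoef 1 t = 1 := by
    unfold stretchCoef
    rw [max_eq_left (by norm_num)]
    ring
  rw [this, one_smul]

theorem norm_dskStretch_of_le {d : ℕ} {x : Dsk d} (hx : 1 / 2 ≤ ‖x.1‖) (t : I) :
    ‖(dskStretch d (x, t)).1‖ = (1 - t) * ‖x.1‖ + t := by
  rw [norm_dskStretch, stretchCoef_mul_of_le hx]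

theorem le_norm_dskStretch {d : ℕ} {x : Dsk d} (hx : 1 / 2 ≤ ‖x.1‖) (t : I) :
    1 / 2 ≤ ‖(dskStretch d (x, t)).1‖ := by
  rw [norm_dskStretch_of_le hx]
  have h1 := Dsk.norm_le_one x
  have h2 := t.2.1
  have h3 := t.2.2
  nlinarith

theorem norm_dskStretch_one {d : ℕ} {x : Dsk d} (hx : 1 / 2 ≤ ‖x.1‖) :
    ‖(dskStretch d (x, 1)).1‖ = 1 := by
  rw [norm_dskStretch_of_le hx]
  simp


/-! ### The quotient map -/

namespace CellAttach

variable {Z : Type} [TopologicalSpace Z] {A : Set Z} {d : ℕ} {J : Type} (h : CellAttach Z A d J)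

theorem mem_iff_norm_eq_one {j : J} {x : Dsk d} : h.Φ j x ∈ A ↔ ‖x.1‖ = 1 :=
  ⟨fun hx => by
    by_contra hne
    exact h.ball_not_mem j x (lt_of_le_of_ne (Dsk.norm_le_one x) hne) hx, h.sphere_mem j x⟩

/-- If two points of cells have the same image outside `A`, they are equal. -/
theorem eq_of_not_mem {i j : J} {x y : Dsk d} (hx : h.Φ i x ∉ A) (hxy : h.Φ i x = h.Φ j y) :
    i = j ∧ x = y :=
  h.inj i j x y (h.norm_lt_one_of_not_mem hx) (h.norm_lt_one_of_not_mem (hxy ▸ hx)) hxy

/-- The canonical map from the disjoint union of `A` and the disks. -/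
def quot : ↥A ⊕ (Σ _ : J, Dsk d) → Z := Sum.elim Subtype.val fun p => h.Φ p.1 p.2

theorem continuous_quot : Continuous h.quot :=
  continuous_subtype_val.sumElim (continuous_sigma fun j => (h.Φ j).continuous)

theorem surjective_quot : Function.Surjective h.quot := by
  intro z
  rcases h.cover z with hz | ⟨j, x, rfl⟩
  · exact ⟨Sum.inl ⟨z, hz⟩, rfl⟩
  · exact ⟨Sum.inr ⟨j, x⟩, rfl⟩

variable {h}

theorem isQuotientMap_quot (hw : h.IsWeak) : IsQuotientMap h.quot := by
  rw [isQuotientMap_iff_isClosed]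
  refine ⟨h.surjective_quot, fun C => ⟨fun hC => hC.preimage h.continuous_quot, fun hC => ?_⟩⟩
  rw [isClosed_sum_iff, isClosed_sigma_iff] at hC
  refine hw.2 C ?_ fun j => hC.2 j
  have h1 := hw.1.isClosedEmbedding_subtypeVal.isClosedMap _ hC.1
  have h2 : Subtype.val '' (Sum.inl ⁻¹' (h.quot ⁻¹' C) : Set ↥A) = C ∩ A := by
    ext z
    constructor
    · rintro ⟨a, ha, rfl⟩
      exact ⟨ha, a.2⟩
    · rintro ⟨hz, hzA⟩
      exact ⟨⟨z, hzA⟩, hz, rfl⟩
  rwa [h2] at h1

variable (h)

/-! ### The stretch homotopy -/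

open Classical in
/-- The stretch homotopy, as a function. -/
def stretchFun (p : Z × I) : Z :=
  if hz : ∃ (j : J) (x : Dsk d), h.Φ j x = p.1 then
    h.Φ hz.choose (dskStretch d (hz.choose_spec.choose, p.2))
  else p.1

theorem stretchFun_cell (j : J) (x : Dsk d) (t : I) :
    h.stretchFun (h.Φ j x, t) = h.Φ j (dskStretch d (x, t)) := by
  have hz : ∃ (j' : J) (x' : Dsk d), h.Φ j' x' = h.Φ j x := ⟨j, x, rfl⟩
  have hspec : h.Φ hz.choose hz.choose_spec.choose = h.Φ j x := hz.choose_spec.choose_spec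
  unfold stretchFun
  rw [dif_pos hz]
  by_cases hA : h.Φ j x ∈ A
  · have h1 : ‖x.1‖ = 1 := h.mem_iff_norm_eq_one.1 hA
    have h2 : ‖(hz.choose_spec.choose : Dsk d).1‖ = 1 := h.mem_iff_norm_eq_one.1 (hspec ▸ hA)
    rw [dskStretch_of_norm_eq_one h1, dskStretch_of_norm_eq_one h2]
    exact hspec
  · obtain ⟨e1, e2⟩ := h.eq_of_not_mem (by rw [hspec]; exact hA) hspec
    rw [e2]
    exact congrArg (fun i => h.Φ i (dskStretch d (x, t))) e1

theorem stretchFun_of_mem {a : Z} (ha : a ∈ A) (t : I) : h.stretchFun (a, t) = a := by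
  by_cases hz : ∃ (j : J) (x : Dsk d), h.Φ j x = a
  · obtain ⟨j, x, rfl⟩ := hz
    rw [stretchFun_cell, dskStretch_of_norm_eq_one (h.mem_iff_norm_eq_one.1 ha)]
  · unfold stretchFun
    rw [dif_neg hz]

variable {h}

theorem continuous_stretchFun (hw : h.IsWeak) : Continuous h.stretchFun := by
  refine (isQuotientMap_quot hw).continuous_lift_prod_left ?_
  rw [← (Homeomorph.sumProdDistrib (X := ↥A) (Y := Σ _ : J, Dsk d) (Z := I)).symm.comp_continuous_iff',
    continuous_sum_dom]
  constructor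
  · have : ((fun p : (↥A ⊕ (Σ _ : J, Dsk d)) × I => h.stretchFun (h.quot p.1, p.2)) ∘
        (Homeomorph.sumProdDistrib (X := ↥A) (Y := Σ _ : J, Dsk d) (Z := I)).symm) ∘ Sum.inl =
        fun p : ↥A × I => (p.1 : Z) := by
      funext p
      exact h.stretchFun_of_mem p.1.2 p.2
    rw [this]
    fun_prop
  · rw [← (Homeomorph.sigmaProdDistrib (X := fun _ : J => Dsk d) (Y := I)).symm.comp_continuous_iff',
      continuous_sigma_iff]
    intro j
    have : (fun a : Dsk d × I => ((((fun p : (↥A ⊕ (Σ _ : J, Dsk d)) × I =>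
        h.stretchFun (h.quot p.1, p.2)) ∘
        (Homeomorph.sumProdDistrib (X := ↥A) (Y := Σ _ : J, Dsk d) (Z := I)).symm) ∘ Sum.inr) ∘
        (Homeomorph.sigmaProdDistrib (X := fun _ : J => Dsk d) (Y := I)).symm) ⟨j, a⟩) =
        fun a : Dsk d × I => h.Φ j (dskStretch d a) := by
      funext a
      exact h.stretchFun_cell j a.1 a.2
    rw [this]
    fun_prop

/-- **The stretch homotopy.** -/
def stretch (hw : h.IsWeak) : C(Z × I, Z) := ⟨h.stretchFun, continuous_stretchFun hw⟩

theorem stretch_cell (hw : h.IsWeak) (j : J) (x : Dsk d) (t : I) :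
    stretch hw (h.Φ j x, t) = h.Φ j (dskStretch d (x, t)) := h.stretchFun_cell j x t

theorem stretch_of_mem (hw : h.IsWeak) {a : Z} (ha : a ∈ A) (t : I) : stretch hw (a, t) = a :=
  h.stretchFun_of_mem ha t

theorem stretch_zero (hw : h.IsWeak) (z : Z) : stretch hw (z, 0) = z := by
  rcases h.cover z with hz | ⟨j, x, rfl⟩
  · exact stretch_of_mem hw hz 0
  · rw [stretch_cell, dskStretch_zero]


/-! ### The collar -/

variable (h)

/-- The collar of `A`: the union of `A` and the outer halves of the cells. -/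
def collar : Set Z := A ∪ ⋃ j, h.Φ j '' {x | 1 / 2 ≤ ‖x.1‖}

/-- The union of the closed inner halves of the cells. -/
def core : Set Z := ⋃ j, h.Φ j '' {x | ‖x.1‖ ≤ 1 / 2}

theorem subset_collar : A ⊆ h.collar := subset_union_left

theorem cell_mem_collar {j : J} {x : Dsk d} (hx : 1 / 2 ≤ ‖x.1‖) : h.Φ j x ∈ h.collar :=
  Or.inr (mem_iUnion.2 ⟨j, x, hx, rfl⟩)

theorem cell_mem_collar_iff {j : J} {x : Dsk d} : h.Φ j x ∈ h.collar ↔ 1 / 2 ≤ ‖x.1‖ := by
  refine ⟨fun hx => ?_, h.cell_mem_collar⟩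
  rcases hx with hx | hx
  · rw [h.mem_iff_norm_eq_one.1 hx]; norm_num
  · obtain ⟨i, y, hy, hxy⟩ := mem_iUnion.1 hx
    by_cases hA : h.Φ j x ∈ A
    · rw [h.mem_iff_norm_eq_one.1 hA]; norm_num
    · obtain ⟨-, rfl⟩ := h.eq_of_not_mem hA hxy.symm
      exact hy

theorem cell_mem_core_iff {j : J} {x : Dsk d} : h.Φ j x ∈ h.core ↔ ‖x.1‖ ≤ 1 / 2 := by
  constructor
  · intro hx
    obtain ⟨i, y, hy, hxy⟩ := mem_iUnion.1 hx
    have hyA : h.Φ i y ∉ A := h.ball_not_mem i y (lt_of_le_of_lt hy (by norm_num))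
    obtain ⟨-, rfl⟩ := h.eq_of_not_mem hyA hxy
    exact hy
  · intro hx
    exact mem_iUnion.2 ⟨j, x, hx, rfl⟩

theorem disjoint_core : Disjoint h.core A := by
  rw [disjoint_left]
  intro z hz hzA
  obtain ⟨i, y, hy, rfl⟩ := mem_iUnion.1 hz
  exact h.ball_not_mem i y (lt_of_le_of_lt hy (by norm_num)) hzA

theorem compl_core_subset_collar : h.coreᶜ ⊆ h.collar := by
  intro z hz
  rcases h.cover z with hzA | ⟨j, x, rfl⟩
  · exact Or.inl hzA
  · rw [mem_compl_iff, cell_mem_core_iff, not_le] at hz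
    exact h.cell_mem_collar hz.le

variable {h}

theorem isClosed_core (hw : h.IsWeak) : IsClosed h.core := by
  refine hw.2 _ ?_ fun j => ?_
  · rw [h.disjoint_core.inter_eq]
    exact isClosed_empty
  · have : h.Φ j ⁻¹' h.core = {x : Dsk d | ‖x.1‖ ≤ 1 / 2} := by
      ext x
      exact h.cell_mem_core_iff
    rw [this]
    exact isClosed_le (by fun_prop) continuous_const

/-- The collar is a neighbourhood of `A`. -/
theorem subset_interior_collar (hw : h.IsWeak) : A ⊆ interior h.collar :=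
  (subset_compl_comm.1 (disjoint_left.1 h.disjoint_core : h.core ⊆ Aᶜ)).trans
    (interior_maximal h.compl_core_subset_collar (isClosed_core hw).isOpen_compl)

theorem stretch_mem_collar (hw : h.IsWeak) {z : Z} (hz : z ∈ h.collar) (t : I) :
    stretch hw (z, t) ∈ h.collar := by
  rcases h.cover z with hzA | ⟨j, x, rfl⟩
  · rw [stretch_of_mem hw hzA]
    exact hz
  · rw [stretch_cell]
    exact h.cell_mem_collar (le_norm_dskStretch (h.cell_mem_collar_iff.1 hz) t)

theorem stretch_one_mem (hw : h.IsWeak) {z : Z} (hz : z ∈ h.collar) : stretch hw (z, 1) ∈ A := by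
  rcases h.cover z with hzA | ⟨j, x, rfl⟩
  · rw [stretch_of_mem hw hzA]
    exact hzA
  · rw [stretch_cell]
    exact h.sphere_mem j _ (norm_dskStretch_one (h.cell_mem_collar_iff.1 hz))

/-! ### The open cells -/

variable (h)

/-- The characteristic map restricted to the open ball. -/
def openCellMap (j : J) : C(Bal d, Z) := (h.Φ j).comp (balToDsk d)

theorem openCellMap_apply (j : J) (x : Bal d) : h.openCellMap j x = h.Φ j (balToDsk d x) := rfl

theorem norm_balToDsk_lt (x : Bal d) : ‖(balToDsk d x).1‖ < 1 := mem_ball_zero_iff.1 x.2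

theorem openCellMap_not_mem (j : J) (x : Bal d) : h.openCellMap j x ∉ A :=
  h.ball_not_mem j _ (norm_balToDsk_lt x)

theorem openCellMap_inj {i j : J} {x y : Bal d} (hxy : h.openCellMap i x = h.openCellMap j y) :
    i = j ∧ x = y := by
  obtain ⟨e1, e2⟩ := h.inj i j _ _ (norm_balToDsk_lt x) (norm_balToDsk_lt y) hxy
  exact ⟨e1, Subtype.ext (congrArg (fun z : Dsk d => z.1) e2)⟩

theorem compl_eq_iUnion_range : Aᶜ = ⋃ j, range (h.openCellMap j) := by
  ext z
  simp only [mem_compl_iff, mem_iUnion, mem_range]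
  constructor
  · intro hz
    rcases h.cover z with hzA | ⟨j, x, rfl⟩
    · exact absurd hzA hz
    · exact ⟨j, ⟨x.1, mem_ball_zero_iff.2 (h.norm_lt_one_of_not_mem hz)⟩, rfl⟩
  · rintro ⟨j, x, rfl⟩
    exact h.openCellMap_not_mem j x

theorem disjoint_range_openCellMap {i j : J} (hij : i ≠ j) :
    Disjoint (range (h.openCellMap i)) (range (h.openCellMap j)) := by
  rw [disjoint_left]
  rintro _ ⟨x, rfl⟩ ⟨y, hy⟩
  exact hij (h.openCellMap_inj hy.symm).1

variable {h}

theorem isOpenEmbedding_openCellMap (hw : h.IsWeak) (j : J) : IsOpenEmbedding (h.openCellMap j) := by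
  refine IsOpenEmbedding.of_continuous_injective_isOpenMap (h.openCellMap j).continuous
    (fun x y hxy => (h.openCellMap_inj hxy).2) fun U hU => ?_
  rw [← isClosed_compl_iff]
  refine hw.2 _ ?_ fun i => ?_
  · have : (h.openCellMap j '' U)ᶜ ∩ A = A := by
      refine inter_eq_right.2 fun a ha => ?_
      rintro ⟨x, -, rfl⟩
      exact h.openCellMap_not_mem j x ha
    rw [this]
    exact hw.1
  · rw [preimage_compl, isClosed_compl_iff]
    by_cases hij : i = j
    · subst hij
      have : h.Φ i ⁻¹' (h.openCellMap i '' U) = balToDsk d '' U := by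
        ext x
        constructor
        · rintro ⟨y, hy, hyx⟩
          have hA : h.Φ i (balToDsk d y) ∉ A := h.openCellMap_not_mem i y
          obtain ⟨-, rfl⟩ := h.eq_of_not_mem hA hyx
          exact ⟨y, hy, rfl⟩
        · rintro ⟨y, hy, rfl⟩
          exact ⟨y, hy, rfl⟩
      rw [this]
      exact isOpenEmbedding_balToDsk.isOpenMap U hU
    · have : h.Φ i ⁻¹' (h.openCellMap j '' U) = ∅ := by
        ext x
        simp only [mem_preimage, mem_image, mem_empty_iff_false, iff_false, not_exists, not_and]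
        intro y _ hyx
        have hA : h.Φ j (balToDsk d y) ∉ A := h.openCellMap_not_mem j y
        exact hij (h.eq_of_not_mem hA hyx).1.symm
      rw [this]
      exact isOpen_empty

end CellAttach

end

end Claimed.Open.R321
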