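import Claimed.Open.R321.RelDefs
import Claimed.Open.R321.EquivModel

/-!
# R321, package PD-ALG: the `D(2)` clauses from an invariant filtration with free relative homology

Let `D` be a group of homeomorphisms of `E` acting freely.

* `exists_kappa_of_ac` (Lemma K): let `Z` be a `D`-invariant subset and `G0, …, G3` `D`-stable subgroups of
  the chain groups such that every chain `z` carried by `Z` with `∂ z ∈ G_{n-1}` is of the form
  `∂ y + g`, `y` carried by `Z`, `g ∈ G_n` (`n ≤ 3`).  Then there is an equivariant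
  `κ : S_2 → S_3` with `τ - κ ∂ τ ∈ ∂ (chains in Z) + G3` for all 3-chains `τ` carried by `Z`.
* `HasKappa D Z A`: this conclusion with `G3 = chainsIn A 3`.  It follows from `RelCells Z A d c` for
  `d ≤ 2`, and from `RelVanish Z A n` for `n ≤ 3`.
* `CobAt D Z`: every equivariant 3-cochain killing the boundaries of chains carried by `Z` is, on the
  chains carried by `Z`, the coboundary of an equivariant 2-cochain.  `CobAt.step` climbs one stage of a
  filtration.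
* `CycBd Z n`: `H_{n+1}(Z) = 0`; `CycBd.step`.
* `d2_clauses_of_filtration`: the two clauses of `SatisfiesD2`.
-/

set_option autoImplicit false

namespace Claimed.Open.R321

open CategoryTheory AlgebraicTopology Topology

noncomputable section

variable {E : Type} [TopologicalSpace E] {D : Subgroup (E ≃ₜ E)}

/-- The subset `Z` is invariant under `D`. -/
def InvariantSet (D : Subgroup (E ≃ₜ E)) (Z : Set E) : Prop :=
  ∀ (g : D) (e : E), e ∈ Z → g.1 e ∈ Z

theorem InvariantSet.chainAct_mem {Z : Set E} (hZ : InvariantSet D Z) (g : D) {n : ℕ}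
    {c : Chains E n} (hc : c ∈ chainsIn Z n) : chainAct D g n c ∈ chainsIn Z n :=
  chainMap_mem_chainsIn _ (fun e he => hZ g e he) hc

theorem InvariantSet.range_comp_iff {Z : Set E} (hZ : InvariantSet D Z) (g : D) {n : ℕ}
    (σ : Simplex n E) :
    Set.range (((g.1 : E ≃ₜ E) : C(E, E)).comp σ) ⊆ Z ↔ Set.range σ ⊆ Z := by
  constructor
  · rintro h _ ⟨t, rfl⟩
    have h1 : g.1 (σ t) ∈ Z := h ⟨t, rfl⟩
    have h2 := hZ g⁻¹ _ h1
    have h3 : (g⁻¹ : D).1 (g.1 (σ t)) = σ t := g.1.symm_apply_apply (σ t)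
    rwa [h3] at h2
  · rintro h _ ⟨t, rfl⟩
    exact hZ g _ (h ⟨t, rfl⟩)

theorem invariantSet_univ : InvariantSet D (Set.univ : Set E) := fun _ _ _ => trivial

theorem invariantSet_empty : InvariantSet D (∅ : Set E) := fun _ _ h => h.elim

/-! ### Lemma K -/

/-- Stage `0` of the recursion. -/
theorem kappa_zero (hfree : ∀ (g : D) (e : E), g.1 e = e → g = 1) {Z : Set E}
    (hZ : InvariantSet D Z) (G0 : AddSubgroup (Chains E 0))
    (hG0 : ∀ g c, c ∈ G0 → chainAct D g 0 c ∈ G0)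
    (ac0 : ∀ z ∈ chainsIn Z 0, ∃ y ∈ chainsIn Z 1, z - bd E 0 y ∈ G0) :
    ∃ h : Chains E 0 →+ Chains E 1,
      (∀ g c, h (chainAct D g 0 c) = chainAct D g 1 (h c)) ∧
      (∀ x ∈ chainsIn Z 0, h x ∈ chainsIn Z 1) ∧
      (∀ x ∈ chainsIn Z 0, x - bd E 0 (h x) ∈ G0) := by
  obtain ⟨F, hF1, hF2⟩ := exists_equivariant_hom (D := D) hfree (T := Chains E 1)
    (fun g => chainAct D g 1) (fun g k t => chainAct_mul D g k 1 t) 0
    (fun σ y => Set.range σ ⊆ Z → y ∈ chainsIn Z 1 ∧ gen σ - bd E 0 y ∈ G0)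
    (fun σ => by
      by_cases hσ : Set.range σ ⊆ Z
      · obtain ⟨y, hy, h⟩ := ac0 (gen σ) (gen_mem_chainsIn hσ)
        exact ⟨y, fun _ => ⟨hy, h⟩⟩
      · exact ⟨0, fun h => absurd h hσ⟩)
    (fun g σ y hy hσ => by
      obtain ⟨h1, h2⟩ := hy ((hZ.range_comp_iff g σ).1 hσ)
      refine ⟨hZ.chainAct_mem g h1, ?_⟩
      rw [← chainAct_gen, bd_chainAct, ← map_sub]
      exact hG0 g _ h2)
  refine ⟨F, hF2, fun x hx => ?_, fun x hx => ?_⟩
  · exact map_mem_of_chainsIn _ F (fun σ hσ => (hF1 σ hσ).1) hx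
  · exact map_mem_of_chainsIn G0 (AddMonoidHom.id _ - (bd E 0).comp F)
      (fun σ hσ => (hF1 σ hσ).2) hx

/-- One step of the recursion. -/
theorem kappa_step (hfree : ∀ (g : D) (e : E), g.1 e = e → g = 1) {Z : Set E}
    (hZ : InvariantSet D Z) (n : ℕ) (G : AddSubgroup (Chains E n))
    (G' : AddSubgroup (Chains E (n + 1)))
    (hG' : ∀ g c, c ∈ G' → chainAct D g (n + 1) c ∈ G')
    (ac : ∀ z ∈ chainsIn Z (n + 1), bd E n z ∈ G → ∃ y ∈ chainsIn Z (n + 2), z - bd E (n + 1) y ∈ G')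
    (h : Chains E n →+ Chains E (n + 1))
    (hh : ∀ g c, h (chainAct D g n c) = chainAct D g (n + 1) (h c))
    (hhZ : ∀ x ∈ chainsIn Z n, h x ∈ chainsIn Z (n + 1))
    (hE : ∀ x ∈ chainsIn Z (n + 1), bd E n x - bd E n (h (bd E n x)) ∈ G) :
    ∃ h' : Chains E (n + 1) →+ Chains E (n + 2),
      (∀ g c, h' (chainAct D g (n + 1) c) = chainAct D g (n + 2) (h' c)) ∧
      (∀ x ∈ chainsIn Z (n + 1), h' x ∈ chainsIn Z (n + 2)) ∧
      (∀ x ∈ chainsIn Z (n + 1), x - h (bd E n x) - bd E (n + 1) (h' x) ∈ G') := by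
  obtain ⟨F, hF1, hF2⟩ := exists_equivariant_hom (D := D) hfree (T := Chains E (n + 2))
    (fun g => chainAct D g (n + 2)) (fun g k t => chainAct_mul D g k (n + 2) t) (n + 1)
    (fun σ y => Set.range σ ⊆ Z →
      y ∈ chainsIn Z (n + 2) ∧ gen σ - h (bd E n (gen σ)) - bd E (n + 1) y ∈ G')
    (fun σ => by
      by_cases hσ : Set.range σ ⊆ Z
      · have hm : gen σ ∈ chainsIn Z (n + 1) := gen_mem_chainsIn hσ
        obtain ⟨y, hy, h1⟩ := ac (gen σ - h (bd E n (gen σ)))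
          (AddSubgroup.sub_mem _ hm (hhZ _ (bd_mem_chainsIn hm)))
          (by rw [map_sub]; exact hE _ hm)
        exact ⟨y, fun _ => ⟨hy, h1⟩⟩
      · exact ⟨0, fun h => absurd h hσ⟩)
    (fun g σ y hy hσ => by
      obtain ⟨h1, h2⟩ := hy ((hZ.range_comp_iff g σ).1 hσ)
      refine ⟨hZ.chainAct_mem g h1, ?_⟩
      rw [← chainAct_gen, bd_chainAct, bd_chainAct, hh, ← map_sub, ← map_sub]
      exact hG' g _ h2)
  refine ⟨F, hF2, fun x hx => ?_, fun x hx => ?_⟩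
  · exact map_mem_of_chainsIn _ F (fun σ hσ => (hF1 σ hσ).1) hx
  · exact map_mem_of_chainsIn G' (AddMonoidHom.id _ - h.comp (bd E n) - (bd E (n + 1)).comp F)
      (fun σ hσ => (hF1 σ hσ).2) hx

/-- **Lemma K.** -/
theorem exists_kappa_of_ac (hfree : ∀ (g : D) (e : E), g.1 e = e → g = 1) {Z : Set E}
    (hZ : InvariantSet D Z)
    (G0 : AddSubgroup (Chains E 0)) (G1 : AddSubgroup (Chains E 1))
    (G2 : AddSubgroup (Chains E 2)) (G3 : AddSubgroup (Chains E 3))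
    (hG0 : ∀ g c, c ∈ G0 → chainAct D g 0 c ∈ G0)
    (hG1 : ∀ g c, c ∈ G1 → chainAct D g 1 c ∈ G1)
    (hG2 : ∀ g c, c ∈ G2 → chainAct D g 2 c ∈ G2)
    (ac0 : ∀ z ∈ chainsIn Z 0, ∃ y ∈ chainsIn Z 1, z - bd E 0 y ∈ G0)
    (ac1 : ∀ z ∈ chainsIn Z 1, bd E 0 z ∈ G0 → ∃ y ∈ chainsIn Z 2, z - bd E 1 y ∈ G1)
    (ac2 : ∀ z ∈ chainsIn Z 2, bd E 1 z ∈ G1 → ∃ y ∈ chainsIn Z 3, z - bd E 2 y ∈ G2)
    (ac3 : ∀ z ∈ chainsIn Z 3, bd E 2 z ∈ G2 → ∃ y ∈ chainsIn Z 4, z - bd E 3 y ∈ G3) :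
    ∃ κ : Chains E 2 →+ Chains E 3,
      (∀ g c, κ (chainAct D g 2 c) = chainAct D g 3 (κ c)) ∧
      ∀ τ ∈ chainsIn Z 3, ∃ ξ ∈ chainsIn Z 4, τ - κ (bd E 2 τ) - bd E 3 ξ ∈ G3 := by
  obtain ⟨h0, e0, z0, E0⟩ := kappa_zero hfree hZ G0 hG0 ac0
  obtain ⟨h1, e1, z1, E1⟩ := kappa_step hfree hZ 0 G0 G1 hG1 ac1 h0 e0 z0
    (fun x hx => E0 _ (bd_mem_chainsIn hx))
  obtain ⟨h2, e2, z2, E2⟩ := kappa_step hfree hZ 1 G1 G2 hG2 ac2 h1 e1 z1
    (fun x hx => by
      have := E1 _ (bd_mem_chainsIn hx)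
      rwa [bd_bd, map_zero, sub_zero] at this)
  refine ⟨h2, e2, fun τ hτ => ?_⟩
  refine ac3 (τ - h2 (bd E 2 τ)) (AddSubgroup.sub_mem _ hτ (z2 _ (bd_mem_chainsIn hτ))) ?_
  have := E2 _ (bd_mem_chainsIn hτ)
  rw [bd_bd, map_zero, sub_zero] at this
  rwa [map_sub]

/-! ### `HasKappa` -/

/-- There is an equivariant `κ : S_2 → S_3` with `τ - κ ∂ τ ∈ ∂ (chains in Z) + (chains in A)` for
all 3-chains `τ` carried by `Z`. -/
def HasKappa (D : Subgroup (E ≃ₜ E)) (Z A : Set E) : Prop :=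
  ∃ κ : Chains E 2 →+ Chains E 3,
    (∀ g c, κ (chainAct D g 2 c) = chainAct D g 3 (κ c)) ∧
    ∀ τ ∈ chainsIn Z 3, ∃ ξ ∈ chainsIn Z 4, τ - κ (bd E 2 τ) - bd E 3 ξ ∈ chainsIn A 3

/-- The error subgroup in the degree of the cells. -/
def cellSpan (A : Set E) {d : ℕ} {J : Type} (c : J → Chains E d) : AddSubgroup (Chains E d) :=
  chainsIn A d ⊔ (chainComb c).range

theorem mem_cellSpan {A : Set E} {d : ℕ} {J : Type} {c : J → Chains E d} {x : Chains E d} :
    x ∈ cellSpan A c ↔ ∃ a ∈ chainsIn A d, ∃ m : J →₀ ℤ, a + chainComb c m = x := by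
  unfold cellSpan
  rw [AddSubgroup.mem_sup]
  constructor
  · rintro ⟨a, ha, _, ⟨m, rfl⟩, h⟩
    exact ⟨a, ha, m, h⟩
  · rintro ⟨a, ha, m, h⟩
    exact ⟨a, ha, _, ⟨m, rfl⟩, h⟩

theorem cellSpan_stable {A : Set E} (hA : InvariantSet D A) {d : ℕ} {J : Type}
    {c : J → Chains E d} (hc : ∀ (g : D) j, ∃ j', chainAct D g d (c j) = c j') (g : D)
    (x : Chains E d) (hx : x ∈ cellSpan A c) : chainAct D g d x ∈ cellSpan A c := by
  obtain ⟨a, ha, m, rfl⟩ := mem_cellSpan.1 hx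
  rw [map_add]
  refine AddSubgroup.add_mem _ (AddSubgroup.mem_sup_left (hA.chainAct_mem g ha)) ?_
  refine AddSubgroup.mem_sup_right ?_
  clear hx
  induction m using Finsupp.induction_linear with
  | zero => simp only [map_zero]; exact AddSubgroup.zero_mem _
  | add f k hf hk => rw [map_add, map_add]; exact AddSubgroup.add_mem _ hf hk
  | single j k =>
    obtain ⟨j', hj'⟩ := hc g j
    rw [chainComb_single, map_zsmul, hj']
    exact ⟨Finsupp.single j' k, chainComb_single c j' k⟩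

/-- `AC` in a degree where the relative homology vanishes (degree `0`). -/
theorem ac_zero_of_relVanish {Z A : Set E} (h : RelVanish Z A 0) :
    ∀ z ∈ chainsIn Z 0, ∃ y ∈ chainsIn Z 1, z - bd E 0 y ∈ chainsIn A 0 := by
  intro z hz
  obtain ⟨y, hy, a, ha, rfl⟩ := h z hz
  exact ⟨y, hy, by simpa using ha⟩

/-- `AC` in a degree where the relative homology vanishes. -/
theorem ac_succ_of_relVanish {Z A : Set E} {n : ℕ} (h : RelVanish Z A (n + 1)) :
    ∀ z ∈ chainsIn Z (n + 1), bd E n z ∈ chainsIn A n →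
      ∃ y ∈ chainsIn Z (n + 2), z - bd E (n + 1) y ∈ chainsIn A (n + 1) := by
  intro z hz hz'
  obtain ⟨y, hy, a, ha, rfl⟩ := h z ⟨hz, hz'⟩
  exact ⟨y, hy, by simpa using ha⟩

/-- `AC` in the degree of the cells (degree `0`). -/
theorem ac_zero_of_relCells {Z A : Set E} {J : Type} {c : J → Chains E 0}
    (h : RelCells Z A 0 c) :
    ∀ z ∈ chainsIn Z 0, ∃ y ∈ chainsIn Z 1, z - bd E 0 y ∈ cellSpan A c := by
  intro z hz
  obtain ⟨m, y, hy, a, ha, h1⟩ := h.span z hz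
  refine ⟨y, hy, mem_cellSpan.2 ⟨a, ha, m, ?_⟩⟩
  rw [sub_eq_iff_eq_add] at h1
  rw [h1]
  abel

/-- `AC` in the degree of the cells. -/
theorem ac_succ_of_relCells {Z A : Set E} {n : ℕ} {J : Type} {c : J → Chains E (n + 1)}
    (h : RelCells Z A (n + 1) c) :
    ∀ z ∈ chainsIn Z (n + 1), bd E n z ∈ chainsIn A n →
      ∃ y ∈ chainsIn Z (n + 2), z - bd E (n + 1) y ∈ cellSpan A c := by
  intro z hz hz'
  obtain ⟨m, y, hy, a, ha, h1⟩ := h.span z ⟨hz, hz'⟩
  refine ⟨y, hy, mem_cellSpan.2 ⟨a, ha, m, ?_⟩⟩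
  rw [sub_eq_iff_eq_add] at h1
  rw [h1]
  abel

/-- `AC` one degree above the cells. -/
theorem ac_above_of_relCells {Z A : Set E} {n : ℕ} {J : Type} {c : J → Chains E n}
    (h : RelCells Z A n c) :
    ∀ z ∈ chainsIn Z (n + 1), bd E n z ∈ cellSpan A c →
      ∃ y ∈ chainsIn Z (n + 2), z - bd E (n + 1) y ∈ chainsIn A (n + 1) := by
  intro z hz hz'
  obtain ⟨a, ha, m, h1⟩ := mem_cellSpan.1 hz'
  have hm : m = 0 := h.indep m ⟨z, hz, -a, AddSubgroup.neg_mem _ ha, by rw [← h1]; abel⟩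
  rw [hm, map_zero, add_zero] at h1
  exact ac_succ_of_relVanish (h.vanish (n + 1) (by omega)) z hz (h1 ▸ ha)

theorem hasKappa_of_relVanish (hfree : ∀ (g : D) (e : E), g.1 e = e → g = 1) {Z A : Set E}
    (hZ : InvariantSet D Z) (hA : InvariantSet D A) (h : ∀ n, n ≤ 3 → RelVanish Z A n) :
    HasKappa D Z A :=
  exists_kappa_of_ac hfree hZ _ _ _ _ (fun g _ hc => hA.chainAct_mem g hc)
    (fun g _ hc => hA.chainAct_mem g hc) (fun g _ hc => hA.chainAct_mem g hc)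
    (ac_zero_of_relVanish (h 0 (by omega))) (ac_succ_of_relVanish (h 1 (by omega)))
    (ac_succ_of_relVanish (h 2 (by omega))) (ac_succ_of_relVanish (h 3 (by omega)))

theorem hasKappa_of_relCells_zero (hfree : ∀ (g : D) (e : E), g.1 e = e → g = 1) {Z A : Set E}
    (hZ : InvariantSet D Z) (hA : InvariantSet D A) {J : Type} {c : J → Chains E 0}
    (hc : ∀ (g : D) j, ∃ j', chainAct D g 0 (c j) = c j') (h : RelCells Z A 0 c) :
    HasKappa D Z A :=
  exists_kappa_of_ac hfree hZ (cellSpan A c) _ _ _ (cellSpan_stable hA hc)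
    (fun g _ hc => hA.chainAct_mem g hc) (fun g _ hc => hA.chainAct_mem g hc)
    (ac_zero_of_relCells h) (ac_above_of_relCells h)
    (ac_succ_of_relVanish (h.vanish 2 (by omega))) (ac_succ_of_relVanish (h.vanish 3 (by omega)))

theorem hasKappa_of_relCells_one (hfree : ∀ (g : D) (e : E), g.1 e = e → g = 1) {Z A : Set E}
    (hZ : InvariantSet D Z) (hA : InvariantSet D A) {J : Type} {c : J → Chains E 1}
    (hc : ∀ (g : D) j, ∃ j', chainAct D g 1 (c j) = c j') (h : RelCells Z A 1 c) :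
    HasKappa D Z A :=
  exists_kappa_of_ac hfree hZ _ (cellSpan A c) _ _ (fun g _ hc => hA.chainAct_mem g hc)
    (cellSpan_stable hA hc) (fun g _ hc => hA.chainAct_mem g hc)
    (ac_zero_of_relVanish (h.vanish 0 (by omega))) (ac_succ_of_relCells h)
    (ac_above_of_relCells h) (ac_succ_of_relVanish (h.vanish 3 (by omega)))

theorem hasKappa_of_relCells_two (hfree : ∀ (g : D) (e : E), g.1 e = e → g = 1) {Z A : Set E}
    (hZ : InvariantSet D Z) (hA : InvariantSet D A) {J : Type} {c : J → Chains E 2}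
    (hc : ∀ (g : D) j, ∃ j', chainAct D g 2 (c j) = c j') (h : RelCells Z A 2 c) :
    HasKappa D Z A :=
  exists_kappa_of_ac hfree hZ _ _ (cellSpan A c) _ (fun g _ hc => hA.chainAct_mem g hc)
    (fun g _ hc => hA.chainAct_mem g hc) (cellSpan_stable hA hc)
    (ac_zero_of_relVanish (h.vanish 0 (by omega))) (ac_succ_of_relVanish (h.vanish 1 (by omega)))
    (ac_succ_of_relCells h) (ac_above_of_relCells h)

/-! ### Climbing the filtration: cohomology -/

/-- Every equivariant 3-cochain killing the boundaries of the chains carried by `Z` is, on the chains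
carried by `Z`, the coboundary of an equivariant 2-cochain. -/
def CobAt (D : Subgroup (E ≃ₜ E)) (Z : Set E) : Prop :=
  ∀ (M : Type) [AddCommGroup M] (actM : D → M →+ M) (φ : Chains E 3 →+ M),
    (∀ g c, φ (chainAct D g 3 c) = actM g (φ c)) →
    (∀ ξ ∈ chainsIn Z 4, φ (bd E 3 ξ) = 0) →
    ∃ ψ : Chains E 2 →+ M, (∀ g c, ψ (chainAct D g 2 c) = actM g (ψ c)) ∧
      ∀ τ ∈ chainsIn Z 3, ψ (bd E 2 τ) = φ τ

theorem cobAt_empty : CobAt D (∅ : Set E) := by
  intro M _ actM φ _ _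
  refine ⟨0, fun g c => by simp, fun τ hτ => ?_⟩
  rw [chainsIn_empty, AddSubgroup.mem_bot] at hτ
  simp [hτ]

theorem CobAt.step {Z A : Set E} (hAZ : A ⊆ Z) (hA : CobAt D A) (hκ : HasKappa D Z A) :
    CobAt D Z := by
  intro M _ actM φ hφ hφ'
  obtain ⟨ψ', hψ', hψ''⟩ := hA M actM φ hφ (fun ξ hξ => hφ' ξ (chainsIn_mono hAZ _ hξ))
  obtain ⟨κ, hκ1, hκ2⟩ := hκ
  refine ⟨ψ' + (φ - ψ'.comp (bd E 2)).comp κ, fun g c => ?_, fun τ hτ => ?_⟩
  · simp only [AddMonoidHom.add_apply, AddMonoidHom.comp_apply, AddMonoidHom.sub_apply, hκ1, hφ,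
      hψ', bd_chainAct, map_add, map_sub]
  · obtain ⟨ξ, hξ, ha⟩ := hκ2 τ hτ
    have h1 : φ (τ - κ (bd E 2 τ) - bd E 3 ξ) = ψ' (bd E 2 (τ - κ (bd E 2 τ) - bd E 3 ξ)) :=
      (hψ'' _ ha).symm
    simp only [map_sub, hφ' ξ hξ, bd_bd, sub_zero] at h1
    simp only [AddMonoidHom.add_apply, AddMonoidHom.comp_apply, AddMonoidHom.sub_apply]
    have h2 : φ (κ (bd E 2 τ)) - ψ' (bd E 2 (κ (bd E 2 τ))) = φ τ - ψ' (bd E 2 τ) := by
      have := h1
      rw [sub_eq_sub_iff_add_eq_add] at this ⊢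
      rw [add_comm, ← this, add_comm]
    rw [h2]
    abel

/-! ### Climbing the filtration: homology -/

/-- `H_{n+1}(Z) = 0`. -/
def CycBd (Z : Set E) (n : ℕ) : Prop :=
  ∀ z ∈ chainsIn Z (n + 1), bd E n z = 0 → ∃ y ∈ chainsIn Z (n + 2), bd E (n + 1) y = z

theorem cycBd_empty (n : ℕ) : CycBd (∅ : Set E) n := by
  intro z hz _
  rw [chainsIn_empty, AddSubgroup.mem_bot] at hz
  exact ⟨0, AddSubgroup.zero_mem _, by simp [hz]⟩

theorem CycBd.step {Z A : Set E} {n : ℕ} (hAZ : A ⊆ Z) (hA : CycBd A n)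
    (h : RelVanish Z A (n + 1)) : CycBd Z n := by
  intro z hz hz'
  obtain ⟨y, hy, a, ha, rfl⟩ := h z ⟨hz, by rw [hz']; exact AddSubgroup.zero_mem _⟩
  rw [map_add, bd_bd, zero_add] at hz'
  obtain ⟨y', hy', rfl⟩ := hA a ha hz'
  exact ⟨y + y', AddSubgroup.add_mem _ hy (chainsIn_mono hAZ _ hy'), by rw [map_add]⟩

/-! ### The `D(2)` clauses -/

variable {X : Type} [TopologicalSpace X]

/-- The two clauses of `SatisfiesD2` from `CobAt univ` and `CycBd univ n` (`n ≥ 2`). -/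
theorem d2_clauses_of_cobAt (U : UniversalCover X)
    (hcob : CobAt (deckGroup U.p) (Set.univ : Set U.E))
    (hcyc : ∀ n, 2 ≤ n → CycBd (Set.univ : Set U.E) n) :
    (∀ i : ℕ, 2 < i → Limits.IsZero (singularHomology i U.E)) ∧
    ∀ (e₀ : U.E) (M : Type) [AddCommGroup M]
      [Module (MonoidAlgebra ℤ (FundamentalGroup X (U.p e₀))) M],
      Subsingleton (localCohomology U e₀ M 3) := by
  constructor
  · intro i hi
    obtain ⟨n, rfl⟩ : ∃ n, i = n + 1 := ⟨i - 1, by omega⟩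
    rw [isZero_singularHomology_succ_iff]
    intro c hc
    obtain ⟨y, -, hy⟩ := hcyc n (by omega) c (mem_chainsIn_univ c) hc
    exact ⟨y, hy⟩
  · intro e₀ M _ _
    rw [subsingleton_localCohomology_succ_iff]
    intro φ hφ hφ'
    obtain ⟨ψ, hψ, hψ'⟩ := hcob M
      (fun g => DistribSMul.toAddMonoidHom M
        (MonoidAlgebra.of ℤ _ (deckToFundamentalGroup U e₀ g))) φ
      (fun g c => hφ g c) (fun ξ _ => hφ' ξ)
    exact ⟨ψ, fun g c => hψ g c, fun c => hψ' c (mem_chainsIn_univ c)⟩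

/-- **The `D(2)` clauses from an invariant filtration `∅ ⊆ Z0 ⊆ Z1 ⊆ Z2 ⊆ X̃`** whose relative homology
is free on cells of dimension `0`, `1`, `2` (permuted by the deck group), resp. zero. -/
theorem d2_clauses_of_filtration (U : UniversalCover X) {Z0 Z1 Z2 : Set U.E}
    (h01 : Z0 ⊆ Z1) (h12 : Z1 ⊆ Z2)
    (i0 : InvariantSet (deckGroup U.p) Z0) (i1 : InvariantSet (deckGroup U.p) Z1)
    (i2 : InvariantSet (deckGroup U.p) Z2)
    {J0 J1 J2 : Type} {c0 : J0 → Chains U.E 0} {c1 : J1 → Chains U.E 1} {c2 : J2 → Chains U.E 2}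
    (e0 : ∀ (g : deckGroup U.p) j, ∃ j', chainAct (deckGroup U.p) g 0 (c0 j) = c0 j')
    (e1 : ∀ (g : deckGroup U.p) j, ∃ j', chainAct (deckGroup U.p) g 1 (c1 j) = c1 j')
    (e2 : ∀ (g : deckGroup U.p) j, ∃ j', chainAct (deckGroup U.p) g 2 (c2 j) = c2 j')
    (r0 : RelCells Z0 ∅ 0 c0) (r1 : RelCells Z1 Z0 1 c1) (r2 : RelCells Z2 Z1 2 c2)
    (r3 : ∀ n, RelVanish (Set.univ : Set U.E) Z2 n) :
    (∀ i : ℕ, 2 < i → Limits.IsZero (singularHomology i U.E)) ∧
    ∀ (e₀ : U.E) (M : Type) [AddCommGroup M]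
      [Module (MonoidAlgebra ℤ (FundamentalGroup X (U.p e₀))) M],
      Subsingleton (localCohomology U e₀ M 3) := by
  refine d2_clauses_of_cobAt U ?_ ?_
  · have k0 := hasKappa_of_relCells_zero U.deck_free i0 invariantSet_empty e0 r0
    have k1 := hasKappa_of_relCells_one U.deck_free i1 i0 e1 r1
    have k2 := hasKappa_of_relCells_two U.deck_free i2 i1 e2 r2
    have k3 := hasKappa_of_relVanish U.deck_free invariantSet_univ i2 (fun n _ => r3 n)
    exact (((cobAt_empty.step (Set.empty_subset _) k0).step h01 k1).step h12 k2).step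
      (Set.subset_univ _) k3
  · intro n hn
    exact ((((cycBd_empty n).step (Set.empty_subset _) (r0.vanish _ (by omega))).step h01
      (r1.vanish _ (by omega))).step h12 (r2.vanish _ (by omega))).step (Set.subset_univ _) (r3 _)

end

end Claimed.Open.R321
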