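import Claimed.Open.R321.RelDefs

/-!
# R321, package PD-ALG: cancelling cells of adjacent dimensions

* `relVanish_of_cancel`: let `B ⊆ Y ⊆ Z`, let `H_*(Y, B)` be free on `d`-cells `c j`, let `H_*(Z, Y)` be free
  on `(d+1)`-cells `c' j` (same index set), and suppose that `∂ c' j = c j` in `H_d(Y, B)`.
  Then `H_*(Z, B) = 0`.
* `RelCells.sign`: the generators may be multiplied by signs; `relVanish_of_cancel_sign`.
-/

set_option autoImplicit false

namespace Claimed.Open.R321

noncomputable section

variable {E : Type} [TopologicalSpace E]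

theorem map_chainComb {J : Type} {d d' : ℕ} (f : Chains E d →+ Chains E d') (c : J → Chains E d)
    (m : J →₀ ℤ) : f (chainComb c m) = chainComb (fun j => f (c j)) m := by
  induction m using Finsupp.induction_linear with
  | zero => simp
  | add a b ha hb => rw [map_add, map_add, map_add, ha, hb]
  | single j k => rw [chainComb_single, chainComb_single, map_zsmul]

theorem chainComb_sub {J : Type} {d : ℕ} (a b : J → Chains E d) (m : J →₀ ℤ) :
    chainComb (fun j => a j - b j) m = chainComb a m - chainComb b m := by
  induction m using Finsupp.induction_linear with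
  | zero => simp
  | add x y hx hy => rw [map_add, map_add, map_add, hx, hy]; abel
  | single j k => rw [chainComb_single, chainComb_single, chainComb_single, zsmul_sub]

theorem chainComb_mem {J : Type} {d : ℕ} {c : J → Chains E d} {S : AddSubgroup (Chains E d)}
    (h : ∀ j, c j ∈ S) (m : J →₀ ℤ) : chainComb c m ∈ S := by
  induction m using Finsupp.induction_linear with
  | zero => rw [map_zero]; exact AddSubgroup.zero_mem _
  | add x y hx hy => rw [map_add]; exact AddSubgroup.add_mem _ hx hy
  | single j k => rw [chainComb_single]; exact AddSubgroup.zsmul_mem _ (h j) k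

/-- If `z = ∂ y + a` is a relative cycle of `(Z, B)` then `a` (carried by `Y`) is a relative cycle of
`(Y, B)`. -/
theorem isRelCycle_of_add {Z Y B : Set E} {n : ℕ} {y : Chains E (n + 1)} {a : Chains E n}
    (ha : a ∈ chainsIn Y n) (hz : IsRelCycle Z B n (bd E n y + a)) : IsRelCycle Y B n a := by
  cases n with
  | zero => exact ha
  | succ n =>
    refine ⟨ha, ?_⟩
    have := hz.2
    rwa [map_add, bd_bd, zero_add] at this

/-- **Cancellation of cells of adjacent dimensions.** -/
theorem relVanish_of_cancel {Z Y B : Set E} (hBY : B ⊆ Y) (hYZ : Y ⊆ Z) {d : ℕ} {J : Type}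
    {c : J → Chains E d} {c' : J → Chains E (d + 1)}
    (rY : RelCells Y B d c) (rZ : RelCells Z Y (d + 1) c')
    (hb : ∀ j, IsRelBoundary Y B d (bd E d (c' j) - c j)) (n : ℕ) : RelVanish Z B n := by
  intro z hz
  have hzY : IsRelCycle Z Y n z := hz.mono subset_rfl hBY
  -- `chainComb c m` is, up to a relative boundary of `(Y, B)`, the boundary of `chainComb c' m`
  have key : ∀ m : J →₀ ℤ,
      IsRelBoundary Y B d (bd E d (chainComb c' m) - chainComb c m) := by
    intro m
    rw [map_chainComb, ← chainComb_sub]
    exact isRelBoundary_chainComb hb m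
  by_cases hn : n = d + 1
  · subst hn
    obtain ⟨m, y, hy, a, ha, h1⟩ := rZ.span z hzY
    have hm : m = 0 := by
      apply rY.indep
      have h2 : bd E d (chainComb c' m) = bd E d z - bd E d a := by
        have := congrArg (bd E d) h1
        rw [map_sub, map_add, bd_bd, zero_add] at this
        rw [← this]
        abel
      have h3 : chainComb c m =
          bd E d z - bd E d a - (bd E d (chainComb c' m) - chainComb c m) := by
        rw [h2]
        abel
      rw [h3]
      exact ((isRelBoundary_of_mem hz.2).sub (isRelBoundary_bd ha)).sub (key m)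
    rw [hm, map_zero, sub_zero] at h1
    subst h1
    obtain ⟨y', hy', b, hb', rfl⟩ := rY.vanish (d + 1) (by omega) a (isRelCycle_of_add ha hz)
    exact ⟨y + y', AddSubgroup.add_mem _ hy (chainsIn_mono hYZ _ hy'), b, hb', by
      rw [map_add]; abel⟩
  · obtain ⟨y, hy, a, ha, rfl⟩ := rZ.vanish n hn z hzY
    have haY : IsRelCycle Y B n a := isRelCycle_of_add ha hz
    refine (isRelBoundary_bd hy).add ?_
    by_cases hd : n = d
    · subst hd
      obtain ⟨m, h1⟩ := rY.span a haY
      have h2 : a = (a - chainComb c m) + bd E n (chainComb c' m) -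
          (bd E n (chainComb c' m) - chainComb c m) := by abel
      rw [h2]
      refine ((h1.mono hYZ subset_rfl).add (isRelBoundary_bd ?_)).sub
        ((key m).mono hYZ subset_rfl)
      exact chainComb_mem (fun j => (rZ.isRelCycle j).mem) m
    · exact (rY.vanish n hd a haY).mono hYZ subset_rfl

/-! ### Signs -/

/-- Multiplying the coefficients by signs. -/
def signTwist {J : Type} (ε : J → ℤˣ) : (J →₀ ℤ) →+ (J →₀ ℤ) :=
  Finsupp.liftAddHom fun j => (Finsupp.singleAddHom j).comp (AddMonoidHom.mulLeft (ε j : ℤ))

@[simp] theorem signTwist_single {J : Type} (ε : J → ℤˣ) (j : J) (k : ℤ) :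
    signTwist ε (Finsupp.single j k) = Finsupp.single j ((ε j : ℤ) * k) := by
  simp [signTwist]

theorem signTwist_signTwist {J : Type} (ε : J → ℤˣ) (m : J →₀ ℤ) :
    signTwist ε (signTwist ε m) = m := by
  induction m using Finsupp.induction_linear with
  | zero => simp
  | add x y hx hy => rw [map_add, map_add, hx, hy]
  | single j k =>
    rw [signTwist_single, signTwist_single, ← mul_assoc]
    have : ((ε j : ℤ) * (ε j : ℤ)) = 1 := by
      rw [← Units.val_mul, Int.units_mul_self, Units.val_one]
    rw [this, one_mul]

theorem chainComb_sign {J : Type} {d : ℕ} (ε : J → ℤˣ) (c : J → Chains E d) (m : J →₀ ℤ) :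
    chainComb (fun j => (ε j : ℤ) • c j) m = chainComb c (signTwist ε m) := by
  induction m using Finsupp.induction_linear with
  | zero => simp
  | add x y hx hy => rw [map_add, map_add, map_add, hx, hy]
  | single j k =>
    rw [signTwist_single, chainComb_single, chainComb_single, smul_smul, mul_comm]

/-- The generators of `RelCells` may be multiplied by signs. -/
theorem RelCells.sign {Z A : Set E} {d : ℕ} {J : Type} {c : J → Chains E d}
    (h : RelCells Z A d c) (ε : J → ℤˣ) : RelCells Z A d (fun j => (ε j : ℤ) • c j) where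
  isRelCycle j := (h.isRelCycle j).zsmul _
  vanish := h.vanish
  span z hz := by
    obtain ⟨m, hm⟩ := h.span z hz
    refine ⟨signTwist ε m, ?_⟩
    rwa [chainComb_sign, signTwist_signTwist]
  indep m hm := by
    rw [chainComb_sign] at hm
    have := h.indep _ hm
    rw [← signTwist_signTwist ε m, this, map_zero]

/-- **Cancellation of cells of adjacent dimensions, up to signs.** -/
theorem relVanish_of_cancel_sign {Z Y B : Set E} (hBY : B ⊆ Y) (hYZ : Y ⊆ Z) {d : ℕ} {J : Type}
    {c : J → Chains E d} {c' : J → Chains E (d + 1)}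
    (rY : RelCells Y B d c) (rZ : RelCells Z Y (d + 1) c') (ε : J → ℤˣ)
    (hb : ∀ j, IsRelBoundary Y B d (bd E d (c' j) - (ε j : ℤ) • c j)) (n : ℕ) : RelVanish Z B n :=
  relVanish_of_cancel hBY hYZ (rY.sign ε) rZ hb n

end

end Claimed.Open.R321
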