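import Claimed.Open.R321.SanityCube
import Claimed.Open.R321.SanityContractible

/-!
# Sanity check for R321: all positive conditions of `Statement` can be met simultaneously

The solid cube `[-1,1]^3` is a finite connected three-dimensional CW complex which satisfies the
`D(2)` condition.  It is contractible, hence homotopy equivalent to a point, so it does *not*
satisfy the last clause of `Statement`: that clause is a genuine restriction.
-/

set_option autoImplicit false

namespace Claimed.Open.R321

open Topology

/-- A product of contractible spaces is contractible. -/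
theorem contractibleSpace_pi {ι : Type} (Y : ι → Type) [∀ i, TopologicalSpace (Y i)]
    [∀ i, ContractibleSpace (Y i)] : ContractibleSpace (∀ i, Y i) := by
  rw [contractible_iff_id_nullhomotopic]
  choose y hy using fun i => id_nullhomotopic (Y i)
  refine ⟨y, ?_⟩
  have h : ∀ i, Nonempty (((ContinuousMap.id (Y i)).comp
      (ContinuousMap.eval i : C(∀ i, Y i, Y i))).Homotopy
      ((ContinuousMap.const (Y i) (y i)).comp (ContinuousMap.eval i))) :=
    fun i => (hy i).comp (ContinuousMap.Homotopic.refl _)
  exact ⟨ContinuousMap.Homotopy.pi fun i => (h i).some⟩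

instance instContractibleSpaceIcc : ContractibleSpace (Set.Icc (-1 : ℝ) 1) :=
  (convex_Icc (-1 : ℝ) 1).contractibleSpace ⟨0, by simp⟩

instance instContractibleSpaceCube (N : ℕ) : ContractibleSpace (Cube N) :=
  contractibleSpace_pi _

theorem IsFiniteCWComplexOfDimLE.mono {X : Type} [TopologicalSpace X] {n m : ℕ}
    (h : IsFiniteCWComplexOfDimLE X n) (hnm : n ≤ m) : IsFiniteCWComplexOfDimLE X m := by
  obtain ⟨h1, h2, h3, h4⟩ := h
  exact ⟨h1, h2, h3, fun k hk => h4 k (by omega)⟩

/-- The solid cube satisfies all the positive conditions which `Statement` puts on `X`. -/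
theorem cube_positive_conditions :
    IsFiniteCWComplexOfDimEq (Cube 3) 3 ∧ ConnectedSpace (Cube 3) ∧ SatisfiesD2 (Cube 3) :=
  ⟨isFiniteCWComplexOfDimEq_cube 3, inferInstance, satisfiesD2_of_contractible _⟩

/-- The positive conditions of `Statement` are simultaneously meetable. -/
theorem positive_conditions_meetable :
    ∃ (X : Type) (_ : TopologicalSpace X),
      IsFiniteCWComplexOfDimEq X 3 ∧ ConnectedSpace X ∧ SatisfiesD2 X :=
  ⟨Cube 3, inferInstance, cube_positive_conditions⟩

/-- ... but the solid cube is homotopy equivalent to a finite CW complex of dimension `≤ 2`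
(a point), so the last clause of `Statement` is not automatic. -/
theorem cube_homotopyEquiv_dimLE_two :
    ∃ (Y : Type) (_ : TopologicalSpace Y),
      IsFiniteCWComplexOfDimLE Y 2 ∧ Nonempty (ContinuousMap.HomotopyEquiv (Cube 3) Y) :=
  ⟨Cube 0, inferInstance, (isFiniteCWComplexOfDimLE_cube 0).mono (by omega),
    ContractibleSpace.hequiv _ _⟩

/-- The one-point space satisfies `D(2)` and is a finite CW complex of dimension `0`. -/
theorem punit_example : IsFiniteCWComplexOfDimEq (Cube 0) 0 ∧ SatisfiesD2 (Cube 0) :=
  ⟨isFiniteCWComplexOfDimEq_cube 0, satisfiesD2_of_contractible _⟩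

/-- Euclidean space satisfies `D(2)`. -/
theorem euclidean_satisfiesD2 (N : ℕ) : SatisfiesD2 (Fin N → ℝ) :=
  satisfiesD2_of_contractible _

end Claimed.Open.R321
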