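import Claimed.Open.R321.Statement

/-!
# Sanity check for result 321: the Hausdorff clause (deviation 7 of `CLAIM.md`)

Mathlib's class `Topology.CWComplex` does not include Hausdorffness, so `IsFiniteCWComplexOfDimLE` and
`IsFiniteCWComplexOfDimEq` ask for `T2Space X` explicitly.  This file checks that the clause is not automatic:

* `twoIndiscreteCW`, `finite_twoIndiscreteCW`, `isEmpty_cell_twoIndiscreteCW`: the two point space with the
  indiscrete topology carries a CW structure in the sense of Mathlib's class, with two `0`-cells and no other cell;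
* `not_t2Space_twoIndiscrete`: it is not Hausdorff;
* `t2_clause_is_a_restriction`: so all clauses of `IsFiniteCWComplexOfDimLE X 0` except `T2Space X` hold for it, and
  `not_isFiniteCWComplexOfDimLE_twoIndiscrete`: the predicate of `Statement.lean` rejects it in every dimension.
-/

set_option autoImplicit false

namespace Claimed.Open.R321

open Topology Metric Set

noncomputable section

/-- Two points. -/
def TwoIndiscrete : Type := Bool

/-- The indiscrete topology on two points. -/
instance instTopologicalSpaceTwoIndiscrete : TopologicalSpace TwoIndiscrete := ⊤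

instance instFiniteTwoIndiscrete : Finite TwoIndiscrete := inferInstanceAs (Finite Bool)

/-- The two point indiscrete space is not Hausdorff. -/
theorem not_t2Space_twoIndiscrete : ¬ T2Space TwoIndiscrete := by
  intro h
  have hne : (true : TwoIndiscrete) ≠ (false : TwoIndiscrete) := Bool.true_eq_false_eq_False
  obtain ⟨u, v, hu, hv, hxu, hyv, huv⟩ := h.t2 hne
  rcases (TopologicalSpace.isOpen_top_iff u).mp hu with rfl | rfl
  · exact hxu
  · rcases (TopologicalSpace.isOpen_top_iff v).mp hv with rfl | rfl
    · exact hyv
    · exact Set.disjoint_left.mp huv (mem_univ (true : TwoIndiscrete)) (mem_univ _)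

/-- The cells: two in dimension `0`, none in the other dimensions. -/
def twoIndiscreteCell : ℕ → Type
  | 0 => TwoIndiscrete
  | _ + 1 => PEmpty

/-- The characteristic maps: the two points. -/
def twoIndiscreteMap : (n : ℕ) → twoIndiscreteCell n → PartialEquiv (Fin n → ℝ) TwoIndiscrete
  | 0, i => PartialEquiv.single ![] i
  | _ + 1, i => i.elim

/-- A CW structure, in the sense of Mathlib's class, on the two point indiscrete space. -/
abbrev twoIndiscreteCW : CWComplex (univ : Set TwoIndiscrete) where
  cell := twoIndiscreteCell
  map := twoIndiscreteMap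
  source_eq n i := match n with
    | 0 => by
      ext x
      have hx : x = ![] := Subsingleton.elim _ _
      have h1 : (twoIndiscreteMap 0 i).source = {![]} := PartialEquiv.single_source _ _
      rw [h1, hx]
      simp
    | (_ + 1) => i.elim
  continuousOn n i := match n with
    | 0 => continuousOn_const
    | (_ + 1) => i.elim
  continuousOn_symm n i := match n with
    | 0 => continuousOn_const
    | (_ + 1) => i.elim
  pairwiseDisjoint' := by
    simp_rw [PairwiseDisjoint, Set.Pairwise, Function.onFun]
    rintro ⟨_|n, j⟩ _ ⟨_|m, i⟩ _ ne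
    · have hji : j ≠ i := fun h => ne (by rw [h])
      simp only [twoIndiscreteMap]
      rw [Set.disjoint_left]
      rintro x ⟨_, _, rfl⟩ ⟨_, _, h⟩
      exact hji h.symm
    · exact i.elim
    · exact j.elim
    · exact i.elim
  mapsTo' n i := match n with
    | 0 => by simp [Matrix.zero_empty, sphere_eq_empty_of_subsingleton]
    | (_ + 1) => i.elim
  closed' A _ hA := by
    have h0 : ∀ b : TwoIndiscrete, b ∉ A := by
      intro b hb
      have h1 : IsClosed (A ∩ twoIndiscreteMap 0 b '' closedBall 0 1) := hA 0 b
      have h2 : A ∩ twoIndiscreteMap 0 b '' closedBall 0 1 = {b} := by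
        ext x
        constructor
        · rintro ⟨_, _, _, rfl⟩
          rfl
        · rintro rfl
          exact ⟨hb, 0, by simp, rfl⟩
      rw [h2, ← isOpen_compl_iff, TopologicalSpace.isOpen_top_iff] at h1
      rcases h1 with h1 | h1
      · have h3 : (!(b : Bool) : TwoIndiscrete) ∈ ({b}ᶜ : Set TwoIndiscrete) := by
          intro h4
          exact absurd (show (!(b : Bool)) = b from h4) (by cases (b : Bool) <;> decide)
        rw [h1] at h3
        exact h3
      · have h3 : b ∈ ({b}ᶜ : Set TwoIndiscrete) := by rw [h1]; exact mem_univ _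
        exact h3 rfl
    have h1 : A = ∅ := eq_empty_iff_forall_notMem.mpr h0
    rw [h1]
    exact isClosed_empty
  union' := by
    apply eq_univ_of_forall
    intro x
    simp only [mem_iUnion]
    exact ⟨0, x, 0, by simp, rfl⟩

/-- The CW structure has finitely many cells. -/
theorem finite_twoIndiscreteCW :
    letI := twoIndiscreteCW
    CWComplex.Finite (univ : Set TwoIndiscrete) := by
  let _ := twoIndiscreteCW
  refine RelCWComplex.finite_iff_finite_cells.mpr ?_
  have hinj : Function.Injective
      (fun x : (Σ n, twoIndiscreteCell n) => match x with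
        | ⟨0, i⟩ => (i : TwoIndiscrete)
        | ⟨_ + 1, i⟩ => i.elim) := by
    rintro ⟨_ | n, i⟩ ⟨_ | m, j⟩ hij
    · exact congrArg (Sigma.mk 0) hij
    · exact j.elim
    · exact i.elim
    · exact i.elim
  have _ : Finite (twoIndiscreteCell 0) := instFiniteTwoIndiscrete
  exact Finite.of_injective _ hinj

/-- The CW structure has no cell of positive dimension. -/
theorem isEmpty_cell_twoIndiscreteCW (m : ℕ) (hm : 0 < m) :
    letI := twoIndiscreteCW
    IsEmpty (RelCWComplex.cell (univ : Set TwoIndiscrete) m) := by
  obtain ⟨k, rfl⟩ := Nat.exists_eq_succ_of_ne_zero hm.ne'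
  exact inferInstanceAs (IsEmpty PEmpty)

/-- All clauses of `IsFiniteCWComplexOfDimLE X 0` except `T2Space X` hold for the two point indiscrete space, and
`T2Space X` fails: the Hausdorff clause of `Statement.lean` is a restriction. -/
theorem t2_clause_is_a_restriction :
    ∃ (X : Type) (_ : TopologicalSpace X),
      (∃ _ : CWComplex (univ : Set X), CWComplex.Finite (univ : Set X) ∧
        ∀ m : ℕ, 0 < m → IsEmpty (RelCWComplex.cell (univ : Set X) m)) ∧ ¬ T2Space X :=
  ⟨TwoIndiscrete, instTopologicalSpaceTwoIndiscrete,
    ⟨twoIndiscreteCW, finite_twoIndiscreteCW, isEmpty_cell_twoIndiscreteCW⟩,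
    not_t2Space_twoIndiscrete⟩

/-- The predicates of `Statement.lean` reject the two point indiscrete space. -/
theorem not_isFiniteCWComplexOfDimLE_twoIndiscrete (n : ℕ) :
    ¬ IsFiniteCWComplexOfDimLE TwoIndiscrete n :=
  fun h => not_t2Space_twoIndiscrete h.1

theorem not_isFiniteCWComplexOfDimEq_twoIndiscrete (n : ℕ) :
    ¬ IsFiniteCWComplexOfDimEq TwoIndiscrete n :=
  fun h => not_t2Space_twoIndiscrete h.1

end

end Claimed.Open.R321
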