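import Claimed.Open.R321.Statement

/-!
# Sanity check for result 321: cubes versus round balls (deviation 11 of `CLAIM.md`)

Mathlib's `Topology.CWComplex` models the `n`-cells on the unit ball of `Fin n → ℝ` for the MAXIMUM norm,
that is on the cube `[-1,1]^n`; the paper (and Whitehead, Hatcher) use the round ball `D^n`.  `CLAIM.md` says that
the two are homeomorphic as pairs (ball, sphere), so that the class of CW complexes is the same.
This file proves both sentences.

* `radialHomeomorph e`: for a continuous linear equivalence `e : E ≃L[ℝ] F` of real normed spaces, the radial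
  rescaling `x ↦ (‖x‖ / ‖e x‖) • e x` is a homeomorphism `E ≃ₜ F` which preserves the norm
  (`norm_radialHomeomorph`).
* `cubeRound n : (Fin n → ℝ) ≃ₜ EuclideanSpace ℝ (Fin n)`, `norm_cubeRound`, and
  `cubeRound_image_closedBall`, `cubeRound_image_ball`, `cubeRound_image_sphere`: the cube, its interior and its
  boundary are carried onto the round closed ball, the round open ball and the round sphere (of every radius).
* `ModelCW V C`: the fields of Mathlib's `CWComplex C`, word for word, with the cells modelled on the unit
  balls of an arbitrary sequence `V n` of normed groups; `ModelCW.toCWComplex`, `ModelCW.ofCWComplex`: for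
  `V n = (Fin n → ℝ)` this IS Mathlib's structure; `ModelCW.transport`: a change of model along norm preserving
  homeomorphisms, with the same cells, the same open cells, closed cells and cell frontiers.
* `isFiniteCWComplexOfDimLE_iff_round`, `isFiniteCWComplexOfDimEq_iff_round`: the two predicates of `Statement.lean`
  hold for `X` if and only if `X` is Hausdorff and has a CW structure with ROUND cells (`RoundCW`), finitely many of them,
  none of dimension `> n` (and at least one of dimension `n`).
* `statement_iff_round`: hence `Statement` is equivalent to the same sentence about CW complexes with round cells.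
-/

set_option autoImplicit false

namespace Claimed.Open.R321

open Topology Metric Set

noncomputable section

/-! ### The radial homeomorphism between two normed spaces -/

section Radial

variable {E F : Type*} [NormedAddCommGroup E] [NormedSpace ℝ E]
  [NormedAddCommGroup F] [NormedSpace ℝ F]

/-- The radial rescaling of a continuous linear equivalence: `x ↦ (‖x‖ / ‖e x‖) • e x`. -/
def radialMap (e : E ≃L[ℝ] F) (x : E) : F := (‖x‖ / ‖e x‖) • e x

theorem radialMap_zero (e : E ≃L[ℝ] F) : radialMap e 0 = 0 := by simp [radialMap]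

/-- The radial rescaling preserves the norm. -/
theorem norm_radialMap (e : E ≃L[ℝ] F) (x : E) : ‖radialMap e x‖ = ‖x‖ := by
  by_cases hx : x = 0
  · simp [hx, radialMap_zero]
  · have h : ‖e x‖ ≠ 0 := by simpa using hx
    rw [radialMap, norm_smul, norm_div, norm_norm, norm_norm, div_mul_cancel₀ _ h]

theorem continuous_radialMap (e : E ≃L[ℝ] F) : Continuous (radialMap e) := by
  rw [continuous_iff_continuousAt]
  intro x
  by_cases hx : x = 0
  · subst hx
    rw [ContinuousAt, radialMap_zero, tendsto_zero_iff_norm_tendsto_zero]
    simp_rw [norm_radialMap]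
    exact tendsto_norm_zero
  · have h : ‖e x‖ ≠ 0 := by simpa using hx
    exact ((continuous_norm.continuousAt).div (e.continuous.norm.continuousAt) h).smul
      e.continuous.continuousAt

theorem radialMap_symm_radialMap (e : E ≃L[ℝ] F) (x : E) :
    radialMap e.symm (radialMap e x) = x := by
  by_cases hx : x = 0
  · simp [hx, radialMap_zero]
  · have h : ‖e x‖ ≠ 0 := by simpa using hx
    have h' : ‖x‖ ≠ 0 := by simpa using hx
    have hn := norm_radialMap e x
    have h1 : e.symm (radialMap e x) = (‖x‖ / ‖e x‖) • x := by simp [radialMap]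
    have h2 : radialMap e.symm (radialMap e x) =
        (‖radialMap e x‖ / ‖e.symm (radialMap e x)‖) • e.symm (radialMap e x) := rfl
    rw [h2, hn, h1, norm_smul, norm_div, norm_norm, norm_norm, smul_smul]
    have h3 : ‖x‖ / (‖x‖ / ‖e x‖ * ‖x‖) * (‖x‖ / ‖e x‖) = 1 := by field_simp
    rw [h3, one_smul]

/-- The radial rescaling of a continuous linear equivalence is a homeomorphism. -/
def radialHomeomorph (e : E ≃L[ℝ] F) : E ≃ₜ F where
  toFun := radialMap e
  invFun := radialMap e.symm
  left_inv := radialMap_symm_radialMap e
  right_inv := fun y => by simpa using radialMap_symm_radialMap e.symm y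
  continuous_toFun := continuous_radialMap e
  continuous_invFun := continuous_radialMap e.symm

theorem norm_radialHomeomorph (e : E ≃L[ℝ] F) (x : E) : ‖radialHomeomorph e x‖ = ‖x‖ :=
  norm_radialMap e x

end Radial

/-! ### Norm preserving homeomorphisms carry balls to balls and spheres to spheres -/

section Images

variable {E F : Type*} [NormedAddCommGroup E] [NormedAddCommGroup F]

theorem norm_symm_of_norm_eq (h : E ≃ₜ F) (hn : ∀ x, ‖h x‖ = ‖x‖) (y : F) : ‖h.symm y‖ = ‖y‖ := by
  rw [← hn (h.symm y), h.apply_symm_apply]

theorem image_closedBall_of_norm_eq (h : E ≃ₜ F) (hn : ∀ x, ‖h x‖ = ‖x‖) (r : ℝ) :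
    h '' closedBall 0 r = closedBall 0 r := by
  ext y
  constructor
  · rintro ⟨x, hx, rfl⟩
    simpa [hn] using hx
  · intro hy
    exact ⟨h.symm y, by simpa [norm_symm_of_norm_eq h hn] using hy, h.apply_symm_apply y⟩

theorem image_ball_of_norm_eq (h : E ≃ₜ F) (hn : ∀ x, ‖h x‖ = ‖x‖) (r : ℝ) :
    h '' ball 0 r = ball 0 r := by
  ext y
  constructor
  · rintro ⟨x, hx, rfl⟩
    simpa [hn] using hx
  · intro hy
    exact ⟨h.symm y, by simpa [norm_symm_of_norm_eq h hn] using hy, h.apply_symm_apply y⟩

theorem image_sphere_of_norm_eq (h : E ≃ₜ F) (hn : ∀ x, ‖h x‖ = ‖x‖) (r : ℝ) :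
    h '' sphere 0 r = sphere 0 r := by
  ext y
  constructor
  · rintro ⟨x, hx, rfl⟩
    simpa [hn] using hx
  · intro hy
    exact ⟨h.symm y, by simpa [norm_symm_of_norm_eq h hn] using hy, h.apply_symm_apply y⟩

end Images

/-! ### The cube and the round ball -/

/-- The norm preserving homeomorphism from `ℝⁿ` with the maximum norm to `ℝⁿ` with the Euclidean norm. -/
def cubeRound (n : ℕ) : (Fin n → ℝ) ≃ₜ EuclideanSpace ℝ (Fin n) :=
  radialHomeomorph (EuclideanSpace.equiv (Fin n) ℝ).symm

theorem norm_cubeRound (n : ℕ) (x : Fin n → ℝ) : ‖cubeRound n x‖ = ‖x‖ :=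
  norm_radialHomeomorph _ x

/-- The cube `[-r,r]^n` is carried onto the round closed ball of radius `r`. -/
theorem cubeRound_image_closedBall (n : ℕ) (r : ℝ) :
    cubeRound n '' closedBall 0 r = closedBall 0 r :=
  image_closedBall_of_norm_eq _ (norm_cubeRound n) r

/-- The interior of the cube is carried onto the round open ball. -/
theorem cubeRound_image_ball (n : ℕ) (r : ℝ) : cubeRound n '' ball 0 r = ball 0 r :=
  image_ball_of_norm_eq _ (norm_cubeRound n) r

/-- The boundary of the cube is carried onto the round sphere. -/
theorem cubeRound_image_sphere (n : ℕ) (r : ℝ) : cubeRound n '' sphere 0 r = sphere 0 r :=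
  image_sphere_of_norm_eq _ (norm_cubeRound n) r

/-- The norm of the target of `cubeRound` is the Euclidean one. -/
theorem norm_cubeRound_eq_sqrt (n : ℕ) (x : Fin n → ℝ) :
    ‖x‖ = Real.sqrt (∑ i, (cubeRound n x i) ^ 2) := by
  rw [← norm_cubeRound, EuclideanSpace.norm_eq]
  simp

/-! ### CW structures with cells modelled on other unit balls -/

/-- The fields of Mathlib's `Topology.CWComplex C`, word for word, except that the `n`-cells are modelled on the
unit ball of `V n` instead of the unit ball of `Fin n → ℝ`. -/
structure ModelCW (V : ℕ → Type) [∀ n, NormedAddCommGroup (V n)] {X : Type} [TopologicalSpace X]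
    (C : Set X) where
  /-- the indexing type of the `n`-cells -/
  cell (n : ℕ) : Type
  /-- the characteristic maps -/
  map (n : ℕ) (i : cell n) : PartialEquiv (V n) X
  source_eq (n : ℕ) (i : cell n) : (map n i).source = ball 0 1
  continuousOn (n : ℕ) (i : cell n) : ContinuousOn (map n i) (closedBall 0 1)
  continuousOn_symm (n : ℕ) (i : cell n) : ContinuousOn (map n i).symm (map n i).target
  pairwiseDisjoint' :
    (univ : Set (Σ n, cell n)).PairwiseDisjoint (fun ni ↦ map ni.1 ni.2 '' ball 0 1)
  mapsTo' (n : ℕ) (i : cell n) : ∃ I : Π m, Finset (cell m),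
    MapsTo (map n i) (sphere 0 1) (⋃ (m < n) (j ∈ I m), map m j '' closedBall 0 1)
  closed' (A : Set X) (hAC : A ⊆ C) :
    (∀ n j, IsClosed (A ∩ map n j '' closedBall 0 1)) → IsClosed A
  union' : ⋃ (n : ℕ) (j : cell n), map n j '' closedBall 0 1 = C

/-- CW structures whose `n`-cells are modelled on the round ball `D^n` (Whitehead, Hatcher, the paper). -/
abbrev RoundCW {X : Type} [TopologicalSpace X] (C : Set X) : Type 1 :=
  ModelCW (fun n => EuclideanSpace ℝ (Fin n)) C

/-- CW structures whose `n`-cells are modelled on the cube: Mathlib's. -/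
abbrev CubeCW {X : Type} [TopologicalSpace X] (C : Set X) : Type 1 :=
  ModelCW (fun n => Fin n → ℝ) C

section Transport

variable {X : Type} [TopologicalSpace X] {C : Set X}

/-- For the cubes, `ModelCW` is Mathlib's `CWComplex`. -/
abbrev ModelCW.toCWComplex (M : CubeCW C) : CWComplex C where
  cell := M.cell
  map := M.map
  source_eq := M.source_eq
  continuousOn := M.continuousOn
  continuousOn_symm := M.continuousOn_symm
  pairwiseDisjoint' := M.pairwiseDisjoint'
  mapsTo' := M.mapsTo'
  closed' := M.closed'
  union' := M.union'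

/-- For the cubes, `ModelCW` is Mathlib's `CWComplex`. -/
def ModelCW.ofCWComplex (K : CWComplex C) : CubeCW C where
  cell := K.cell
  map := K.map
  source_eq := K.source_eq
  continuousOn := K.continuousOn
  continuousOn_symm := K.continuousOn_symm
  pairwiseDisjoint' := K.pairwiseDisjoint'
  mapsTo' := K.mapsTo'
  closed' := K.closed'
  union' := K.union'

variable {V W : ℕ → Type} [∀ n, NormedAddCommGroup (V n)] [∀ n, NormedAddCommGroup (W n)]

/-- The characteristic map in the new model: the old one after the change of model. -/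
def ModelCW.transportMap (M : ModelCW V C) (h : ∀ n, W n ≃ₜ V n) (n : ℕ) (i : M.cell n) :
    PartialEquiv (W n) X :=
  (h n).toEquiv.toPartialEquiv.trans (M.map n i)

theorem ModelCW.transportMap_apply (M : ModelCW V C) (h : ∀ n, W n ≃ₜ V n) (n : ℕ) (i : M.cell n)
    (x : W n) : M.transportMap h n i x = M.map n i (h n x) := rfl

theorem ModelCW.transportMap_image (M : ModelCW V C) (h : ∀ n, W n ≃ₜ V n) (n : ℕ) (i : M.cell n)
    (S : Set (W n)) : M.transportMap h n i '' S = M.map n i '' (h n '' S) := by
  rw [image_image]
  rfl

/-- Same open cells. -/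
theorem ModelCW.transportMap_image_ball (M : ModelCW V C) (h : ∀ n, W n ≃ₜ V n)
    (hn : ∀ n x, ‖h n x‖ = ‖x‖) (n : ℕ) (i : M.cell n) :
    M.transportMap h n i '' ball 0 1 = M.map n i '' ball 0 1 := by
  rw [M.transportMap_image, image_ball_of_norm_eq (h n) (hn n)]

/-- Same closed cells. -/
theorem ModelCW.transportMap_image_closedBall (M : ModelCW V C) (h : ∀ n, W n ≃ₜ V n)
    (hn : ∀ n x, ‖h n x‖ = ‖x‖) (n : ℕ) (i : M.cell n) :
    M.transportMap h n i '' closedBall 0 1 = M.map n i '' closedBall 0 1 := by
  rw [M.transportMap_image, image_closedBall_of_norm_eq (h n) (hn n)]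

/-- Same cell frontiers. -/
theorem ModelCW.transportMap_image_sphere (M : ModelCW V C) (h : ∀ n, W n ≃ₜ V n)
    (hn : ∀ n x, ‖h n x‖ = ‖x‖) (n : ℕ) (i : M.cell n) :
    M.transportMap h n i '' sphere 0 1 = M.map n i '' sphere 0 1 := by
  rw [M.transportMap_image, image_sphere_of_norm_eq (h n) (hn n)]

/-- Change of model along norm preserving homeomorphisms: same cells, same open and closed cells. -/
def ModelCW.transport (M : ModelCW V C) (h : ∀ n, W n ≃ₜ V n) (hn : ∀ n x, ‖h n x‖ = ‖x‖) :
    ModelCW W C where
  cell := M.cell
  map := M.transportMap h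
  source_eq n i := by
    ext x
    simp [ModelCW.transportMap, M.source_eq, hn]
  continuousOn n i :=
    (M.continuousOn n i).comp (h n).continuous.continuousOn
      (fun x hx => by simpa [hn] using hx)
  continuousOn_symm n i := by
    have h1 : ContinuousOn ((h n).symm ∘ (M.map n i).symm) (M.map n i).target :=
      (h n).symm.continuous.comp_continuousOn (M.continuousOn_symm n i)
    have h2 : (M.transportMap h n i).target = (M.map n i).target := by
      simp [ModelCW.transportMap]
    rw [h2]
    exact h1
  pairwiseDisjoint' := by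
    simpa only [M.transportMap_image_ball h hn] using M.pairwiseDisjoint'
  mapsTo' n i := by
    obtain ⟨I, hI⟩ := M.mapsTo' n i
    refine ⟨I, fun x hx => ?_⟩
    have h1 : h n x ∈ sphere (0 : V n) 1 := by simpa [hn] using hx
    have h3 : M.transportMap h n i x ∈ ⋃ (m < n) (j ∈ I m), M.map m j '' closedBall 0 1 := hI h1
    simpa only [M.transportMap_image_closedBall h hn] using h3
  closed' A hAC hA := by
    refine M.closed' A hAC fun n j => ?_
    simpa only [M.transportMap_image_closedBall h hn] using hA n j
  union' := by
    simpa only [M.transportMap_image_closedBall h hn] using M.union'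

/-- From cubes to round balls. -/
def ModelCW.toRound (M : CubeCW C) : RoundCW C :=
  M.transport (fun n => (cubeRound n).symm)
    (fun n y => norm_symm_of_norm_eq (cubeRound n) (norm_cubeRound n) y)

/-- From round balls to cubes. -/
def ModelCW.toCube (M : RoundCW C) : CubeCW C :=
  M.transport (fun n => cubeRound n) norm_cubeRound

end Transport

/-! ### The predicates of `Statement.lean` in terms of round cells -/

/-- `IsFiniteCWComplexOfDimLE X n` says: `X` is Hausdorff and has a CW structure with ROUND cells, finitely many of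
them, none of dimension `> n`. -/
theorem isFiniteCWComplexOfDimLE_iff_round (X : Type) [TopologicalSpace X] (n : ℕ) :
    IsFiniteCWComplexOfDimLE X n ↔
      T2Space X ∧ ∃ R : RoundCW (univ : Set X),
        Finite (Σ m, R.cell m) ∧ ∀ m : ℕ, n < m → IsEmpty (R.cell m) := by
  constructor
  · rintro ⟨h2, K, hfin, hdim⟩
    exact ⟨h2, (ModelCW.ofCWComplex K).toRound, RelCWComplex.finite_iff_finite_cells.mp hfin, hdim⟩
  · rintro ⟨h2, R, hfin, hdim⟩
    refine ⟨h2, R.toCube.toCWComplex, ?_, hdim⟩
    let _ := R.toCube.toCWComplex
    exact RelCWComplex.finite_iff_finite_cells.mpr hfin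

/-- `IsFiniteCWComplexOfDimEq X n` says: `X` is Hausdorff and has a CW structure with ROUND cells, finitely many of
them, none of dimension `> n`, at least one of dimension `n`. -/
theorem isFiniteCWComplexOfDimEq_iff_round (X : Type) [TopologicalSpace X] (n : ℕ) :
    IsFiniteCWComplexOfDimEq X n ↔
      T2Space X ∧ ∃ R : RoundCW (univ : Set X),
        Finite (Σ m, R.cell m) ∧ (∀ m : ℕ, n < m → IsEmpty (R.cell m)) ∧ Nonempty (R.cell n) := by
  constructor
  · rintro ⟨h2, K, hfin, hdim, hne⟩
    exact ⟨h2, (ModelCW.ofCWComplex K).toRound, RelCWComplex.finite_iff_finite_cells.mp hfin, hdim,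
      hne⟩
  · rintro ⟨h2, R, hfin, hdim, hne⟩
    refine ⟨h2, R.toCube.toCWComplex, ?_, hdim, hne⟩
    let _ := R.toCube.toCWComplex
    exact RelCWComplex.finite_iff_finite_cells.mpr hfin

/-- Theorem 1.1 (`Statement`) is equivalent to the same sentence about CW complexes with ROUND cells. -/
theorem statement_iff_round :
    Statement ↔
      ∃ (X : Type) (_ : TopologicalSpace X),
        (T2Space X ∧ ∃ R : RoundCW (univ : Set X),
          Finite (Σ m, R.cell m) ∧ (∀ m : ℕ, 3 < m → IsEmpty (R.cell m)) ∧ Nonempty (R.cell 3)) ∧
        ConnectedSpace X ∧ SatisfiesD2 X ∧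
          ¬ ∃ (Y : Type) (_ : TopologicalSpace Y),
            (T2Space Y ∧ ∃ R : RoundCW (univ : Set Y),
              Finite (Σ m, R.cell m) ∧ ∀ m : ℕ, 2 < m → IsEmpty (R.cell m)) ∧
            Nonempty (ContinuousMap.HomotopyEquiv X Y) := by
  simp only [Statement, isFiniteCWComplexOfDimEq_iff_round, isFiniteCWComplexOfDimLE_iff_round]

end

end Claimed.Open.R321
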