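import Claimed.Open.R321.ChainBridge
import Claimed.Open.R321.SanityChains
import Claimed.Open.R321.CoverUnique

/-!
# Sanity check for R321: the 3-torus does **not** satisfy the `D(2)` condition

`T³ = ℝ³ / ℤ³` is a closed aspherical 3-manifold; `H³(T³; ℝ) ≠ 0`, detected by the translation
invariant volume cocycle on the universal cover `ℝ³` and the fundamental cycle (the unit cube cut
into six simplices).  So `SatisfiesD2` is a genuine restriction.
-/

set_option autoImplicit false

namespace Claimed.Open.R321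

open Topology

noncomputable section

namespace Torus

/-- `ℝ³` -/
abbrev V3 : Type := Fin 3 → ℝ

/-- The integer lattice `ℤ³ ⊆ ℝ³`. -/
def lattice : AddSubgroup V3 where
  carrier := {v | ∀ i, ∃ k : ℤ, v i = k}
  add_mem' := by
    intro a b ha hb i
    obtain ⟨k, hk⟩ := ha i
    obtain ⟨l, hl⟩ := hb i
    exact ⟨k + l, by simp [hk, hl]⟩
  zero_mem' := fun _ => ⟨0, by simp⟩
  neg_mem' := by
    intro a ha i
    obtain ⟨k, hk⟩ := ha i
    exact ⟨-k, by simp [hk]⟩

lemma mem_lattice {v : V3} : v ∈ lattice ↔ ∀ i, ∃ k : ℤ, v i = k := Iff.rfl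

lemma isDiscrete_lattice : IsDiscrete (lattice : Set V3) := by
  rw [isDiscrete_iff_discreteTopology]
  apply discreteTopology_of_isOpen_singleton_zero
  rw [isOpen_induced_iff]
  refine ⟨Metric.ball 0 1, Metric.isOpen_ball, ?_⟩
  ext ⟨v, hv⟩
  simp only [Set.mem_preimage, mem_ball_zero_iff, Set.mem_singleton_iff]
  constructor
  · intro h
    apply Subtype.ext
    funext i
    obtain ⟨k, hk⟩ := hv i
    have h1 : ‖v i‖ < 1 := lt_of_le_of_lt (norm_le_pi_norm v i) h
    rw [hk, Real.norm_eq_abs, ← Int.cast_abs] at h1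
    have h2 : |k| < 1 := by exact_mod_cast h1
    have h3 : k = 0 := Int.abs_lt_one_iff.1 h2
    simp [hk, h3]
  · intro h
    have : v = 0 := congrArg Subtype.val h
    simp [this]

/-- The 3-torus. -/
abbrev T3 : Type := V3 ⧸ lattice

/-- The projection `ℝ³ → T³`. -/
def q : V3 → T3 := QuotientAddGroup.mk

lemma isCoveringMap_q : IsCoveringMap q :=
  (lattice.isAddQuotientCoveringMap_of_comm isDiscrete_lattice).isCoveringMap

lemma q_eq_iff {a b : V3} : q a = q b ↔ b - a ∈ lattice := by
  unfold q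
  rw [QuotientAddGroup.eq]
  have : -a + b = b - a := by abel
  rw [this]

lemma q_add_lattice (a : V3) {l : V3} (hl : l ∈ lattice) : q (a + l) = q a := by
  rw [eq_comm, q_eq_iff]
  simpa using hl

lemma q_surjective : Function.Surjective q := QuotientAddGroup.mk_surjective

instance instLocPathConnT3 : LocallyPathConnectedSpace T3 :=
  (isCoveringMap_q.isQuotientMap q_surjective).locallyPathConnectedSpace

/-! ### Affine simplices -/

/-- The affine singular simplex with given vertices. -/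
def aff {n : ℕ} (w : Fin (n + 1) → V3) : Simplex n V3 where
  toFun t := ∑ i, (t : Fin (n + 1) → ℝ) i • w i
  continuous_toFun := by
    refine continuous_finsetSum _ fun i _ => ?_
    exact ((continuous_apply i).comp continuous_subtype_val).smul continuous_const

lemma aff_apply {n : ℕ} (w : Fin (n + 1) → V3) (t : stdSimplex ℝ (Fin (n + 1))) :
    aff w t = ∑ i, (t : Fin (n + 1) → ℝ) i • w i := rfl

lemma aff_vertex {n : ℕ} (w : Fin (n + 1) → V3) (i : Fin (n + 1)) :
    aff w (stdSimplex.vertex i) = w i := by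
  rw [aff_apply]
  simp [Pi.single_apply]

lemma aff_face {n : ℕ} (w : Fin (n + 2) → V3) (i : Fin (n + 2)) :
    (aff w).face i = aff (w ∘ i.succAbove) := by
  ext1 t
  change aff w (stdSimplex.map i.succAbove t) = _
  rw [aff_apply, aff_apply]
  simp only [stdSimplex.map_coe, FunOnFinite.linearMap_apply_apply, Finset.sum_smul,
    Function.comp_apply]
  rw [← Finset.sum_fiberwise Finset.univ i.succAbove (fun k => (t : Fin (n + 1) → ℝ) k •
    w (i.succAbove k))]
  refine Finset.sum_congr rfl fun j _ => Finset.sum_congr rfl fun k hk => ?_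
  rw [(Finset.mem_filter.1 hk).2]

/-- translation by `l` -/
def trans (l : V3) : C(V3, V3) := ⟨fun v => v + l, by fun_prop⟩

lemma trans_comp_aff {n : ℕ} (l : V3) (w : Fin (n + 1) → V3) :
    (trans l).comp (aff w) = aff (fun i => w i + l) := by
  ext1 t
  change aff w t + l = aff _ t
  rw [aff_apply, aff_apply]
  simp only [smul_add, Finset.sum_add_distrib, ← Finset.sum_smul]
  rw [stdSimplex.sum_eq_one, one_smul]

lemma face_vertex {E : Type} [TopologicalSpace E] {n : ℕ} (σ : Simplex (n + 1) E)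
    (i : Fin (n + 2)) (j : Fin (n + 1)) :
    σ.face i (stdSimplex.vertex j) = σ (stdSimplex.vertex (i.succAbove j)) := by
  change σ (stdSimplex.map i.succAbove (stdSimplex.vertex j)) = _
  rw [stdSimplex.map_vertex]

/-! ### The volume cocycle -/

/-- the determinant of three vectors -/
def det3 (a b c : V3) : ℝ :=
  a 0 * (b 1 * c 2 - b 2 * c 1) - a 1 * (b 0 * c 2 - b 2 * c 0) + a 2 * (b 0 * c 1 - b 1 * c 0)

/-- (six times) the signed volume of the simplex with vertices `w`. -/
def vol (w : Fin 4 → V3) : ℝ := det3 (w 1 - w 0) (w 2 - w 0) (w 3 - w 0)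

lemma vol_translate (w : Fin 4 → V3) (l : V3) : vol (fun i => w i + l) = vol w := by
  unfold vol
  simp only [add_sub_add_right_eq_sub]

/-- The volume is a cocycle. -/
lemma vol_cocycle (w : Fin 5 → V3) :
    ∑ i : Fin 5, (-1 : ℤ) ^ (i : ℕ) • vol (w ∘ i.succAbove) = 0 := by
  simp only [Fin.sum_univ_five, vol, det3, Function.comp_apply, Pi.sub_apply]
  have e01 : (0 : Fin 5).succAbove (0 : Fin 4) = 1 := rfl
  have e02 : (0 : Fin 5).succAbove (1 : Fin 4) = 2 := rfl
  have e03 : (0 : Fin 5).succAbove (2 : Fin 4) = 3 := rfl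
  have e04 : (0 : Fin 5).succAbove (3 : Fin 4) = 4 := rfl
  have e11 : (1 : Fin 5).succAbove (0 : Fin 4) = 0 := rfl
  have e12 : (1 : Fin 5).succAbove (1 : Fin 4) = 2 := rfl
  have e13 : (1 : Fin 5).succAbove (2 : Fin 4) = 3 := rfl
  have e14 : (1 : Fin 5).succAbove (3 : Fin 4) = 4 := rfl
  have e21 : (2 : Fin 5).succAbove (0 : Fin 4) = 0 := rfl
  have e22 : (2 : Fin 5).succAbove (1 : Fin 4) = 1 := rfl
  have e23 : (2 : Fin 5).succAbove (2 : Fin 4) = 3 := rfl
  have e24 : (2 : Fin 5).succAbove (3 : Fin 4) = 4 := rfl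
  have e31 : (3 : Fin 5).succAbove (0 : Fin 4) = 0 := rfl
  have e32 : (3 : Fin 5).succAbove (1 : Fin 4) = 1 := rfl
  have e33 : (3 : Fin 5).succAbove (2 : Fin 4) = 2 := rfl
  have e34 : (3 : Fin 5).succAbove (3 : Fin 4) = 4 := rfl
  have e41 : (4 : Fin 5).succAbove (0 : Fin 4) = 0 := rfl
  have e42 : (4 : Fin 5).succAbove (1 : Fin 4) = 1 := rfl
  have e43 : (4 : Fin 5).succAbove (2 : Fin 4) = 2 := rfl
  have e44 : (4 : Fin 5).succAbove (3 : Fin 4) = 3 := rfl
  rw [e01, e02, e03, e04, e11, e12, e13, e14, e21, e22, e23, e24, e31, e32, e33, e34,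
    e41, e42, e43, e44]
  simp only [Fin.val_zero, Fin.val_one, Fin.val_two, pow_zero, pow_one, one_smul, neg_smul,
    show ((3 : Fin 5) : ℕ) = 3 from rfl, show ((4 : Fin 5) : ℕ) = 4 from rfl,
    show ((-1 : ℤ) ^ 2) = 1 from rfl, show ((-1 : ℤ) ^ 3) = -1 from rfl,
    show ((-1 : ℤ) ^ 4) = 1 from rfl]
  ring

/-- There is no lattice-invariant primitive of the volume cocycle: evaluate on the unit cube, cut
into six simplices. -/
lemma no_primitive (Ψ : V3 → V3 → V3 → ℝ)
    (h1 : ∀ a b c d : V3, vol ![a, b, c, d] = Ψ b c d - Ψ a c d + Ψ a b d - Ψ a b c)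
    (h2 : ∀ a b c l : V3, l ∈ lattice → Ψ (a + l) (b + l) (c + l) = Ψ a b c) : False := by
  set O : V3 := ![0, 0, 0] with hO
  set X : V3 := ![1, 0, 0] with hX
  set Y : V3 := ![0, 1, 0] with hY
  set Z : V3 := ![0, 0, 1] with hZ
  set XY : V3 := ![1, 1, 0] with hXY
  set XZ : V3 := ![1, 0, 1] with hXZ
  set YZ : V3 := ![0, 1, 1] with hYZ
  set W : V3 := ![1, 1, 1] with hW
  have lX : X ∈ lattice := by
    intro i; fin_cases i
    · exact ⟨1, by simp [hX]⟩
    · exact ⟨0, by simp [hX]⟩
    · exact ⟨0, by simp [hX]⟩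
  have lY : Y ∈ lattice := by
    intro i; fin_cases i
    · exact ⟨0, by simp [hY]⟩
    · exact ⟨1, by simp [hY]⟩
    · exact ⟨0, by simp [hY]⟩
  have lZ : Z ∈ lattice := by
    intro i; fin_cases i
    · exact ⟨0, by simp [hZ]⟩
    · exact ⟨0, by simp [hZ]⟩
    · exact ⟨1, by simp [hZ]⟩
  have a1 : O + X = X := by ext i; fin_cases i <;> simp [hO, hX]
  have a2 : Y + X = XY := by ext i; fin_cases i <;> simp [hY, hX, hXY]
  have a3 : YZ + X = W := by ext i; fin_cases i <;> simp [hYZ, hX, hW]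
  have a4 : Z + X = XZ := by ext i; fin_cases i <;> simp [hZ, hX, hXZ]
  have b1 : O + Y = Y := by ext i; fin_cases i <;> simp [hO, hY]
  have b2 : X + Y = XY := by ext i; fin_cases i <;> simp [hY, hX, hXY]
  have b3 : XZ + Y = W := by ext i; fin_cases i <;> simp [hXZ, hY, hW]
  have b4 : Z + Y = YZ := by ext i; fin_cases i <;> simp [hZ, hY, hYZ]
  have c1 : O + Z = Z := by ext i; fin_cases i <;> simp [hO, hZ]
  have c2 : X + Z = XZ := by ext i; fin_cases i <;> simp [hZ, hX, hXZ]
  have c3 : XY + Z = W := by ext i; fin_cases i <;> simp [hXY, hZ, hW]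
  have c4 : Y + Z = YZ := by ext i; fin_cases i <;> simp [hZ, hY, hYZ]
  have t1 := h2 O Y YZ X lX
  have t2 := h2 O Z YZ X lX
  have t3 := h2 O X XZ Y lY
  have t4 := h2 O Z XZ Y lY
  have t5 := h2 O X XY Z lZ
  have t6 := h2 O Y XY Z lZ
  rw [a1, a2, a3] at t1
  rw [a1, a4, a3] at t2
  rw [b1, b2, b3] at t3
  rw [b1, b4, b3] at t4
  rw [c1, c2, c3] at t5
  rw [c1, c4, c3] at t6
  have v1 : vol ![O, X, XY, W] = 1 := by simp [vol, det3, hO, hX, hXY, hW]
  have v2 : vol ![O, X, XZ, W] = -1 := by simp [vol, det3, hO, hX, hXZ, hW]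
  have v3 : vol ![O, Y, XY, W] = -1 := by simp [vol, det3, hO, hY, hXY, hW]
  have v4 : vol ![O, Y, YZ, W] = 1 := by simp [vol, det3, hO, hY, hYZ, hW]
  have v5 : vol ![O, Z, XZ, W] = 1 := by simp [vol, det3, hO, hZ, hXZ, hW]
  have v6 : vol ![O, Z, YZ, W] = -1 := by simp [vol, det3, hO, hZ, hYZ, hW]
  have s1 := h1 O X XY W
  have s2 := h1 O X XZ W
  have s3 := h1 O Y XY W
  have s4 := h1 O Y YZ W
  have s5 := h1 O Z XZ W
  have s6 := h1 O Z YZ W
  rw [v1] at s1
  rw [v2] at s2
  rw [v3] at s3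
  rw [v4] at s4
  rw [v5] at s5
  rw [v6] at s6
  linarith

/-! ### Trivial coefficients -/

/-- The augmentation `ℤ[π] → ℤ`. -/
def augmentation (π : Type) [Group π] : MonoidAlgebra ℤ π →+* ℤ :=
  (MonoidAlgebra.lift ℤ ℤ π (1 : π →* ℤ)).toRingHom

/-- `ℝ` with the trivial action of `π`. -/
@[reducible] def trivialModule (π : Type) [Group π] : Module (MonoidAlgebra ℤ π) ℝ :=
  Module.compHom ℝ (augmentation π)

lemma of_smul_trivial (π : Type) [Group π] (g : π) (r : ℝ) :
    letI := trivialModule π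
    MonoidAlgebra.of ℤ π g • r = r := by
  change augmentation π (MonoidAlgebra.of ℤ π g) • r = r
  simp [augmentation]

end Torus

open Torus in
/-- **The 3-torus does not satisfy the `D(2)` condition.** -/
theorem not_satisfiesD2_torus : ¬ SatisfiesD2 T3 := by
  rintro ⟨U, -, hU⟩
  obtain ⟨e₁⟩ : Nonempty U.E := inferInstance
  obtain ⟨v₁, hv₁⟩ := q_surjective (U.p e₁)
  have : LocallyPathConnectedSpace U.E :=
    locallyPathConnectedSpace_of_isLocalHomeomorph U.isCoveringMap.isLocalHomeomorph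
  obtain ⟨Φ, hΦ, -⟩ :=
    exists_homeomorph_of_simplyConnected_covers isCoveringMap_q U.isCoveringMap v₁ e₁ hv₁
  have hΦ' : ∀ e, q (Φ.symm e) = U.p e := fun e => by rw [← hΦ, Φ.apply_symm_apply]
  let _ := trivialModule (FundamentalGroup T3 (U.p e₁))
  have hH3 := hU e₁ ℝ
  rw [subsingleton_localCohomology_succ_iff] at hH3
  -- deck transformations are translations by lattice vectors
  have hdeck : ∀ g : deckGroup U.p, ∃ l : V3, ∀ e, Φ.symm (g.1 e) = Φ.symm e + l := by
    intro g
    set l := Φ.symm (g.1 e₁) - Φ.symm e₁ with hl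
    have hlat : l ∈ lattice := by
      rw [hl, ← q_eq_iff, hΦ', hΦ']
      exact (g.2 e₁).symm
    refine ⟨l, fun e => ?_⟩
    have := isCoveringMap_q.eq_of_comp_eq (g₁ := fun e => Φ.symm (g.1 e))
      (g₂ := fun e => Φ.symm e + l) (Φ.symm.continuous.comp g.1.continuous)
      (Φ.symm.continuous.add continuous_const)
      (by
        funext e
        simp only [Function.comp_apply]
        rw [q_add_lattice _ hlat, hΦ', hΦ']
        exact g.2 e) e₁ (by simp [hl])
    exact congrFun this e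
  -- the volume cocycle
  let φ : U.chains 3 →+ ℝ :=
    chainsLift (fun σ => vol (fun i => Φ.symm (σ (stdSimplex.vertex i))))
  have hφ1 : φ ∈ cochains U e₁ ℝ 3 := by
    intro g c
    rw [of_smul_trivial]
    have h : φ.comp (U.deckAct g 3) = φ := by
      apply chains_hom_ext
      intro σ
      obtain ⟨l, hl⟩ := hdeck g
      rw [AddMonoidHom.comp_apply, UniversalCover.deckAct_eq, chainMap_gen]
      simp only [φ, chainsLift_gen, ContinuousMap.comp_apply]
      rw [← vol_translate (fun i => Φ.symm (σ (stdSimplex.vertex i))) l]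
      congr 1
      funext i
      exact hl _
    exact congrArg (fun k => k c) h
  have hφ2 : ∀ c, φ (U.boundary 3 c) = 0 := by
    intro c
    have h : φ.comp (U.boundary 3) = 0 := by
      apply chains_hom_ext
      intro τ
      rw [AddMonoidHom.comp_apply, UniversalCover.boundary_eq, bd_gen, map_sum]
      simp only [map_zsmul, φ, chainsLift_gen, face_vertex, AddMonoidHom.zero_apply]
      exact vol_cocycle (fun k => Φ.symm (τ (stdSimplex.vertex k)))
    exact congrArg (fun k => k c) h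
  obtain ⟨ψ, hψ, hψφ⟩ := hH3 φ hφ1 hφ2
  -- restrict to affine simplices
  let ΦC : C(V3, U.E) := ⟨Φ, Φ.continuous⟩
  apply no_primitive (fun a b c => ψ (gen (ΦC.comp (aff ![a, b, c]))))
  · intro a b c d
    have h1 : φ (gen (ΦC.comp (aff ![a, b, c, d]))) = vol ![a, b, c, d] := by
      simp only [φ, chainsLift_gen, ContinuousMap.comp_apply, aff_vertex]
      congr 1
      funext i
      exact Φ.symm_apply_apply _
    rw [← h1, ← hψφ, UniversalCover.boundary_eq, bd_gen, map_sum]
    have hface : ∀ i : Fin 4, Simplex.face (ΦC.comp (aff ![a, b, c, d])) i =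
        ΦC.comp (aff (![a, b, c, d] ∘ i.succAbove)) := by
      intro i
      rw [← aff_face]
      rfl
    simp only [map_zsmul, hface]
    refine (Fin.sum_univ_four (fun x : Fin 4 => (-1 : ℤ) ^ (x : ℕ) •
      ψ (gen (ΦC.comp (aff (![a, b, c, d] ∘ x.succAbove)))))).trans ?_
    have f0 : (![a, b, c, d] ∘ (0 : Fin 4).succAbove) = ![b, c, d] := by
      funext j; fin_cases j <;> rfl
    have f1 : (![a, b, c, d] ∘ (1 : Fin 4).succAbove) = ![a, c, d] := by
      funext j; fin_cases j <;> rfl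
    have f2 : (![a, b, c, d] ∘ (2 : Fin 4).succAbove) = ![a, b, d] := by
      funext j; fin_cases j <;> rfl
    have f3 : (![a, b, c, d] ∘ (3 : Fin 4).succAbove) = ![a, b, c] := by
      funext j; fin_cases j <;> rfl
    rw [f0, f1, f2, f3]
    simp only [Fin.val_zero, Fin.val_one, Fin.val_two, pow_zero, pow_one, one_smul, neg_smul,
      show ((3 : Fin 4) : ℕ) = 3 from rfl, show ((-1 : ℤ) ^ 2) = 1 from rfl,
      show ((-1 : ℤ) ^ 3) = -1 from rfl]
    ring
  · intro a b c l hl
    -- the deck transformation given by translation by `l`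
    let g : deckGroup U.p := ⟨Φ.symm.trans ((Homeomorph.addRight l).trans Φ), by
      intro e
      change U.p (Φ (Φ.symm e + l)) = U.p e
      rw [hΦ, q_add_lattice _ hl, hΦ']⟩
    have h := hψ g (gen (ΦC.comp (aff ![a, b, c])))
    rw [of_smul_trivial, UniversalCover.deckAct_eq, chainMap_gen] at h
    rw [← h]
    congr 2
    have h3 : (fun i => ![a, b, c] i + l) = ![a + l, b + l, c + l] := by
      funext j; fin_cases j <;> rfl
    rw [← h3, ← trans_comp_aff]
    ext1 t
    change Φ (aff ![a, b, c] t + l) = Φ (Φ.symm (Φ (aff ![a, b, c] t)) + l)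
    rw [Φ.symm_apply_apply]

end

end Claimed.Open.R321
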