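import Claimed.Open.R321.Statement
import Claimed.Open.R321.SanityExample
import Claimed.Open.R321.SanityTorus
import Claimed.Open.R321.SanityRound
import Claimed.Open.R321.SanityHausdorff

/-!
# Sanity checks for the definitions of `Statement.lean` (result 321)

`Statement` is a closed existence statement: it has no hypothesis to be met.  What is checked here is
that its definitions are neither void nor automatic.

Proved in this file:

* `deckToFundamentalGroup_mul`, `deckToFundamentalGroup_one`: the identification
  deck group `→ π₁(X, p e₀)` used to let `π₁` act is a group homomorphism for Mathlib's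
  multiplication of loop classes.
* `monodromy_deckToFundamentalGroup`: the loop class attached to `g` is the one whose monodromy
  (Mathlib's `IsCoveringMap.monodromy`) carries `g e₀` to `e₀`.
* `deckToFundamentalGroup_injective`: it is injective.
* finite discrete spaces are finite CW complexes of dimension `0`; `ℝ` is not a finite CW complex;
  a point is not a CW complex of dimension exactly `n + 1`.

Digest (last section of this file; the proofs are in `SanityCube`, `SanityContractible`,
`SanityExample`, `SanityTorus`, `SanityRound`, `SanityHausdorff`, which this file imports):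

* `positive_clauses_can_be_met`: ONE space, the solid cube `[-1,1]^3`, is a finite connected
  three-dimensional CW complex and satisfies `SatisfiesD2`;
* `last_clause_is_a_restriction`: that same space is homotopy equivalent to a finite CW complex of
  dimension `≤ 2`, so the last clause of `Statement` fails for it;
* `satisfiesD2_is_a_restriction`: the 3-torus `ℝ³/ℤ³` does NOT satisfy `SatisfiesD2` (its universal
  cover `ℝ³` is contractible, so what fails is the clause `H³(X; M) = 0`, at `M = ℝ`);
* `satisfiesD2_examples`: every contractible space satisfies `SatisfiesD2`;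
* `cells_may_be_round`: `Statement` is equivalent to the same sentence about CW complexes whose cells
  are modelled on the round balls `D^n` instead of Mathlib's cubes (`SanityRound.lean`: `cubeRound`,
  `isFiniteCWComplexOfDimLE_iff_round`, `isFiniteCWComplexOfDimEq_iff_round`, `statement_iff_round`);
* `hausdorff_clause_is_a_restriction`: the clause `T2Space X` of the two CW predicates is not automatic:
  the two point indiscrete space carries a CW structure in the sense of Mathlib's class, with two
  `0`-cells and no other cell, and the predicates reject it (`SanityHausdorff.lean`).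

Checked in files which import this one (so they cannot be restated here):

* `SanityDeck.lean`, `deckToFundamentalGroup_bijective`: for locally path connected `X` the
  homomorphism `deckToFundamentalGroup` is bijective;
* `SanityLPC.lean`, `locallyPathConnectedSpace_of_cwComplex`: Hausdorff CW complexes are locally path
  connected; `IsFiniteCWComplexOfDimEq.deckToFundamentalGroup_bijective`: so for the spaces of
  `Statement` the equivariance in `cochains` is `ℤ[π₁(X)]`-linearity;
* `SanityIndep.lean`, `satisfiesD2_iff_forall`, and `SanityLPC.lean`,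
  `IsFiniteCWComplexOfDimEq.satisfiesD2_iff_forall`: `SatisfiesD2 X` holds iff `X` has a universal cover
  and EVERY universal cover of `X` has the two properties;
* `SanityBasePoint.lean`, `deckToFundamentalGroup_conj_path`, `subsingleton_localCohomology_of_basePoint`,
  `satisfiesD2_iff_exists_basePoint`: the identifications of the deck group with `π₁` at two base points
  differ by the usual change of base point, and the clause `H³(X; M) = 0` at ONE base point gives it at
  every base point;
* `SanityChains.lean`, `subsingleton_localCohomology_succ_iff`: `Hⁿ⁺¹(X; M) = 0` says that every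
  equivariant cocycle is the coboundary of an equivariant cochain;
* `SanityUniverse.lean`, `cocycle_eq_coboundary_of_small`, `SatisfiesD2.all_universes`: the restriction
  of the coefficient modules to `Type` loses nothing: vanishing of `Hⁿ⁺¹(X; M)` for all modules in `Type`
  gives "every equivariant cocycle is an equivariant coboundary" for the modules of every universe;
* `SanityComponent.lean`, `satisfiesD2_sum_of_contractible`, `satisfiesD2_punit_sum_torus`: without the
  clause `ConnectedSpace X` of `Statement`, `SatisfiesD2` would see one component only: `pt ⊔ T³`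
  satisfies it, `T³` does not;
* `SanityHZero.lean`, `mem_cocycles_zero_iff`, `localCohomologyZeroEquiv`, `mem_deckInvariants_iff`: the
  definition of `localCohomology` computed in degree `0`: `H⁰(X; M)` is the group of invariants `M^{π₁(X)}`;
* `SanityHomeo.lean`, `satisfiesD2_congr`, `deckToFundamentalGroup_pushHomeo`: `SatisfiesD2` is a topological
  invariant, and `deckToFundamentalGroup` is natural for homeomorphisms of the base; `SanityHomeoCW.lean`
  (it imports `Statement.lean` only), `isFiniteCWComplexOfDimLE_congr`, `isFiniteCWComplexOfDimEq_congr`: so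
  are the two CW predicates; `SanityHomeoAll.lean`, `counterexample_of_homeomorph`: the four clauses which
  `Statement` asks of `X` pass to every space homeomorphic to `X`;
* `Extra.lean`, `main_forall`: the theorem with `∀` over universal covers and with `π₁(X)` infinite.
-/

set_option autoImplicit false

namespace Claimed.Open.R321

open CategoryTheory AlgebraicTopology Topology

noncomputable section

variable {X : Type} [TopologicalSpace X]

/-- Any path from `g e₀` to `e₀` computes `deckToFundamentalGroup`. -/
theorem deckToFundamentalGroup_eq (U : UniversalCover X) (e₀ : U.E) (g : deckGroup U.p)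
    (δ : Path (g.1 e₀) e₀) :
    deckToFundamentalGroup U e₀ g =
      FundamentalGroup.fromPath
        (Path.Homotopic.Quotient.mk ((δ.map U.isCoveringMap.continuous).cast (g.2 e₀).symm rfl)) := by
  unfold deckToFundamentalGroup
  congr 1
  apply Path.Homotopic.Quotient.eq.mpr
  have h : Path.Homotopic (PathConnectedSpace.somePath (g.1 e₀) e₀) δ :=
    SimplyConnectedSpace.paths_homotopic _ _
  exact (h.map ⟨U.p, U.isCoveringMap.continuous⟩).pathCast _ _

/-- `deckToFundamentalGroup` sends the identity to the trivial loop class. -/
theorem deckToFundamentalGroup_one (U : UniversalCover X) (e₀ : U.E) :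
    deckToFundamentalGroup U e₀ 1 = 1 := by
  rw [deckToFundamentalGroup_eq U e₀ 1 (Path.refl e₀)]
  rfl

/-- `deckToFundamentalGroup` is multiplicative for Mathlib's multiplication on
`FundamentalGroup`. -/
theorem deckToFundamentalGroup_mul (U : UniversalCover X) (e₀ : U.E) (g h : deckGroup U.p) :
    deckToFundamentalGroup U e₀ (g * h) =
      deckToFundamentalGroup U e₀ g * deckToFundamentalGroup U e₀ h := by
  let δg : Path (g.1 e₀) e₀ := PathConnectedSpace.somePath _ _
  let δh : Path (h.1 e₀) e₀ := PathConnectedSpace.somePath _ _
  let δ : Path ((g * h).1 e₀) e₀ := (δh.map g.1.continuous).trans δg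
  rw [deckToFundamentalGroup_eq U e₀ (g * h) δ, deckToFundamentalGroup_eq U e₀ g δg,
    deckToFundamentalGroup_eq U e₀ h δh, FundamentalGroup.mul_def]
  change Path.Homotopic.Quotient.mk _ =
    Path.Homotopic.Quotient.trans (Path.Homotopic.Quotient.mk _) (Path.Homotopic.Quotient.mk _)
  rw [← Path.Homotopic.Quotient.mk_trans]
  congr 1
  ext t
  change U.p (((δh.map g.1.continuous).trans δg) t) =
    ((((δh.map U.isCoveringMap.continuous).cast (h.2 e₀).symm rfl).trans
      ((δg.map U.isCoveringMap.continuous).cast (g.2 e₀).symm rfl)) t)
  rw [Path.trans_apply, Path.trans_apply]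
  split_ifs
  · exact g.2 _
  · rfl

/-- The identification of the deck group with `π₁`, as a group homomorphism. -/
def deckToFundamentalGroupHom (U : UniversalCover X) (e₀ : U.E) :
    deckGroup U.p →* FundamentalGroup X (U.p e₀) where
  toFun := deckToFundamentalGroup U e₀
  map_one' := deckToFundamentalGroup_one U e₀
  map_mul' := deckToFundamentalGroup_mul U e₀

/-- The monodromy of the loop class attached to `g` carries `g e₀` to `e₀`: this is the usual
characterisation of the deck transformation attached to a loop class. -/
theorem monodromy_deckToFundamentalGroup (U : UniversalCover X) (e₀ : U.E) (g : deckGroup U.p) :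
    U.isCoveringMap.monodromy (deckToFundamentalGroup U e₀ g) ⟨g.1 e₀, g.2 e₀⟩ = ⟨e₀, rfl⟩ := by
  refine U.isCoveringMap.monodromy_eq_of_map_eq
    (ex := ⟨g.1 e₀, g.2 e₀⟩) (ey := ⟨e₀, rfl⟩)
    (Path.Homotopic.Quotient.mk (PathConnectedSpace.somePath (g.1 e₀) e₀)) ?_
  rfl

/-- `deckToFundamentalGroup` is injective. -/
theorem deckToFundamentalGroup_injective (U : UniversalCover X) (e₀ : U.E) :
    Function.Injective (deckToFundamentalGroup U e₀) := by
  have key : ∀ g : deckGroup U.p, deckToFundamentalGroup U e₀ g = 1 → g = 1 := by
    intro g hg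
    have h1 := monodromy_deckToFundamentalGroup U e₀ g
    rw [hg] at h1
    have h2 : g.1 e₀ = e₀ := by
      have := congrArg Subtype.val h1
      rw [show (1 : FundamentalGroup X (U.p e₀)) = Path.Homotopic.Quotient.refl _ from rfl,
        U.isCoveringMap.monodromy_refl] at this
      exact this
    apply Subtype.ext
    apply Homeomorph.ext
    intro e
    have := U.isCoveringMap.eq_of_comp_eq (g₁ := g.1) (g₂ := id) g.1.continuous continuous_id
      (funext fun e => g.2 e) e₀ h2
    exact congrFun this e
  intro g h hgh
  have : deckToFundamentalGroup U e₀ (g⁻¹ * h) = 1 := by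
    have h3 := (deckToFundamentalGroupHom U e₀).map_mul g⁻¹ h
    have h4 := (deckToFundamentalGroupHom U e₀).map_inv g
    change deckToFundamentalGroup U e₀ (g⁻¹ * h) = deckToFundamentalGroup U e₀ g⁻¹ *
      deckToFundamentalGroup U e₀ h at h3
    change deckToFundamentalGroup U e₀ g⁻¹ = (deckToFundamentalGroup U e₀ g)⁻¹ at h4
    rw [h3, h4, hgh, inv_mul_cancel]
  have := key _ this
  exact (inv_mul_eq_one.mp this)

/-! ### Finite CW complexes: examples and non-examples -/

/-- A finite discrete space is a finite CW complex of dimension `≤ 0` (hence `≤ n` for all `n`). -/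
theorem isFiniteCWComplexOfDimLE_of_finite_discrete (D : Type) [TopologicalSpace D]
    [DiscreteTopology D] [Finite D] (n : ℕ) : IsFiniteCWComplexOfDimLE D n := by
  refine ⟨inferInstance, CWComplex.ofDiscreteTopology, ?_, ?_⟩
  · refine @RelCWComplex.Finite.mk _ _ _ _ _ ⟨?_⟩ ⟨?_⟩
    · refine Filter.eventually_atTop.mpr ⟨1, fun m hm => ?_⟩
      obtain ⟨k, rfl⟩ : ∃ k, m = k + 1 := ⟨m - 1, by omega⟩
      exact inferInstanceAs (IsEmpty PEmpty)
    · intro m
      cases m with
      | zero => exact inferInstanceAs (Finite (Set.univ : Set D))
      | succ k => exact inferInstanceAs (Finite PEmpty)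
  · intro m hm
    obtain ⟨k, rfl⟩ : ∃ k, m = k + 1 := ⟨m - 1, by omega⟩
    exact inferInstanceAs (IsEmpty PEmpty)

/-- The one-point space is a finite CW complex of dimension exactly `0`. -/
theorem isFiniteCWComplexOfDimEq_punit : IsFiniteCWComplexOfDimEq PUnit 0 := by
  refine ⟨inferInstance, CWComplex.ofDiscreteTopology, ?_, ?_, ?_⟩
  · refine @RelCWComplex.Finite.mk _ _ _ _ _ ⟨?_⟩ ⟨?_⟩
    · refine Filter.eventually_atTop.mpr ⟨1, fun m hm => ?_⟩
      obtain ⟨k, rfl⟩ : ∃ k, m = k + 1 := ⟨m - 1, by omega⟩
      exact inferInstanceAs (IsEmpty PEmpty)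
    · intro m
      cases m with
      | zero => exact inferInstanceAs (Finite (Set.univ : Set PUnit))
      | succ k => exact inferInstanceAs (Finite PEmpty)
  · intro m hm
    obtain ⟨k, rfl⟩ : ∃ k, m = k + 1 := ⟨m - 1, by omega⟩
    exact inferInstanceAs (IsEmpty PEmpty)
  · exact ⟨(⟨PUnit.unit, Set.mem_univ _⟩ : (Set.univ : Set PUnit))⟩

/-- A space with a finite CW structure is compact: `ℝ` is not a finite CW complex. -/
theorem not_isFiniteCWComplexOfDimLE_real (n : ℕ) : ¬ IsFiniteCWComplexOfDimLE ℝ n := by
  rintro ⟨_, hC, hfin, -⟩
  have : IsCompact (Set.univ : Set ℝ) := by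
    have hu := @CWComplex.union _ _ (Set.univ : Set ℝ) hC
    rw [← hu]
    have hcells : Finite (Σ m, RelCWComplex.cell (Set.univ : Set ℝ) m) :=
      (RelCWComplex.finite_iff_finite_cells (C := (Set.univ : Set ℝ))).mp hfin
    have : (⋃ (m : ℕ) (j : RelCWComplex.cell (Set.univ : Set ℝ) m),
        RelCWComplex.closedCell m j) =
        ⋃ (x : Σ m, RelCWComplex.cell (Set.univ : Set ℝ) m), RelCWComplex.closedCell x.1 x.2 := by
      rw [Set.iUnion_sigma]
    rw [this]
    exact isCompact_iUnion fun x => RelCWComplex.isCompact_closedCell
  exact (noncompact_univ ℝ) this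

/-- A point carries no cell of positive dimension: it is not a CW complex of dimension exactly
`n + 1` (in particular it is not three-dimensional), although it is one of dimension `≤ n + 1`. -/
theorem not_isFiniteCWComplexOfDimEq_punit_succ (n : ℕ) :
    ¬ IsFiniteCWComplexOfDimEq PUnit (n + 1) := by
  rintro ⟨_, hC, -, -, ⟨i⟩⟩
  have hsrc := @RelCWComplex.source_eq _ _ (Set.univ : Set PUnit) ∅ _ (n + 1) i
  have hinj := (@RelCWComplex.map _ _ (Set.univ : Set PUnit) ∅ _ (n + 1) i).injOn
  rw [hsrc] at hinj
  have ha : (0 : Fin (n + 1) → ℝ) ∈ Metric.ball (0 : Fin (n + 1) → ℝ) 1 := by simp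
  have hb : (fun _ => 1 / 2 : Fin (n + 1) → ℝ) ∈ Metric.ball (0 : Fin (n + 1) → ℝ) 1 := by
    rw [mem_ball_zero_iff, pi_norm_lt_iff one_pos]
    intro j
    rw [Real.norm_eq_abs, abs_of_pos (by norm_num)]
    norm_num
  have h := congrFun (hinj ha hb (Subsingleton.elim _ _)) 0
  norm_num at h

/-! ### Digest of the checks of `SanityExample.lean`, `SanityTorus.lean`, `SanityRound.lean` and
`SanityHausdorff.lean` -/

/-- All positive clauses of `Statement` are met by ONE space, the solid cube `[-1,1]^3`. -/
theorem positive_clauses_can_be_met :
    IsFiniteCWComplexOfDimEq (Cube 3) 3 ∧ ConnectedSpace (Cube 3) ∧ SatisfiesD2 (Cube 3) :=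
  cube_positive_conditions

/-- The last clause of `Statement` is a genuine restriction: it fails for the solid cube, which
meets all the other clauses. -/
theorem last_clause_is_a_restriction :
    ¬ ¬ ∃ (Y : Type) (_ : TopologicalSpace Y),
      IsFiniteCWComplexOfDimLE Y 2 ∧ Nonempty (ContinuousMap.HomotopyEquiv (Cube 3) Y) :=
  not_not_intro cube_homotopyEquiv_dimLE_two

/-- `SatisfiesD2` is a genuine restriction: the 3-torus `ℝ³/ℤ³` does not satisfy it. -/
theorem satisfiesD2_is_a_restriction : ¬ SatisfiesD2 Torus.T3 :=
  not_satisfiesD2_torus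

/-- Every contractible space satisfies `SatisfiesD2`. -/
theorem satisfiesD2_examples (Z : Type) [TopologicalSpace Z] [ContractibleSpace Z] :
    SatisfiesD2 Z :=
  satisfiesD2_of_contractible Z

/-- The cells may be taken round: `Statement` is equivalent to the same sentence about CW complexes
whose `n`-cells are modelled on the unit ball of `EuclideanSpace ℝ (Fin n)` (`RoundCW`). -/
theorem cells_may_be_round :
    Statement ↔
      ∃ (X : Type) (_ : TopologicalSpace X),
        (T2Space X ∧ ∃ R : RoundCW (Set.univ : Set X),
          Finite (Σ m, R.cell m) ∧ (∀ m : ℕ, 3 < m → IsEmpty (R.cell m)) ∧ Nonempty (R.cell 3)) ∧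
        ConnectedSpace X ∧ SatisfiesD2 X ∧
          ¬ ∃ (Y : Type) (_ : TopologicalSpace Y),
            (T2Space Y ∧ ∃ R : RoundCW (Set.univ : Set Y),
              Finite (Σ m, R.cell m) ∧ ∀ m : ℕ, 2 < m → IsEmpty (R.cell m)) ∧
            Nonempty (ContinuousMap.HomotopyEquiv X Y) :=
  statement_iff_round

/-- The clause `T2Space X` of `IsFiniteCWComplexOfDimLE` and `IsFiniteCWComplexOfDimEq` is a genuine
restriction: the two point indiscrete space meets all the other clauses of
`IsFiniteCWComplexOfDimLE X 0`, and both predicates reject it in every dimension. -/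
theorem hausdorff_clause_is_a_restriction :
    (∃ _ : CWComplex (Set.univ : Set TwoIndiscrete), CWComplex.Finite (Set.univ : Set TwoIndiscrete) ∧
        ∀ m : ℕ, 0 < m → IsEmpty (RelCWComplex.cell (Set.univ : Set TwoIndiscrete) m)) ∧
      ∀ n : ℕ, ¬ IsFiniteCWComplexOfDimLE TwoIndiscrete n ∧ ¬ IsFiniteCWComplexOfDimEq TwoIndiscrete n :=
  ⟨⟨twoIndiscreteCW, finite_twoIndiscreteCW, isEmpty_cell_twoIndiscreteCW⟩, fun n =>
    ⟨not_isFiniteCWComplexOfDimLE_twoIndiscrete n, not_isFiniteCWComplexOfDimEq_twoIndiscrete n⟩⟩

end

end Claimed.Open.R321
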