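import Claimed.Open.R321.Sanity
import Claimed.Open.R321.SanityChains

/-!
# Sanity check: the base point in `SatisfiesD2`

`SatisfiesD2 X` asks for `H³(X; M) = 0` for every base point `e₀` of `X̃` and every module `M` over
`ℤ[π₁(X, p e₀)]` (`CLAIM.md`, deviation 5).  The base point does not matter:

* `deckToFundamentalGroup_conj_path`: for a path `γ` of `X̃` from `e₀` to `e₁`, the identification
  `deckToFundamentalGroup U e₁` is `deckToFundamentalGroup U e₀` followed by the usual change of base
  point along the path `p ∘ γ` of `X` (Mathlib's `FundamentalGroup.fundamentalGroupMulEquivOfPath`);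
* `basePointEquiv U e₀ e₁ : π₁(X, p e₀) ≃* π₁(X, p e₁)`: that change of base point (it does not depend
  on `γ`: `basePointEquiv_eq_ofPath`), `basePointEquiv_deckToFundamentalGroup`;
* `subsingleton_localCohomology_of_basePoint`: if `H^{n+1}(X; M) = 0` for all modules at ONE base point
  then the same holds at every base point;
* `satisfiesD2_iff_exists_basePoint`: `SatisfiesD2 X` iff some universal cover has the homology clause
  and the cohomology clause at one base point.
-/

set_option autoImplicit false

namespace Claimed.Open.R321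

open CategoryTheory AlgebraicTopology Topology

noncomputable section

variable {X : Type} [TopologicalSpace X]

/-- Change of base point for `deckToFundamentalGroup`: conjugation by the image of a path of `X̃`. -/
theorem deckToFundamentalGroup_conj_path (U : UniversalCover X) {e₀ e₁ : U.E} (γ : Path e₀ e₁)
    (g : deckGroup U.p) :
    deckToFundamentalGroup U e₁ g =
      FundamentalGroup.fundamentalGroupMulEquivOfPath (γ.map U.isCoveringMap.continuous)
        (deckToFundamentalGroup U e₀ g) := by
  let δ₀ : Path (g.1 e₀) e₀ := PathConnectedSpace.somePath _ _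
  let δ₁ : Path (g.1 e₁) e₁ := (γ.map g.1.continuous).symm.trans (δ₀.trans γ)
  rw [deckToFundamentalGroup_eq U e₁ g δ₁, deckToFundamentalGroup_eq U e₀ g δ₀]
  change Path.Homotopic.Quotient.mk _ =
    Path.Homotopic.Quotient.trans (Path.Homotopic.Quotient.symm (Path.Homotopic.Quotient.mk _))
      (Path.Homotopic.Quotient.trans (Path.Homotopic.Quotient.mk _) (Path.Homotopic.Quotient.mk _))
  rw [← Path.Homotopic.Quotient.mk_symm, ← Path.Homotopic.Quotient.mk_trans,
    ← Path.Homotopic.Quotient.mk_trans]
  congr 1
  ext t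
  change U.p (((γ.map g.1.continuous).symm.trans (δ₀.trans γ)) t) =
    (((γ.map U.isCoveringMap.continuous).symm.trans
      (((δ₀.map U.isCoveringMap.continuous).cast (g.2 e₀).symm rfl).trans
        (γ.map U.isCoveringMap.continuous))) t)
  rw [Path.trans_apply, Path.trans_apply]
  split_ifs with h1
  · exact g.2 _
  · rw [Path.trans_apply, Path.trans_apply]
    split_ifs
    · rfl
    · rfl

/-- The change of base point `π₁(X, p e₀) ≃* π₁(X, p e₁)` along the image of a path of `X̃`. -/
def basePointEquiv (U : UniversalCover X) (e₀ e₁ : U.E) :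
    FundamentalGroup X (U.p e₀) ≃* FundamentalGroup X (U.p e₁) :=
  FundamentalGroup.fundamentalGroupMulEquivOfPath
    ((PathConnectedSpace.somePath e₀ e₁).map U.isCoveringMap.continuous)

/-- Every path of `X̃` from `e₀` to `e₁` computes `basePointEquiv`. -/
theorem basePointEquiv_eq_ofPath (U : UniversalCover X) {e₀ e₁ : U.E} (γ : Path e₀ e₁) :
    basePointEquiv U e₀ e₁ =
      FundamentalGroup.fundamentalGroupMulEquivOfPath (γ.map U.isCoveringMap.continuous) := by
  have h : Path.Homotopic (PathConnectedSpace.somePath e₀ e₁) γ :=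
    SimplyConnectedSpace.paths_homotopic _ _
  have h' : (⟦(PathConnectedSpace.somePath e₀ e₁).map U.isCoveringMap.continuous⟧ :
      Path.Homotopic.Quotient (U.p e₀) (U.p e₁)) = ⟦γ.map U.isCoveringMap.continuous⟧ :=
    Quotient.sound (h.map ⟨U.p, U.isCoveringMap.continuous⟩)
  unfold basePointEquiv FundamentalGroup.fundamentalGroupMulEquivOfPath
  rw [h']

/-- `basePointEquiv` is compatible with the identifications of the deck group with `π₁`. -/
theorem basePointEquiv_deckToFundamentalGroup (U : UniversalCover X) (e₀ e₁ : U.E)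
    (g : deckGroup U.p) :
    basePointEquiv U e₀ e₁ (deckToFundamentalGroup U e₀ g) = deckToFundamentalGroup U e₁ g :=
  (deckToFundamentalGroup_conj_path U _ g).symm

/-- The ring homomorphism `ℤ[π₁(X, p e₀)] → ℤ[π₁(X, p e₁)]` induced by `basePointEquiv`. -/
def basePointRingHom (U : UniversalCover X) (e₀ e₁ : U.E) :
    MonoidAlgebra ℤ (FundamentalGroup X (U.p e₀)) →+* MonoidAlgebra ℤ (FundamentalGroup X (U.p e₁)) :=
  MonoidAlgebra.mapDomainRingHom ℤ (basePointEquiv U e₀ e₁).toMonoidHom

theorem basePointRingHom_of (U : UniversalCover X) (e₀ e₁ : U.E) (g : deckGroup U.p) :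
    basePointRingHom U e₀ e₁ (MonoidAlgebra.of ℤ _ (deckToFundamentalGroup U e₀ g)) =
      MonoidAlgebra.of ℤ _ (deckToFundamentalGroup U e₁ g) := by
  unfold basePointRingHom
  rw [← basePointEquiv_deckToFundamentalGroup U e₀ e₁ g]
  simp [MonoidAlgebra.of_apply]

/-- **One base point is enough.**  If `H^{n+1}(X; M) = 0` for all `ℤ[π₁(X, p e₀)]`-modules `M`, then
`H^{n+1}(X; M) = 0` for all `ℤ[π₁(X, p e₁)]`-modules `M`. -/
theorem subsingleton_localCohomology_of_basePoint (U : UniversalCover X) (e₀ e₁ : U.E) (n : ℕ)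
    (h : ∀ (M : Type) [AddCommGroup M] [Module (MonoidAlgebra ℤ (FundamentalGroup X (U.p e₀))) M],
      Subsingleton (localCohomology U e₀ M (n + 1)))
    (M : Type) [AddCommGroup M] [Module (MonoidAlgebra ℤ (FundamentalGroup X (U.p e₁))) M] :
    Subsingleton (localCohomology U e₁ M (n + 1)) := by
  let inst0 : Module (MonoidAlgebra ℤ (FundamentalGroup X (U.p e₀))) M :=
    Module.compHom M (basePointRingHom U e₀ e₁)
  have key : ∀ (g : deckGroup U.p) (m : M),
      MonoidAlgebra.of ℤ _ (deckToFundamentalGroup U e₀ g) • m =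
        MonoidAlgebra.of ℤ _ (deckToFundamentalGroup U e₁ g) • m := by
    intro g m
    rw [← basePointRingHom_of U e₀ e₁ g]
    rfl
  have h2 := (subsingleton_localCohomology_succ_iff U e₀ M).1 (h M)
  rw [subsingleton_localCohomology_succ_iff]
  intro φ hφ hcoc
  obtain ⟨ψ, hψ, hψφ⟩ := h2 φ (fun g c => (hφ g c).trans (key g _).symm) hcoc
  exact ⟨ψ, fun g c => (hψ g c).trans (key g _), hψφ⟩

/-- **The base point in `SatisfiesD2` does not matter.** -/
theorem satisfiesD2_iff_exists_basePoint :
    SatisfiesD2 X ↔ ∃ U : UniversalCover X,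
      (∀ i : ℕ, 2 < i → Limits.IsZero (singularHomology i U.E)) ∧
      ∃ e₀ : U.E, ∀ (M : Type) [AddCommGroup M]
        [Module (MonoidAlgebra ℤ (FundamentalGroup X (U.p e₀))) M],
        Subsingleton (localCohomology U e₀ M 3) := by
  constructor
  · rintro ⟨U, h1, h2⟩
    obtain ⟨e⟩ : Nonempty U.E := inferInstance
    exact ⟨U, h1, e, fun M _ _ => h2 e M⟩
  · rintro ⟨U, h1, e₀, h2⟩
    exact ⟨U, h1, fun e₁ M _ _ => subsingleton_localCohomology_of_basePoint U e₀ e₁ 2 h2 M⟩

end

end Claimed.Open.R321
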