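import Claimed.Open.R321.Sanity

/-!
# Sanity check for R321: `SatisfiesD2` sees one component only, so `ConnectedSpace X` has teeth

Mathlib's `IsCoveringMap` allows empty fibres (deviation 9 of `CLAIM.md`).  For a connected `X` this
is harmless (`surjective_of_isCoveringMap`).  This file shows what happens without the clause
`ConnectedSpace X` of `Statement`: a "universal cover" in the sense of `UniversalCover` may cover one
component only, and then `SatisfiesD2` says nothing about the others.

* `isCoveringMap_inl`: the inclusion `C → C ⊕ Y` of a compact Hausdorff summand is a covering map.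
* `satisfiesD2_sum_of_contractible`: `C ⊕ Y` satisfies `SatisfiesD2` for every compact Hausdorff
  contractible `C` and **every** Hausdorff space `Y`.
* `satisfiesD2_punit_sum_torus`: `pt ⊔ T³` satisfies `SatisfiesD2`, although `T³` does not
  (`not_satisfiesD2_torus`); `pt ⊔ T³` is not connected.  So the clause `ConnectedSpace X` of
  `Statement` is needed for `SatisfiesD2 X` to mean Wall's condition `D(2)`.
-/

set_option autoImplicit false

namespace Claimed.Open.R321

open CategoryTheory AlgebraicTopology Topology

noncomputable section

variable (C Y : Type) [TopologicalSpace C] [TopologicalSpace Y]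

/-- The inclusion of a compact Hausdorff summand is a covering map (with empty fibres over the
other summand). -/
theorem isCoveringMap_inl [CompactSpace C] [T2Space C] [T2Space Y] :
    IsCoveringMap (Sum.inl : C → C ⊕ Y) :=
  isLocalHomeomorph_iff_isCoveringMap.1 IsOpenEmbedding.inl.isLocalHomeomorph

/-- A simply connected compact Hausdorff summand, as a "universal cover" of the sum. -/
def inlCover [CompactSpace C] [T2Space C] [T2Space Y] [SimplyConnectedSpace C] :
    UniversalCover (C ⊕ Y) where
  E := C
  p := Sum.inl
  isCoveringMap := isCoveringMap_inl C Y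
  simplyConnected := inferInstance

/-- **`SatisfiesD2` sees one component only**: `C ⊕ Y` satisfies it for every compact Hausdorff
contractible `C`, whatever the Hausdorff space `Y` is. -/
theorem satisfiesD2_sum_of_contractible [CompactSpace C] [T2Space C] [T2Space Y]
    [ContractibleSpace C] : SatisfiesD2 (C ⊕ Y) := by
  refine ⟨inlCover C Y, fun i hi => isZero_singularHomology_of_contractible C i (by omega), ?_⟩
  intro e₀ M _ _
  rw [subsingleton_localCohomology_succ_iff]
  intro φ _ hφ'
  obtain ⟨g, hg⟩ := exists_factor_of_contractible C (T := ModuleCat.of ℤ M)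
    (homOfAddHom (A := (singularChains.obj (TopCat.of C)).X 3) φ) (by
      ext c
      exact hφ' c)
  refine ⟨g.hom.toAddMonoidHom, ?_, ?_⟩
  · intro γ c
    have hγ : γ = 1 := by
      apply Subtype.ext
      ext e
      exact Sum.inl_injective (γ.2 e)
    subst hγ
    have h1 : TopCat.ofHom (((1 : deckGroup (inlCover C Y).p) : (inlCover C Y).E ≃ₜ (inlCover C Y).E) :
        C((inlCover C Y).E, (inlCover C Y).E)) = 𝟙 _ := by
      ext e
      rfl
    have h2 : (inlCover C Y).deckAct 1 2 c = c := by
      unfold UniversalCover.deckAct
      rw [h1, singularChains.map_id]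
      rfl
    rw [h2, deckToFundamentalGroup_one, map_one, one_smul]
  · intro c
    have := congrArg (fun k => k.hom c) hg
    exact this

open Torus in
/-- The 3-torus of `SanityTorus.lean` is Hausdorff (the lattice is discrete, hence closed). -/
theorem t2Space_T3 : T2Space T3 := by
  have : DiscreteTopology lattice := isDiscrete_iff_discreteTopology.1 isDiscrete_lattice
  have : IsClosed (lattice : Set V3) := AddSubgroup.isClosed_of_discrete
  infer_instance

open Torus in
/-- **The clause `ConnectedSpace X` of `Statement` has teeth**: the disjoint union of a point and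
the 3-torus satisfies `SatisfiesD2`, the 3-torus does not, and the union is not connected. -/
theorem satisfiesD2_punit_sum_torus :
    SatisfiesD2 (PUnit.{1} ⊕ T3) ∧ ¬ SatisfiesD2 T3 ∧ ¬ ConnectedSpace (PUnit.{1} ⊕ T3) := by
  have := t2Space_T3
  refine ⟨satisfiesD2_sum_of_contractible PUnit.{1} T3, not_satisfiesD2_torus, fun h => ?_⟩
  obtain ⟨y⟩ : Nonempty T3 := inferInstance
  have hcl : IsClopen (Set.range (Sum.inl : PUnit.{1} → PUnit.{1} ⊕ T3)) :=
    ⟨isClosed_range_inl, isOpen_range_inl⟩
  rcases isClopen_iff.1 hcl with h0 | h1
  · exact (Set.range_nonempty (Sum.inl : PUnit.{1} → PUnit.{1} ⊕ T3)).ne_empty h0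
  · have : (Sum.inr y : PUnit.{1} ⊕ T3) ∈ Set.range (Sum.inl : PUnit.{1} → PUnit.{1} ⊕ T3) := by
      rw [h1]; trivial
    obtain ⟨_, hx⟩ := this
    exact Sum.inl_ne_inr hx

end

end Claimed.Open.R321
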