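import Claimed.Open.R321.Statement

/-!
# Sanity check for R321: the cube `[-1,1]^N` is a finite CW complex of dimension exactly `N`

The cells are indexed by sign vectors `s : Fin N → SignType`; the cell of `s` consists of the points
`x` with `x i = s i` whenever `s i ≠ 0` and `|x i| < 1` whenever `s i = 0`; its dimension is the
number of zeros of `s`.
-/

set_option autoImplicit false

namespace Claimed.Open.R321

open Topology Metric Set

noncomputable section

/-- The cube `[-1,1]^N`. -/
abbrev Cube (N : ℕ) : Type := Fin N → Set.Icc (-1 : ℝ) 1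

namespace Cube

variable {N n : ℕ}

/-- The free coordinates of a sign vector. -/
def free (s : Fin N → SignType) : Finset (Fin N) := Finset.univ.filter (fun i => s i = 0)

lemma mem_free {s : Fin N → SignType} {i : Fin N} : i ∈ free s ↔ s i = 0 := by
  simp [free]

/-- The `n`-cells of the cube: sign vectors with exactly `n` zeros. -/
abbrev Cell (N n : ℕ) : Type := {s : Fin N → SignType // (free s).card = n}

/-- A sign as a point of `[-1,1]`. -/
def signIcc (a : SignType) : Set.Icc (-1 : ℝ) 1 :=
  ⟨(a : ℝ), by cases a <;> simp⟩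

lemma signIcc_injective : Function.Injective signIcc := by
  intro a b h
  have h' : ((a : SignType) : ℝ) = (b : ℝ) := congrArg Subtype.val h
  cases a <;> cases b <;> first | rfl | (exfalso; norm_num at h')

/-- numbering of the free coordinates -/
def idx (c : Cell N n) : Fin n ≃o free c.1 := (free c.1).orderIsoOfFin c.2

/-- The characteristic map of a cell. -/
def cellFun (c : Cell N n) (y : Fin n → ℝ) : Cube N := fun i =>
  if h : c.1 i = 0 then
    Set.projIcc (-1 : ℝ) 1 (by norm_num) (y ((idx c).symm ⟨i, mem_free.2 h⟩))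
  else signIcc (c.1 i)

/-- The inverse of the characteristic map: forget the fixed coordinates. -/
def cellInv (c : Cell N n) (x : Cube N) : Fin n → ℝ := fun j => (x (idx c j).1).1

lemma continuous_cellFun (c : Cell N n) : Continuous (cellFun c) := by
  refine continuous_pi fun i => ?_
  unfold cellFun
  by_cases h : c.1 i = 0
  · simp only [h, dite_true]
    exact continuous_projIcc.comp (continuous_apply _)
  · simp only [h, dite_false]
    exact continuous_const

lemma continuous_cellInv (c : Cell N n) : Continuous (cellInv c) := by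
  refine continuous_pi fun j => ?_
  exact continuous_subtype_val.comp (continuous_apply _)

lemma cellInv_cellFun (c : Cell N n) {y : Fin n → ℝ} (hy : y ∈ closedBall (0 : Fin n → ℝ) 1) :
    cellInv c (cellFun c y) = y := by
  funext j
  have h0 : c.1 (idx c j).1 = 0 := mem_free.1 (idx c j).2
  have hyj : |y j| ≤ 1 := by
    have := (pi_norm_le_iff_of_nonneg (zero_le_one' ℝ)).1 (mem_closedBall_zero_iff.1 hy) j
    simpa using this
  unfold cellInv cellFun
  simp only [h0, dite_true, Subtype.coe_eta, OrderIso.symm_apply_apply]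
  rw [Set.projIcc_of_mem (by norm_num) (abs_le.1 hyj)]

lemma cellFun_cellInv (c : Cell N n) {x : Cube N}
    (hx : ∀ i, c.1 i ≠ 0 → x i = signIcc (c.1 i)) : cellFun c (cellInv c x) = x := by
  funext i
  unfold cellFun cellInv
  by_cases h : c.1 i = 0
  · simp only [h, dite_true, OrderIso.apply_symm_apply]
    exact Set.projIcc_val (by norm_num) (x i)
  · simp only [h, dite_false]
    exact (hx i h).symm

lemma cellInv_mem_closedBall (c : Cell N n) (x : Cube N) :
    cellInv c x ∈ closedBall (0 : Fin n → ℝ) 1 := by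
  rw [mem_closedBall_zero_iff, pi_norm_le_iff_of_nonneg (zero_le_one' ℝ)]
  intro j
  have h := (x (idx c j).1).2
  rw [Real.norm_eq_abs, abs_le]
  exact h

/-- The closed cell of a sign vector. -/
lemma image_closedBall (c : Cell N n) :
    cellFun c '' closedBall 0 1 = {x | ∀ i, c.1 i ≠ 0 → x i = signIcc (c.1 i)} := by
  ext x
  constructor
  · rintro ⟨y, -, rfl⟩ i hi
    simp [cellFun, hi]
  · intro hx
    exact ⟨cellInv c x, cellInv_mem_closedBall c x, cellFun_cellInv c hx⟩

/-- The open cell of a sign vector. -/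
lemma image_ball (c : Cell N n) :
    cellFun c '' ball 0 1 = {x | (∀ i, c.1 i ≠ 0 → x i = signIcc (c.1 i)) ∧
      ∀ i, c.1 i = 0 → |(x i : ℝ)| < 1} := by
  ext x
  constructor
  · rintro ⟨y, hy, rfl⟩
    refine ⟨fun i hi => by simp [cellFun, hi], fun i hi => ?_⟩
    have hyj : |y ((idx c).symm ⟨i, mem_free.2 hi⟩)| < 1 := by
      have := (pi_norm_lt_iff (zero_lt_one' ℝ)).1 (mem_ball_zero_iff.1 hy)
        ((idx c).symm ⟨i, mem_free.2 hi⟩)
      simpa using this
    simp only [cellFun, hi, dite_true]
    rw [Set.projIcc_of_mem (by norm_num) (abs_le.1 hyj.le)]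
    exact hyj
  · rintro ⟨hx, hx'⟩
    refine ⟨cellInv c x, ?_, cellFun_cellInv c hx⟩
    rw [mem_ball_zero_iff, pi_norm_lt_iff (zero_lt_one' ℝ)]
    intro j
    simpa [cellInv] using hx' (idx c j).1 (mem_free.1 (idx c j).2)

/-- The characteristic map as a partial equivalence. -/
def cellMap (c : Cell N n) : PartialEquiv (Fin n → ℝ) (Cube N) where
  toFun := cellFun c
  invFun := cellInv c
  source := ball 0 1
  target := cellFun c '' ball 0 1
  map_source' := fun y hy => ⟨y, hy, rfl⟩
  map_target' := by
    rintro _ ⟨y, hy, rfl⟩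
    rwa [cellInv_cellFun c (ball_subset_closedBall hy)]
  left_inv' := fun y hy => cellInv_cellFun c (ball_subset_closedBall hy)
  right_inv' := by
    rintro _ ⟨y, hy, rfl⟩
    rw [cellInv_cellFun c (ball_subset_closedBall hy)]

lemma isEmpty_cell_of_lt (h : N < n) : IsEmpty (Cell N n) := by
  refine ⟨fun c => ?_⟩
  have h1 : (free c.1).card ≤ N := by
    simpa using Finset.card_le_univ (free c.1)
  have h2 := c.2
  omega

/-- A point lies in at most one open cell. -/
lemma cell_eq_of_mem {n m : ℕ} (c : Cell N n) (d : Cell N m) {x : Cube N}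
    (hc : x ∈ cellFun c '' ball 0 1) (hd : x ∈ cellFun d '' ball 0 1) : c.1 = d.1 := by
  rw [image_ball] at hc hd
  funext i
  have key : ∀ a : SignType, a ≠ 0 → |((signIcc a : Set.Icc (-1 : ℝ) 1) : ℝ)| = 1 := by
    intro a ha
    cases a
    · exact absurd rfl ha
    · simp [signIcc]
    · simp [signIcc]
  by_cases h1 : c.1 i = 0
  · by_cases h2 : d.1 i = 0
    · rw [h1, h2]
    · have := hc.2 i h1
      rw [hd.1 i h2, key _ h2] at this
      exact absurd this (lt_irrefl _)
  · by_cases h2 : d.1 i = 0
    · have := hd.2 i h2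
      rw [hc.1 i h1, key _ h1] at this
      exact absurd this (lt_irrefl _)
    · exact signIcc_injective ((hc.1 i h1).symm.trans (hd.1 i h2))

lemma pairwiseDisjoint_cells :
    (univ : Set (Σ n, Cell N n)).PairwiseDisjoint
      (fun ni => cellMap ni.2 '' ball 0 1) := by
  rintro ⟨n, c⟩ - ⟨m, d⟩ - hne
  rw [Function.onFun, Set.disjoint_left]
  intro x hc hd
  apply hne
  have h : c.1 = d.1 := cell_eq_of_mem c d hc hd
  have hnm : n = m := by rw [← c.2, ← d.2, h]
  subst hnm
  exact congrArg _ (Subtype.ext h)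

/-- The boundary of an `n`-cell lies in the closed cells of smaller dimension. -/
lemma mapsTo_sphere (c : Cell N n) :
    MapsTo (cellMap c) (sphere 0 1)
      (⋃ (m < n) (j : Cell N m), cellMap j '' closedBall 0 1) := by
  intro y hy
  have hy1 : ‖y‖ = 1 := mem_sphere_zero_iff_norm.1 hy
  -- some coordinate of `y` has absolute value one
  obtain ⟨j, hj⟩ : ∃ j, ¬ ‖y j‖ < 1 := by
    by_contra hcon
    push Not at hcon
    have := (pi_norm_lt_iff (zero_lt_one' ℝ)).2 hcon
    rw [hy1] at this
    exact lt_irrefl _ this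
  have hjle : ‖y j‖ ≤ 1 := hy1 ▸ norm_le_pi_norm y j
  have hj1 : |y j| = 1 := le_antisymm hjle (not_lt.1 hj)
  set i₀ : Fin N := (idx c j).1 with hi₀
  have hi₀0 : c.1 i₀ = 0 := mem_free.1 (idx c j).2
  -- the new sign vector
  set a : SignType := SignType.sign (y j) with ha
  have ha0 : a ≠ 0 := by
    rw [ha, Ne, sign_eq_zero_iff]
    intro h0
    rw [h0] at hj1
    simp at hj1
  have hay : ((a : SignType) : ℝ) = y j := by
    rcases (abs_eq (zero_le_one' ℝ)).1 hj1 with h | h
    · rw [ha, h]; simp
    · rw [ha, h]; simp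
  set s' : Fin N → SignType := Function.update c.1 i₀ a with hs'
  have hfree : free s' = (free c.1).erase i₀ := by
    ext i
    simp only [mem_free, Finset.mem_erase, hs', Function.update_apply]
    by_cases h : i = i₀
    · simp [h, ha0]
    · simp [h]
  have hcard : (free s').card = n - 1 := by
    rw [hfree, Finset.card_erase_of_mem (mem_free.2 hi₀0), c.2]
  have hn : 0 < n := j.pos
  refine mem_iUnion₂.2 ⟨n - 1, by omega, mem_iUnion.2 ⟨⟨s', hcard⟩, ?_⟩⟩
  change cellFun c y ∈ cellFun (⟨s', hcard⟩ : Cell N (n - 1)) '' closedBall 0 1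
  rw [image_closedBall]
  intro i hi
  change s' i ≠ 0 at hi
  change cellFun c y i = signIcc (s' i)
  by_cases h : i = i₀
  · subst h
    have : s' i₀ = a := by simp [hs']
    rw [this]
    apply Subtype.ext
    simp only [cellFun, hi₀0, dite_true]
    have hidx : (idx c).symm ⟨i₀, mem_free.2 hi₀0⟩ = j := by
      rw [OrderIso.symm_apply_eq]
    rw [hidx, Set.projIcc_of_mem (by norm_num) (abs_le.1 hj1.le)]
    exact hay.symm
  · have hs'i : s' i = c.1 i := by simp [hs', h]
    rw [hs'i] at hi ⊢
    simp [cellFun, hi]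

/-- the top cell -/
def topCell (N : ℕ) : Cell N N := ⟨fun _ => 0, by simp [free]⟩

lemma iUnion_closedCells :
    ⋃ (n : ℕ) (j : Cell N n), cellMap j '' closedBall 0 1 = (univ : Set (Cube N)) := by
  refine eq_univ_of_forall fun x => mem_iUnion₂.2 ⟨N, topCell N, ?_⟩
  change x ∈ cellFun (topCell N) '' closedBall 0 1
  rw [image_closedBall]
  intro i hi
  exact absurd rfl hi

/-- The CW structure of the cube. -/
@[reducible] def cwComplex (N : ℕ) : CWComplex (univ : Set (Cube N)) :=
  CWComplex.mkFinite (univ : Set (Cube N)) (Cell N) (fun _ c => cellMap c)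
    (Filter.eventually_atTop.2 ⟨N + 1, fun _ hn => isEmpty_cell_of_lt (by omega)⟩)
    (fun _ => inferInstance) (fun _ _ => rfl)
    (fun _ c => (continuous_cellFun c).continuousOn)
    (fun _ c => (continuous_cellInv c).continuousOn)
    pairwiseDisjoint_cells (fun _ c => mapsTo_sphere c) iUnion_closedCells

end Cube

/-- **The cube `[-1,1]^N` is a finite CW complex of dimension exactly `N`.** -/
theorem isFiniteCWComplexOfDimEq_cube (N : ℕ) : IsFiniteCWComplexOfDimEq (Cube N) N := by
  refine ⟨inferInstance, Cube.cwComplex N, ?_, ?_, ?_⟩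
  · exact CWComplex.finite_mkFinite _ _ _ _ _ _ _ _ _ _ _
  · intro m hm
    exact Cube.isEmpty_cell_of_lt hm
  · exact ⟨Cube.topCell N⟩

theorem isFiniteCWComplexOfDimLE_cube (N : ℕ) : IsFiniteCWComplexOfDimLE (Cube N) N := by
  obtain ⟨h1, h2, h3, h4, -⟩ := isFiniteCWComplexOfDimEq_cube N
  exact ⟨h1, h2, h3, h4⟩

end

end Claimed.Open.R321
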