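import Claimed.Open.R321.Sanity
import Claimed.Open.R321.CoverUnique

/-!
# Sanity check: the deck group of a universal cover is `π₁`

`deckToFundamentalGroup_bijective`: for a locally path connected space `X` (every CW complex is one)
the homomorphism `deckToFundamentalGroup U e₀ : deckGroup U.p → π₁(X, p e₀)` of `Statement.lean` is
bijective (Hatcher, Proposition 1.39).  So the equivariance condition in `cochains` is
`ℤ[π₁(X)]`-linearity, for the action of `π₁(X)` on `S_*(X̃)` by deck transformations.
-/

set_option autoImplicit false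

namespace Claimed.Open.R321

open Topology unitInterval

noncomputable section

variable {X : Type} [TopologicalSpace X]

/-- `deckToFundamentalGroup` is onto if `X` is locally path connected. -/
theorem deckToFundamentalGroup_surjective [LocallyPathConnectedSpace X] (U : UniversalCover X)
    (e₀ : U.E) : Function.Surjective (deckToFundamentalGroup U e₀) := by
  intro c
  obtain ⟨γ, rfl⟩ := Path.Homotopic.Quotient.mk_surjective (FundamentalGroup.toPath c)
  -- lift the reversed loop, starting at `e₀`
  have h0 : (γ.symm : C(I, X)) 0 = U.p e₀ := γ.symm.source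
  let Γ : C(I, U.E) := U.isCoveringMap.liftPath γ.symm e₀ h0
  have hΓ : ∀ t, U.p (Γ t) = γ.symm t := fun t =>
    congrFun (U.isCoveringMap.liftPath_lifts γ.symm e₀ h0) t
  have hΓ0 : Γ 0 = e₀ := U.isCoveringMap.liftPath_zero γ.symm e₀ h0
  have h1 : U.p e₀ = U.p (Γ 1) := by rw [hΓ 1]; exact γ.symm.target.symm
  -- the deck transformation which carries `e₀` to the end point
  obtain ⟨Φ, hΦ, hΦ0⟩ := UniversalCover.exists_homeomorph U U e₀ (Γ 1) h1
  let g : deckGroup U.p := ⟨Φ, hΦ⟩
  let δ : Path (g.1 e₀) e₀ := (⟨Γ, hΓ0, hΦ0.symm⟩ : Path e₀ (g.1 e₀)).symm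
  refine ⟨g, ?_⟩
  rw [deckToFundamentalGroup_eq U e₀ g δ]
  congr 2
  ext t
  show U.p (Γ (σ t)) = γ t
  rw [hΓ, Path.symm_apply, Function.comp_apply, unitInterval.symm_symm]

/-- The deck group of a universal cover of a locally path connected space is `π₁`. -/
theorem deckToFundamentalGroup_bijective [LocallyPathConnectedSpace X] (U : UniversalCover X)
    (e₀ : U.E) : Function.Bijective (deckToFundamentalGroup U e₀) :=
  ⟨deckToFundamentalGroup_injective U e₀, deckToFundamentalGroup_surjective U e₀⟩

/-- The identification of the deck group with `π₁`, as an isomorphism of groups. -/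
def deckMulEquivFundamentalGroup [LocallyPathConnectedSpace X] (U : UniversalCover X) (e₀ : U.E) :
    deckGroup U.p ≃* FundamentalGroup X (U.p e₀) :=
  MulEquiv.ofBijective (deckToFundamentalGroupHom U e₀) (deckToFundamentalGroup_bijective U e₀)

end

end Claimed.Open.R321
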