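import Claimed.Open.R321.SanityChains
import Claimed.Open.R321.SanityDeck
import Claimed.Open.R321.ChainBridge

/-!
# Sanity check for R321: `H⁰(X; M)` is the group of invariants `M^{π₁(X)}`

`localCohomology U e₀ M n` is defined in `Statement.lean` by equivariant cochains on the singular chains of
the universal cover.  This file computes it in degree `0`, for every space `X`, every universal cover,
every base point and every module:

* `mem_cocycles_zero_iff`: an additive map `φ : S_0(X̃) → M` is an equivariant cocycle iff it takes one and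
  the same value `m` on all points of `X̃`, and `m` is fixed by (the image in `π₁(X)` of) the deck group;
* `cocyclesZeroEquiv`: the group of `0`-cocycles is isomorphic to `deckInvariants U e₀ M`;
* `localCohomologyZeroEquiv`: a bijection of `localCohomology U e₀ M 0` with `deckInvariants U e₀ M`;
* `mem_deckInvariants_iff`: for locally path connected `X` (so for the spaces of `Statement`),
  `deckInvariants U e₀ M` is the group `M^{π₁(X)}` of the elements fixed by all of `π₁(X, p e₀)`.
-/

set_option autoImplicit false

namespace Claimed.Open.R321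

open CategoryTheory AlgebraicTopology Topology

noncomputable section

section Simplices

variable {E : Type} [TopologicalSpace E]

/-- The singular `0`-simplex at a point. -/
def ptSimplex (e : E) : Simplex 0 E := ContinuousMap.const _ e

/-- The singular `1`-simplex of a path. -/
def pathSimplex {a b : E} (γ : Path a b) : Simplex 1 E :=
  ⟨fun x => γ.extend (x.1 1),
    γ.continuous_extend.comp ((continuous_apply 1).comp continuous_subtype_val)⟩

theorem eq_ptSimplex (σ : Simplex 0 E) : σ = ptSimplex (σ default) := by
  ext x
  exact congrArg σ (Subsingleton.elim _ _)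

theorem pathSimplex_face_zero {a b : E} (γ : Path a b) :
    (pathSimplex γ).face 0 = ptSimplex b := by
  ext x
  obtain rfl : x = stdSimplex.vertex 0 := Subsingleton.elim _ _
  show γ.extend ((stdSimplex.map (Fin.succAbove (0 : Fin 2)) (stdSimplex.vertex (0 : Fin 1))).1 1) = b
  rw [stdSimplex.map_vertex]
  simp

theorem pathSimplex_face_one {a b : E} (γ : Path a b) :
    (pathSimplex γ).face 1 = ptSimplex a := by
  ext x
  obtain rfl : x = stdSimplex.vertex 0 := Subsingleton.elim _ _
  show γ.extend ((stdSimplex.map (Fin.succAbove (1 : Fin 2)) (stdSimplex.vertex (0 : Fin 1))).1 1) = a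
  rw [stdSimplex.map_vertex]
  simp

end Simplices

variable {X : Type} [TopologicalSpace X] (U : UniversalCover X) (e₀ : U.E)
  (M : Type) [AddCommGroup M] [Module (MonoidAlgebra ℤ (FundamentalGroup X (U.p e₀))) M]

/-- The elements of `M` fixed by the deck group (acting through `deckToFundamentalGroup`). -/
def deckInvariants : AddSubgroup M where
  carrier := {m | ∀ g : deckGroup U.p,
    MonoidAlgebra.of ℤ _ (deckToFundamentalGroup U e₀ g) • m = m}
  add_mem' := fun {a b} ha hb g => by rw [smul_add, ha g, hb g]
  zero_mem' := fun g => smul_zero _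
  neg_mem' := fun {a} ha g => by rw [smul_neg, ha g]

/-- **The `0`-cocycles**: the additive maps which take one value on all points, fixed by the deck group. -/
theorem mem_cocycles_zero_iff (φ : U.chains 0 →+ M) :
    φ ∈ cocycles U e₀ M 0 ↔
      ∃ m ∈ deckInvariants U e₀ M, ∀ σ : Simplex 0 U.E, φ (gen σ) = m := by
  rw [mem_cocycles]
  constructor
  · rintro ⟨heq, hcoc⟩
    have hconst : ∀ e : U.E, φ (gen (ptSimplex e)) = φ (gen (ptSimplex e₀)) := by
      intro e
      have h := hcoc (gen (pathSimplex (PathConnectedSpace.somePath e₀ e)))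
      rw [U.boundary_eq, bd_gen, Fin.sum_univ_two, pathSimplex_face_zero, pathSimplex_face_one] at h
      simp only [Fin.val_zero, pow_zero, one_smul, Fin.val_one, pow_one, map_add, map_zsmul,
        neg_smul] at h
      exact add_neg_eq_zero.1 h
    refine ⟨φ (gen (ptSimplex e₀)), fun g => ?_, fun σ => ?_⟩
    · have h := heq g (gen (ptSimplex e₀))
      rw [U.deckAct_eq, chainMap_gen] at h
      rw [← h]
      exact hconst (g.1 e₀)
    · rw [eq_ptSimplex σ]
      exact hconst _
  · rintro ⟨m, hm, hφ⟩
    constructor
    · intro g c
      have key : φ.comp (U.deckAct g 0) =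
          (DistribSMul.toAddMonoidHom M
            (MonoidAlgebra.of ℤ _ (deckToFundamentalGroup U e₀ g))).comp φ := by
        apply chains_hom_ext
        intro σ
        show φ (U.deckAct g 0 (gen σ)) = MonoidAlgebra.of ℤ _ (deckToFundamentalGroup U e₀ g) • φ (gen σ)
        rw [U.deckAct_eq, chainMap_gen, hφ, hφ, hm g]
      exact DFunLike.congr_fun key c
    · intro c
      have key : φ.comp (U.boundary 0) = 0 := by
        apply chains_hom_ext
        intro τ
        show φ (U.boundary 0 (gen τ)) = 0
        rw [U.boundary_eq, bd_gen, Fin.sum_univ_two]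
        simp [hφ]
      exact DFunLike.congr_fun key c

/-- The value of a `0`-cocycle on the points of `X̃`. -/
def cocycleValue (φ : cocycles U e₀ M 0) : deckInvariants U e₀ M :=
  ⟨φ.1 (gen (ptSimplex e₀)), by
    obtain ⟨m, hm, h⟩ := (mem_cocycles_zero_iff U e₀ M φ.1).1 φ.2
    rw [h]
    exact hm⟩

/-- The constant `0`-cocycle with an invariant value. -/
def constCocycle (m : deckInvariants U e₀ M) : cocycles U e₀ M 0 :=
  ⟨chainsLift fun _ => m.1,
    (mem_cocycles_zero_iff U e₀ M _).2 ⟨m.1, m.2, fun σ => chainsLift_gen _ σ⟩⟩

theorem constCocycle_gen (m : deckInvariants U e₀ M) (σ : Simplex 0 U.E) :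
    (constCocycle U e₀ M m).1 (gen σ) = m.1 := by
  unfold constCocycle
  exact chainsLift_gen (fun _ : Simplex 0 U.E => m.1) σ

theorem cocycleValue_coe (φ : cocycles U e₀ M 0) :
    (cocycleValue U e₀ M φ).1 = φ.1 (gen (ptSimplex e₀)) := rfl

theorem constCocycle_cocycleValue (φ : cocycles U e₀ M 0) :
    constCocycle U e₀ M (cocycleValue U e₀ M φ) = φ := by
  obtain ⟨m, hm, h⟩ := (mem_cocycles_zero_iff U e₀ M φ.1).1 φ.2
  apply Subtype.ext
  apply chains_hom_ext
  intro σ
  rw [constCocycle_gen, cocycleValue_coe, h, h]

theorem cocycleValue_constCocycle (m : deckInvariants U e₀ M) :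
    cocycleValue U e₀ M (constCocycle U e₀ M m) = m := by
  apply Subtype.ext
  rw [cocycleValue_coe, constCocycle_gen]

/-- The group of `0`-cocycles is the group of invariants. -/
def cocyclesZeroEquiv : cocycles U e₀ M 0 ≃+ deckInvariants U e₀ M where
  toFun := cocycleValue U e₀ M
  invFun := constCocycle U e₀ M
  left_inv := constCocycle_cocycleValue U e₀ M
  right_inv := cocycleValue_constCocycle U e₀ M
  map_add' φ ψ := Subtype.ext (AddMonoidHom.add_apply φ.1 ψ.1 _)

/-- **`H⁰(X; M) = M^{π₁}`**: the set `localCohomology U e₀ M 0` is in bijection with the invariants (the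
class of a cocycle goes to its value on the points of `X̃`). -/
def localCohomologyZeroEquiv : localCohomology U e₀ M 0 ≃ deckInvariants U e₀ M :=
  ((QuotientAddGroup.quotientAddEquivOfEq
    (show (coboundaries U e₀ M 0).addSubgroupOf (cocycles U e₀ M 0) = ⊥ from
      AddSubgroup.bot_addSubgroupOf _)).trans
    ((QuotientAddGroup.quotientBot).trans (cocyclesZeroEquiv U e₀ M))).toEquiv

theorem localCohomologyZeroEquiv_mk (φ : cocycles U e₀ M 0) :
    localCohomologyZeroEquiv U e₀ M (QuotientAddGroup.mk φ) = cocyclesZeroEquiv U e₀ M φ := rfl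

/-- For locally path connected `X` the invariants are the elements fixed by all of `π₁(X, p e₀)`. -/
theorem mem_deckInvariants_iff [LocallyPathConnectedSpace X] (m : M) :
    m ∈ deckInvariants U e₀ M ↔
      ∀ a : FundamentalGroup X (U.p e₀), MonoidAlgebra.of ℤ _ a • m = m := by
  constructor
  · intro h a
    obtain ⟨g, rfl⟩ := (deckToFundamentalGroup_bijective U e₀).2 a
    exact h g
  · intro h g
    exact h _

end

end Claimed.Open.R321
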