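import Claimed.Open.R321.Sanity

/-!
# Sanity check for R321: `SatisfiesD2` is a topological invariant

`SatisfiesD2 X` is stated through a universal cover, a base point, the identification of the deck
group with `π₁(X, p e₀)` and modules over `ℤ[π₁(X, p e₀)]`.  This file checks that the result does
not depend on anything but the homeomorphism type of `X`.

* `UniversalCover.pushHomeo`: a universal cover of `X` is one of `Y`, for a homeomorphism `X ≃ₜ Y`.
* `deckToFundamentalGroup_pushHomeo`: the identification deck group `→ π₁` is natural: for the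
  pushed cover it is the old one followed by `π₁(h)` (Mathlib's `FundamentalGroup.map`).
* `SatisfiesD2.of_homeomorph`, `satisfiesD2_congr`: `SatisfiesD2 X ↔ SatisfiesD2 Y` for `X ≃ₜ Y`
  (a `ℤ[π₁(Y)]`-module is made a `ℤ[π₁(X)]`-module along `π₁(h)`; the equivariant cochains are the
  same).
-/

set_option autoImplicit false

namespace Claimed.Open.R321

open CategoryTheory AlgebraicTopology Topology

noncomputable section

variable {X Y : Type} [TopologicalSpace X] [TopologicalSpace Y]

/-- A universal cover of `X`, pushed forward along a homeomorphism `X ≃ₜ Y` of the base. -/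
def UniversalCover.pushHomeo (U : UniversalCover X) (h : X ≃ₜ Y) : UniversalCover Y where
  E := U.E
  p := h ∘ U.p
  isCoveringMap := U.isCoveringMap.homeomorph_comp h
  simplyConnected := U.simplyConnected

/-- A deck transformation of the pushed cover is one of the cover. -/
def pushDeck (U : UniversalCover X) (h : X ≃ₜ Y) (g : deckGroup (U.pushHomeo h).p) :
    deckGroup U.p :=
  ⟨g.1, fun e => h.injective (g.2 e)⟩

/-- A deck transformation of the cover is one of the pushed cover. -/
def pushDeckSymm (U : UniversalCover X) (h : X ≃ₜ Y) (g : deckGroup U.p) :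
    deckGroup (U.pushHomeo h).p :=
  ⟨g.1, fun e => congrArg h (g.2 e)⟩

/-- **Naturality of the identification deck group `→ π₁`.** -/
theorem deckToFundamentalGroup_pushHomeo (U : UniversalCover X) (h : X ≃ₜ Y) (e₀ : U.E)
    (g : deckGroup (U.pushHomeo h).p) :
    deckToFundamentalGroup (U.pushHomeo h) e₀ g =
      FundamentalGroup.map (h : C(X, Y)) (U.p e₀)
        (deckToFundamentalGroup U e₀ (pushDeck U h g)) := by
  rw [deckToFundamentalGroup_eq (U.pushHomeo h) e₀ g (PathConnectedSpace.somePath (g.1 e₀) e₀),
    deckToFundamentalGroup_eq U e₀ (pushDeck U h g) (PathConnectedSpace.somePath (g.1 e₀) e₀)]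
  rfl

/-- **`SatisfiesD2` is invariant under homeomorphisms.** -/
theorem SatisfiesD2.of_homeomorph (h : X ≃ₜ Y) (hX : SatisfiesD2 X) : SatisfiesD2 Y := by
  obtain ⟨U, h1, h2⟩ := hX
  refine ⟨U.pushHomeo h, h1, ?_⟩
  intro e₀ M _ inst
  let ρ : MonoidAlgebra ℤ (FundamentalGroup X (U.p e₀)) →+*
      MonoidAlgebra ℤ (FundamentalGroup Y ((U.pushHomeo h).p e₀)) :=
    MonoidAlgebra.mapDomainRingHom ℤ (FundamentalGroup.map (h : C(X, Y)) (U.p e₀))
  let instX : Module (MonoidAlgebra ℤ (FundamentalGroup X (U.p e₀))) M := Module.compHom M ρ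
  have hsm : ∀ (a : FundamentalGroup X (U.p e₀)) (m : M),
      instX.toSMul.smul (MonoidAlgebra.of ℤ _ a) m =
        inst.toSMul.smul
          (MonoidAlgebra.of ℤ _ (FundamentalGroup.map (h : C(X, Y)) (U.p e₀) a)) m := by
    intro a m
    show inst.toSMul.smul (ρ (MonoidAlgebra.of ℤ _ a)) m = _
    congr 1
    exact MonoidAlgebra.mapDomain_single
  have H := (@subsingleton_localCohomology_succ_iff X _ U e₀ M _ instX 2).1 (@h2 e₀ M _ instX)
  rw [subsingleton_localCohomology_succ_iff]
  intro φ hφ hcoc
  obtain ⟨ψ, hψ, hψφ⟩ := H φ (fun g c => by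
    have h3 := hφ (pushDeckSymm U h g) c
    have key := deckToFundamentalGroup_pushHomeo U h e₀ (pushDeckSymm U h g)
    rw [key] at h3
    exact h3.trans (hsm _ _).symm) hcoc
  refine ⟨ψ, fun g c => ?_, hψφ⟩
  have h3 := hψ (pushDeck U h g) c
  have key := deckToFundamentalGroup_pushHomeo U h e₀ g
  rw [key]
  exact h3.trans (hsm _ _)

/-- `SatisfiesD2` depends only on the homeomorphism type. -/
theorem satisfiesD2_congr (h : X ≃ₜ Y) : SatisfiesD2 X ↔ SatisfiesD2 Y :=
  ⟨SatisfiesD2.of_homeomorph h, SatisfiesD2.of_homeomorph h.symm⟩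

end

end Claimed.Open.R321
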