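import Claimed.Open.R321.Statement

/-!
# Sanity check for result 321: the CW predicates are invariant under homeomorphism

`IsFiniteCWComplexOfDimLE X n` and `IsFiniteCWComplexOfDimEq X n` are existence statements about CW structures on `X`.
This file checks that they depend only on the homeomorphism type of `X`:

* `cwComplexOfHomeomorph K h`: a CW structure `K` on `X` is carried by a homeomorphism `h : X ≃ₜ Y` to a CW structure on
  `Y` with the same cells and the characteristic maps `h ∘ Φ`;
* `IsFiniteCWComplexOfDimLE.of_homeomorph`, `IsFiniteCWComplexOfDimEq.of_homeomorph`, and the two `iff` forms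
  `isFiniteCWComplexOfDimLE_congr`, `isFiniteCWComplexOfDimEq_congr`.
-/

set_option autoImplicit false

namespace Claimed.Open.R321

open Topology Metric Set

noncomputable section

variable {X Y : Type} [TopologicalSpace X] [TopologicalSpace Y]

/-- The characteristic map `h ∘ Φ`. -/
def homeoCellMap (K : CWComplex (univ : Set X)) (h : X ≃ₜ Y) (n : ℕ) (i : K.cell n) :
    PartialEquiv (Fin n → ℝ) Y :=
  (K.map n i).trans h.toEquiv.toPartialEquiv

theorem homeoCellMap_image (K : CWComplex (univ : Set X)) (h : X ≃ₜ Y) (n : ℕ) (i : K.cell n)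
    (S : Set (Fin n → ℝ)) : homeoCellMap K h n i '' S = h '' (K.map n i '' S) := by
  rw [image_image]
  rfl

/-- A CW structure is carried along a homeomorphism. -/
abbrev cwComplexOfHomeomorph (K : CWComplex (univ : Set X)) (h : X ≃ₜ Y) :
    CWComplex (univ : Set Y) where
  cell := K.cell
  map := homeoCellMap K h
  source_eq n i := by
    simp [homeoCellMap, K.source_eq]
  continuousOn n i := h.continuous.comp_continuousOn (K.continuousOn n i)
  continuousOn_symm n i := by
    have h1 : ContinuousOn ((K.map n i).symm ∘ h.symm) (h.symm ⁻¹' (K.map n i).target) :=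
      (K.continuousOn_symm n i).comp h.symm.continuous.continuousOn (fun _ hy => hy)
    have h2 : (homeoCellMap K h n i).target = h.symm ⁻¹' (K.map n i).target := by
      simp [homeoCellMap]
    rw [h2]
    exact h1
  pairwiseDisjoint' := by
    intro a ha b hb hab
    have h1 := K.pairwiseDisjoint' ha hb hab
    simp only [Function.onFun, homeoCellMap_image] at h1 ⊢
    exact (disjoint_image_iff h.injective).mpr h1
  mapsTo' n i := by
    obtain ⟨I, hI⟩ := K.mapsTo' n i
    refine ⟨I, fun x hx => ?_⟩
    have h1 := hI hx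
    simp only [mem_iUnion, homeoCellMap_image] at h1 ⊢
    obtain ⟨m, hm, j, hj, h2⟩ := h1
    exact ⟨m, hm, j, hj, mem_image_of_mem h h2⟩
  closed' A _ hA := by
    have h1 : IsClosed (h ⁻¹' A) := by
      refine K.closed' (h ⁻¹' A) (subset_univ _) fun n j => ?_
      have h2 := (hA n j).preimage h.continuous
      rw [homeoCellMap_image, preimage_inter, preimage_image_eq _ h.injective] at h2
      exact h2
    have h3 := h1.preimage h.symm.continuous
    rwa [← preimage_comp, h.self_comp_symm, preimage_id] at h3
  union' := by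
    have h1 := congrArg (fun S => h '' S) K.union'
    simp only [image_iUnion, image_univ, h.surjective.range_eq] at h1
    simpa only [homeoCellMap_image] using h1

/-- `IsFiniteCWComplexOfDimLE` is invariant under homeomorphism. -/
theorem IsFiniteCWComplexOfDimLE.of_homeomorph {n : ℕ} (hX : IsFiniteCWComplexOfDimLE X n)
    (h : X ≃ₜ Y) : IsFiniteCWComplexOfDimLE Y n := by
  obtain ⟨h2, K, hfin, hdim⟩ := hX
  have hc : Finite (Σ m, K.cell m) := RelCWComplex.finite_iff_finite_cells.mp hfin
  refine ⟨h.t2Space, cwComplexOfHomeomorph K h, ?_, hdim⟩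
  let _ := cwComplexOfHomeomorph K h
  exact RelCWComplex.finite_iff_finite_cells.mpr hc

/-- `IsFiniteCWComplexOfDimEq` is invariant under homeomorphism. -/
theorem IsFiniteCWComplexOfDimEq.of_homeomorph {n : ℕ} (hX : IsFiniteCWComplexOfDimEq X n)
    (h : X ≃ₜ Y) : IsFiniteCWComplexOfDimEq Y n := by
  obtain ⟨h2, K, hfin, hdim, hne⟩ := hX
  have hc : Finite (Σ m, K.cell m) := RelCWComplex.finite_iff_finite_cells.mp hfin
  refine ⟨h.t2Space, cwComplexOfHomeomorph K h, ?_, hdim, hne⟩
  let _ := cwComplexOfHomeomorph K h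
  exact RelCWComplex.finite_iff_finite_cells.mpr hc

theorem isFiniteCWComplexOfDimLE_congr (h : X ≃ₜ Y) (n : ℕ) :
    IsFiniteCWComplexOfDimLE X n ↔ IsFiniteCWComplexOfDimLE Y n :=
  ⟨fun hX => hX.of_homeomorph h, fun hY => hY.of_homeomorph h.symm⟩

theorem isFiniteCWComplexOfDimEq_congr (h : X ≃ₜ Y) (n : ℕ) :
    IsFiniteCWComplexOfDimEq X n ↔ IsFiniteCWComplexOfDimEq Y n :=
  ⟨fun hX => hX.of_homeomorph h, fun hY => hY.of_homeomorph h.symm⟩

end

end Claimed.Open.R321
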