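import Claimed.Open.R321.SanityHomeo
import Claimed.Open.R321.SanityHomeoCW

/-!
# Sanity check for R321: `Statement` is about a homeomorphism type

* `counterexample_of_homeomorph`: with `SatisfiesD2.of_homeomorph` (`SanityHomeo.lean`) and
  `IsFiniteCWComplexOfDimEq.of_homeomorph` (`SanityHomeoCW.lean`): the four clauses which `Statement`
  asks of `X` hold for every space homeomorphic to `X`.
-/

set_option autoImplicit false

namespace Claimed.Open.R321

open Topology

variable {X Y : Type} [TopologicalSpace X] [TopologicalSpace Y]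

/-- **The property which `Statement` asks of `X` is a property of the homeomorphism type of `X`.** -/
theorem counterexample_of_homeomorph (h : X ≃ₜ Y)
    (hX : IsFiniteCWComplexOfDimEq X 3 ∧ ConnectedSpace X ∧ SatisfiesD2 X ∧
      ¬ ∃ (Z : Type) (_ : TopologicalSpace Z),
        IsFiniteCWComplexOfDimLE Z 2 ∧ Nonempty (ContinuousMap.HomotopyEquiv X Z)) :
    IsFiniteCWComplexOfDimEq Y 3 ∧ ConnectedSpace Y ∧ SatisfiesD2 Y ∧
      ¬ ∃ (Z : Type) (_ : TopologicalSpace Z),
        IsFiniteCWComplexOfDimLE Z 2 ∧ Nonempty (ContinuousMap.HomotopyEquiv Y Z) := by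
  obtain ⟨h1, h2, h3, h4⟩ := hX
  refine ⟨h1.of_homeomorph h, h.surjective.connectedSpace h.continuous, h3.of_homeomorph h, ?_⟩
  rintro ⟨Z, tZ, hZ, ⟨e⟩⟩
  exact h4 ⟨Z, tZ, hZ, ⟨h.toHomotopyEquiv.trans e⟩⟩

end Claimed.Open.R321
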