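import Claimed.Open.R321.SanityDeck
import Claimed.Open.R321.SanityChains
import Claimed.Open.R321.ChainBridge

/-!
# Sanity check: `SatisfiesD2` does not depend on the universal cover

`SatisfiesD2 X` asks for *some* universal cover `U` of `X` with the two properties
`H_i(X̃; ℤ) = 0` (`i > 2`) and `H³(X; M) = 0` (all base points, all modules); call them
`D2Clauses U`.  For a connected, locally path connected space `X` (every connected CW complex is
one) all universal covers are isomorphic over `X`, and `D2Clauses` is invariant under isomorphisms: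

* `satisfiesD2_iff_forall`: `SatisfiesD2 X` iff `X` has a universal cover and *every* universal cover
  of `X` satisfies `D2Clauses`.
-/

set_option autoImplicit false

namespace Claimed.Open.R321

open CategoryTheory AlgebraicTopology Topology

noncomputable section

variable {X : Type} [TopologicalSpace X]

/-- The two clauses of the `D(2)` condition, for a given universal cover. -/
def D2Clauses (U : UniversalCover X) : Prop :=
  (∀ i : ℕ, 2 < i → Limits.IsZero (singularHomology i U.E)) ∧
    ∀ (e₀ : U.E) (M : Type) [AddCommGroup M]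
      [Module (MonoidAlgebra ℤ (FundamentalGroup X (U.p e₀))) M],
      Subsingleton (localCohomology U e₀ M 3)

theorem satisfiesD2_iff_exists : SatisfiesD2 X ↔ ∃ U : UniversalCover X, D2Clauses U := Iff.rfl

/-- A covering map with nonempty total space onto a connected space is onto. -/
theorem surjective_of_isCoveringMap {E : Type} [TopologicalSpace E] [Nonempty E]
    [PreconnectedSpace X] {p : E → X} (hp : IsCoveringMap p) : Function.Surjective p := by
  have hopen : IsOpen (Set.range p) := hp.isOpenMap.isOpen_range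
  have hclosed : IsClosed (Set.range p) := by
    rw [← isOpen_compl_iff, isOpen_iff_mem_nhds]
    intro x hx
    obtain ⟨_, V, hxV, hV, _, H, _⟩ := hp x
    refine Filter.mem_of_superset (hV.mem_nhds hxV) ?_
    rintro _ hy ⟨e, rfl⟩
    exact hx ⟨(H ⟨e, hy⟩).2.1, (H ⟨e, hy⟩).2.2⟩
  exact Set.range_eq_univ.1 (IsClopen.eq_univ ⟨hclosed, hopen⟩ (Set.range_nonempty p))

section Transport

variable (U : UniversalCover X) {E' : Type} [TopologicalSpace E'] (Φ : U.E ≃ₜ E')
  (cov' : IsCoveringMap fun e' => U.p (Φ.symm e')) (sc' : SimplyConnectedSpace E')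

/-- The universal cover obtained by transport along a homeomorphism of the total space. -/
abbrev transportCover : UniversalCover X := ⟨E', fun e' => U.p (Φ.symm e'), cov', sc'⟩

/-- Conjugation of deck transformations. -/
def conjDeck (g : deckGroup U.p) : deckGroup (transportCover U Φ cov' sc').p :=
  ⟨(Φ.symm.trans g.1).trans Φ, fun e' => by
    show U.p (Φ.symm (Φ (g.1 (Φ.symm e')))) = U.p (Φ.symm e')
    rw [Φ.symm_apply_apply, g.2]⟩

/-- Conjugation of deck transformations, backwards. -/
def conjDeckSymm (g' : deckGroup (transportCover U Φ cov' sc').p) : deckGroup U.p :=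
  ⟨(Φ.trans g'.1).trans Φ.symm, fun e => by
    have h := g'.2 (Φ e)
    have h' : U.p (Φ.symm (g'.1 (Φ e))) = U.p (Φ.symm (Φ e)) := h
    rw [Φ.symm_apply_apply] at h'
    exact h'⟩

theorem conjDeck_conjDeckSymm (g' : deckGroup (transportCover U Φ cov' sc').p) :
    conjDeck U Φ cov' sc' (conjDeckSymm U Φ cov' sc' g') = g' := by
  apply Subtype.ext
  apply Homeomorph.ext
  intro e'
  show Φ (Φ.symm (g'.1 (Φ (Φ.symm e')))) = g'.1 e'
  rw [Φ.apply_symm_apply, Φ.apply_symm_apply]

theorem deckToFundamentalGroup_conjDeck (e₀' : E') (g : deckGroup U.p) :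
    deckToFundamentalGroup (transportCover U Φ cov' sc') e₀' (conjDeck U Φ cov' sc' g) =
      deckToFundamentalGroup U (Φ.symm e₀') g := by
  let δ : Path (g.1 (Φ.symm e₀')) (Φ.symm e₀') := PathConnectedSpace.somePath _ _
  let δ' : Path ((conjDeck U Φ cov' sc' g).1 e₀') e₀' :=
    (δ.map Φ.continuous).cast rfl (Φ.apply_symm_apply e₀').symm
  have e1 := deckToFundamentalGroup_eq (transportCover U Φ cov' sc') e₀' (conjDeck U Φ cov' sc' g) δ'
  have e2 := deckToFundamentalGroup_eq U (Φ.symm e₀') g δ
  refine e1.trans (Eq.trans ?_ e2.symm)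
  congr 2
  ext t
  show U.p (Φ.symm (Φ (δ t))) = U.p (δ t)
  rw [Φ.symm_apply_apply]

theorem chainMap_conjDeck (g : deckGroup U.p) (n : ℕ) (c : Chains U.E n) :
    chainMap ((conjDeck U Φ cov' sc' g).1 : C(E', E')) n (chainMap (Φ : C(U.E, E')) n c) =
      chainMap (Φ : C(U.E, E')) n (chainMap (g.1 : C(U.E, U.E)) n c) := by
  rw [← chainMap_comp, ← chainMap_comp]
  congr 2
  ext e
  show Φ (g.1 (Φ.symm (Φ e))) = Φ (g.1 e)
  rw [Φ.symm_apply_apply]

theorem chainMap_symm_chainMap (n : ℕ) (c : Chains U.E n) :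
    chainMap (Φ.symm : C(E', U.E)) n (chainMap (Φ : C(U.E, E')) n c) = c := by
  rw [← chainMap_comp]
  have : (Φ.symm : C(E', U.E)).comp (Φ : C(U.E, E')) = ContinuousMap.id _ := by
    ext e
    exact Φ.symm_apply_apply e
  rw [this, chainMap_id]

theorem chainMap_chainMap_symm (n : ℕ) (c : Chains E' n) :
    chainMap (Φ : C(U.E, E')) n (chainMap (Φ.symm : C(E', U.E)) n c) = c := by
  rw [← chainMap_comp]
  have : (Φ : C(U.E, E')).comp (Φ.symm : C(E', U.E)) = ContinuousMap.id _ := by
    ext e
    exact Φ.apply_symm_apply e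
  rw [this, chainMap_id]

/-- `D2Clauses` is invariant under transport. -/
theorem D2Clauses.transport (h : D2Clauses U) : D2Clauses (transportCover U Φ cov' sc') := by
  refine ⟨fun i hi => ?_, fun e₀' M _ _ => ?_⟩
  · exact (h.1 i hi).of_iso
      (((singularHomologyFunctor (ModuleCat.{0} ℤ) i).obj (ModuleCat.of ℤ ℤ)).mapIso
        (TopCat.isoOfHomeo (X := TopCat.of U.E) (Y := TopCat.of E') Φ).symm)
  · let _ : Module (MonoidAlgebra ℤ (FundamentalGroup X (U.p (Φ.symm e₀')))) M := ‹_›
    have h2 := (subsingleton_localCohomology_succ_iff U (Φ.symm e₀') M).1 (h.2 (Φ.symm e₀') M)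
    rw [subsingleton_localCohomology_succ_iff]
    intro φ' hφ' hcoc
    -- pull the cocycle back
    obtain ⟨ψ, hψ, hψφ⟩ := h2 (φ'.comp (chainMap (Φ : C(U.E, E')) 3))
      (by
        intro g c
        have h3 := hφ' (conjDeck U Φ cov' sc' g) (chainMap (Φ : C(U.E, E')) 3 c)
        rw [deckToFundamentalGroup_conjDeck] at h3
        refine Eq.trans ?_ h3
        show φ' (chainMap (Φ : C(U.E, E')) 3 (chainMap (g.1 : C(U.E, U.E)) 3 c)) = _
        rw [← chainMap_conjDeck U Φ cov' sc']
        rfl)
      (by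
        intro c
        show φ' (chainMap (Φ : C(U.E, E')) 3 (bd U.E 3 c)) = 0
        rw [← bd_chainMap]
        exact hcoc _)
    -- push the primitive forward
    refine ⟨ψ.comp (chainMap (Φ.symm : C(E', U.E)) 2), ?_, ?_⟩
    · intro g' c'
      have h3 := hψ (conjDeckSymm U Φ cov' sc' g') (chainMap (Φ.symm : C(E', U.E)) 2 c')
      rw [← deckToFundamentalGroup_conjDeck U Φ cov' sc', conjDeck_conjDeckSymm] at h3
      refine Eq.trans ?_ h3
      show ψ (chainMap (Φ.symm : C(E', U.E)) 2 (chainMap (g'.1 : C(E', E')) 2 c')) =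
        ψ (chainMap ((conjDeckSymm U Φ cov' sc' g').1 : C(U.E, U.E)) 2
          (chainMap (Φ.symm : C(E', U.E)) 2 c'))
      rw [← chainMap_comp, ← chainMap_comp]
      congr 3
      ext e'
      show Φ.symm (g'.1 e') = Φ.symm (g'.1 (Φ (Φ.symm e')))
      rw [Φ.apply_symm_apply]
    · intro c'
      show ψ (chainMap (Φ.symm : C(E', U.E)) 2 (bd E' 2 c')) = φ' c'
      rw [← bd_chainMap]
      refine (hψφ _).trans ?_
      show φ' (chainMap (Φ : C(U.E, E')) 3 (chainMap (Φ.symm : C(E', U.E)) 3 c')) = φ' c'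
      rw [chainMap_chainMap_symm]

end Transport

theorem D2Clauses.of_homeomorph_aux (U : UniversalCover X) {E' : Type} [TopologicalSpace E']
    (p' : E' → X) (cov' : IsCoveringMap p') (sc' : SimplyConnectedSpace E') (Φ : U.E ≃ₜ E')
    (hΦ : ∀ e, p' (Φ e) = U.p e) (h : D2Clauses U) : D2Clauses ⟨E', p', cov', sc'⟩ := by
  have hp : p' = fun e' => U.p (Φ.symm e') := by
    funext e'
    have := hΦ (Φ.symm e')
    rw [Φ.apply_symm_apply] at this
    exact this
  subst hp
  exact h.transport U Φ cov' sc'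

/-- `D2Clauses` is invariant under isomorphisms of universal covers. -/
theorem D2Clauses.of_homeomorph {U U' : UniversalCover X} (Φ : U.E ≃ₜ U'.E)
    (hΦ : ∀ e, U'.p (Φ e) = U.p e) (h : D2Clauses U) : D2Clauses U' :=
  D2Clauses.of_homeomorph_aux U U'.p U'.isCoveringMap U'.simplyConnected Φ hΦ h

/-- **`SatisfiesD2` does not depend on the universal cover.** -/
theorem satisfiesD2_iff_forall [ConnectedSpace X] [LocallyPathConnectedSpace X] :
    SatisfiesD2 X ↔
      Nonempty (UniversalCover X) ∧ ∀ U : UniversalCover X, D2Clauses U := by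
  constructor
  · rintro ⟨U, hU⟩
    refine ⟨⟨U⟩, fun U' => ?_⟩
    obtain ⟨e⟩ : Nonempty U.E := inferInstance
    obtain ⟨e', he'⟩ := surjective_of_isCoveringMap U'.isCoveringMap (U.p e)
    obtain ⟨Φ, hΦ, -⟩ := UniversalCover.exists_homeomorph U U' e e' he'.symm
    exact D2Clauses.of_homeomorph Φ hΦ hU
  · rintro ⟨⟨U⟩, h⟩
    exact ⟨U, h U⟩

end

end Claimed.Open.R321
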