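import Claimed.Open.R321.SanityChains

/-!
# Sanity check for R321: the universe of the coefficient modules (deviation 6 of `CLAIM.md`)

In `SatisfiesD2` the coefficient modules `M` range over the `ℤ[π₁(X)]`-modules in `Type`, the universe of `X`.
Nothing is lost:

* `cocycle_eq_coboundary_of_small`: if `H^{n+1}(X; M) = 0` for all `ℤ[π₁(X)]`-modules `M : Type`, then for a
  `ℤ[π₁(X)]`-module `M` in ANY universe every equivariant additive map `φ : S_{n+1}(X̃) → M` which vanishes on boundaries
  is `ψ ∘ ∂` for an equivariant additive map `ψ : S_n(X̃) → M`   (by `subsingleton_localCohomology_succ_iff` this is what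
  `H^{n+1}(X; M) = 0` says for `M : Type`);
* `SatisfiesD2.all_universes`: so a space with `SatisfiesD2` has a universal cover with `H_i(X̃; ℤ) = 0` for `i > 2` and with
  the vanishing of `H³(X; M)` in that form for all base points and all modules of all universes.

Proof: the submodule of `M` generated by the values of `φ` is a quotient `M₀` of the free module on the set `S_{n+1}(X̃)`, which lies in
`Type`; `φ` factors through an equivariant cocycle with values in `M₀`, and `M₀ → M` is linear and injective.
-/

set_option autoImplicit false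

namespace Claimed.Open.R321

open CategoryTheory AlgebraicTopology Topology

noncomputable section

universe u

variable {X : Type} [TopologicalSpace X]

section

variable (U : UniversalCover X) (e₀ : U.E) (n : ℕ)
  (M : Type u) [AddCommGroup M] [Module (MonoidAlgebra ℤ (FundamentalGroup X (U.p e₀))) M]
  (φ : U.chains n →+ M)

/-- the linear extension of `φ` to the free `ℤ[π₁(X)]`-module on the set `S_n(X̃)` -/
def smallLin : (U.chains n →₀ MonoidAlgebra ℤ (FundamentalGroup X (U.p e₀)))
    →ₗ[MonoidAlgebra ℤ (FundamentalGroup X (U.p e₀))] M :=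
  Finsupp.linearCombination _ (fun c => φ c)

/-- a copy in `Type` of the submodule of `M` generated by the values of `φ` -/
abbrev SmallModel : Type :=
  (U.chains n →₀ MonoidAlgebra ℤ (FundamentalGroup X (U.p e₀))) ⧸ LinearMap.ker (smallLin U e₀ n M φ)

/-- the inclusion of the small model -/
def smallIncl : SmallModel U e₀ n M φ →ₗ[MonoidAlgebra ℤ (FundamentalGroup X (U.p e₀))] M :=
  (LinearMap.ker (smallLin U e₀ n M φ)).liftQ (smallLin U e₀ n M φ) le_rfl

theorem smallIncl_injective : Function.Injective (smallIncl U e₀ n M φ) := by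
  rw [← LinearMap.ker_eq_bot]
  exact Submodule.ker_liftQ_eq_bot _ _ _ le_rfl

theorem smallIncl_mk_single (c : U.chains n) :
    smallIncl U e₀ n M φ (Submodule.Quotient.mk (Finsupp.single c 1)) = φ c := by
  unfold smallIncl
  rw [Submodule.liftQ_apply]
  unfold smallLin
  rw [Finsupp.linearCombination_single, one_smul]

/-- `φ` with values in the small model -/
def smallMap : U.chains n →+ SmallModel U e₀ n M φ :=
  AddMonoidHom.mk' (fun c => Submodule.Quotient.mk (Finsupp.single c 1)) fun a b =>
    smallIncl_injective U e₀ n M φ (by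
      rw [map_add, smallIncl_mk_single, smallIncl_mk_single, smallIncl_mk_single, map_add])

theorem smallIncl_smallMap (c : U.chains n) : smallIncl U e₀ n M φ (smallMap U e₀ n M φ c) = φ c :=
  smallIncl_mk_single U e₀ n M φ c

end

/-- **Deviation 6 of `CLAIM.md`.**  If `H^{n+1}(X; M) = 0` for all `ℤ[π₁(X)]`-modules in `Type`, then for a module in any universe
every equivariant cocycle is the coboundary of an equivariant cochain. -/
theorem cocycle_eq_coboundary_of_small (U : UniversalCover X) (e₀ : U.E) (n : ℕ)
    (h : ∀ (M : Type) [AddCommGroup M] [Module (MonoidAlgebra ℤ (FundamentalGroup X (U.p e₀))) M],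
      Subsingleton (localCohomology U e₀ M (n + 1)))
    (M : Type u) [AddCommGroup M] [Module (MonoidAlgebra ℤ (FundamentalGroup X (U.p e₀))) M]
    (φ : U.chains (n + 1) →+ M)
    (hφ : ∀ (g : deckGroup U.p) (c : U.chains (n + 1)),
      φ (U.deckAct g (n + 1) c) = MonoidAlgebra.of ℤ _ (deckToFundamentalGroup U e₀ g) • φ c)
    (hφ' : ∀ c, φ (U.boundary (n + 1) c) = 0) :
    ∃ ψ : U.chains n →+ M,
      (∀ (g : deckGroup U.p) (c : U.chains n),
        ψ (U.deckAct g n c) = MonoidAlgebra.of ℤ _ (deckToFundamentalGroup U e₀ g) • ψ c) ∧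
      ∀ c, ψ (U.boundary n c) = φ c := by
  have hinj := smallIncl_injective U e₀ (n + 1) M φ
  obtain ⟨ψ₀, hψ₀, hψ₀'⟩ := (subsingleton_localCohomology_succ_iff U e₀ (SmallModel U e₀ (n + 1) M φ)).1
    (h (SmallModel U e₀ (n + 1) M φ)) (smallMap U e₀ (n + 1) M φ)
    (fun g c => hinj (by rw [map_smul, smallIncl_smallMap, smallIncl_smallMap, hφ]))
    (fun c => hinj (by rw [smallIncl_smallMap, hφ', map_zero]))
  refine ⟨(smallIncl U e₀ (n + 1) M φ).toAddMonoidHom.comp ψ₀, fun g c => ?_, fun c => ?_⟩
  · have := hψ₀ g c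
    simp only [AddMonoidHom.comp_apply, LinearMap.toAddMonoidHom_coe]
    rw [this, map_smul]
  · simp only [AddMonoidHom.comp_apply, LinearMap.toAddMonoidHom_coe]
    rw [hψ₀', smallIncl_smallMap]

/-- `SatisfiesD2` gives the vanishing of `H³(X; M)` for the modules of all universes. -/
theorem SatisfiesD2.all_universes (h : SatisfiesD2 X) :
    ∃ U : UniversalCover X,
      (∀ i : ℕ, 2 < i → Limits.IsZero (singularHomology i U.E)) ∧
      ∀ (e₀ : U.E) (M : Type u) [AddCommGroup M]
        [Module (MonoidAlgebra ℤ (FundamentalGroup X (U.p e₀))) M] (φ : U.chains 3 →+ M),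
        (∀ (g : deckGroup U.p) (c : U.chains 3),
          φ (U.deckAct g 3 c) = MonoidAlgebra.of ℤ _ (deckToFundamentalGroup U e₀ g) • φ c) →
        (∀ c, φ (U.boundary 3 c) = 0) →
        ∃ ψ : U.chains 2 →+ M,
          (∀ (g : deckGroup U.p) (c : U.chains 2),
            ψ (U.deckAct g 2 c) = MonoidAlgebra.of ℤ _ (deckToFundamentalGroup U e₀ g) • ψ c) ∧
          ∀ c, ψ (U.boundary 2 c) = φ c := by
  obtain ⟨U, h1, h2⟩ := h
  exact ⟨U, h1, fun e₀ M _ _ φ hφ hφ' =>
    cocycle_eq_coboundary_of_small U e₀ 2 (fun M' _ _ => h2 e₀ M') M φ hφ hφ'⟩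

end

end Claimed.Open.R321
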