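import Mathlib

/-!
# Result 321: a counterexample to Wall's finite `D(2)` problem

This file states Theorem 1.1 (label `thm:main`) of the paper
"A Counterexample to Wall's D(2) Problem" (October 6, 2026):

> There is a finite connected three-dimensional CW complex `X` such that
> `H_i(X̃; ℤ) = 0` for `i > 2` and `H³(X; M) = 0` for every `ℤ[π₁(X)]`-module `M`,
> but `X` is not homotopy equivalent to any finite CW complex of dimension at most two.

All notions are built on Mathlib: `Topology.CWComplex`, `IsCoveringMap`, `SimplyConnectedSpace`,
`FundamentalGroup`, `AlgebraicTopology.singularChainComplexFunctor`,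
`AlgebraicTopology.singularHomologyFunctor` and `ContinuousMap.HomotopyEquiv`.
See `CLAIM.md` for the dictionary with the paper.
-/

set_option autoImplicit false

namespace Claimed.Open.R321

open CategoryTheory AlgebraicTopology Topology

noncomputable section

/-! ### Finite CW complexes -/

/-- The Hausdorff space `X` carries the structure of a finite CW complex all of whose cells have
dimension at most `n`.  (`Topology.CWComplex` is Mathlib's notion of a CW structure, in
Whitehead's formulation; `CWComplex.Finite` says that there are finitely many cells.) -/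
def IsFiniteCWComplexOfDimLE (X : Type) [TopologicalSpace X] (n : ℕ) : Prop :=
  T2Space X ∧ ∃ _ : CWComplex (Set.univ : Set X),
    CWComplex.Finite (Set.univ : Set X) ∧
      ∀ m : ℕ, n < m → IsEmpty (RelCWComplex.cell (Set.univ : Set X) m)

/-- The Hausdorff space `X` carries the structure of a finite CW complex of dimension exactly `n`:
there is an `n`-cell and there are no cells of higher dimension. -/
def IsFiniteCWComplexOfDimEq (X : Type) [TopologicalSpace X] (n : ℕ) : Prop :=
  T2Space X ∧ ∃ _ : CWComplex (Set.univ : Set X),
    CWComplex.Finite (Set.univ : Set X) ∧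
      (∀ m : ℕ, n < m → IsEmpty (RelCWComplex.cell (Set.univ : Set X) m)) ∧
      Nonempty (RelCWComplex.cell (Set.univ : Set X) n)

/-! ### Universal covers, deck transformations, and the action of `π₁` -/

/-- A universal cover of `X`: a simply connected covering space `p : E → X`. -/
structure UniversalCover (X : Type) [TopologicalSpace X] where
  /-- the total space `X̃` -/
  E : Type
  /-- the topology of the total space -/
  [top : TopologicalSpace E]
  /-- the covering projection -/
  p : E → X
  isCoveringMap : IsCoveringMap p
  simplyConnected : SimplyConnectedSpace E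

attribute [instance] UniversalCover.top UniversalCover.simplyConnected

variable {X : Type} [TopologicalSpace X]

/-- The group of deck transformations of `p : E → X`: the self-homeomorphisms `g` of `E` with
`p ∘ g = p`. -/
def deckGroup {E : Type} [TopologicalSpace E] (p : E → X) : Subgroup (E ≃ₜ E) where
  carrier := {g | ∀ e, p (g e) = p e}
  mul_mem' := fun {a b} ha hb e => (ha (b e)).trans (hb e)
  one_mem' := fun _ => rfl
  inv_mem' := fun {a} ha e => by
    have h := ha (a⁻¹ e)
    rw [show a (a⁻¹ e) = e from a.apply_symm_apply e] at h
    exact h.symm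

/-- The standard identification of the deck group of a universal cover with `π₁(X, p e₀)`.
A deck transformation `g` is sent to the class of the loop `p ∘ δ`, where `δ` is a path in `X̃`
from `g e₀` to `e₀` (all such paths are homotopic, since `X̃` is simply connected).

Mathlib multiplies loop classes in the order `a * b = (b followed by a)`; with this convention,
and with `δ` running from `g e₀` to `e₀`, the map is a group homomorphism
(`Sanity.lean` checks this). -/
def deckToFundamentalGroup (U : UniversalCover X) (e₀ : U.E) (g : deckGroup U.p) :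
    FundamentalGroup X (U.p e₀) :=
  FundamentalGroup.fromPath
    (Quotient.mk _ (((PathConnectedSpace.somePath (g.1 e₀) e₀).map
      U.isCoveringMap.continuous).cast (g.2 e₀).symm rfl))

/-! ### Singular chains, homology of `X̃`, and cohomology of `X` with local coefficients -/

/-- Mathlib's integral singular chain complex functor `S_*(-)`. -/
abbrev singularChains : TopCat.{0} ⥤ ChainComplex (ModuleCat.{0} ℤ) ℕ :=
  (singularChainComplexFunctor (ModuleCat.{0} ℤ)).obj (ModuleCat.of ℤ ℤ)

/-- Integral singular homology `H_i(E; ℤ)` (Mathlib's functor). -/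
abbrev singularHomology (i : ℕ) (E : Type) [TopologicalSpace E] : ModuleCat.{0} ℤ :=
  ((singularHomologyFunctor (ModuleCat.{0} ℤ) i).obj (ModuleCat.of ℤ ℤ)).obj (TopCat.of E)

/-- The group `S_n(X̃)` of integral singular `n`-chains of the universal cover. -/
abbrev UniversalCover.chains (U : UniversalCover X) (n : ℕ) : Type :=
  (singularChains.obj (TopCat.of U.E)).X n

/-- The action of a deck transformation on the singular `n`-chains of `X̃`. -/
def UniversalCover.deckAct (U : UniversalCover X) (g : deckGroup U.p) (n : ℕ) :
    U.chains n →+ U.chains n :=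
  ((singularChains.map (TopCat.ofHom (g.1 : C(U.E, U.E)))).f n).hom.toAddMonoidHom

/-- The boundary `∂ : S_{n+1}(X̃) → S_n(X̃)`. -/
def UniversalCover.boundary (U : UniversalCover X) (n : ℕ) : U.chains (n + 1) →+ U.chains n :=
  ((singularChains.obj (TopCat.of U.E)).d (n + 1) n).hom.toAddMonoidHom

section LocalCoefficients

variable (U : UniversalCover X) (e₀ : U.E)
  (M : Type) [AddCommGroup M] [Module (MonoidAlgebra ℤ (FundamentalGroup X (U.p e₀))) M]

/-- The cochain group `Hom_{ℤ[π₁ X]}(S_n(X̃), M)`: additive maps `φ : S_n(X̃) → M` which are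
equivariant for the action of `π₁(X) = ` deck group. -/
def cochains (n : ℕ) : AddSubgroup (U.chains n →+ M) where
  carrier := {φ | ∀ (g : deckGroup U.p) (c : U.chains n),
    φ (U.deckAct g n c) = MonoidAlgebra.of ℤ _ (deckToFundamentalGroup U e₀ g) • φ c}
  add_mem' := fun {a b} ha hb g c => by
    simp only [AddMonoidHom.add_apply, ha g c, hb g c, smul_add]
  zero_mem' := fun g c => by simp
  neg_mem' := fun {a} ha g c => by
    simp only [AddMonoidHom.neg_apply, ha g c, smul_neg]

/-- The coboundary `δ φ = φ ∘ ∂`. -/
def coboundaryMap (n : ℕ) : (U.chains n →+ M) →+ (U.chains (n + 1) →+ M) :=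
  AddMonoidHom.compHom' (U.boundary n)

/-- The `n`-cocycles of `Hom_{ℤ[π₁ X]}(S_*(X̃), M)`. -/
def cocycles (n : ℕ) : AddSubgroup (U.chains n →+ M) :=
  cochains U e₀ M n ⊓ (coboundaryMap U M n).ker

/-- The `n`-coboundaries of `Hom_{ℤ[π₁ X]}(S_*(X̃), M)`. -/
def coboundaries : (n : ℕ) → AddSubgroup (U.chains n →+ M)
  | 0 => ⊥
  | n + 1 => (cochains U e₀ M n).map (coboundaryMap U M n)

/-- Cohomology of `X` with local coefficients in the `ℤ[π₁(X)]`-module `M`:
`Hⁿ(X; M) = Hⁿ(Hom_{ℤ[π₁ X]}(S_*(X̃), M))`. -/
def localCohomology (n : ℕ) : Type :=
  cocycles U e₀ M n ⧸ (coboundaries U e₀ M n).addSubgroupOf (cocycles U e₀ M n)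

end LocalCoefficients

/-! ### The `D(2)` condition and the theorem -/

/-- Wall's `D(2)` condition, in the strong form proved in the paper (all modules, not only
finitely generated ones): `H_i(X̃; ℤ) = 0` for `i > 2`, and `H³(X; M) = 0` for every
`ℤ[π₁(X)]`-module `M`. -/
def SatisfiesD2 (X : Type) [TopologicalSpace X] : Prop :=
  ∃ U : UniversalCover X,
    (∀ i : ℕ, 2 < i → Limits.IsZero (singularHomology i U.E)) ∧
    ∀ (e₀ : U.E) (M : Type) [AddCommGroup M]
      [Module (MonoidAlgebra ℤ (FundamentalGroup X (U.p e₀))) M],
      Subsingleton (localCohomology U e₀ M 3)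

/-- **Theorem 1.1.**  There is a finite connected three-dimensional CW complex `X` satisfying the
`D(2)` condition which is not homotopy equivalent to any finite CW complex of dimension at most
two. -/
def Statement : Prop :=
  ∃ (X : Type) (_ : TopologicalSpace X),
    IsFiniteCWComplexOfDimEq X 3 ∧ ConnectedSpace X ∧ SatisfiesD2 X ∧
      ¬ ∃ (Y : Type) (_ : TopologicalSpace Y),
        IsFiniteCWComplexOfDimLE Y 2 ∧ Nonempty (ContinuousMap.HomotopyEquiv X Y)

end

end Claimed.Open.R321
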