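import Claimed.Open.R321.SubAffine

/-!
# The mesh of the iterated barycentric subdivision of a linear simplex
-/

set_option autoImplicit false

namespace Claimed.Open.R321

noncomputable section

open FreeAbelianGroup

section General

variable {V : Type} [AddCommGroup V] [Module ℝ V] [TopologicalSpace V] [ContinuousAdd V]
  [ContinuousSMul ℝ V] {K : Set V} {k : ℕ}

theorem aff_mem (hK : Convex ℝ K) {A : Set V} (hA : Convex ℝ A) (v : Fin k → K)
    (h : ∀ i, (v i : V) ∈ A) (t : stdSimplex ℝ (Fin k)) : (aff hK v t : V) ∈ A :=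
  hA.sum_mem (fun i _ => t.2.1 i) t.2.2 (fun i _ => h i)

end General

variable {V : Type} [NormedAddCommGroup V] [NormedSpace ℝ V] {K : Set V} {k : ℕ}

/-- All the points of the tuple `w` lie in `A` and their mutual distances are at most `d`. -/
def Fine (A : Set V) (d : ℝ) (w : Fin k → K) : Prop :=
  (∀ i, (w i : V) ∈ A) ∧ ∀ i j, ‖(w i : V) - w j‖ ≤ d

/-- The convex hull of a tuple. -/
def hull (v : Fin k → K) : Set V := convexHull ℝ (Set.range fun i => (v i : V))

theorem mem_hull (v : Fin k → K) (i : Fin k) : (v i : V) ∈ hull v :=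
  subset_convexHull ℝ _ ⟨i, rfl⟩

theorem hull_subset {A : Set V} (hA : Convex ℝ A) (v : Fin k → K) (h : ∀ i, (v i : V) ∈ A) :
    hull v ⊆ A := by
  refine convexHull_min ?_ hA
  rintro _ ⟨i, rfl⟩
  exact h i

theorem convex_hull (v : Fin k → K) : Convex ℝ (hull v) := convex_convexHull ℝ _

theorem norm_bary_sub_le (hK : Convex ℝ K) (v : Fin (k + 1) → K) {d : ℝ}
    (hv : ∀ i j, ‖(v i : V) - v j‖ ≤ d) (i : Fin (k + 1)) :
    ‖(bary hK k v : V) - v i‖ ≤ (k : ℝ) / ((k : ℝ) + 1) * d := by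
  have hk : ((k : ℝ) + 1) ≠ 0 := by positivity
  have h1 : (bary hK k v : V) - v i =
      ∑ j ∈ Finset.univ.erase i, ((k : ℝ) + 1)⁻¹ • ((v j : V) - v i) := by
    rw [Finset.sum_erase _ (by simp), bary_coe]
    simp only [smul_sub, Finset.sum_sub_distrib, Finset.sum_const, Finset.card_univ,
      Fintype.card_fin]
    congr 1
    rw [← Nat.cast_smul_eq_nsmul ℝ, smul_smul]
    push_cast
    rw [mul_inv_cancel₀ hk, one_smul]
  rw [h1]
  refine (norm_sum_le _ _).trans ?_
  have h2 : ∀ j ∈ Finset.univ.erase i, ‖((k : ℝ) + 1)⁻¹ • ((v j : V) - v i)‖ ≤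
      ((k : ℝ) + 1)⁻¹ * d := by
    intro j _
    rw [norm_smul, Real.norm_of_nonneg (by positivity)]
    exact mul_le_mul_of_nonneg_left (hv j i) (by positivity)
  refine (Finset.sum_le_card_nsmul _ _ _ h2).trans (le_of_eq ?_)
  rw [Finset.card_erase_of_mem (Finset.mem_univ i), Finset.card_univ, Fintype.card_fin,
    Nat.add_sub_cancel, nsmul_eq_mul]
  ring

theorem norm_bary_sub_le_of_mem_hull (hK : Convex ℝ K) (v : Fin (k + 1) → K) {d : ℝ}
    (hv : ∀ i j, ‖(v i : V) - v j‖ ≤ d) {p : V} (hp : p ∈ hull v) :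
    ‖(bary hK k v : V) - p‖ ≤ (k : ℝ) / ((k : ℝ) + 1) * d := by
  have h : hull v ⊆ Metric.closedBall (bary hK k v : V) ((k : ℝ) / ((k : ℝ) + 1) * d) := by
    refine hull_subset (convex_closedBall _ _) v fun i => ?_
    rw [mem_closedBall_iff_norm']
    exact norm_bary_sub_le hK v hv i
  exact mem_closedBall_iff_norm'.1 (h hp)

theorem bary_mem_hull (hK : Convex ℝ K) (v : Fin (k + 1) → K) : (bary hK k v : V) ∈ hull v :=
  aff_mem hK (convex_hull v) v (mem_hull v) _

theorem lsd_mem_fine (hK : Convex ℝ K) : ∀ (k : ℕ) (c : ℝ),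
    (∀ j : ℕ, j < k → (j : ℝ) / ((j : ℝ) + 1) ≤ c) → ∀ (v : Fin k → K) (d : ℝ), 0 ≤ d →
    (∀ i j, ‖(v i : V) - v j‖ ≤ d) →
    lsd (bary hK) k (of v) ∈ lsupp (Fine (hull v) (c * d)) := by
  intro k
  induction k with
  | zero =>
    intro c _ v d _ _
    exact of_mem_lsupp ⟨fun i => i.elim0, fun i => i.elim0⟩
  | succ k ih =>
    intro c hc v d hd hv
    have hc0 : 0 ≤ c := by simpa using hc 0 (Nat.succ_pos k)
    have hck : (k : ℝ) / ((k : ℝ) + 1) * d ≤ c * d :=
      mul_le_mul_of_nonneg_right (hc k (Nat.lt_succ_self k)) hd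
    rw [lsd_succ_of]
    have h1 : lsd (bary hK) k (lbd K k (of v)) ∈ lsupp (Fine (hull v) (c * d)) := by
      rw [lbd_of, map_sum]
      refine AddSubgroup.sum_mem _ fun i _ => ?_
      rw [map_zsmul]
      refine AddSubgroup.zsmul_mem _ ?_ _
      have h2 := ih c (fun j hj => hc j (Nat.lt_succ_of_lt hj)) (v ∘ i.succAbove) d hd
        (fun a b => hv _ _)
      refine lsupp_mono (fun w hw => ⟨fun a => ?_, hw.2⟩) h2
      exact hull_subset (convex_hull v) (v ∘ i.succAbove) (fun a => mem_hull v _) (hw.1 a)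
    refine lcone_mem_lsupp _ (fun w hw => ⟨?_, ?_⟩) h1
    · intro i
      refine Fin.cases ?_ (fun i => ?_) i
      · exact bary_mem_hull hK v
      · exact hw.1 i
    · intro i j
      refine Fin.cases ?_ (fun i => ?_) i <;> refine Fin.cases ?_ (fun j => ?_) j
      · simpa using mul_nonneg hc0 hd
      · simpa using (norm_bary_sub_le_of_mem_hull hK v hv (hw.1 j)).trans hck
      · rw [norm_sub_rev]
        simpa using (norm_bary_sub_le_of_mem_hull hK v hv (hw.1 i)).trans hck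
      · simpa using hw.2 i j

theorem iterate_lsd_mem_fine (hK : Convex ℝ K) (k : ℕ) (c : ℝ)
    (hc : ∀ j : ℕ, j < k → (j : ℝ) / ((j : ℝ) + 1) ≤ c) (hc0 : 0 ≤ c) (v : Fin k → K) (d : ℝ)
    (hd : 0 ≤ d) (hv : ∀ i j, ‖(v i : V) - v j‖ ≤ d) (m : ℕ) :
    (lsd (bary hK) k)^[m] (of v) ∈ lsupp (Fine (hull v) (c ^ m * d)) := by
  induction m with
  | zero =>
    simp only [Function.iterate_zero, id_eq, pow_zero, one_mul]
    exact of_mem_lsupp ⟨mem_hull v, hv⟩
  | succ m ih =>
    rw [Function.iterate_succ_apply']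
    refine map_mem_of_lsupp _ _ (fun w hw => ?_) ih
    have h := lsd_mem_fine hK k c hc w (c ^ m * d) (by positivity) hw.2
    refine lsupp_mono (fun u hu => ⟨fun a => ?_, ?_⟩) h
    · exact hull_subset (convex_hull v) w hw.1 (hu.1 a)
    · intro i j
      rw [pow_succ', mul_assoc]
      exact hu.2 i j

theorem dist_aff_le (hK : Convex ℝ K) (w : Fin (k + 1) → K) {d : ℝ}
    (hw : ∀ i j, ‖(w i : V) - w j‖ ≤ d) (t : stdSimplex ℝ (Fin (k + 1))) :
    dist (aff hK w t) (w 0) ≤ d := by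
  rw [Subtype.dist_eq]
  have h := aff_mem hK (convex_closedBall (w 0 : V) d) w
    (fun i => mem_closedBall_iff_norm.2 (hw i 0)) t
  exact Metric.mem_closedBall.1 h

end

end Claimed.Open.R321
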