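import Mathlib

/-!
# R321: three generic lemmas for the tower theorem

* `count_le` : Euler characteristic count for a piece `C → E → V` of a (twisted) chain complex.
* `exists_cocycle` : if `|C| + |V| ≤ |E|` there is an integral cocycle that is not a coboundary.
* `shift_injective` : injectivity of a boundary map persists in an infinite cyclic cover
  (`(τ - 1)`-divisibility).
-/

set_option autoImplicit false

namespace Claimed.Open.R321.TowerLA

open Module

section Count

variable {k : Type} [Field k]

theorem finrank_supported {α : Type} (s : Finset α) :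
    finrank k (Finsupp.supported k k (s : Set α)) = s.card := by
  rw [(Finsupp.supportedEquivFinsupp (M := k) (R := k) (s : Set α)).finrank_eq,
    finrank_finsupp_self]
  simp

instance finite_supported {α : Type} (s : Finset α) :
    Module.Finite k (Finsupp.supported k k (s : Set α)) :=
  Module.Finite.equiv (Finsupp.supportedEquivFinsupp (M := k) (R := k) (s : Set α)).symm

/-- **Euler characteristic count.**  If `d2` is injective on the chains supported on `C`, maps
them to chains supported on `E` which are killed by `d1`, and every vertex of `V` is the image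
under `d1` of a chain supported on `E`, then `|C| + |V| ≤ |E|`. -/
theorem count_le {α β γ : Type} (d2 : (γ →₀ k) →ₗ[k] (β →₀ k)) (d1 : (β →₀ k) →ₗ[k] (α →₀ k))
    (C : Finset γ) (E : Finset β) (V : Finset α)
    (hinj : ∀ c ∈ Finsupp.supported k k (C : Set γ), d2 c = 0 → c = 0)
    (hE : ∀ c ∈ C, d2 (Finsupp.single c 1) ∈ Finsupp.supported k k (E : Set β))
    (h12 : ∀ c ∈ C, d1 (d2 (Finsupp.single c 1)) = 0)
    (hV : ∀ v ∈ V, ∃ y ∈ Finsupp.supported k k (E : Set β), d1 y = Finsupp.single v 1) :
    C.card + V.card ≤ E.card := by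
  set MC := Finsupp.supported k k (C : Set γ) with hMC
  set ME := Finsupp.supported k k (E : Set β) with hME
  set MV := Finsupp.supported k k (V : Set α) with hMV
  have hE' : MC ≤ ME.comap d2 := by
    rw [hMC, Finsupp.supported_eq_span_single, Submodule.span_le]
    rintro _ ⟨c, hc, rfl⟩
    exact hE c hc
  have h12' : MC ≤ LinearMap.ker (d1 ∘ₗ d2) := by
    rw [hMC, Finsupp.supported_eq_span_single, Submodule.span_le]
    rintro _ ⟨c, hc, rfl⟩
    exact h12 c hc
  have : Module.Finite k ME := finite_supported E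
  have : Module.Finite k MC := finite_supported C
  let f : ME →ₗ[k] (α →₀ k) := d1.domRestrict ME
  have hrn := LinearMap.finrank_range_add_finrank_ker (K := k) (V := ME) (V₂ := α →₀ k) f
  have h1 : V.card ≤ finrank k (LinearMap.range f) := by
    rw [← finrank_supported (k := k) V]
    apply Submodule.finrank_mono
    rw [Finsupp.supported_eq_span_single, Submodule.span_le]
    rintro _ ⟨v, hv, rfl⟩
    obtain ⟨y, hy, hyv⟩ := hV v hv
    exact ⟨⟨y, hy⟩, hyv⟩
  have h2 : C.card ≤ finrank k (LinearMap.ker f) := by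
    rw [← finrank_supported (k := k) C]
    let g0 : MC →ₗ[k] ME := (d2.domRestrict MC).codRestrict ME (fun c => hE' c.2)
    let g : MC →ₗ[k] LinearMap.ker f := g0.codRestrict _ (fun c => h12' c.2)
    have : Module.Finite k (LinearMap.ker f) :=
      FiniteDimensional.finiteDimensional_submodule (K := k) (V := ME) (LinearMap.ker f)
    apply LinearMap.finrank_le_finrank_of_injective (f := g)
    intro a b hab
    have h3 : d2 (a : γ →₀ k) = d2 (b : γ →₀ k) := by
      have := congrArg (fun t : LinearMap.ker f => ((t : ME) : β →₀ k)) hab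
      exact this
    have h4 : (a : γ →₀ k) - b = 0 :=
      hinj _ (MC.sub_mem a.2 b.2) (by rw [map_sub, h3, sub_self])
    exact Subtype.ext (sub_eq_zero.mp h4)
  rw [finrank_supported] at hrn
  omega

end Count

section Cocycle

variable {E V C : Type} [Fintype E] [Fintype V] [Fintype C]

/-- rational version of `exists_cocycle` -/
theorem exists_cocycle_rat [Nonempty V] (src tgt : E → V) (b : C → E → ℚ)
    (h : Fintype.card C + Fintype.card V ≤ Fintype.card E) :
    ∃ φ : E → ℚ, (∀ c, ∑ e, φ e * b c e = 0) ∧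
      ¬ ∃ H : V → ℚ, ∀ e, φ e = H (tgt e) - H (src e) := by
  classical
  let T : (E → ℚ) →ₗ[ℚ] (C → ℚ) :=
    { toFun := fun φ c => ∑ e, φ e * b c e
      map_add' := fun φ ψ => by
        funext c
        simp [add_mul, Finset.sum_add_distrib]
      map_smul' := fun r φ => by
        funext c
        simp [Finset.mul_sum, mul_assoc] }
  let δ : (V → ℚ) →ₗ[ℚ] (E → ℚ) :=
    { toFun := fun H e => H (tgt e) - H (src e)
      map_add' := fun H K => by
        funext e
        simp only [Pi.add_apply]
        ring
      map_smul' := fun r H => by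
        funext e
        simp only [Pi.smul_apply, smul_eq_mul, RingHom.id_apply]
        ring }
  have hT := LinearMap.finrank_range_add_finrank_ker T
  have hδ := LinearMap.finrank_range_add_finrank_ker δ
  rw [finrank_fintype_fun_eq_card] at hT hδ
  have hTr : finrank ℚ (LinearMap.range T) ≤ Fintype.card C := by
    have := Submodule.finrank_le (LinearMap.range T)
    rwa [finrank_fintype_fun_eq_card] at this
  have hδk : 1 ≤ finrank ℚ (LinearMap.ker δ) := by
    rw [Nat.succ_le_iff, finrank_pos_iff]
    refine ⟨⟨⟨fun _ => 1, ?_⟩, 0, ?_⟩⟩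
    · rw [LinearMap.mem_ker]
      funext e
      simp [δ]
    · intro h0
      have h1 := congrArg (fun t : LinearMap.ker δ => (t : V → ℚ) (Classical.arbitrary V)) h0
      simp at h1
  by_contra hcon
  push Not at hcon
  have hle : LinearMap.ker T ≤ LinearMap.range δ := by
    intro φ hφ
    have h1 : ∀ c, ∑ e, φ e * b c e = 0 := fun c => congrFun (LinearMap.mem_ker.mp hφ) c
    obtain ⟨H, hH⟩ := hcon φ h1
    exact ⟨H, (funext hH).symm⟩
  have := Submodule.finrank_mono hle
  omega

/-- **An integral cocycle that is not a coboundary.** -/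
theorem exists_cocycle [Nonempty V] (src tgt : E → V) (b : C → E → ℚ)
    (h : Fintype.card C + Fintype.card V ≤ Fintype.card E) :
    ∃ φ : E → ℤ, (∀ c, ∑ e, (φ e : ℚ) * b c e = 0) ∧
      ¬ ∃ H : V → ℚ, ∀ e, (φ e : ℚ) = H (tgt e) - H (src e) := by
  classical
  obtain ⟨φ, hφ, hnot⟩ := exists_cocycle_rat src tgt b h
  let N : ℕ := ∏ e, (φ e).den
  have hN : (N : ℚ) ≠ 0 := by
    have : N ≠ 0 := Finset.prod_ne_zero_iff.mpr fun e _ => (φ e).den_ne_zero
    exact_mod_cast this
  have hint : ∀ e, ∃ z : ℤ, (z : ℚ) = N * φ e := by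
    intro e
    have hd : (φ e).den ∣ N := Finset.dvd_prod_of_mem (fun e => (φ e).den) (Finset.mem_univ e)
    obtain ⟨m, hm⟩ := hd
    refine ⟨m * (φ e).num, ?_⟩
    have h1 : ((φ e).den : ℚ) * φ e = (φ e).num := Rat.den_mul_eq_num (φ e)
    rw [hm]
    push_cast
    rw [← h1]
    ring
  choose ψ hψ using hint
  refine ⟨ψ, fun c => ?_, ?_⟩
  · have : ∑ e, (ψ e : ℚ) * b c e = N * ∑ e, φ e * b c e := by
      rw [Finset.mul_sum]
      exact Finset.sum_congr rfl fun e _ => by rw [hψ]; ring
    rw [this, hφ, mul_zero]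
  · rintro ⟨H, hH⟩
    apply hnot
    refine ⟨fun v => H v / N, fun e => ?_⟩
    have := hH e
    rw [hψ] at this
    field_simp
    linarith

end Cocycle

section Shift

variable {k : Type} [Field k]

/-- the shift `(x, z) ↦ (x, z + 1)` -/
def sh (X : Type) (x : X × ℤ) : X × ℤ := (x.1, x.2 + 1)

theorem sh_injective (X : Type) : Function.Injective (sh X) := by
  rintro ⟨a, z⟩ ⟨b, z'⟩ h
  simp only [sh, Prod.mk.injEq] at h
  ext
  · exact h.1
  · simpa using h.2

/-- A finitely supported chain that is invariant under the shift vanishes. -/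
theorem eq_zero_of_shift_eq {Y : Type} (y : Y × ℤ →₀ k)
    (h : Finsupp.mapDomain (sh Y) y = y) : y = 0 := by
  classical
  by_contra hne
  have hs : y.support.Nonempty := Finsupp.support_nonempty_iff.mpr hne
  obtain ⟨a, ha, hmax⟩ := Finset.exists_max_image y.support (fun a => a.2) hs
  have h1 : (Finsupp.mapDomain (sh Y) y) (sh Y a) = y a :=
    Finsupp.mapDomain_apply (sh_injective Y) y a
  rw [h] at h1
  have h2 : sh Y a ∈ y.support := by
    rw [Finsupp.mem_support_iff, h1]
    exact Finsupp.mem_support_iff.mp ha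
  have := hmax _ h2
  simp [sh] at this

/-- the operator `Θ_a` with `(τ - 1) Θ_a [x, z] = [x, z] - [x, a]` for `a ≤ z` -/
noncomputable def theta (X : Type) (a : ℤ) : (X × ℤ →₀ k) →ₗ[k] (X × ℤ →₀ k) :=
  Finsupp.linearCombination k fun x : X × ℤ =>
    ∑ i ∈ Finset.range (x.2 - a).toNat, Finsupp.single (x.1, a + (i : ℤ)) (1 : k)

theorem theta_single (X : Type) (a : ℤ) (x : X × ℤ) :
    theta (k := k) X a (Finsupp.single x 1) =
      ∑ i ∈ Finset.range (x.2 - a).toNat, Finsupp.single (x.1, a + (i : ℤ)) (1 : k) := by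
  simp [theta]

theorem shift_theta_single (X : Type) (a : ℤ) (x : X × ℤ) (hx : a ≤ x.2) :
    Finsupp.lmapDomain k k (sh X) (theta X a (Finsupp.single x 1)) -
        theta X a (Finsupp.single x 1) =
      Finsupp.single x 1 - Finsupp.single (x.1, a) (1 : k) := by
  rw [theta_single, map_sum, ← Finset.sum_sub_distrib]
  have h1 : ∀ i ∈ Finset.range (x.2 - a).toNat,
      Finsupp.lmapDomain k k (sh X) (Finsupp.single (x.1, a + (i : ℤ)) (1 : k)) -
        Finsupp.single (x.1, a + (i : ℤ)) (1 : k) =
      (fun j : ℕ => Finsupp.single (x.1, a + (j : ℤ)) (1 : k)) (i + 1) -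
        (fun j : ℕ => Finsupp.single (x.1, a + (j : ℤ)) (1 : k)) i := by
    intro i _
    simp only [Finsupp.lmapDomain_apply, Finsupp.mapDomain_single, sh]
    push_cast
    rw [add_assoc]
  rw [Finset.sum_congr rfl h1,
    Finset.sum_range_sub (fun j : ℕ => Finsupp.single (x.1, a + (j : ℤ)) (1 : k))]
  have h2 : a + (((x.2 - a).toNat : ℕ) : ℤ) = x.2 := by
    rw [Int.toNat_of_nonneg (by omega)]
    ring
  simp only [h2, Nat.cast_zero, add_zero]

/-- the set of cells over `B` at the levels `a ≤ z < a + N` -/
def slab {X : Type} (B : Set X) (a : ℤ) (N : ℕ) : Set (X × ℤ) :=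
  {x | x.1 ∈ B ∧ a ≤ x.2 ∧ x.2 < a + N}

theorem theta_mem {X : Type} (B : Set X) (a : ℤ) (N : ℕ) (c : X × ℤ →₀ k)
    (hc : c ∈ Finsupp.supported k k (slab B a (N + 1))) :
    theta X a c ∈ Finsupp.supported k k (slab B a N) := by
  have : Finsupp.supported k k (slab B a (N + 1)) ≤
      (Finsupp.supported k k (slab B a N)).comap (theta X a) := by
    rw [Finsupp.supported_eq_span_single, Submodule.span_le]
    rintro _ ⟨x, hx, rfl⟩
    change theta X a (Finsupp.single x (1 : k)) ∈ Finsupp.supported k k (slab B a N)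
    rw [theta_single]
    refine Submodule.sum_mem _ fun i hi => ?_
    apply Finsupp.single_mem_supported
    have hi' := Finset.mem_range.mp hi
    obtain ⟨h1, h2, h3⟩ := hx
    refine ⟨h1, by simp, ?_⟩
    simp only
    push_cast at h3
    omega
  exact this hc

theorem shift_theta {X : Type} (B : Set X) (a : ℤ) (N : ℕ) (c : X × ℤ →₀ k)
    (hc : c ∈ Finsupp.supported k k (slab B a N)) :
    Finsupp.lmapDomain k k (sh X) (theta X a c) - theta X a c =
      c - Finsupp.lmapDomain k k (fun x : X => (x, a)) (Finsupp.lmapDomain k k Prod.fst c) := by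
  have : Finsupp.supported k k (slab B a N) ≤ LinearMap.ker
      ((Finsupp.lmapDomain k k (sh X) ∘ₗ theta X a - theta X a) -
        (LinearMap.id - Finsupp.lmapDomain k k (fun x : X => (x, a)) ∘ₗ
          Finsupp.lmapDomain k k Prod.fst)) := by
    rw [Finsupp.supported_eq_span_single, Submodule.span_le]
    rintro _ ⟨x, hx, rfl⟩
    rw [SetLike.mem_coe, LinearMap.mem_ker]
    simp only [LinearMap.sub_apply, LinearMap.comp_apply, LinearMap.id_apply]
    rw [shift_theta_single X a x hx.2.1]
    simp
  have h := LinearMap.mem_ker.mp (this hc)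
  simp only [LinearMap.sub_apply, LinearMap.comp_apply, LinearMap.id_apply] at h
  exact sub_eq_zero.mp h

/-- **Injectivity persists in an infinite cyclic cover.**  `D` is the boundary map downstairs,
`D'` the boundary map upstairs; `D'` commutes with the projections and with the shifts.  If `D` is
injective on the chains supported on `B`, then `D'` is injective on the chains supported over
`B`. -/
theorem shift_injective {X Y : Type} (D : (X →₀ k) →ₗ[k] (Y →₀ k))
    (D' : (X × ℤ →₀ k) →ₗ[k] (Y × ℤ →₀ k))
    (hproj : ∀ x : X × ℤ, Finsupp.mapDomain Prod.fst (D' (Finsupp.single x 1)) =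
      D (Finsupp.single x.1 1))
    (hshift : ∀ x : X × ℤ, D' (Finsupp.single (sh X x) 1) =
      Finsupp.mapDomain (sh Y) (D' (Finsupp.single x 1)))
    (B : Set X) (hinj : ∀ c ∈ Finsupp.supported k k B, D c = 0 → c = 0)
    (c : X × ℤ →₀ k) (hc : ∀ x ∈ c.support, x.1 ∈ B) (hD : D' c = 0) : c = 0 := by
  classical
  have Hproj : Finsupp.lmapDomain k k Prod.fst ∘ₗ D' = D ∘ₗ Finsupp.lmapDomain k k Prod.fst := by
    apply Finsupp.lhom_ext
    intro x r
    have : Finsupp.single x r = r • Finsupp.single x (1 : k) := by simp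
    simp only [LinearMap.comp_apply, this, map_smul]
    congr 1
    simpa using hproj x
  have Hshift : D' ∘ₗ Finsupp.lmapDomain k k (sh X) = Finsupp.lmapDomain k k (sh Y) ∘ₗ D' := by
    apply Finsupp.lhom_ext
    intro x r
    have : Finsupp.single x r = r • Finsupp.single x (1 : k) := by simp
    simp only [LinearMap.comp_apply, this, map_smul]
    congr 1
    simpa using hshift x
  have key : ∀ (a : ℤ) (N : ℕ) (c : X × ℤ →₀ k), c ∈ Finsupp.supported k k (slab B a N) →
      D' c = 0 → c = 0 := by
    intro a N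
    induction N with
    | zero =>
      intro c hc _
      rw [Finsupp.mem_supported] at hc
      by_contra hne
      obtain ⟨x, hx⟩ := Finsupp.support_nonempty_iff.mpr hne
      obtain ⟨-, h2, h3⟩ := hc hx
      simp only [Nat.cast_zero, add_zero] at h3
      omega
    | succ N ih =>
      intro c hc hD
      have hp : Finsupp.lmapDomain k k Prod.fst c = 0 := by
        apply hinj
        · rw [Finsupp.mem_supported]
          intro x hx
          have := Finsupp.mapDomain_support hx
          obtain ⟨y, hy, rfl⟩ := Finset.mem_image.mp this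
          exact ((Finsupp.mem_supported k c).mp hc hy).1
        · have := congrArg (fun f => f c) Hproj
          simp only [LinearMap.comp_apply] at this
          rw [← this, hD, map_zero]
      have h1 := shift_theta B a (N + 1) c hc
      rw [hp, map_zero, sub_zero] at h1
      have h2 : D' (theta X a c) = 0 := by
        apply eq_zero_of_shift_eq
        have h3 := congrArg (fun f => f (theta X a c)) Hshift
        simp only [LinearMap.comp_apply] at h3
        have h4 := congrArg D' h1
        rw [map_sub, h3, hD] at h4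
        exact sub_eq_zero.mp h4
      have h5 := ih _ (theta_mem B a N c hc) h2
      rw [h5] at h1
      simpa using h1.symm
  let M : ℕ := c.support.sup fun x => x.2.natAbs
  apply key (-(M : ℤ)) (2 * M + 1) c _ hD
  rw [Finsupp.mem_supported]
  intro x hx
  have h1 : x.2.natAbs ≤ M := Finset.le_sup (f := fun x : X × ℤ => x.2.natAbs) hx
  refine ⟨hc x hx, ?_, ?_⟩
  · omega
  · push_cast
    omega

end Shift

end Claimed.Open.R321.TowerLA

namespace Claimed.Open.R321.Tw

/-- **An integral cocycle that is not a coboundary**, relative to finite sets of cells. -/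
theorem exists_int_cocycle {V E C : Type} (V0 : Finset V) (E0 : Finset E) (C0 : Finset C)
    (src tgt : E → V) (b : C → E → ℤ) (hV : V0.Nonempty)
    (hsrc : ∀ e ∈ E0, src e ∈ V0) (htgt : ∀ e ∈ E0, tgt e ∈ V0)
    (hcard : C0.card + V0.card ≤ E0.card) :
    ∃ φ : E → ℤ, (∀ e, e ∉ E0 → φ e = 0) ∧ (∀ c ∈ C0, ∑ e ∈ E0, φ e * b c e = 0) ∧
      ¬ ∃ H : V → ℤ, ∀ e ∈ E0, φ e = H (tgt e) - H (src e) := by
  classical
  have : Nonempty V0 := hV.to_subtype
  obtain ⟨ψ, hψ, hnot⟩ := TowerLA.exists_cocycle (E := E0) (V := V0) (C := C0)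
    (fun e => ⟨src e, hsrc e e.2⟩) (fun e => ⟨tgt e, htgt e e.2⟩)
    (fun c e => ((b c e : ℤ) : ℚ)) (by simpa using hcard)
  refine ⟨fun e => if h : e ∈ E0 then ψ ⟨e, h⟩ else 0, fun e he => by simp [he], ?_, ?_⟩
  · intro c hc
    have h1 := hψ ⟨c, hc⟩
    have h2 : ∑ e ∈ E0, (if h : e ∈ E0 then ψ ⟨e, h⟩ else 0) * b c e =
        ∑ e : E0, ψ e * b c e := by
      rw [← Finset.sum_coe_sort E0]
      exact Finset.sum_congr rfl fun e _ => by simp
    rw [h2]
    exact_mod_cast h1
  · rintro ⟨H, hH⟩
    apply hnot
    refine ⟨fun v => (H v : ℚ), fun e => ?_⟩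
    have := hH e e.2
    simp only [e.2, dif_pos] at this
    change ((ψ e : ℤ) : ℚ) = (H (tgt e) : ℚ) - (H (src e) : ℚ)
    have h3 : ψ e = H (tgt e) - H (src e) := this
    rw [h3]
    push_cast
    ring

end Claimed.Open.R321.Tw
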