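import Claimed.Open.R321.TwCx

/-!
# Tower theorem, part 3: the Euler characteristic count

Let `(V0, E0, C0)` be a finite subcomplex of `A`.

* `card_add_card_le`: if the twisted `d₂` is injective on `C0` and the twisted `d₁` maps the chains on
  `E0` onto the chains on `V0` (`H₂ = 0 = H₀`), then `|C0| + |V0| ≤ |E0|` (`χ ≤ 0`);
* `exists_height`: if `|C0| + |V0| ≤ |E0|` then there is an integral 1-cocycle on the subcomplex which
  is not a coboundary (`b₁ ≥ 1`).
-/

set_option autoImplicit false

namespace Claimed.Open.R321.Tw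

open Finsupp Module

/-- abstract rank count for `W --d₂--> U --d₁--> T` -/
theorem finrank_add_finrank_le {k M₁ M₂ M₃ : Type} [Field k] [AddCommGroup M₁] [Module k M₁]
    [AddCommGroup M₂] [Module k M₂] [AddCommGroup M₃] [Module k M₃]
    (W : Submodule k M₁) (U : Submodule k M₂) (T : Submodule k M₃) [FiniteDimensional k U]
    (f₂ : M₁ →ₗ[k] M₂) (f₁ : M₂ →ₗ[k] M₃)
    (hinj : ∀ x ∈ W, f₂ x = 0 → x = 0) (hmap : ∀ x ∈ W, f₂ x ∈ U)
    (hzero : ∀ x ∈ W, f₁ (f₂ x) = 0) (honto : T ≤ U.map f₁) :
    finrank k W + finrank k T ≤ finrank k U := by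
  have h1 := LinearMap.finrank_range_add_finrank_ker (f₁.domRestrict U)
  have hT : finrank k T ≤ finrank k (LinearMap.range (f₁.domRestrict U)) := by
    apply Submodule.finrank_mono
    rwa [LinearMap.range_domRestrict]
  have hW : finrank k W ≤ finrank k (LinearMap.ker (f₁.domRestrict U)) := by
    let g : W →ₗ[k] LinearMap.ker (f₁.domRestrict U) :=
      LinearMap.codRestrict (LinearMap.ker (f₁.domRestrict U))
        (LinearMap.codRestrict U (f₂.domRestrict W) (fun x => hmap x x.2))
        (fun x => hzero x x.2)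
    apply LinearMap.finrank_le_finrank_of_injective (f := g)
    rw [← LinearMap.ker_eq_bot, LinearMap.ker_eq_bot']
    intro x hx
    have h2 : f₂ (x : M₁) = 0 := by
      have := congrArg (fun y : LinearMap.ker (f₁.domRestrict U) => ((y : U) : M₂)) hx
      exact this
    exact Subtype.ext (hinj x x.2 h2)
  omega

section general

variable {k : Type} [Field k]

theorem finiteDimensional_supported {α : Type} (s : Finset α) :
    FiniteDimensional k (supported k k (s : Set α)) :=
  Module.Finite.equiv (supportedEquivFinsupp (M := k) (R := k) (s : Set α)).symm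

theorem finrank_supported {α : Type} (s : Finset α) :
    finrank k (supported k k (s : Set α)) = s.card := by
  rw [LinearEquiv.finrank_eq (supportedEquivFinsupp (M := k) (R := k) (s : Set α)),
    finrank_finsupp_self]
  simp

variable (A : Cx) (ρ : A.E → kˣ)

theorem d2_mem_supported (E0 : Finset A.E) (C0 : Finset A.C)
    (hbd : ∀ c ∈ C0, ∀ x ∈ A.bdry c, x.1 ∈ E0) {x : A.C →₀ k}
    (hx : x ∈ supported k k (C0 : Set A.C)) : d2 A ρ x ∈ supported k k (E0 : Set A.E) := by
  rw [Finsupp.supported_eq_span_single] at hx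
  induction hx using Submodule.span_induction with
  | mem y hy =>
    obtain ⟨c, hc, rfl⟩ := hy
    rw [d2_single, one_smul]
    exact fox_mem_supported ρ _ _ (hbd c hc)
  | zero => simp
  | add y z _ _ hy hz => rw [map_add]; exact Submodule.add_mem _ hy hz
  | smul r y _ hy => rw [map_smul]; exact Submodule.smul_mem _ _ hy

theorem d1_d2_eq_zero (C0 : Finset A.C)
    (hclosed : ∀ c ∈ C0, A.IsPath (A.bdry c) (A.base c) (A.base c))
    (hcoc : ∀ c ∈ C0, ev ρ (A.bdry c) = 1) {x : A.C →₀ k}
    (hx : x ∈ supported k k (C0 : Set A.C)) : d1 A ρ (d2 A ρ x) = 0 := by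
  rw [Finsupp.supported_eq_span_single] at hx
  induction hx using Submodule.span_induction with
  | mem y hy =>
    obtain ⟨c, hc, rfl⟩ := hy
    rw [d2_single, one_smul, d1_fox A ρ (hclosed c hc), hcoc c hc]
    simp
  | zero => simp
  | add y z _ _ hy hz => rw [map_add, map_add, hy, hz, add_zero]
  | smul r y _ hy => rw [map_smul, map_smul, hy, smul_zero]

/-- `χ ≤ 0`: if `H₂ = 0` and `H₀ = 0` for the twisted chain complex of a finite subcomplex, then
`|C0| + |V0| ≤ |E0|`. -/
theorem card_add_card_le (V0 : Finset A.V) (E0 : Finset A.E) (C0 : Finset A.C)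
    (hclosed : ∀ c ∈ C0, A.IsPath (A.bdry c) (A.base c) (A.base c))
    (hcoc : ∀ c ∈ C0, ev ρ (A.bdry c) = 1)
    (hinj : ∀ x ∈ supported k k (C0 : Set A.C), d2 A ρ x = 0 → x = 0)
    (hbd : ∀ c ∈ C0, ∀ x ∈ A.bdry c, x.1 ∈ E0)
    (honto : ∀ v ∈ V0, single v (1 : k) ∈ (supported k k (E0 : Set A.E)).map (d1 A ρ)) :
    C0.card + V0.card ≤ E0.card := by
  have := finiteDimensional_supported (k := k) E0
  have h := finrank_add_finrank_le (supported k k (C0 : Set A.C)) (supported k k (E0 : Set A.E))
    (supported k k (V0 : Set A.V)) (d2 A ρ) (d1 A ρ) hinj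
    (fun x hx => d2_mem_supported A ρ E0 C0 hbd hx)
    (fun x hx => d1_d2_eq_zero A ρ C0 hclosed hcoc hx) (by
      rw [Finsupp.supported_eq_span_single, Submodule.span_le]
      rintro _ ⟨v, hv, rfl⟩
      exact honto v hv)
  rwa [finrank_supported, finrank_supported, finrank_supported] at h

end general

end Claimed.Open.R321.Tw
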