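import Claimed.Open.R321.TwCx

/-!
# Tower theorem, part 2: infinite cyclic (voltage) covers

For `φ : A.E → ℤ` the voltage cover `A.cover φ` has vertices `V × ℤ`, edges `E × ℤ`, cells `C × ℤ`;
the edge `(e, t)` runs from `(src e, t)` to `(tgt e, t + φ e)`.

* `lift φ t l`: the lift of the word `l` starting at height `t`;
* `mk_lift_congr`: freely equivalent words have freely equivalent lifts;
* `d2_cover_injOn` (paper, Lemma 2.1): injectivity of the twisted `d₂` passes to the cover.
-/

set_option autoImplicit false

namespace Claimed.Open.R321.Tw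

open Finsupp

section lift

variable {E : Type} (φ : E → ℤ)

/-- The lift of a word to the voltage cover, starting at height `t`. -/
def lift : ℤ → Word E → Word (E × ℤ)
  | _, [] => []
  | t, (e, true) :: l => ((e, t), true) :: lift (t + φ e) l
  | t, (e, false) :: l => ((e, t - φ e), false) :: lift (t - φ e) l

@[simp] theorem lift_nil (t : ℤ) : lift φ t [] = [] := rfl

theorem lift_cons_true (t : ℤ) (e : E) (l : Word E) :
    lift φ t ((e, true) :: l) = ((e, t), true) :: lift φ (t + φ e) l := rfl

theorem lift_cons_false (t : ℤ) (e : E) (l : Word E) :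
    lift φ t ((e, false) :: l) = ((e, t - φ e), false) :: lift φ (t - φ e) l := rfl

theorem lift_append (t : ℤ) (l l' : Word E) :
    lift φ t (l ++ l') = lift φ t l ++ lift φ (t + ht φ l) l' := by
  induction l generalizing t with
  | nil => simp
  | cons x l ih =>
    obtain ⟨e, b⟩ := x
    cases b
    · simp only [List.cons_append, lift_cons_false, ih, ht_cons, cond_false]
      congr 3; ring
    · simp only [List.cons_append, lift_cons_true, ih, ht_cons, cond_true]
      congr 3; ring

@[simp] theorem length_lift (t : ℤ) (l : Word E) : (lift φ t l).length = l.length := by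
  induction l generalizing t with
  | nil => rfl
  | cons x l ih =>
    obtain ⟨e, b⟩ := x
    cases b <;> simp [lift_cons_false, lift_cons_true, ih]

/-- The lift projects to the original word. -/
@[simp] theorem map_lift (t : ℤ) (l : Word E) :
    (lift φ t l).map (fun x => (x.1.1, x.2)) = l := by
  induction l generalizing t with
  | nil => rfl
  | cons x l ih =>
    obtain ⟨e, b⟩ := x
    cases b <;> simp [lift_cons_false, lift_cons_true, ih]

theorem lift_invRev (t : ℤ) (l : Word E) :
    lift φ (t + ht φ l) (FreeGroup.invRev l) = FreeGroup.invRev (lift φ t l) := by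
  induction l generalizing t with
  | nil => simp [FreeGroup.invRev]
  | cons x l ih =>
    obtain ⟨e, b⟩ := x
    have h1 : ∀ (F : Type) (y : F × Bool) (m : Word F),
        FreeGroup.invRev (y :: m) = FreeGroup.invRev m ++ [(y.1, !y.2)] := by
      intro F y m; simp [FreeGroup.invRev]
    cases b
    · rw [h1, lift_cons_false, h1, lift_append, ht_cons, ht_invRev]
      have e1 : t + (cond false (φ e) (-φ e) + ht φ l) = (t - φ e) + ht φ l := by simp; ring
      rw [e1, ih]
      congr 1
      simp only [Bool.not_false, lift_cons_true, lift_nil]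
      congr 3; ring
    · rw [h1, lift_cons_true, h1, lift_append, ht_cons, ht_invRev]
      have e1 : t + (cond true (φ e) (-φ e) + ht φ l) = (t + φ e) + ht φ l := by simp; ring
      rw [e1, ih]
      congr 1
      simp only [Bool.not_true, lift_cons_false, lift_nil]
      congr 3; ring

theorem red_step_lift (t : ℤ) {l l' : Word E} (h : FreeGroup.Red.Step l l') :
    FreeGroup.Red.Step (lift φ t l) (lift φ t l') := by
  cases h with
  | @not L₁ L₂ e b =>
  rw [lift_append, lift_append]
  cases b
  · simp only [Bool.not_false, lift_cons_false, lift_cons_true, sub_add_cancel]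
    exact FreeGroup.Red.Step.not
  · simp only [Bool.not_true, lift_cons_false, lift_cons_true, add_sub_cancel_right]
    exact FreeGroup.Red.Step.not

theorem red_lift (t : ℤ) {l l' : Word E} (h : FreeGroup.Red l l') :
    FreeGroup.Red (lift φ t l) (lift φ t l') := by
  induction h with
  | refl => exact Relation.ReflTransGen.refl
  | tail _ h2 ih => exact ih.tail (red_step_lift φ t h2)

/-- Freely equivalent words have freely equivalent lifts. -/
theorem mk_lift_congr (t : ℤ) {l l' : Word E} (h : FreeGroup.mk l = FreeGroup.mk l') :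
    FreeGroup.mk (lift φ t l) = FreeGroup.mk (lift φ t l') := by
  obtain ⟨m, h1, h2⟩ := FreeGroup.Red.exact.1 h
  exact FreeGroup.Red.exact.2 ⟨_, red_lift φ t h1, red_lift φ t h2⟩

end lift

/-- The voltage cover of `A` attached to `φ : A.E → ℤ`. -/
abbrev Cx.cover (A : Cx) (φ : A.E → ℤ) : Cx where
  V := A.V × ℤ
  E := A.E × ℤ
  C := A.C × ℤ
  src x := (A.src x.1, x.2)
  tgt x := (A.tgt x.1, x.2 + φ x.1)
  base x := (A.base x.1, x.2)
  bdry x := lift φ x.2 (A.bdry x.1)

theorem Cx.IsPath.lift {A : Cx} (φ : A.E → ℤ) {l : Word A.E} {a b : A.V} (h : A.IsPath l a b)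
    (t : ℤ) : (A.cover φ).IsPath (Tw.lift φ t l) (a, t) (b, t + ht φ l) := by
  induction l generalizing a t with
  | nil =>
    obtain rfl : a = b := h
    simp only [lift_nil, ht_nil, add_zero]
    exact rfl
  | cons x l ih =>
    obtain ⟨e, b'⟩ := x
    obtain ⟨h1, h2⟩ := h
    cases b'
    · simp only [Cx.sSrc, Cx.sTgt, cond_false] at h1 h2
      subst h1
      rw [lift_cons_false]
      refine ⟨?_, ?_⟩
      · simp [Cx.sSrc, Cx.cover]
      · have := ih h2 (t - φ e)
        simp only [ht_cons, cond_false]
        have e1 : t + (-φ e + ht φ l) = t - φ e + ht φ l := by ring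
        rw [e1]
        exact this
    · simp only [Cx.sSrc, Cx.sTgt, cond_true] at h1 h2
      subst h1
      rw [lift_cons_true]
      refine ⟨?_, ?_⟩
      · simp [Cx.sSrc, Cx.cover]
      · have := ih h2 (t + φ e)
        simp only [ht_cons, cond_true]
        have e1 : t + (φ e + ht φ l) = t + φ e + ht φ l := by ring
        rw [e1]
        exact this

theorem ev_lift {E H : Type} [Group H] (φ : E → ℤ) (ρ : E → H) (t : ℤ) (l : Word E) :
    ev (fun x : E × ℤ => ρ x.1) (lift φ t l) = ev ρ l := by
  induction l generalizing t with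
  | nil => rfl
  | cons x l ih =>
    obtain ⟨e, b⟩ := x
    cases b <;> simp [lift_cons_false, lift_cons_true, ih]

/-! ### The Laurent lemma -/

section laurent

variable {k : Type} [Field k]

/-- The deck transformation `(x, t) ↦ (x, t + 1)` on chains. -/
noncomputable def shift (X : Type) : (X × ℤ →₀ k) →ₗ[k] (X × ℤ →₀ k) :=
  Finsupp.lmapDomain k k fun p => (p.1, p.2 + 1)

/-- The projection of chains of the cover to chains of the base. -/
noncomputable def proj (X : Type) : (X × ℤ →₀ k) →ₗ[k] (X →₀ k) :=
  Finsupp.lmapDomain k k Prod.fst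

/-- The embedding of chains of the base at height `b`. -/
noncomputable def emb (X : Type) (b : ℤ) : (X →₀ k) →ₗ[k] (X × ℤ →₀ k) :=
  Finsupp.lmapDomain k k fun x => (x, b)

@[simp] theorem shift_single {X : Type} (p : X × ℤ) (r : k) :
    shift X (single p r) = single (p.1, p.2 + 1) r := by
  simp [shift]

@[simp] theorem proj_single {X : Type} (p : X × ℤ) (r : k) :
    proj X (single p r) = single p.1 r := by
  simp [proj]

@[simp] theorem emb_single {X : Type} (b : ℤ) (x : X) (r : k) :
    emb X b (single x r) = single (x, b) r := by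
  simp [emb]

theorem shift_apply {X : Type} (y : X × ℤ →₀ k) (x : X) (t : ℤ) :
    shift X y (x, t + 1) = y (x, t) := by
  have hinj : Function.Injective fun p : X × ℤ => (p.1, p.2 + 1) := by
    rintro ⟨a, s⟩ ⟨a', s'⟩ h
    simp only [Prod.mk.injEq, add_left_inj] at h
    exact Prod.ext h.1 h.2
  exact Finsupp.mapDomain_apply hinj y (x, t)

/-- `1 - τ` is injective on finitely supported chains. -/
theorem eq_zero_of_shift_eq {X : Type} (y : X × ℤ →₀ k) (h : shift X y = y) : y = 0 := by
  by_contra hy
  obtain ⟨⟨x, t⟩, hxt⟩ := Finsupp.ne_iff.1 hy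
  have key : ∀ m : ℕ, y (x, t + m) = y (x, t) := by
    intro m
    induction m with
    | zero => simp
    | succ m ih =>
      rw [← ih, ← shift_apply y x (t + m), h]
      congr 2
      push_cast
      ring
  have hinf : Set.Infinite (y.support : Set (X × ℤ)) := by
    apply Set.infinite_of_injective_forall_mem (f := fun m : ℕ => (x, t + (m : ℤ)))
    · intro m m' hm
      simpa using hm
    · intro m
      simp only [Finset.mem_coe, Finsupp.mem_support_iff, key m]
      simpa using hxt
  exact hinf y.support.finite_toSet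

variable {E : Type} (φ : E → ℤ) (ρ : E → kˣ)

theorem proj_fox_lift (t : ℤ) (l : Word E) :
    proj E (fox (fun x : E × ℤ => ρ x.1) (lift φ t l)) = fox ρ l := by
  induction l generalizing t with
  | nil => simp
  | cons x l ih =>
    obtain ⟨e, b⟩ := x
    cases b
    · simp [lift_cons_false, fox_cons_false, ih]
    · simp [lift_cons_true, fox_cons_true, ih]

theorem shift_fox_lift (t : ℤ) (l : Word E) :
    shift E (fox (fun x : E × ℤ => ρ x.1) (lift φ t l))
      = fox (fun x : E × ℤ => ρ x.1) (lift φ (t + 1) l) := by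
  induction l generalizing t with
  | nil => simp
  | cons x l ih =>
    obtain ⟨e, b⟩ := x
    cases b
    · have e1 : t + 1 - φ e = t - φ e + 1 := by ring
      simp [lift_cons_false, fox_cons_false, ih, e1]
    · have e1 : t + 1 + φ e = t + φ e + 1 := by ring
      simp [lift_cons_true, fox_cons_true, ih, e1]

/-- The operator `G_b` with `(1 - τ) G_b = 1 - emb_b ∘ proj` on chains of height `≤ b`. -/
noncomputable def geom (X : Type) (b : ℤ) : (X × ℤ →₀ k) →ₗ[k] (X × ℤ →₀ k) :=
  Finsupp.linearCombination k fun p =>
    ∑ i ∈ Finset.range (b - p.2).toNat, single (p.1, p.2 + (i : ℤ)) (1 : k)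

theorem geom_single {X : Type} (b : ℤ) (p : X × ℤ) (r : k) :
    geom X b (single p r)
      = r • ∑ i ∈ Finset.range (b - p.2).toNat, single (p.1, p.2 + (i : ℤ)) (1 : k) := by
  simp [geom]

theorem geom_sub_shift_geom {X : Type} (b : ℤ) (x : X × ℤ →₀ k)
    (hx : x ∈ supported k k {p : X × ℤ | p.2 ≤ b}) :
    geom X b x - shift X (geom X b x) = x - emb X b (proj X x) := by
  rw [Finsupp.supported_eq_span_single] at hx
  induction hx using Submodule.span_induction with
  | mem y hy =>
    obtain ⟨p, hp, rfl⟩ := hy
    have hp' : p.2 ≤ b := hp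
    rw [geom_single, one_smul, map_sum, ← Finset.sum_sub_distrib]
    have h1 : ∀ i ∈ Finset.range (b - p.2).toNat,
        single (p.1, p.2 + (i : ℤ)) (1 : k) - shift X (single (p.1, p.2 + (i : ℤ)) (1 : k))
          = (fun j : ℕ => single (p.1, p.2 + (j : ℤ)) (1 : k)) i
            - (fun j : ℕ => single (p.1, p.2 + (j : ℤ)) (1 : k)) (i + 1) := by
      intro i _
      simp only [shift_single]
      congr 3
      push_cast
      ring
    rw [Finset.sum_congr rfl h1, Finset.sum_range_sub']
    have h2 : p.2 + ((b - p.2).toNat : ℤ) = b := by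
      rw [Int.toNat_of_nonneg (by omega)]; ring
    simp only [h2, Nat.cast_zero, add_zero, proj_single, emb_single]
  | zero => simp
  | add y z _ _ hy hz =>
    simp only [map_add]
    rw [add_sub_add_comm, hy, hz]
    abel
  | smul r y _ hy =>
    simp only [map_smul]
    rw [← smul_sub, hy, smul_sub]

theorem geom_mem_supported {X : Type} (s : Set X) (a b : ℤ) (x : X × ℤ →₀ k)
    (hx : x ∈ supported k k {p : X × ℤ | p.1 ∈ s ∧ a ≤ p.2}) :
    geom X b x ∈ supported k k {p : X × ℤ | p.1 ∈ s ∧ a ≤ p.2 ∧ p.2 < b} := by
  rw [Finsupp.supported_eq_span_single] at hx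
  induction hx using Submodule.span_induction with
  | mem y hy =>
    obtain ⟨p, hp, rfl⟩ := hy
    rw [geom_single]
    refine Submodule.smul_mem _ _ (Submodule.sum_mem _ fun i hi => ?_)
    apply single_mem_supported
    have hi' := Finset.mem_range.1 hi
    refine ⟨hp.1, ?_, ?_⟩
    · have := hp.2
      show a ≤ p.2 + (i : ℤ)
      omega
    · show p.2 + (i : ℤ) < b
      omega
  | zero => simp
  | add y z _ _ hy hz => rw [map_add]; exact Submodule.add_mem _ hy hz
  | smul r y _ hy => rw [map_smul]; exact Submodule.smul_mem _ _ hy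

end laurent

section laurent2

variable {k : Type} [Field k] (A : Cx) (φ : A.E → ℤ) (ρ : A.E → kˣ)

/-- The pulled back local system on the cover. -/
abbrev Cx.coverChar : (A.cover φ).E → kˣ := fun x => ρ x.1

theorem proj_d2_cover (x : (A.cover φ).C →₀ k) :
    proj A.E (d2 (A.cover φ) (A.coverChar φ ρ) x) = d2 A ρ (proj A.C x) := by
  induction x using Finsupp.induction_linear with
  | zero => simp
  | add x y hx hy => simp only [map_add, hx, hy]
  | single p r =>
    rw [d2_single, map_smul, proj_single, d2_single]
    congr 1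
    exact proj_fox_lift φ ρ p.2 (A.bdry p.1)

theorem shift_d2_cover (x : (A.cover φ).C →₀ k) :
    shift A.E (d2 (A.cover φ) (A.coverChar φ ρ) x)
      = d2 (A.cover φ) (A.coverChar φ ρ) (shift A.C x) := by
  induction x using Finsupp.induction_linear with
  | zero => simp
  | add x y hx hy => simp only [map_add, hx, hy]
  | single p r =>
    rw [d2_single, map_smul, shift_single, d2_single]
    congr 1
    exact shift_fox_lift φ ρ p.2 (A.bdry p.1)

theorem d2_cover_aux (s : Set A.C) (hinj : ∀ x ∈ supported k k s, d2 A ρ x = 0 → x = 0) (a : ℤ) :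
    ∀ (N : ℕ) (x : A.C × ℤ →₀ k),
      x ∈ supported k k {p : A.C × ℤ | p.1 ∈ s ∧ a ≤ p.2 ∧ p.2 < a + N} →
      d2 (A.cover φ) (A.coverChar φ ρ) x = 0 → x = 0 := by
  classical
  intro N
  induction N with
  | zero =>
    intro x hx _
    have : {p : A.C × ℤ | p.1 ∈ s ∧ a ≤ p.2 ∧ p.2 < a + (0 : ℕ)} = ∅ := by
      ext p
      simp only [Set.mem_ofPred_eq, Set.mem_empty_iff_false, iff_false]
      push_cast
      omega
    rw [this, Finsupp.supported_empty] at hx
    exact (Submodule.mem_bot k).1 hx
  | succ N ih =>
    intro x hx hd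
    -- the projection of `x` vanishes
    have hp : proj A.C x = 0 := by
      apply hinj
      · have h1 : x ∈ supported k k (Prod.fst ⁻¹' s : Set (A.C × ℤ)) :=
          Finsupp.supported_mono (fun p hp => hp.1) hx
        rw [Finsupp.mem_supported] at h1 ⊢
        intro c hc
        have := Finsupp.mapDomain_support hc
        obtain ⟨p, hp, rfl⟩ := Finset.mem_image.1 this
        exact h1 hp
      · rw [← proj_d2_cover, hd, map_zero]
    have h1 : x ∈ supported k k {p : A.C × ℤ | p.2 ≤ a + N} :=
      Finsupp.supported_mono (fun p hp => by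
        have := hp.2.2
        push_cast at this
        show p.2 ≤ a + N
        omega) hx
    have h2 := geom_sub_shift_geom (a + N) x h1
    rw [hp, map_zero, sub_zero] at h2
    have h3 : geom A.C (a + N) x ∈
        supported k k {p : A.C × ℤ | p.1 ∈ s ∧ a ≤ p.2 ∧ p.2 < a + N} :=
      geom_mem_supported s a (a + N) x
        (Finsupp.supported_mono (t := {p : A.C × ℤ | p.1 ∈ s ∧ a ≤ p.2})
          (fun p hp => ⟨hp.1, hp.2.1⟩) hx)
    have h4 : d2 (A.cover φ) (A.coverChar φ ρ) (geom A.C (a + N) x) = 0 := by
      apply eq_zero_of_shift_eq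
      rw [shift_d2_cover]
      have := congrArg (d2 (A.cover φ) (A.coverChar φ ρ)) h2
      rw [hd, map_sub] at this
      exact (sub_eq_zero.1 this).symm
    rw [← h2, ih _ h3 h4]
    simp

/-- **Lemma 2.1 of the paper** (infinite cyclic covers): if the twisted `d₂` is injective on the chains
supported on a set `s` of cells, then the twisted `d₂` of the voltage cover is injective on the chains
supported on the preimage of `s`. -/
theorem d2_cover_injOn (s : Set A.C) (hinj : ∀ x ∈ supported k k s, d2 A ρ x = 0 → x = 0)
    (x : (A.cover φ).C →₀ k) (hx : x ∈ supported k k {p : A.C × ℤ | p.1 ∈ s})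
    (hd : d2 (A.cover φ) (A.coverChar φ ρ) x = 0) : x = 0 := by
  classical
  -- a bound for the heights
  let B : ℕ := x.support.sup fun p => p.2.natAbs
  have hB : ∀ p ∈ x.support, p.2.natAbs ≤ B := fun p hp =>
    Finset.le_sup (f := fun p : A.C × ℤ => p.2.natAbs) hp
  apply d2_cover_aux A φ ρ s hinj (-(B : ℤ)) (2 * B + 1) x _ hd
  rw [Finsupp.mem_supported] at hx ⊢
  intro p hp
  have h1 := hB p hp
  refine ⟨hx hp, ?_, ?_⟩
  · show -(B : ℤ) ≤ p.2
    omega
  · show p.2 < -(B : ℤ) + ((2 * B + 1 : ℕ) : ℤ)
    push_cast
    omega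

end laurent2

end Claimed.Open.R321.Tw
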