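import Mathlib

/-!
# Tower theorem, part 1: combinatorial 2-complexes, edge paths, twisted chains

A combinatorial 2-complex `A : Tw.Cx` has vertices, oriented edges and 2-cells; the boundary of a
2-cell is a list of signed edges.  For a function `ρ : A.E → kˣ` (a rank one local system) we define
the twisted cellular chain complex on finitely supported chains:

* `Tw.d1 A ρ (e) = ρ e • [tgt e] - [src e]`,
* `Tw.d2 A ρ (c) = Tw.fox ρ (bdry c)`, the Fox sum along the boundary path.
-/

set_option autoImplicit false

namespace Claimed.Open.R321.Tw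

open Finsupp

/-- A combinatorial 2-complex. -/
structure Cx where
  /-- vertices -/
  V : Type
  /-- oriented edges -/
  E : Type
  /-- 2-cells -/
  C : Type
  /-- source of an edge -/
  src : E → V
  /-- target of an edge -/
  tgt : E → V
  /-- base point of a 2-cell -/
  base : C → V
  /-- boundary word of a 2-cell -/
  bdry : C → List (E × Bool)

/-- A word: a list of signed edges (`(e, true)` is `e`, `(e, false)` is `e⁻¹`), as in `FreeGroup`. -/
abbrev Word (E : Type) := List (E × Bool)

namespace Cx

variable (A : Cx)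

/-- source of a signed edge -/
def sSrc (x : A.E × Bool) : A.V := cond x.2 (A.src x.1) (A.tgt x.1)

/-- target of a signed edge -/
def sTgt (x : A.E × Bool) : A.V := cond x.2 (A.tgt x.1) (A.src x.1)

/-- `l` is an edge path from `a` to `b`. -/
def IsPath : Word A.E → A.V → A.V → Prop
  | [], a, b => a = b
  | x :: l, a, b => A.sSrc x = a ∧ IsPath l (A.sTgt x) b

@[simp] theorem isPath_nil {a b : A.V} : A.IsPath [] a b ↔ a = b := Iff.rfl

@[simp] theorem isPath_cons {x : A.E × Bool} {l : Word A.E} {a b : A.V} :
    A.IsPath (x :: l) a b ↔ A.sSrc x = a ∧ A.IsPath l (A.sTgt x) b := Iff.rfl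

theorem IsPath.append {l l' : Word A.E} {a b c : A.V} (h : A.IsPath l a b) (h' : A.IsPath l' b c) :
    A.IsPath (l ++ l') a c := by
  induction l generalizing a with
  | nil => obtain rfl : a = b := h; exact h'
  | cons x l ih => exact ⟨h.1, ih h.2⟩

end Cx

/-! ### Evaluation of characters and heights on words -/

section ev

variable {E : Type} {H : Type} [Group H]

/-- The value of the homomorphism `FreeGroup E → H` extending `ρ` on a word. -/
def ev (ρ : E → H) (l : Word E) : H := (l.map fun x => cond x.2 (ρ x.1) (ρ x.1)⁻¹).prod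

@[simp] theorem ev_nil (ρ : E → H) : ev ρ [] = 1 := rfl

@[simp] theorem ev_cons (ρ : E → H) (x : E × Bool) (l : Word E) :
    ev ρ (x :: l) = cond x.2 (ρ x.1) (ρ x.1)⁻¹ * ev ρ l := by
  simp [ev]

@[simp] theorem ev_append (ρ : E → H) (l l' : Word E) : ev ρ (l ++ l') = ev ρ l * ev ρ l' := by
  simp [ev]

theorem lift_mk (ρ : E → H) (l : Word E) : FreeGroup.lift ρ (FreeGroup.mk l) = ev ρ l :=
  FreeGroup.lift_mk

/-- `ev` only depends on the class of the word in the free group. -/
theorem ev_congr (ρ : E → H) {l l' : Word E} (h : FreeGroup.mk l = FreeGroup.mk l') :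
    ev ρ l = ev ρ l' := by
  rw [← lift_mk, ← lift_mk, h]

end ev

/-- The height of a word for an integral function on edges. -/
def ht {E : Type} (φ : E → ℤ) (l : Word E) : ℤ := (l.map fun x => cond x.2 (φ x.1) (-φ x.1)).sum

section ht

variable {E : Type} (φ : E → ℤ)

@[simp] theorem ht_nil : ht φ [] = 0 := rfl

@[simp] theorem ht_cons (x : E × Bool) (l : Word E) :
    ht φ (x :: l) = cond x.2 (φ x.1) (-φ x.1) + ht φ l := by
  simp [ht]

@[simp] theorem ht_append (l l' : Word E) : ht φ (l ++ l') = ht φ l + ht φ l' := by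
  simp [ht]

theorem ht_eq_ev (l : Word E) :
    ht φ l = Multiplicative.toAdd (ev (fun e => Multiplicative.ofAdd (φ e)) l) := by
  induction l with
  | nil => rfl
  | cons x l ih =>
    obtain ⟨e, b⟩ := x
    cases b <;> simp [ih]

theorem ht_congr {l l' : Word E} (h : FreeGroup.mk l = FreeGroup.mk l') : ht φ l = ht φ l' := by
  rw [ht_eq_ev, ht_eq_ev, ev_congr _ h]

@[simp] theorem ht_invRev (l : Word E) : ht φ (FreeGroup.invRev l) = - ht φ l := by
  induction l with
  | nil => simp [FreeGroup.invRev]
  | cons x l ih =>
    obtain ⟨e, b⟩ := x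
    have : FreeGroup.invRev ((e, b) :: l) = FreeGroup.invRev l ++ [(e, !b)] := by
      simp [FreeGroup.invRev]
    rw [this, ht_append, ih]
    cases b <;> simp

end ht

/-! ### Twisted chains -/

section chains

variable {k : Type} [Field k]

/-- The Fox sum of a word: the twisted 1-chain swept out by the path. -/
noncomputable def fox {E : Type} (ρ : E → kˣ) : Word E → (E →₀ k)
  | [] => 0
  | (e, true) :: l => single e 1 + (ρ e : k) • fox ρ l
  | (e, false) :: l => ((ρ e)⁻¹ : kˣ).val • (fox ρ l - single e 1)

@[simp] theorem fox_nil {E : Type} (ρ : E → kˣ) : fox ρ [] = 0 := rfl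

theorem fox_cons_true {E : Type} (ρ : E → kˣ) (e : E) (l : Word E) :
    fox ρ ((e, true) :: l) = single e 1 + (ρ e : k) • fox ρ l := rfl

theorem fox_cons_false {E : Type} (ρ : E → kˣ) (e : E) (l : Word E) :
    fox ρ ((e, false) :: l) = ((ρ e)⁻¹ : kˣ).val • (fox ρ l - single e 1) := rfl

theorem fox_append {E : Type} (ρ : E → kˣ) (l l' : Word E) :
    fox ρ (l ++ l') = fox ρ l + ((ev ρ l : kˣ) : k) • fox ρ l' := by
  induction l with
  | nil => simp
  | cons x l ih =>
    obtain ⟨e, b⟩ := x
    cases b
    · simp only [List.cons_append, fox_cons_false, ih, ev_cons, cond_false, Units.val_mul, mul_smul,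
        smul_sub, smul_add]
      abel
    · simp only [List.cons_append, fox_cons_true, ih, ev_cons, cond_true, Units.val_mul, mul_smul,
        smul_add]
      abel

/-- The Fox sum of a word is supported on the edges of the word. -/
theorem fox_mem_supported {E : Type} (ρ : E → kˣ) (l : Word E) (s : Set E)
    (h : ∀ x ∈ l, x.1 ∈ s) : fox ρ l ∈ supported k k s := by
  induction l with
  | nil => exact Submodule.zero_mem _
  | cons x l ih =>
    obtain ⟨e, b⟩ := x
    have he : single e (1 : k) ∈ supported k k s :=
      single_mem_supported k _ (h (e, b) (List.mem_cons_self))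
    have hl := ih fun y hy => h y (List.mem_cons_of_mem _ hy)
    cases b
    · exact Submodule.smul_mem _ _ (Submodule.sub_mem _ hl he)
    · exact Submodule.add_mem _ he (Submodule.smul_mem _ _ hl)

variable (A : Cx) (ρ : A.E → kˣ)

/-- The twisted boundary `C₁ → C₀`. -/
noncomputable def d1 : (A.E →₀ k) →ₗ[k] (A.V →₀ k) :=
  Finsupp.linearCombination k fun e => (ρ e : k) • single (A.tgt e) (1 : k) - single (A.src e) 1

/-- The twisted boundary `C₂ → C₁`. -/
noncomputable def d2 : (A.C →₀ k) →ₗ[k] (A.E →₀ k) :=
  Finsupp.linearCombination k fun c => fox ρ (A.bdry c)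

@[simp] theorem d1_single (e : A.E) (r : k) :
    d1 A ρ (single e r) = r • ((ρ e : k) • single (A.tgt e) (1 : k) - single (A.src e) 1) := by
  simp [d1]

@[simp] theorem d2_single (c : A.C) (r : k) : d2 A ρ (single c r) = r • fox ρ (A.bdry c) := by
  simp [d2]

/-- The boundary of the chain swept out by a path from `a` to `b` is `ρ(path) [b] - [a]`. -/
theorem d1_fox {l : Word A.E} {a b : A.V} (h : A.IsPath l a b) :
    d1 A ρ (fox ρ l) = ((ev ρ l : kˣ) : k) • single b (1 : k) - single a 1 := by
  induction l generalizing a with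
  | nil => obtain rfl : a = b := h; simp
  | cons x l ih =>
    obtain ⟨e, b'⟩ := x
    obtain ⟨h1, h2⟩ := h
    cases b'
    · simp only [Cx.sSrc, Cx.sTgt, cond_false] at h1 h2
      subst h1
      rw [fox_cons_false, map_smul, map_sub, ih h2, d1_single, ev_cons]
      simp only [cond_false, Units.val_mul, one_smul, smul_sub, smul_smul, one_mul, Units.inv_mul]
      abel
    · simp only [Cx.sSrc, Cx.sTgt, cond_true] at h1 h2
      subst h1
      rw [fox_cons_true, map_add, map_smul, ih h2, d1_single, ev_cons]
      simp only [cond_true, Units.val_mul, one_smul, smul_sub, smul_smul, one_mul]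
      abel

end chains

end Claimed.Open.R321.Tw
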