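import Claimed.Open.R321.TwCover

/-!
# Tower theorem, part 4: relation data

A relation datum in a combinatorial 2-complex `A`: a closed path `w` at `v`, an exponent `N` and a
list of triples `(u, c, ε)` with `w ^ N = ∏ u (∂c)^ε u⁻¹` in the free group on the edges.
(The definitions follow helper67's `TowerDefs.lean`, for the `Tw` complexes and `ℤ`-covers.)
-/

set_option autoImplicit false

namespace Claimed.Open.R321.Tw

namespace Cx

variable (A : Cx)

/-- the vertices visited by the path `l` starting at `v` -/
def verts (v : A.V) (l : Word A.E) : List A.V := v :: l.map A.sTgt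

/-- the vertices visited by a list of paths starting at `v` -/
def visList (v : A.V) (P : List (Word A.E)) : List A.V := P.flatMap (A.verts v)

/-- the conjugate `u (∂c)^{±1} u⁻¹` in the free group on the edges -/
def term (x : Word A.E × A.C × Bool) : FreeGroup A.E :=
  FreeGroup.mk x.1 *
    cond x.2.2 (FreeGroup.mk (A.bdry x.2.1)) (FreeGroup.mk (A.bdry x.2.1))⁻¹ *
    (FreeGroup.mk x.1)⁻¹

end Cx

/-- A relation datum: a word `w`, an exponent `N` and a list of triples `(u, c, ε)`; it is valid
if `w^N = ∏ u (∂c)^ε u⁻¹` in the free group on the edges (and all words are paths). -/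
structure Datum (A : Cx) where
  /-- base vertex -/
  v : A.V
  /-- the closed path -/
  w : Word A.E
  /-- the exponent -/
  N : ℕ
  /-- stems, cells, signs -/
  L : List (Word A.E × A.C × Bool)

namespace Datum

variable {A : Cx}

/-- validity of a relation datum, relative to an edge labelling -/
structure Valid (D : Datum A) {U : Type} [Group U] (ρ : A.E → U) : Prop where
  closed : A.IsPath D.w D.v D.v
  stem : ∀ x ∈ D.L, A.IsPath x.1 D.v (A.base x.2.1)
  cell : ∀ x ∈ D.L, A.IsPath (A.bdry x.2.1) (A.base x.2.1) (A.base x.2.1)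
  ev_cell : ∀ x ∈ D.L, ev ρ (A.bdry x.2.1) = 1
  ident : FreeGroup.mk D.w ^ D.N = (D.L.map A.term).prod

/-- the paths (all starting at `D.v`) of a datum -/
def paths (D : Datum A) : List (Word A.E) := D.w :: D.L.map fun x => x.1 ++ A.bdry x.2.1

/-- lift of a triple -/
def liftTriple (φ : A.E → ℤ) (x : Word A.E × A.C × Bool) :
    Word (A.cover φ).E × (A.cover φ).C × Bool :=
  (Tw.lift φ 0 x.1, (x.2.1, ht φ x.1), x.2.2)

/-- the lift of a datum to the cover defined by `φ` -/
def lift (D : Datum A) (φ : A.E → ℤ) : Datum (A.cover φ) where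
  v := (D.v, 0)
  w := Tw.lift φ 0 D.w
  N := D.N
  L := D.L.map (liftTriple φ)

theorem paths_lift (D : Datum A) (φ : A.E → ℤ) :
    (D.lift φ).paths = D.paths.map (Tw.lift φ 0) := by
  simp only [paths, lift, List.map_cons, List.map_map]
  congr 1
  apply List.map_congr_left
  intro x _
  show Tw.lift φ 0 x.1 ++ Tw.lift φ (ht φ x.1) (A.bdry x.2.1) =
    Tw.lift φ 0 (x.1 ++ A.bdry x.2.1)
  rw [lift_append, zero_add]

theorem Valid.isPath_paths {D : Datum A} {U : Type} [Group U] {ρ : A.E → U}
    (hD : D.Valid ρ) : ∀ l ∈ D.paths, ∃ v', A.IsPath l D.v v' := by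
  intro l hl
  simp only [Datum.paths, List.mem_cons, List.mem_map] at hl
  rcases hl with rfl | ⟨x, hx, rfl⟩
  · exact ⟨_, hD.closed⟩
  · exact ⟨_, (hD.stem x hx).append A (hD.cell x hx)⟩

/-- validity of the lifted datum -/
theorem Valid.lift {D : Datum A} {U : Type} [Group U] {ρ : A.E → U}
    (hD : D.Valid ρ) (φ : A.E → ℤ)
    (hφ : ∀ x ∈ D.L, ht φ (A.bdry x.2.1) = 0) (hw : ht φ D.w = 0)
    (hid : (FreeGroup.mk (Tw.lift φ 0 D.w) ^ D.N : FreeGroup (A.cover φ).E) =
        ((D.L.map (Datum.liftTriple φ)).map (A.cover φ).term).prod) :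
    (D.lift φ).Valid (fun x : (A.cover φ).E => ρ x.1) where
  closed := by
    have := Cx.IsPath.lift φ hD.closed 0
    rw [hw, add_zero] at this
    exact this
  stem := by
    intro x' hx'
    obtain ⟨x, hx, rfl⟩ := List.mem_map.1 hx'
    have := Cx.IsPath.lift φ (hD.stem x hx) 0
    rw [zero_add] at this
    exact this
  cell := by
    intro x' hx'
    obtain ⟨x, hx, rfl⟩ := List.mem_map.1 hx'
    have := Cx.IsPath.lift φ (hD.cell x hx) (ht φ x.1)
    rw [hφ x hx, add_zero] at this
    exact this
  ev_cell := by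
    intro x' hx'
    obtain ⟨x, hx, rfl⟩ := List.mem_map.1 hx'
    exact (ev_lift φ ρ (ht φ x.1) (A.bdry x.2.1)).trans (hD.ev_cell x hx)
  ident := hid

end Datum

/-- number of distinct entries of a list -/
noncomputable def numDistinct {α : Type} (l : List α) : ℕ := Set.ncard {a | a ∈ l}

theorem numDistinct_le_length {α : Type} (l : List α) : numDistinct l ≤ l.length := by
  classical
  have h : {a | a ∈ l} = (↑l.toFinset : Set α) := by ext; simp
  rw [numDistinct, h, Set.ncard_coe_finset]
  exact List.toFinset_card_le l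

theorem numDistinct_eq_card {α : Type} [DecidableEq α] (l : List α) :
    numDistinct l = l.toFinset.card := by
  have h : {a | a ∈ l} = (↑l.toFinset : Set α) := by ext; simp
  rw [numDistinct, h, Set.ncard_coe_finset]

end Claimed.Open.R321.Tw
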