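import Claimed.Open.R321.TwData

/-!
# Tower theorem, part 6: the vertices visited by the lifted paths

`vis`: the vertices visited by the lifts of a list of paths starting at `v` project onto the
vertices visited by the paths; if there are not more of them, then `φ` is a coboundary on the edges
of the paths.
-/

set_option autoImplicit false

namespace Claimed.Open.R321.Tw

variable (A : Cx) (φ : A.E → ℤ)

theorem map_fst_map_sTgt_lift (t : ℤ) (l : Word A.E) :
    ((lift φ t l).map (A.cover φ).sTgt).map Prod.fst = l.map A.sTgt := by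
  induction l generalizing t with
  | nil => rfl
  | cons x l ih =>
    obtain ⟨e, b⟩ := x
    cases b
    · rw [lift_cons_false, List.map_cons, List.map_cons, List.map_cons, ih]
      rfl
    · rw [lift_cons_true, List.map_cons, List.map_cons, List.map_cons, ih]
      rfl

theorem map_fst_verts_lift (a : A.V) (t : ℤ) (l : Word A.E) :
    ((A.cover φ).verts (a, t) (lift φ t l)).map Prod.fst = A.verts a l := by
  rw [Cx.verts, List.map_cons, map_fst_map_sTgt_lift]
  rfl

theorem map_fst_visList_lift (v : A.V) (P : List (Word A.E)) :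
    ((A.cover φ).visList (v, 0) (P.map (lift φ 0))).map Prod.fst = A.visList v P := by
  induction P with
  | nil => rfl
  | cons l P ih =>
    simp only [Cx.visList, List.map_cons, List.flatMap_cons, List.map_append] at ih ⊢
    rw [ih, map_fst_verts_lift]

/-- both end points of the lift of each edge of a path are visited by the lifted path -/
theorem exists_mem_verts_lift {l : Word A.E} {a b : A.V} (h : A.IsPath l a b) (t : ℤ)
    (x : A.E × Bool) (hx : x ∈ l) :
    ∃ i : ℤ, (A.src x.1, i) ∈ (A.cover φ).verts (a, t) (lift φ t l) ∧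
      (A.tgt x.1, i + φ x.1) ∈ (A.cover φ).verts (a, t) (lift φ t l) := by
  induction l generalizing a t with
  | nil => simp at hx
  | cons y l ih =>
    obtain ⟨e, b'⟩ := y
    obtain ⟨h1, h2⟩ := h
    cases b'
    · simp only [Cx.sSrc, Cx.sTgt, cond_false] at h1 h2
      subst h1
      have hsub : ∀ p ∈ (A.cover φ).verts (A.src e, t - φ e) (lift φ (t - φ e) l),
          p ∈ (A.cover φ).verts (A.tgt e, t) (lift φ t ((e, false) :: l)) := by
        intro p hp
        rw [lift_cons_false, Cx.verts, List.map_cons]
        exact List.mem_cons_of_mem _ hp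
      rcases List.mem_cons.1 hx with rfl | hx'
      · refine ⟨t - φ e, hsub _ List.mem_cons_self, ?_⟩
        simp only [sub_add_cancel]
        exact List.mem_cons_self
      · obtain ⟨i, hi1, hi2⟩ := ih h2 (t - φ e) hx'
        exact ⟨i, hsub _ hi1, hsub _ hi2⟩
    · simp only [Cx.sSrc, Cx.sTgt, cond_true] at h1 h2
      subst h1
      have hsub : ∀ p ∈ (A.cover φ).verts (A.tgt e, t + φ e) (lift φ (t + φ e) l),
          p ∈ (A.cover φ).verts (A.src e, t) (lift φ t ((e, true) :: l)) := by
        intro p hp
        rw [lift_cons_true, Cx.verts, List.map_cons]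
        exact List.mem_cons_of_mem _ hp
      rcases List.mem_cons.1 hx with rfl | hx'
      · exact ⟨t, List.mem_cons_self, hsub _ List.mem_cons_self⟩
      · obtain ⟨i, hi1, hi2⟩ := ih h2 (t + φ e) hx'
        exact ⟨i, hsub _ hi1, hsub _ hi2⟩

/-- a list whose image under `f` has at least as many distinct entries is mapped injectively -/
theorem injOn_of_numDistinct_le {α β : Type} (f : α → β) (l : List α)
    (h : numDistinct l ≤ numDistinct (l.map f)) : Set.InjOn f {a | a ∈ l} := by
  classical
  have hm : (l.map f).toFinset = l.toFinset.image f := by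
    ext b; simp
  rw [numDistinct_eq_card, numDistinct_eq_card, hm] at h
  have h2 := Finset.card_image_iff.1 (le_antisymm Finset.card_image_le h)
  intro a ha b hb hab
  exact h2 (by simpa using ha) (by simpa using hb) hab

/-- **Visited vertices.** -/
theorem vis (v : A.V) (P : List (Word A.E)) (hP : ∀ l ∈ P, ∃ v', A.IsPath l v v')
    (hle : numDistinct ((A.cover φ).visList (v, 0) (P.map (lift φ 0))) ≤
        numDistinct (A.visList v P)) :
    ∃ h : A.V → ℤ, ∀ l ∈ P, ∀ x ∈ l, φ x.1 = h (A.tgt x.1) - h (A.src x.1) := by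
  classical
  rw [← map_fst_visList_lift A φ v P] at hle
  have hinj := injOn_of_numDistinct_le _ _ hle
  set S := (A.cover φ).visList (v, 0) (P.map (lift φ 0)) with hS
  let h : A.V → ℤ := fun a => if ha : ∃ i : ℤ, (a, i) ∈ S then ha.choose else 0
  have hh : ∀ (a : A.V) (i : ℤ), (a, i) ∈ S → h a = i := by
    intro a i hai
    have ha : ∃ i : ℤ, (a, i) ∈ S := ⟨i, hai⟩
    have h1 : h a = ha.choose := dif_pos ha
    have h2 : ((a, ha.choose) : A.V × ℤ) = (a, i) := hinj ha.choose_spec hai rfl
    rw [h1]
    exact (Prod.ext_iff.1 h2).2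
  refine ⟨h, fun l hl x hx => ?_⟩
  obtain ⟨v', hv'⟩ := hP l hl
  obtain ⟨i, hi1, hi2⟩ := exists_mem_verts_lift A φ hv' 0 x hx
  have hmem : ∀ p ∈ (A.cover φ).verts (v, 0) (lift φ 0 l), p ∈ S := by
    intro p hp
    rw [hS, Cx.visList, List.mem_flatMap]
    exact ⟨lift φ 0 l, List.mem_map.2 ⟨l, hl, rfl⟩, hp⟩
  rw [hh _ _ (hmem _ hi1), hh _ _ (hmem _ hi2)]
  ring

end Claimed.Open.R321.Tw
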