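import Claimed.Open.R321.TwCount
import Claimed.Open.R321.TwVis
import Claimed.Open.R321.TowerLA

/-!
# Tower theorem, part 7: a cocycle which is not a coboundary

`exists_height`: if the twisted `d₂` is injective and `ρ(w) ≠ 1` for a closed path `w` among the
paths `P` (all starting at `v`), then for every list `Cs` of cells with boundary in the support of
`P` there is an integral cocycle on `Cs` that is not a coboundary on the edges of `P`.
-/

set_option autoImplicit false

namespace Claimed.Open.R321.Tw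

open Finsupp

/-- both end points of each edge of a path are visited by the path -/
theorem mem_verts_of_mem (A : Cx) {l : Word A.E} {a b : A.V} (h : A.IsPath l a b)
    (x : A.E × Bool) (hx : x ∈ l) : A.src x.1 ∈ A.verts a l ∧ A.tgt x.1 ∈ A.verts a l := by
  obtain ⟨i, h1, h2⟩ := exists_mem_verts_lift A (fun _ => 0) h 0 x hx
  rw [← map_fst_verts_lift A (fun _ => 0) a 0 l]
  exact ⟨List.mem_map.2 ⟨_, h1, rfl⟩, List.mem_map.2 ⟨_, h2, rfl⟩⟩

/-- the height of a word as a sum over the edges -/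
theorem ht_eq_sum {E : Type} [DecidableEq E] (φ : E → ℤ) (E0 : Finset E) (l : Word E)
    (hl : ∀ x ∈ l, x.1 ∈ E0) :
    ht φ l = ∑ e ∈ E0, φ e * ht (Pi.single e (1 : ℤ)) l := by
  induction l with
  | nil => simp
  | cons x l ih =>
    obtain ⟨e, b⟩ := x
    have he : e ∈ E0 := hl (e, b) List.mem_cons_self
    have h1 : ∑ e' ∈ E0, φ e' * (Pi.single e' (1 : ℤ) : E → ℤ) e = φ e := by
      rw [Finset.sum_eq_single e]
      · simp
      · intro e' _ hne
        simp [hne.symm]
      · intro h; exact absurd he h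
    rw [ht_cons, ih fun y hy => hl y (List.mem_cons_of_mem _ hy)]
    cases b
    · simp only [cond_false, ht_cons, mul_add, Finset.sum_add_distrib, mul_neg,
        Finset.sum_neg_distrib, h1]
    · simp only [cond_true, ht_cons, mul_add, Finset.sum_add_distrib, h1]

section

variable {k : Type} [Field k] (A : Cx) (ρ : A.E → kˣ)

/-- along a path in `E0`, the classes of all visited vertices are boundaries if the first one is -/
theorem single_mem_of_path (E0 : Set A.E) {l : Word A.E} {a b : A.V} (h : A.IsPath l a b)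
    (hl : ∀ x ∈ l, x.1 ∈ E0)
    (ha : single a (1 : k) ∈ (supported k k E0).map (d1 A ρ)) :
    ∀ v' ∈ A.verts a l, single v' (1 : k) ∈ (supported k k E0).map (d1 A ρ) := by
  induction l generalizing a with
  | nil =>
    intro v' hv'
    simp only [Cx.verts, List.map_nil, List.mem_singleton] at hv'
    rw [hv']; exact ha
  | cons x l ih =>
    obtain ⟨e, b'⟩ := x
    obtain ⟨h1, h2⟩ := h
    have he : d1 A ρ (single e 1) ∈ (supported k k E0).map (d1 A ρ) :=
      Submodule.mem_map_of_mem (single_mem_supported k _ (hl (e, b') List.mem_cons_self))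
    rw [d1_single, one_smul] at he
    have hnext : single (A.sTgt (e, b')) (1 : k) ∈ (supported k k E0).map (d1 A ρ) := by
      cases b'
      · simp only [Cx.sSrc, Cx.sTgt, cond_false] at h1 ⊢
        subst h1
        have := Submodule.sub_mem _ (Submodule.smul_mem _ (ρ e : k) ha) he
        simpa using this
      · simp only [Cx.sSrc, Cx.sTgt, cond_true] at h1 ⊢
        subst h1
        have := Submodule.smul_mem _ (((ρ e)⁻¹ : kˣ) : k) (Submodule.add_mem _ he ha)
        simpa [smul_smul] using this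
    intro v' hv'
    rw [Cx.verts, List.map_cons] at hv'
    rcases List.mem_cons.1 hv' with rfl | hv''
    · exact ha
    · exact ih h2 (fun y hy => hl y (List.mem_cons_of_mem _ hy)) hnext v' hv''

/-- **A cocycle which is not a coboundary.** -/
theorem exists_height (hinj : ∀ x, d2 A ρ x = 0 → x = 0)
    (v : A.V) (P : List (Word A.E)) (hP : ∀ l ∈ P, ∃ v', A.IsPath l v v')
    (w : Word A.E) (hw : w ∈ P) (hwc : A.IsPath w v v) (hne : ev ρ w ≠ 1)
    (Cs : List A.C)
    (hCs : ∀ c ∈ Cs, A.IsPath (A.bdry c) (A.base c) (A.base c) ∧ ev ρ (A.bdry c) = 1 ∧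
      ∀ x ∈ A.bdry c, ∃ l ∈ P, ∃ y ∈ l, y.1 = x.1) :
    ∃ φ : A.E → ℤ, (∀ c ∈ Cs, ht φ (A.bdry c) = 0) ∧
      ¬ ∃ h : A.V → ℤ, ∀ l ∈ P, ∀ x ∈ l, φ x.1 = h (A.tgt x.1) - h (A.src x.1) := by
  classical
  let E0 : Finset A.E := (P.flatten.map Prod.fst).toFinset
  let V0 : Finset A.V := (A.visList v P).toFinset
  let C0 : Finset A.C := Cs.toFinset
  have hE0 : ∀ l ∈ P, ∀ x ∈ l, x.1 ∈ E0 := by
    intro l hl x hx
    simp only [E0, List.mem_toFinset, List.mem_map, List.mem_flatten]
    exact ⟨x, ⟨l, hl, hx⟩, rfl⟩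
  have hE0' : ∀ e ∈ E0, ∃ l ∈ P, ∃ x ∈ l, x.1 = e := by
    intro e he
    simp only [E0, List.mem_toFinset, List.mem_map, List.mem_flatten] at he
    obtain ⟨x, ⟨l, hl, hx⟩, rfl⟩ := he
    exact ⟨l, hl, x, hx, rfl⟩
  have hV0 : ∀ l ∈ P, ∀ a ∈ A.verts v l, a ∈ V0 := by
    intro l hl a ha
    simp only [V0, List.mem_toFinset, Cx.visList, List.mem_flatMap]
    exact ⟨l, hl, ha⟩
  have hbd : ∀ c ∈ C0, ∀ x ∈ A.bdry c, x.1 ∈ E0 := by
    intro c hc x hx
    obtain ⟨l, hl, y, hy, hyx⟩ := (hCs c (List.mem_toFinset.1 hc)).2.2 x hx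
    rw [← hyx]
    exact hE0 l hl y hy
  -- the base vertex is a boundary
  have hv : single v (1 : k) ∈ (supported k k (E0 : Set A.E)).map (d1 A ρ) := by
    have h1 : d1 A ρ (fox ρ w) ∈ (supported k k (E0 : Set A.E)).map (d1 A ρ) :=
      Submodule.mem_map_of_mem (fox_mem_supported ρ w _ (hE0 w hw))
    rw [d1_fox A ρ hwc] at h1
    have h2 : ((ev ρ w : kˣ) : k) - 1 ≠ 0 := by
      intro h
      apply hne
      exact Units.ext (by simpa using sub_eq_zero.1 h)
    have h3 := Submodule.smul_mem _ (((ev ρ w : kˣ) : k) - 1)⁻¹ h1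
    have h4 : (((ev ρ w : kˣ) : k) - 1)⁻¹ •
        (((ev ρ w : kˣ) : k) • single v (1 : k) - single v 1) = single v 1 := by
      rw [← one_smul k (single v (1 : k)), smul_smul, ← sub_smul, smul_smul, mul_one,
        inv_mul_cancel₀ h2]
    rwa [h4] at h3
  have hcard : C0.card + V0.card ≤ E0.card := by
    apply card_add_card_le A ρ V0 E0 C0
    · exact fun c hc => (hCs c (List.mem_toFinset.1 hc)).1
    · exact fun c hc => (hCs c (List.mem_toFinset.1 hc)).2.1
    · exact fun x _ hx => hinj x hx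
    · exact hbd
    · intro a ha
      simp only [V0, List.mem_toFinset, Cx.visList, List.mem_flatMap] at ha
      obtain ⟨l, hl, ha⟩ := ha
      obtain ⟨v', hv'⟩ := hP l hl
      exact single_mem_of_path A ρ _ hv' (hE0 l hl) hv a ha
  obtain ⟨φ, -, hφ, hnot⟩ := exists_int_cocycle V0 E0 C0 A.src A.tgt
    (fun c e => ht (Pi.single e (1 : ℤ)) (A.bdry c))
    ⟨v, hV0 w hw v List.mem_cons_self⟩
    (by
      intro e he
      obtain ⟨l, hl, x, hx, rfl⟩ := hE0' e he
      obtain ⟨v', hv'⟩ := hP l hl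
      exact hV0 l hl _ (mem_verts_of_mem A hv' x hx).1)
    (by
      intro e he
      obtain ⟨l, hl, x, hx, rfl⟩ := hE0' e he
      obtain ⟨v', hv'⟩ := hP l hl
      exact hV0 l hl _ (mem_verts_of_mem A hv' x hx).2)
    hcard
  refine ⟨φ, ?_, ?_⟩
  · intro c hc
    rw [ht_eq_sum φ E0 _ (hbd c (List.mem_toFinset.2 hc))]
    exact hφ c (List.mem_toFinset.2 hc)
  · rintro ⟨h, hh⟩
    apply hnot
    refine ⟨h, fun e he => ?_⟩
    obtain ⟨l, hl, x, hx, rfl⟩ := hE0' e he
    exact hh l hl x hx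

end

end Claimed.Open.R321.Tw
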