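import Claimed.Open.R321.TwData

/-!
# Tower theorem, part 5: lifting the relation to the cover

`lift_ident`: if `w ^ N = ∏ u (∂c)^ε u⁻¹` in the free group on the edges of `A`, `N ≠ 0`, and `φ`
vanishes on the boundaries of the cells involved, then `φ(w) = 0` and the lifted relation holds in
the free group on the edges of the cover.
-/

set_option autoImplicit false

namespace Claimed.Open.R321.Tw

open FreeGroup

section free

variable {E : Type} (φ : E → ℤ)

/-- the height of an element of the free group -/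
def htF (g : FreeGroup E) : ℤ :=
  Quot.liftOn g (ht φ) fun _ _ h => ht_congr φ (Quot.sound h)

/-- the lift of an element of the free group, starting at height `t` -/
def liftF (t : ℤ) (g : FreeGroup E) : FreeGroup (E × ℤ) :=
  Quot.liftOn g (fun l => FreeGroup.mk (lift φ t l)) fun _ _ h => mk_lift_congr φ t (Quot.sound h)

theorem htF_mk (l : Word E) : htF φ (FreeGroup.mk l) = ht φ l := rfl

theorem liftF_mk (t : ℤ) (l : Word E) : liftF φ t (FreeGroup.mk l) = FreeGroup.mk (lift φ t l) :=
  rfl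

theorem exists_mk (g : FreeGroup E) : ∃ l : Word E, g = FreeGroup.mk l :=
  (Quot.exists_rep g).imp fun _ h => h.symm

@[simp] theorem htF_one : htF φ (1 : FreeGroup E) = 0 := by
  rw [FreeGroup.one_eq_mk, htF_mk, ht_nil]

@[simp] theorem liftF_one (t : ℤ) : liftF φ t (1 : FreeGroup E) = 1 := by
  rw [FreeGroup.one_eq_mk, liftF_mk, lift_nil, FreeGroup.one_eq_mk]

theorem htF_mul (g h : FreeGroup E) : htF φ (g * h) = htF φ g + htF φ h := by
  obtain ⟨l, rfl⟩ := exists_mk g
  obtain ⟨l', rfl⟩ := exists_mk h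
  rw [FreeGroup.mul_mk, htF_mk, htF_mk, htF_mk, ht_append]

theorem htF_inv (g : FreeGroup E) : htF φ g⁻¹ = - htF φ g := by
  obtain ⟨l, rfl⟩ := exists_mk g
  rw [FreeGroup.inv_mk, htF_mk, htF_mk, ht_invRev]

theorem liftF_mul (t : ℤ) (g h : FreeGroup E) :
    liftF φ t (g * h) = liftF φ t g * liftF φ (t + htF φ g) h := by
  obtain ⟨l, rfl⟩ := exists_mk g
  obtain ⟨l', rfl⟩ := exists_mk h
  rw [FreeGroup.mul_mk, liftF_mk, liftF_mk, liftF_mk, htF_mk, lift_append, FreeGroup.mul_mk]

theorem liftF_inv (t : ℤ) (g : FreeGroup E) :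
    liftF φ (t + htF φ g) g⁻¹ = (liftF φ t g)⁻¹ := by
  obtain ⟨l, rfl⟩ := exists_mk g
  rw [FreeGroup.inv_mk, liftF_mk, liftF_mk, htF_mk, lift_invRev, FreeGroup.inv_mk]

theorem htF_pow (g : FreeGroup E) (N : ℕ) : htF φ (g ^ N) = N * htF φ g := by
  induction N with
  | zero => simp
  | succ N ih => rw [pow_succ, htF_mul, ih]; push_cast; ring

theorem liftF_pow (g : FreeGroup E) (hg : htF φ g = 0) (N : ℕ) :
    liftF φ 0 (g ^ N) = liftF φ 0 g ^ N := by
  induction N with
  | zero => simp
  | succ N ih => rw [pow_succ, liftF_mul, ih, htF_pow, hg, mul_zero, add_zero, pow_succ]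

theorem htF_prod (L : List (FreeGroup E)) (h : ∀ g ∈ L, htF φ g = 0) : htF φ L.prod = 0 := by
  induction L with
  | nil => simp
  | cons g L ih =>
    rw [List.prod_cons, htF_mul, h g List.mem_cons_self,
      ih fun g' hg' => h g' (List.mem_cons_of_mem _ hg'), add_zero]

theorem liftF_prod (L : List (FreeGroup E)) (h : ∀ g ∈ L, htF φ g = 0) :
    liftF φ 0 L.prod = (L.map (liftF φ 0)).prod := by
  induction L with
  | nil => simp
  | cons g L ih =>
    rw [List.prod_cons, liftF_mul, h g List.mem_cons_self, add_zero,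
      ih fun g' hg' => h g' (List.mem_cons_of_mem _ hg'), List.map_cons, List.prod_cons]

end free

variable (A : Cx) (φ : A.E → ℤ)

theorem htF_term (x : Word A.E × A.C × Bool) (hx : ht φ (A.bdry x.2.1) = 0) :
    htF φ (A.term x) = 0 := by
  obtain ⟨u, c, b⟩ := x
  cases b
  · simp only [Cx.term, cond_false, htF_mul, htF_inv, htF_mk]
    simp only at hx
    rw [hx]; ring
  · simp only [Cx.term, cond_true, htF_mul, htF_inv, htF_mk]
    simp only at hx
    rw [hx]; ring

theorem liftF_term (x : Word A.E × A.C × Bool) (hx : ht φ (A.bdry x.2.1) = 0) :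
    liftF φ 0 (A.term x) = (A.cover φ).term (Datum.liftTriple φ x) := by
  obtain ⟨u, c, b⟩ := x
  simp only at hx
  have h1 : liftF φ (0 + htF φ (FreeGroup.mk u)) (FreeGroup.mk u)⁻¹
      = (FreeGroup.mk (lift φ 0 u))⁻¹ := by
    rw [liftF_inv, liftF_mk]
  have h2 : liftF φ (ht φ u + htF φ (FreeGroup.mk (A.bdry c))) (FreeGroup.mk (A.bdry c))⁻¹
      = (FreeGroup.mk (lift φ (ht φ u) (A.bdry c)))⁻¹ := by
    rw [liftF_inv, liftF_mk]
  rw [htF_mk] at h1 h2
  rw [hx, add_zero] at h2
  cases b
  · simp only [Cx.term, cond_false, Datum.liftTriple, liftF_mul, htF_mul, htF_inv, htF_mk, hx,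
      neg_zero, add_zero, zero_add, liftF_mk]
    rw [zero_add] at h1
    rw [h1, h2]
  · simp only [Cx.term, cond_true, Datum.liftTriple, liftF_mul, htF_mul, htF_mk, hx,
      add_zero, zero_add, liftF_mk]
    rw [zero_add] at h1
    rw [h1]

/-- **Lifting the relation.** -/
theorem lift_ident (w : Word A.E) (N : ℕ) (hN : N ≠ 0)
    (L : List (Word A.E × A.C × Bool)) (hL : ∀ x ∈ L, ht φ (A.bdry x.2.1) = 0)
    (hid : FreeGroup.mk w ^ N = (L.map A.term).prod) :
    ht φ w = 0 ∧
      (FreeGroup.mk (lift φ 0 w) ^ N : FreeGroup (A.cover φ).E) =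
        ((L.map (Datum.liftTriple φ)).map (A.cover φ).term).prod := by
  have h0 : ∀ g ∈ L.map A.term, htF φ g = 0 := by
    intro g hg
    obtain ⟨x, hx, rfl⟩ := List.mem_map.1 hg
    exact htF_term A φ x (hL x hx)
  have hw : ht φ w = 0 := by
    have h1 := congrArg (htF φ) hid
    rw [htF_pow, htF_prod φ _ h0, htF_mk] at h1
    rcases mul_eq_zero.1 h1 with h | h
    · exact absurd (by exact_mod_cast h) hN
    · exact h
  refine ⟨hw, ?_⟩
  have h2 := congrArg (liftF φ 0) hid
  rw [liftF_pow φ _ (by rw [htF_mk, hw]), liftF_prod φ _ h0, liftF_mk, List.map_map] at h2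
  rw [h2, List.map_map]
  congr 1
  apply List.map_congr_left
  intro x hx
  exact liftF_term A φ x (hL x hx)

end Claimed.Open.R321.Tw
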