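import Claimed.Open.R321.TwHeight
import Claimed.Open.R321.TwLift

/-!
# Tower theorem, part 8: the tower theorem

`tower`: let `A` be a combinatorial 2-complex with an edge labelling `ρ : E → kˣ` whose twisted
boundary `∂₂` is injective.  If `w ^ N` (`N ≠ 0`) is a product of conjugates of boundaries of cells
(a valid `Datum`), then `ρ(w) = 1`.

The proof is an induction on `(number of visited vertices, with repetition) - (number of distinct
visited vertices)`.  If `ρ(w) ≠ 1`, a count gives an integral cocycle `φ` on the support of the datum
that is not a coboundary (`exists_height`); the datum lifts to the cover `A.cover φ` (`lift_ident`),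
where `∂₂` is still injective (`d2_cover_injOn`), and the lifted datum visits more vertices (`vis`).
(The organisation of the induction follows helper67's `TowerMain.lean`.)
-/

set_option autoImplicit false

namespace Claimed.Open.R321.Tw

open Finsupp

/-- **The tower theorem** (paper, Theorem 2.2, in combinatorial form). -/
theorem tower {k : Type} [Field k] (A : Cx) (ρ : A.E → kˣ)
    (hinj : ∀ x, d2 A ρ x = 0 → x = 0) (D : Datum A) (hD : D.Valid ρ)
    (hN : D.N ≠ 0) : ev ρ D.w = 1 := by
  induction hn : (A.visList D.v D.paths).length - numDistinct (A.visList D.v D.paths)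
    using Nat.strong_induction_on generalizing A ρ D with
  | _ n ih =>
    by_contra hne
    have hP := hD.isPath_paths
    obtain ⟨φ, hφ, hnc⟩ := exists_height A ρ hinj D.v D.paths hP D.w (by simp [Datum.paths])
      hD.closed hne (D.L.map fun x => x.2.1) (by
        intro c hc
        obtain ⟨x, hx, rfl⟩ := List.mem_map.1 hc
        refine ⟨hD.cell x hx, hD.ev_cell x hx, fun y hy => ⟨x.1 ++ A.bdry x.2.1, ?_, y, ?_, rfl⟩⟩
        · simp only [Datum.paths, List.mem_cons, List.mem_map]
          exact Or.inr ⟨x, hx, rfl⟩
        · simp [hy])
    have hφ' : ∀ x ∈ D.L, ht φ (A.bdry x.2.1) = 0 := fun x hx =>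
      hφ _ (List.mem_map.2 ⟨x, hx, rfl⟩)
    obtain ⟨hw0, hid⟩ := lift_ident A φ D.w D.N hN D.L hφ' hD.ident
    have hD' := hD.lift φ hφ' hw0 hid
    have hmap := map_fst_visList_lift A φ D.v D.paths
    have hlt : numDistinct (A.visList D.v D.paths) <
        numDistinct ((A.cover φ).visList (D.v, 0) (D.paths.map (lift φ 0))) := by
      by_contra hle
      exact hnc (vis A φ D.v D.paths hP (not_lt.1 hle))
    have hlen : ((A.cover φ).visList (D.v, 0) (D.paths.map (lift φ 0))).length =
        (A.visList D.v D.paths).length := by
      rw [← hmap, List.length_map]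
    have hle := numDistinct_le_length ((A.cover φ).visList (D.v, 0) (D.paths.map (lift φ 0)))
    have hinj' : ∀ x, d2 (A.cover φ) (A.coverChar φ ρ) x = 0 → x = 0 := by
      intro x hx
      refine d2_cover_injOn A φ ρ Set.univ (fun y _ hy => hinj y hy) x ?_ hx
      rw [Finsupp.mem_supported]
      intro p _
      exact Set.mem_univ _
    have key := ih _ (by
        rw [← hn]
        show ((A.cover φ).visList (D.lift φ).v (D.lift φ).paths).length -
          numDistinct ((A.cover φ).visList (D.lift φ).v (D.lift φ).paths) < _
        rw [Datum.paths_lift]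
        show ((A.cover φ).visList (D.v, 0) (D.paths.map (lift φ 0))).length -
          numDistinct ((A.cover φ).visList (D.v, 0) (D.paths.map (lift φ 0))) < _
        omega) (A.cover φ) (A.coverChar φ ρ) hinj' (D.lift φ) hD' hN rfl
    exact hne ((ev_lift φ ρ 0 D.w).symm.trans key)

end Claimed.Open.R321.Tw
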